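import Vale.Agent.P084.Full.Defs

/-!
P084 (Tingley's problem), library: the bilinear map of `AlgData` extended to the Hilbert space,
and first order conditions near maximisers of a symmetric cubic or quadratic form.
-/

namespace Vale.Agent.P084.Full

open scoped RealInnerProductSpace
open Filter Topology

variable {W H : Type*} [NormedAddCommGroup W] [NormedSpace ℝ W] [NormedAddCommGroup H]
  [InnerProductSpace ℝ H] [CompleteSpace W]

/-- The data extended to `H`: `Bb` has values in `W`, and `β` is `I ∘ Bb`. -/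
structure BarData (D : AlgData W H) where
  Bb : H →L[ℝ] H →L[ℝ] W
  eq : ∀ a b, Bb (D.I a) (D.I b) = D.B a b
  le : ∀ x y, ‖Bb x y‖ ≤ 6 * ‖x‖ * ‖y‖

lemma exists_barData (D : AlgData W H) (hle : ∀ a b, ‖D.B a b‖ ≤ 6 * ‖D.I a‖ * ‖D.I b‖) :
    Nonempty (BarData D) := by
  have hd : DenseRange D.I.toLinearMap := D.dense
  have hb : ∀ a, ∀ b, ‖(D.B a).toLinearMap b‖ ≤ 6 * ‖D.I a‖ * ‖D.I.toLinearMap b‖ :=
    fun a b => hle a b
  let f : W → (H →L[ℝ] W) := fun a => (D.B a).toLinearMap.extendOfNorm D.I.toLinearMap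
  have hf : ∀ a b, f a (D.I b) = D.B a b := fun a b =>
    LinearMap.extendOfNorm_eq hd ⟨_, hb a⟩ b
  have hext : ∀ g g' : H →L[ℝ] W, (∀ b, g (D.I b) = g' (D.I b)) → g = g' := fun g g' h =>
    ContinuousLinearMap.ext fun x => congrFun
      (D.dense.equalizer g.continuous g'.continuous (funext h)) x
  let F : W →ₗ[ℝ] (H →L[ℝ] W) :=
    { toFun := f
      map_add' := fun a a' => hext _ _ fun b => by simp [hf]
      map_smul' := fun t a => hext _ _ fun b => by simp [hf] }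
  have hF : ∀ a, ‖F a‖ ≤ 6 * ‖D.I.toLinearMap a‖ := fun a =>
    ContinuousLinearMap.opNorm_le_bound _ (by positivity) fun x =>
      LinearMap.norm_extendOfNorm_apply_le hd _ (hb a) x
  refine ⟨⟨F.extendOfNorm D.I.toLinearMap, fun a b => ?_, fun x y => ?_⟩⟩
  · show F.extendOfNorm D.I.toLinearMap (D.I.toLinearMap a) (D.I b) = D.B a b
    rw [LinearMap.extendOfNorm_eq hd ⟨6, hF⟩]; exact hf a b
  · exact (ContinuousLinearMap.le_opNorm _ y).trans (mul_le_mul_of_nonneg_right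
      (LinearMap.norm_extendOfNorm_apply_le hd 6 hF x) (norm_nonneg y))

namespace BarData

variable {D : AlgData W H} (E : BarData D)

/-- The bilinear map of `H`. -/
noncomputable def β (x y : H) : H := D.I (E.Bb x y)

lemma symm (x y : H) : E.Bb x y = E.Bb y x := by
  refine D.dense.induction_on₂ (p := fun x y => E.Bb x y = E.Bb y x)
    (isClosed_eq (E.Bb.continuous₂) (E.Bb.continuous₂.comp continuous_swap)) (fun a b => ?_) x y
  rw [E.eq, E.eq, D.symm]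

lemma β_symm (x y : H) : E.β x y = E.β y x := by rw [β, E.symm, β]

lemma β_total (x y z : H) : ⟪x, E.β y z⟫ = ⟪y, E.β x z⟫ := by
  have c : Continuous fun p : H × H × H => ⟪p.1, E.β p.2.1 p.2.2⟫ :=
    continuous_fst.inner (D.I.continuous.comp (E.Bb.continuous₂.comp continuous_snd))
  refine D.dense.induction_on₃ (p := fun x y z => ⟪x, E.β y z⟫ = ⟪y, E.β x z⟫)
    (isClosed_eq c (c.comp (continuous_snd.fst.prodMk (continuous_fst.prodMk continuous_snd.snd))))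
    (fun a b c => ?_) x y z
  simp only [β, E.eq]
  exact D.total a b c

@[simp] lemma β_add_left (x x' y : H) : E.β (x + x') y = E.β x y + E.β x' y := by simp [β]
@[simp] lemma β_add_right (x y y' : H) : E.β x (y + y') = E.β x y + E.β x y' := by simp [β]
@[simp] lemma β_sub_left (x x' y : H) : E.β (x - x') y = E.β x y - E.β x' y := by simp [β]
@[simp] lemma β_sub_right (x y y' : H) : E.β x (y - y') = E.β x y - E.β x y' := by simp [β]
@[simp] lemma β_smul_left (t : ℝ) (x y : H) : E.β (t • x) y = t • E.β x y := by simp [β]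
@[simp] lemma β_smul_right (t : ℝ) (x y : H) : E.β x (t • y) = t • E.β x y := by simp [β]
@[simp] lemma β_neg_left (x y : H) : E.β (-x) y = -E.β x y := by simp [β]
@[simp] lemma β_neg_right (x y : H) : E.β x (-y) = -E.β x y := by simp [β]

lemma β_le (x y : H) : ‖E.β x y‖ ≤ 6 * ‖D.I‖ * ‖x‖ * ‖y‖ := by
  calc ‖E.β x y‖ ≤ ‖D.I‖ * ‖E.Bb x y‖ := D.I.le_opNorm _
    _ ≤ ‖D.I‖ * (6 * ‖x‖ * ‖y‖) := by gcongr; exact E.le x y
    _ = _ := by ring

/-- The cubic form. -/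
noncomputable def τ (x : H) : ℝ := ⟪x, E.β x x⟫

lemma τ_le (x : H) : |E.τ x| ≤ 6 * ‖D.I‖ * ‖x‖ ^ 3 :=
  calc |E.τ x| ≤ ‖x‖ * ‖E.β x x‖ := abs_real_inner_le_norm _ _
    _ ≤ ‖x‖ * (6 * ‖D.I‖ * ‖x‖ * ‖x‖) := by gcongr; exact E.β_le x x
    _ = _ := by ring

lemma τ_smul (t : ℝ) (x : H) : E.τ (t • x) = t ^ 3 * E.τ x := by
  simp [τ, inner_smul_left, inner_smul_right]; ring

lemma τ_neg (x : H) : E.τ (-x) = -E.τ x := by simp [τ]

lemma τ_add (x y : H) : E.τ (x + y) =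
    E.τ x + 3 * ⟪y, E.β x x⟫ + 3 * ⟪x, E.β y y⟫ + E.τ y := by
  have h1 : ⟪x, E.β x y⟫ = ⟪y, E.β x x⟫ := by rw [E.β_symm x y, E.β_total]
  have h2 : ⟪y, E.β x y⟫ = ⟪x, E.β y y⟫ := by rw [E.β_total, E.β_symm]
  have h3 : ⟪x, E.β y x⟫ = ⟪y, E.β x x⟫ := E.β_total x y x
  have h4 : ⟪y, E.β y x⟫ = ⟪x, E.β y y⟫ := by rw [E.β_symm y x, h2]
  simp only [τ, β_add_left, β_add_right, inner_add_left, inner_add_right, h1, h2, h3, h4]
  ring

lemma β_eq_zero_of_τ (h : ∀ x, E.τ x = 0) (x y : H) : E.β x y = 0 := by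
  have hxy : ∀ x y : H, ⟪y, E.β x x⟫ = 0 := fun x y => by
    have h1 := E.τ_add x y
    have h2 := E.τ_add x (-y)
    simp only [h, β_neg_left, β_neg_right, neg_neg, inner_neg_left] at h1 h2
    linarith
  refine ext_inner_left ℝ fun z => ?_
  have := hxy (x + y) z
  simp only [β_add_left, β_add_right, inner_add_right, hxy, E.β_symm y x, zero_add, add_zero] at this
  rw [inner_zero_right]
  linarith

end BarData

/-- First order condition near a maximiser, in one variable. -/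
lemma first_order_step {A L R δ s : ℝ} (hs : 0 < s) (h : A + s * L ≤ A + δ + s ^ 2 * R) :
    L ≤ δ / s + s * R := by
  rw [div_add' _ _ _ hs.ne', le_div_iff₀ hs]; nlinarith

namespace BarData

variable {D : AlgData W H} (E : BarData D)

/-- Near a maximiser of the cubic form along g, the gradient along g is small. -/
lemma cubic_step {e g : H} {m δ s : ℝ} (he : ‖e‖ = 1) (hg : ‖g‖ ≤ 1) (hge : ⟪e, g⟫ = 0)
    (hm : 0 ≤ m) (hbound : E.τ (e + s • g) ≤ m * ‖e + s • g‖ ^ 3) (hmax : m - δ ≤ E.τ e)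
    (hδ : 0 ≤ δ) (hs : 0 < s) (hs1 : s ≤ 1) :
    ⟪g, E.β e e⟫ ≤ δ / s + s * (m + 24 * ‖D.I‖) := by
  set r := ‖e + s • g‖
  have hr : r ^ 2 = 1 + s ^ 2 * ‖g‖ ^ 2 := by
    rw [norm_add_sq_real, he, real_inner_smul_right, hge, norm_smul, mul_pow, Real.norm_eq_abs,
      sq_abs]
    ring
  have hg2 : ‖g‖ ^ 2 ≤ 1 := pow_le_one₀ (norm_nonneg _) hg
  have hr1 : r ^ 2 ≤ 1 + s ^ 2 := by nlinarith [sq_nonneg s]
  have hr0 : 1 ≤ r := by nlinarith [norm_nonneg (e + s • g), sq_nonneg (s * ‖g‖)]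
  have hr3 : r ^ 3 ≤ 1 + 3 * s ^ 2 := by
    have hp : r ^ 3 ≤ (r ^ 2) ^ 2 := by rw [← pow_mul]; exact pow_le_pow_right₀ hr0 (by norm_num)
    nlinarith [mul_le_mul hr1 hr1 (by positivity) (by positivity), sq_nonneg s,
      pow_le_pow_of_le_one hs.le hs1 (show 2 ≤ 4 by norm_num)]
  have hI := norm_nonneg D.I
  have h2 : |⟪e, E.β g g⟫| ≤ 6 * ‖D.I‖ := by
    refine (abs_real_inner_le_norm _ _).trans ?_
    rw [he, one_mul]
    refine (E.β_le g g).trans ?_
    calc 6 * ‖D.I‖ * ‖g‖ * ‖g‖ ≤ 6 * ‖D.I‖ * 1 * 1 := by gcongr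
      _ = _ := by ring
  have h3 : |E.τ g| ≤ 6 * ‖D.I‖ := (E.τ_le g).trans
    (mul_le_of_le_one_right (by positivity) (pow_le_one₀ (norm_nonneg _) hg))
  rw [E.τ_add, E.τ_smul, real_inner_smul_left] at hbound
  simp only [β_smul_left, β_smul_right, real_inner_smul_right] at hbound
  have hmr : m * r ^ 3 ≤ m * (1 + 3 * s ^ 2) := mul_le_mul_of_nonneg_left hr3 hm
  have : s ^ 3 ≤ s ^ 2 := pow_le_pow_of_le_one hs.le hs1 (by norm_num)
  have h4 : -(s ^ 3 * E.τ g) ≤ s ^ 2 * (6 * ‖D.I‖) := by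
    calc -(s ^ 3 * E.τ g) ≤ s ^ 3 * |E.τ g| := by rw [← mul_neg]; gcongr; exact neg_le_abs _
      _ ≤ s ^ 2 * (6 * ‖D.I‖) := mul_le_mul this h3 (abs_nonneg _) (sq_nonneg s)
  have h5 : -(s * (s * ⟪e, E.β g g⟫)) ≤ s ^ 2 * (6 * ‖D.I‖) := by
    nlinarith [(abs_le.1 h2).1, sq_nonneg s]
  have := first_order_step (A := m) (L := 3 * ⟪g, E.β e e⟫) (R := 3 * m + 24 * ‖D.I‖) (δ := δ) hs
    (by nlinarith)
  have : 0 ≤ δ / s := div_nonneg hδ hs.le
  nlinarith [mul_nonneg hs.le hI]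

end BarData

end Vale.Agent.P084.Full
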