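import Vale.Agent.P084.Full.Defs

/-!
P084 (Tingley's problem), general case, algebra A1: skew operators with square zero vanish,
a symmetric bilinear map all of whose section maps are skew vanishes (via the flow of the
quadratic vector field and Mazur-Ulam), and the data `B` vanishes on the kernel of `I`.

An operator `T` is skew if at every point `u` some norming functional of `u` kills `T u`.
-/

namespace Vale.Agent.P084.Full

open Filter Topology
open scoped RealInnerProductSpace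

section Skew

variable {E : Type*} [NormedAddCommGroup E] [NormedSpace ℝ E]

theorem apply_le_norm_of_norm_le_one {Φ : E →L[ℝ] ℝ} (hΦ : ‖Φ‖ ≤ 1) (x : E) :
    |Φ x| ≤ ‖x‖ := by
  simpa [Real.norm_eq_abs] using (Φ.le_of_opNorm_le hΦ x)

/-- A skew operator moves norms only to second order. -/
theorem skew_step {T : E →L[ℝ] E}
    (hT : ∀ u, ∃ Φ : E →L[ℝ] ℝ, ‖Φ‖ ≤ 1 ∧ Φ u = ‖u‖ ∧ Φ (T u) = 0) (h : ℝ) (z : E) :
    ‖z‖ ≤ ‖z + h • T z‖ ∧ ‖z + h • T z‖ ≤ (1 + h ^ 2 * ‖T‖ ^ 2) * ‖z‖ := by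
  constructor
  · obtain ⟨Φ, hΦ, hz, hTz⟩ := hT z
    have h1 := le_trans (le_abs_self _) (apply_le_norm_of_norm_le_one hΦ (z + h • T z))
    simpa [hz, hTz] using h1
  · obtain ⟨Φ, hΦ, hz, hTz⟩ := hT (z + h • T z)
    have e1 : Φ (T z) + h * Φ (T (T z)) = 0 := by simpa using hTz
    have e2 : Φ z + h * Φ (T z) = ‖z + h • T z‖ := by simpa using hz
    have b1 := le_trans (le_abs_self _) (apply_le_norm_of_norm_le_one hΦ z)
    have b2 := le_trans (neg_le_abs _) (apply_le_norm_of_norm_le_one hΦ (T (T z)))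
    have b3 : ‖T (T z)‖ ≤ ‖T‖ * (‖T‖ * ‖z‖) :=
      le_trans (T.le_opNorm _) (mul_le_mul_of_nonneg_left (T.le_opNorm z) (norm_nonneg _))
    have e3 : ‖z + h • T z‖ = Φ z - h ^ 2 * Φ (T (T z)) := by linear_combination -e2 + h * e1
    nlinarith [mul_le_mul_of_nonneg_left (b2.trans b3) (sq_nonneg h)]

/-- A skew operator with square zero vanishes. -/
theorem skew_sq_zero {T : E →L[ℝ] E}
    (hT : ∀ u, ∃ Φ : E →L[ℝ] ℝ, ‖Φ‖ ≤ 1 ∧ Φ u = ‖u‖ ∧ Φ (T u) = 0)
    (hsq : ∀ u, T (T u) = 0) : T = 0 := by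
  ext u
  simp only [zero_apply]
  have key : ∀ t : ℝ, ‖u + t • T u‖ ≤ ‖u‖ := by
    intro t
    obtain ⟨Φ, hΦ, hz, hTz⟩ := hT (u + t • T u)
    have e1 : Φ (T u) = 0 := by simpa [hsq] using hTz
    have e2 : Φ u = ‖u + t • T u‖ := by simpa [e1] using hz
    rw [← e2]
    exact le_trans (le_abs_self _) (apply_le_norm_of_norm_le_one hΦ u)
  by_contra hne
  have hpos : 0 < ‖T u‖ := norm_pos_iff.mpr hne
  set t : ℝ := (2 * ‖u‖ + 1) / ‖T u‖ with ht
  have h1 : ‖t • T u‖ = 2 * ‖u‖ + 1 := by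
    rw [norm_smul, Real.norm_eq_abs, abs_of_nonneg (by positivity), ht,
      div_mul_cancel₀ _ hpos.ne']
  have h2 : ‖t • T u‖ ≤ ‖u + t • T u‖ + ‖u‖ := by
    simpa using norm_sub_le (u + t • T u) u
  linarith [key t]

end Skew

namespace Killing

variable {K : Type*} [NormedAddCommGroup K] [NormedSpace ℝ K]

/-- One Euler step for the vector field `b x x`. -/
noncomputable def euler (b : K →L[ℝ] K →L[ℝ] K) (h : ℝ) (x : K) : K := x + h • b x x

variable (b : K →L[ℝ] K →L[ℝ] K)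

theorem euler_zero (h : ℝ) : euler b h 0 = 0 := by simp [euler]

theorem euler_iterate_zero (h : ℝ) (i : ℕ) : (euler b h)^[i] 0 = 0 :=
  Function.iterate_fixed (euler_zero b h) i

theorem diag_le {x : K} {r : ℝ} (hx : ‖x‖ ≤ r) : ‖b x x‖ ≤ ‖b‖ * r ^ 2 := by
  have h2 : ‖x‖ * ‖x‖ ≤ r ^ 2 := by nlinarith [norm_nonneg x]
  nlinarith [b.le_opNorm₂ x x, mul_le_mul_of_nonneg_left h2 (norm_nonneg b)]

theorem diag_sub (hsymm : ∀ x y, b x y = b y x) (x y : K) :
    b x x - b y y = b (x + y) (x - y) := by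
  simp [hsymm y x]

theorem diag_sub_le (hsymm : ∀ x y, b x y = b y x) {x y : K} {r : ℝ}
    (hx : ‖x‖ ≤ r) (hy : ‖y‖ ≤ r) : ‖b x x - b y y‖ ≤ 2 * r * ‖b‖ * ‖x - y‖ := by
  rw [diag_sub b hsymm]
  have h1 : ‖x + y‖ ≤ 2 * r := by linarith [norm_add_le x y]
  nlinarith [b.le_opNorm₂ (x + y) (x - y),
    mul_le_mul_of_nonneg_right h1 (mul_nonneg (norm_nonneg b) (norm_nonneg (x - y)))]

variable (hsymm : ∀ x y, b x y = b y x)
  (hskew : ∀ x u, ∃ Φ : K →L[ℝ] ℝ, ‖Φ‖ ≤ 1 ∧ Φ u = ‖u‖ ∧ Φ (b x u) = 0)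

include hsymm hskew

theorem euler_dist (h : ℝ) {x y : K} {r : ℝ} (hx : ‖x‖ ≤ r) (hy : ‖y‖ ≤ r) :
    ‖x - y‖ ≤ ‖euler b h x - euler b h y‖ ∧
      ‖euler b h x - euler b h y‖ ≤ (1 + 4 * h ^ 2 * ‖b‖ ^ 2 * r ^ 2) * ‖x - y‖ := by
  have e : euler b h x - euler b h y = (x - y) + h • b (x + y) (x - y) := by
    rw [← diag_sub b hsymm, euler, euler]
    module
  obtain ⟨h1, h2⟩ := skew_step (hskew (x + y)) h (x - y)
  rw [e]
  refine ⟨h1, h2.trans ?_⟩
  gcongr ?_ * _
  have h3 : ‖b (x + y)‖ ≤ ‖b‖ * (2 * r) :=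
    (b.le_opNorm _).trans (mul_le_mul_of_nonneg_left (by linarith [norm_add_le x y]) (norm_nonneg b))
  nlinarith [mul_le_mul_of_nonneg_left (pow_le_pow_left₀ (norm_nonneg (b (x + y))) h3 2)
    (sq_nonneg h)]

theorem euler_norm_le (h : ℝ) {x : K} {r : ℝ} (hx : ‖x‖ ≤ r) :
    ‖euler b h x‖ ≤ (1 + 4 * h ^ 2 * ‖b‖ ^ 2 * r ^ 2) * ‖x‖ := by
  have h0 : ‖(0 : K)‖ ≤ r := by simpa using (norm_nonneg x).trans hx
  simpa [euler_zero] using (euler_dist b hsymm hskew h hx h0).2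

omit hsymm hskew in
theorem one_add_pow_le {a : ℝ} (ha : 0 ≤ a) {i m : ℕ} (hi : i ≤ m) :
    (1 + a) ^ i ≤ Real.exp (m * a) := by
  rw [Real.exp_nat_mul]
  calc (1 + a) ^ i ≤ (1 + a) ^ m := pow_le_pow_right₀ (by linarith) hi
    _ ≤ Real.exp a ^ m := by
      apply pow_le_pow_left₀ (by linarith)
      linarith [Real.add_one_le_exp a]

omit hsymm hskew in
theorem exp_le_two {q : ℝ} (hq : q ≤ 1 / 2) : Real.exp q ≤ 2 := by
  rcases le_or_gt q 0 with h | h
  · exact (Real.exp_le_one_iff.mpr h).trans one_le_two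
  · have h1 := Real.exp_bound_div_one_sub_of_interval h.le (by linarith)
    have h2 : 1 / (1 - q) ≤ 2 := by rw [div_le_iff₀ (by linarith)]; linarith
    linarith

/-- Orbits of `m` small steps stay in twice the ball. -/
theorem orbit_le {h r : ℝ} {m : ℕ} {x : K} (hx : ‖x‖ ≤ r)
    (hq : (m : ℝ) * (16 * h ^ 2 * ‖b‖ ^ 2 * r ^ 2) ≤ 1 / 2) {i : ℕ} (hi : i ≤ m) :
    ‖(euler b h)^[i] x‖ ≤ 2 * r := by
  have hr : 0 ≤ r := (norm_nonneg x).trans hx
  have key : ∀ i ≤ m, ‖(euler b h)^[i] x‖ ≤ (1 + 16 * h ^ 2 * ‖b‖ ^ 2 * r ^ 2) ^ i * r ∧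
      ‖(euler b h)^[i] x‖ ≤ 2 * r := by
    intro i
    induction i with
    | zero => intro _; exact ⟨by simpa using hx, by simpa using hx.trans (by linarith)⟩
    | succ n ih =>
      intro hn
      obtain ⟨h1, h2⟩ := ih (by omega)
      have h3 := euler_norm_le b hsymm hskew h h2
      have h4 : ‖(euler b h)^[n + 1] x‖ ≤ (1 + 16 * h ^ 2 * ‖b‖ ^ 2 * r ^ 2) ^ (n + 1) * r := by
        rw [Function.iterate_succ_apply', pow_succ']
        calc _ ≤ (1 + 4 * h ^ 2 * ‖b‖ ^ 2 * (2 * r) ^ 2) * ‖(euler b h)^[n] x‖ := h3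
          _ ≤ (1 + 4 * h ^ 2 * ‖b‖ ^ 2 * (2 * r) ^ 2) *
              ((1 + 16 * h ^ 2 * ‖b‖ ^ 2 * r ^ 2) ^ n * r) :=
            mul_le_mul_of_nonneg_left h1 (by positivity)
          _ = _ := by ring
      refine ⟨h4, h4.trans ?_⟩
      gcongr
      exact (one_add_pow_le (by positivity) hn).trans (exp_le_two hq)
  exact (key i hi).2

/-- Orbits of nearby points. -/
theorem orbit_dist {h r : ℝ} {m : ℕ} {x y : K} (hx : ‖x‖ ≤ r) (hy : ‖y‖ ≤ r)
    (hq : (m : ℝ) * (16 * h ^ 2 * ‖b‖ ^ 2 * r ^ 2) ≤ 1 / 2) {i : ℕ} (hi : i ≤ m) :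
    ‖x - y‖ ≤ ‖(euler b h)^[i] x - (euler b h)^[i] y‖ ∧
      ‖(euler b h)^[i] x - (euler b h)^[i] y‖ ≤
        Real.exp ((m : ℝ) * (16 * h ^ 2 * ‖b‖ ^ 2 * r ^ 2)) * ‖x - y‖ := by
  have key : ∀ i ≤ m, ‖x - y‖ ≤ ‖(euler b h)^[i] x - (euler b h)^[i] y‖ ∧
      ‖(euler b h)^[i] x - (euler b h)^[i] y‖ ≤
        (1 + 16 * h ^ 2 * ‖b‖ ^ 2 * r ^ 2) ^ i * ‖x - y‖ := by
    intro i
    induction i with
    | zero => intro _; simp
    | succ n ih =>
      intro hn
      obtain ⟨h1, h2⟩ := ih (by omega)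
      obtain ⟨h3, h4⟩ := euler_dist b hsymm hskew h
        (orbit_le b hsymm hskew hx hq (by omega : n ≤ m))
        (orbit_le b hsymm hskew hy hq (by omega : n ≤ m))
      rw [Function.iterate_succ_apply', Function.iterate_succ_apply']
      refine ⟨h1.trans h3, h4.trans ?_⟩
      calc _ ≤ (1 + 4 * h ^ 2 * ‖b‖ ^ 2 * (2 * r) ^ 2) *
            ((1 + 16 * h ^ 2 * ‖b‖ ^ 2 * r ^ 2) ^ n * ‖x - y‖) :=
          mul_le_mul_of_nonneg_left h2 (by positivity)
        _ = _ := by ring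
  obtain ⟨h1, h2⟩ := key i hi
  exact ⟨h1, h2.trans (mul_le_mul_of_nonneg_right (one_add_pow_le (by positivity) hi) (norm_nonneg _))⟩

omit hskew in
/-- A step and two half steps. -/
theorem half_step {h r : ℝ} {q : K} (hq : ‖q‖ ≤ r) (hy : ‖euler b (h / 2) q‖ ≤ r) :
    ‖euler b h q - euler b (h / 2) (euler b (h / 2) q)‖ ≤ h ^ 2 * ‖b‖ ^ 2 * r ^ 3 := by
  have hr : 0 ≤ r := (norm_nonneg q).trans hq
  set y := euler b (h / 2) q with hydef
  have e : euler b h q - euler b (h / 2) y = (h / 2) • (b q q - b y y) := by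
    rw [euler, euler, hydef, euler]
    module
  have e2 : q - y = -((h / 2) • b q q) := by rw [hydef, euler]; abel
  have h1 := diag_sub_le b hsymm hq hy
  rw [e2, norm_neg, norm_smul, Real.norm_eq_abs] at h1
  rw [e, norm_smul, Real.norm_eq_abs]
  calc |h / 2| * ‖b q q - b y y‖
      ≤ |h / 2| * (2 * r * ‖b‖ * (|h / 2| * (‖b‖ * r ^ 2))) := by
        gcongr
        refine h1.trans ?_
        gcongr
        exact diag_le b hq
    _ = h ^ 2 * ‖b‖ ^ 2 * r ^ 3 / 2 := by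
        rw [show h ^ 2 = 4 * (|h / 2| * |h / 2|) from by rw [abs_mul_abs_self]; ring]
        ring
    _ ≤ _ := by linarith [show 0 ≤ h ^ 2 * ‖b‖ ^ 2 * r ^ 3 by positivity]

/-- `m` steps against `2 m` half steps. -/
theorem refine_le {h r : ℝ} {m : ℕ} {x : K} (hx : ‖x‖ ≤ r)
    (hq : (m : ℝ) * (16 * h ^ 2 * ‖b‖ ^ 2 * r ^ 2) ≤ 1 / 2) :
    ‖(euler b h)^[m] x - (euler b (h / 2))^[2 * m] x‖ ≤ 16 * m * h ^ 2 * ‖b‖ ^ 2 * r ^ 3 := by
  have hr : 0 ≤ r := (norm_nonneg x).trans hx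
  have hq2 : ((2 * m : ℕ) : ℝ) * (16 * (h / 2) ^ 2 * ‖b‖ ^ 2 * r ^ 2) ≤ 1 / 2 := by
    push_cast
    nlinarith [show 0 ≤ (m : ℝ) * (16 * h ^ 2 * ‖b‖ ^ 2 * r ^ 2) by positivity]
  have key : ∀ i ≤ m, ‖(euler b h)^[i] x - (euler b (h / 2))^[2 * i] x‖ ≤
      (1 + 16 * h ^ 2 * ‖b‖ ^ 2 * r ^ 2) ^ i * (i * (h ^ 2 * ‖b‖ ^ 2 * (2 * r) ^ 3)) := by
    intro i
    induction i with
    | zero => intro _; simp
    | succ n ih =>
      intro hn
      have h1 := ih (by omega)
      set p := (euler b h)^[n] x with hp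
      set w := (euler b (h / 2))^[2 * n] x with hw
      have hpb : ‖p‖ ≤ 2 * r := orbit_le b hsymm hskew hx hq (by omega)
      have hwb : ‖w‖ ≤ 2 * r := orbit_le b hsymm hskew hx hq2 (by omega)
      have hw'b : ‖euler b (h / 2) w‖ ≤ 2 * r := by
        have h4 := orbit_le b hsymm hskew hx hq2 (show 2 * n + 1 ≤ 2 * m by omega)
        rwa [Function.iterate_succ_apply', ← hw] at h4
      have h2 := (euler_dist b hsymm hskew h hpb hwb).2
      have h3 := half_step b hsymm (h := h) hwb hw'b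
      rw [show 2 * (n + 1) = 2 * n + 1 + 1 by ring, Function.iterate_succ_apply',
        Function.iterate_succ_apply', Function.iterate_succ_apply', ← hp, ← hw]
      set a : ℝ := 16 * h ^ 2 * ‖b‖ ^ 2 * r ^ 2 with ha
      have h5 : (1 : ℝ) ≤ (1 + a) ^ (n + 1) := one_le_pow₀ (by linarith [show 0 ≤ a by positivity])
      calc ‖euler b h p - euler b (h / 2) (euler b (h / 2) w)‖
          ≤ ‖euler b h p - euler b h w‖ + ‖euler b h w - euler b (h / 2) (euler b (h / 2) w)‖ :=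
            norm_sub_le_norm_sub_add_norm_sub _ _ _
        _ ≤ (1 + a) * ‖p - w‖ + h ^ 2 * ‖b‖ ^ 2 * (2 * r) ^ 3 := by
            rw [show 4 * h ^ 2 * ‖b‖ ^ 2 * (2 * r) ^ 2 = a by rw [ha]; ring] at h2
            linarith
        _ ≤ (1 + a) * ((1 + a) ^ n * (n * (h ^ 2 * ‖b‖ ^ 2 * (2 * r) ^ 3))) +
              (1 + a) ^ (n + 1) * (h ^ 2 * ‖b‖ ^ 2 * (2 * r) ^ 3) := by
            refine add_le_add (mul_le_mul_of_nonneg_left h1 (by positivity)) ?_
            exact le_mul_of_one_le_left (by positivity) h5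
        _ = _ := by push_cast; ring
  refine (key m le_rfl).trans ?_
  calc _ ≤ 2 * ((m : ℝ) * (h ^ 2 * ‖b‖ ^ 2 * (2 * r) ^ 3)) := by
        gcongr
        exact (one_add_pow_le (by positivity) le_rfl).trans (exp_le_two hq)
    _ = _ := by ring

/-- Going forward and back. -/
theorem back_le {h r : ℝ} {m : ℕ} {x : K} (hx : ‖x‖ ≤ r)
    (hq : (m : ℝ) * (16 * h ^ 2 * ‖b‖ ^ 2 * (4 * r) ^ 2) ≤ 1 / 2) :
    ‖(euler b (-h))^[m] ((euler b h)^[m] x) - x‖ ≤ 32 * m * h ^ 2 * ‖b‖ ^ 2 * r ^ 3 := by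
  have hr : 0 ≤ r := (norm_nonneg x).trans hx
  have hq1 : (m : ℝ) * (16 * h ^ 2 * ‖b‖ ^ 2 * r ^ 2) ≤ 1 / 2 := by
    nlinarith [show 0 ≤ (m : ℝ) * (16 * h ^ 2 * ‖b‖ ^ 2 * r ^ 2) by positivity]
  have hq4 : (m : ℝ) * (16 * (-h) ^ 2 * ‖b‖ ^ 2 * (4 * r) ^ 2) ≤ 1 / 2 := by rwa [neg_sq]
  have key : ∀ i ≤ m, ‖(euler b (-h))^[i] ((euler b h)^[i] x) - x‖ ≤
      i * (32 * h ^ 2 * ‖b‖ ^ 2 * r ^ 3) := by
    intro i
    induction i with
    | zero => intro _; simp
    | succ n ih =>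
      intro hn
      have h1 := ih (by omega)
      set y := (euler b h)^[n] x with hydef
      have hyb : ‖y‖ ≤ 2 * r := orbit_le b hsymm hskew hx hq1 (by omega)
      have hy'b : ‖euler b h y‖ ≤ 2 * r := by
        have h4 := orbit_le b hsymm hskew hx hq1 hn
        rwa [Function.iterate_succ_apply', ← hydef] at h4
      have hm1 : (1 : ℝ) ≤ m := by exact_mod_cast (show 1 ≤ m by omega)
      have hub : ‖euler b (-h) (euler b h y)‖ ≤ 4 * r := by
        refine (euler_norm_le b hsymm hskew (-h) hy'b).trans ?_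
        have h5 : 4 * (-h) ^ 2 * ‖b‖ ^ 2 * (2 * r) ^ 2 ≤ 1 := by
          nlinarith [show 0 ≤ h ^ 2 * ‖b‖ ^ 2 * r ^ 2 by positivity]
        nlinarith [mul_le_mul (show 1 + 4 * (-h) ^ 2 * ‖b‖ ^ 2 * (2 * r) ^ 2 ≤ 2 by linarith)
          hy'b (norm_nonneg _) zero_le_two]
      have e : euler b (-h) (euler b h y) - y = -(h • (b (euler b h y) (euler b h y) - b y y)) := by
        simp only [euler]
        module
      have e2 : euler b h y - y = h • b y y := by simp [euler]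
      have h3 : ‖euler b (-h) (euler b h y) - y‖ ≤ 16 * h ^ 2 * ‖b‖ ^ 2 * r ^ 3 := by
        have h4 := diag_sub_le b hsymm hy'b hyb
        rw [e2, norm_smul, Real.norm_eq_abs] at h4
        rw [e, norm_neg, norm_smul, Real.norm_eq_abs]
        calc |h| * ‖b (euler b h y) (euler b h y) - b y y‖
            ≤ |h| * (2 * (2 * r) * ‖b‖ * (|h| * (‖b‖ * (2 * r) ^ 2))) := by
              gcongr
              refine h4.trans ?_
              gcongr
              exact diag_le b hyb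
          _ = _ := by
              rw [show h ^ 2 = |h| * |h| from by rw [abs_mul_abs_self]; ring]
              ring
      have h6 := (orbit_dist b hsymm hskew hub (hyb.trans (by linarith)) hq4
        (show n ≤ m by omega)).2
      have h7 : ‖(euler b (-h))^[n] (euler b (-h) (euler b h y)) - (euler b (-h))^[n] y‖ ≤
          32 * h ^ 2 * ‖b‖ ^ 2 * r ^ 3 := by
        refine h6.trans ?_
        nlinarith [mul_le_mul (exp_le_two hq4) h3 (norm_nonneg _) zero_le_two]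
      rw [Function.iterate_succ_apply, Function.iterate_succ_apply', ← hydef]
      push_cast
      linarith [norm_sub_le_norm_sub_add_norm_sub
        ((euler b (-h))^[n] (euler b (-h) (euler b h y))) ((euler b (-h))^[n] y) x]
  refine (key m le_rfl).trans (le_of_eq ?_)
  ring

/-- First order expansion of the orbit. -/
theorem first_order {h r : ℝ} {m : ℕ} {x : K} (hx : ‖x‖ ≤ r)
    (hq : (m : ℝ) * (16 * h ^ 2 * ‖b‖ ^ 2 * r ^ 2) ≤ 1 / 2) :
    ‖(euler b h)^[m] x - x - ((m : ℝ) * h) • b x x‖ ≤ 16 * (m * h) ^ 2 * ‖b‖ ^ 2 * r ^ 3 := by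
  have hr : 0 ≤ r := (norm_nonneg x).trans hx
  have h2r : ‖x‖ ≤ 2 * r := hx.trans (by linarith)
  have key : ∀ i ≤ m, ‖(euler b h)^[i] x - x‖ ≤ i * (|h| * (‖b‖ * (2 * r) ^ 2)) ∧
      ‖(euler b h)^[i] x - x - ((i : ℝ) * h) • b x x‖ ≤
        i * (|h| * (2 * (2 * r) * ‖b‖ * (m * (|h| * (‖b‖ * (2 * r) ^ 2))))) := by
    intro i
    induction i with
    | zero => intro _; simp
    | succ n ih =>
      intro hn
      obtain ⟨h1, h2⟩ := ih (by omega)
      set y := (euler b h)^[n] x with hydef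
      have hyb : ‖y‖ ≤ 2 * r := orbit_le b hsymm hskew hx hq (by omega)
      rw [Function.iterate_succ_apply', ← hydef]
      have e1 : euler b h y - x = (y - x) + h • b y y := by rw [euler]; abel
      have e2 : euler b h y - x - (((n + 1 : ℕ) : ℝ) * h) • b x x =
          (y - x - ((n : ℝ) * h) • b x x) + h • (b y y - b x x) := by
        rw [euler]; push_cast; module
      constructor
      · rw [e1]
        refine (norm_add_le _ _).trans ?_
        rw [norm_smul, Real.norm_eq_abs]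
        push_cast
        nlinarith [mul_le_mul_of_nonneg_left (diag_le b hyb) (abs_nonneg h)]
      · rw [e2]
        refine (norm_add_le _ _).trans ?_
        rw [norm_smul, Real.norm_eq_abs]
        have h4 : ‖b y y - b x x‖ ≤ 2 * (2 * r) * ‖b‖ * (m * (|h| * (‖b‖ * (2 * r) ^ 2))) := by
          refine (diag_sub_le b hsymm hyb h2r).trans ?_
          gcongr
          refine h1.trans ?_
          gcongr
          exact_mod_cast (show n ≤ m by omega)
        push_cast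
        linarith [mul_le_mul_of_nonneg_left h4 (abs_nonneg h)]
  refine (key m le_rfl).2.trans (le_of_eq ?_)
  rw [show ((m : ℝ) * h) ^ 2 = (m : ℝ) ^ 2 * (|h| * |h|) from by rw [abs_mul_abs_self]; ring]
  ring

omit hsymm hskew in
/-- The dyadic Euler approximation of the flow. -/
noncomputable def approxFlow (t : ℝ) (k : ℕ) (x : K) : K := (euler b (t / 2 ^ k))^[2 ^ k] x

omit hsymm hskew in
/-- The flow of the vector field `b x x`. -/
noncomputable def flow (t : ℝ) (x : K) : K := limUnder atTop (fun k => approxFlow b t k x)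

omit hsymm hskew in
theorem small_eventually (t r : ℝ) :
    Tendsto (fun k : ℕ => ((2 ^ k : ℕ) : ℝ) * (16 * (t / 2 ^ k) ^ 2 * ‖b‖ ^ 2 * r ^ 2))
      atTop (𝓝 0) := by
  have e : (fun k : ℕ => ((2 ^ k : ℕ) : ℝ) * (16 * (t / 2 ^ k) ^ 2 * ‖b‖ ^ 2 * r ^ 2)) =
      fun k => (16 * t ^ 2 * ‖b‖ ^ 2 * r ^ 2) * (1 / 2 : ℝ) ^ k := by
    funext k
    push_cast
    rw [div_pow, div_pow, one_pow]
    field_simp
  rw [e]
  simpa using (tendsto_pow_atTop_nhds_zero_of_lt_one (by norm_num : (0 : ℝ) ≤ 1 / 2)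
    (by norm_num)).const_mul (16 * t ^ 2 * ‖b‖ ^ 2 * r ^ 2)

variable [CompleteSpace K]

theorem tendsto_flow (t : ℝ) (x : K) :
    Tendsto (fun k => approxFlow b t k x) atTop (𝓝 (flow b t x)) := by
  have hcau : CauchySeq (fun k => approxFlow b t k x) := by
    obtain ⟨k0, hk0⟩ := eventually_atTop.1
      ((small_eventually b t ‖x‖).eventually_le_const (show (0 : ℝ) < 1 / 2 by norm_num))
    rw [← cauchySeq_shift k0]
    refine cauchySeq_of_le_geometric (1 / 2)
      (16 * t ^ 2 * ‖b‖ ^ 2 * ‖x‖ ^ 3 / 2 ^ k0) (by norm_num) (fun n => ?_)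
    have h1 := refine_le b hsymm hskew le_rfl (hk0 (n + k0) (by omega))
    rw [show t / 2 ^ (n + k0) / 2 = t / 2 ^ (n + 1 + k0) by
        rw [show n + 1 + k0 = (n + k0) + 1 by ring, pow_succ]; field_simp,
      show 2 * 2 ^ (n + k0) = 2 ^ (n + 1 + k0) by ring] at h1
    rw [dist_eq_norm]
    refine h1.trans (le_of_eq ?_)
    push_cast
    rw [div_pow, div_pow, one_pow, pow_add]
    field_simp
  obtain ⟨l, hl⟩ := cauchySeq_tendsto_of_complete hcau
  exact tendsto_nhds_limUnder ⟨l, hl⟩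

theorem flow_zero (t : ℝ) : flow b t 0 = 0 := by
  have h1 := tendsto_flow b hsymm hskew t (0 : K)
  simp only [approxFlow, euler_iterate_zero] at h1
  exact tendsto_nhds_unique h1 tendsto_const_nhds

theorem flow_dist (t : ℝ) (x y : K) : ‖flow b t x - flow b t y‖ = ‖x - y‖ := by
  have h1 := ((tendsto_flow b hsymm hskew t x).sub (tendsto_flow b hsymm hskew t y)).norm
  refine tendsto_nhds_unique h1 ?_
  have hsm := small_eventually b t (max ‖x‖ ‖y‖)
  have hev := hsm.eventually_le_const (show (0 : ℝ) < 1 / 2 by norm_num)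
  have hexp := ((Real.continuous_exp.tendsto 0).comp hsm).mul_const ‖x - y‖
  rw [Real.exp_zero, one_mul] at hexp
  refine tendsto_of_tendsto_of_tendsto_of_le_of_le' tendsto_const_nhds hexp ?_ ?_
  · filter_upwards [hev] with k hk
    exact (orbit_dist b hsymm hskew (le_max_left _ _) (le_max_right _ _) hk le_rfl).1
  · filter_upwards [hev] with k hk
    exact (orbit_dist b hsymm hskew (le_max_left _ _) (le_max_right _ _) hk le_rfl).2

theorem flow_neg (t : ℝ) (x : K) : flow b (-t) (flow b t x) = x := by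
  have hu := tendsto_flow b hsymm hskew (-t) (flow b t x)
  have hd : Tendsto (fun k => approxFlow b (-t) k (flow b t x) - x) atTop (𝓝 0) := by
    rw [tendsto_zero_iff_norm_tendsto_zero]
    set r := max (4 * ‖x‖) (‖flow b t x‖ + 1) with hr
    have hsm := small_eventually b t r
    have hev := hsm.eventually_le_const (show (0 : ℝ) < 1 / 2 by norm_num)
    have hnear := (tendsto_flow b hsymm hskew t x).norm.eventually_le_const
      (show ‖flow b t x‖ < ‖flow b t x‖ + 1 by linarith)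
    have hdiff : Tendsto (fun k => ‖flow b t x - approxFlow b t k x‖) atTop (𝓝 0) := by
      simpa using ((tendsto_flow b hsymm hskew t x).const_sub (flow b t x)).norm
    have herr : Tendsto (fun k : ℕ =>
        2 * ‖flow b t x - approxFlow b t k x‖ +
          ((2 ^ k : ℕ) : ℝ) * (16 * (t / 2 ^ k) ^ 2 * ‖b‖ ^ 2 * ‖x‖ ^ 2) * (2 * ‖x‖))
        atTop (𝓝 0) := by
      simpa using (hdiff.const_mul 2).add ((small_eventually b t ‖x‖).mul_const (2 * ‖x‖))
    refine squeeze_zero_norm' ?_ herr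
    filter_upwards [hev, hnear] with k hk hn
    rw [norm_norm]
    have hqneg : ((2 ^ k : ℕ) : ℝ) * (16 * (-(t / 2 ^ k)) ^ 2 * ‖b‖ ^ 2 * r ^ 2) ≤ 1 / 2 := by
      rwa [neg_sq]
    have h1 := (orbit_dist b hsymm hskew (x := flow b t x) (y := approxFlow b t k x)
      ((show ‖flow b t x‖ ≤ ‖flow b t x‖ + 1 by linarith).trans (le_max_right _ _))
      (hn.trans (le_max_right _ _)) hqneg le_rfl).2
    have hq4 : ((2 ^ k : ℕ) : ℝ) * (16 * (t / 2 ^ k) ^ 2 * ‖b‖ ^ 2 * (4 * ‖x‖) ^ 2) ≤ 1 / 2 := by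
      refine le_trans ?_ hk
      gcongr
      exact le_max_left _ _
    have h2 := back_le b hsymm hskew (x := x) le_rfl hq4
    have h3 := mul_le_mul_of_nonneg_right (exp_le_two hqneg)
      (norm_nonneg (flow b t x - approxFlow b t k x))
    simp only [approxFlow, neg_div] at *
    nlinarith [norm_sub_le_norm_sub_add_norm_sub
      ((euler b (-(t / 2 ^ k)))^[2 ^ k] (flow b t x))
      ((euler b (-(t / 2 ^ k)))^[2 ^ k] ((euler b (t / 2 ^ k))^[2 ^ k] x)) x]
  have h4 := hu.sub_const x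
  exact sub_eq_zero.1 (tendsto_nhds_unique h4 hd)

theorem flow_expansion (t : ℝ) (x : K) :
    ‖flow b t x - x - t • b x x‖ ≤ 16 * t ^ 2 * ‖b‖ ^ 2 * ‖x‖ ^ 3 := by
  refine le_of_tendsto
    (((tendsto_flow b hsymm hskew t x).sub_const x).sub_const (t • b x x)).norm ?_
  filter_upwards [(small_eventually b t ‖x‖).eventually_le_const
    (show (0 : ℝ) < 1 / 2 by norm_num)] with k hk
  have h1 := first_order b hsymm hskew (x := x) le_rfl hk
  have e : ((2 ^ k : ℕ) : ℝ) * (t / 2 ^ k) = t := by push_cast; field_simp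
  rwa [e] at h1

/-- A symmetric bilinear map all of whose section maps are skew is zero. -/
theorem diag_eq_zero (x : K) : b x x = 0 := by
  have hlin : ∀ t : ℝ, flow b t ((2 : ℝ) • x) = (2 : ℝ) • flow b t x := by
    intro t
    let e : K ≃ᵢ K :=
      { toFun := flow b t
        invFun := flow b (-t)
        left_inv := flow_neg b hsymm hskew t
        right_inv := fun y => by
          simpa using flow_neg b hsymm hskew (-t) y
        isometry_toFun := Isometry.of_dist_eq fun y z => by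
          simpa [dist_eq_norm] using flow_dist b hsymm hskew t y z }
    exact map_smul (e.toRealLinearIsometryEquivOfMapZero (flow_zero b hsymm hskew t)) (2 : ℝ) x
  by_contra hne
  have hpos : 0 < ‖b x x‖ := norm_pos_iff.mpr hne
  set M : ℝ := 16 * ‖b‖ ^ 2 * ‖x‖ ^ 3 * 10 / 2 + 1 with hM
  have hMpos : 0 < M := by positivity
  set t : ℝ := ‖b x x‖ / M / 2 with ht
  have htpos : 0 < t := by positivity
  have h1 := flow_expansion b hsymm hskew t ((2 : ℝ) • x)
  have h2 := flow_expansion b hsymm hskew t x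
  have e : (2 * t) • b x x =
      (2 : ℝ) • (flow b t x - x - t • b x x) -
        (flow b t ((2 : ℝ) • x) - (2 : ℝ) • x - t • b ((2 : ℝ) • x) ((2 : ℝ) • x)) := by
    rw [hlin t]
    simp only [map_smul, smul_apply]
    module
  have h3 : 2 * t * ‖b x x‖ ≤ t ^ 2 * (16 * ‖b‖ ^ 2 * ‖x‖ ^ 3 * 10) := by
    have h4 : ‖(2 * t) • b x x‖ = 2 * t * ‖b x x‖ := by
      rw [norm_smul, Real.norm_eq_abs, abs_of_pos (by positivity)]
    rw [← h4, e]
    refine (norm_sub_le _ _).trans ?_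
    rw [norm_smul, Real.norm_eq_abs, abs_two]
    rw [norm_smul, Real.norm_eq_abs, abs_two] at h1
    nlinarith
  have h5 : ‖b x x‖ ≤ t * M := by
    have h6 : 0 ≤ t * t := mul_self_nonneg t
    rw [hM]
    nlinarith
  rw [ht, div_div, div_mul_eq_mul_div, le_div_iff₀ (by positivity)] at h5
  nlinarith

/-- A symmetric bilinear map all of whose section maps are skew is zero. -/
theorem eq_zero : b = 0 := by
  ext x y
  have h := diag_eq_zero b hsymm hskew (x + y)
  simp only [map_add, add_apply, diag_eq_zero b hsymm hskew x,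
    diag_eq_zero b hsymm hskew y, hsymm y x, zero_add, add_zero] at h
  simp only [zero_apply]
  have h2 : (2 : ℝ) • b x y = 0 := by rw [two_smul]; exact h
  exact (smul_eq_zero.1 h2).resolve_left two_ne_zero

end Killing

variable {W H : Type*} [NormedAddCommGroup W] [NormedSpace ℝ W] [NormedAddCommGroup H]
  [InnerProductSpace ℝ H]

theorem exists_norming (u : W) : ∃ Φ : W →L[ℝ] ℝ, ‖Φ‖ ≤ 1 ∧ Φ u = ‖u‖ := by
  obtain ⟨Φ, h1, h2⟩ := exists_dual_vector'' ℝ u
  exact ⟨Φ, h1, by simpa using h2⟩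

theorem AlgData.skew_of_ker (D : AlgData W H) {k : W} (hk : D.I k = 0) (u : W) :
    ∀ Φ : W →L[ℝ] ℝ, ‖Φ‖ ≤ 1 → Φ u = ‖u‖ → Φ (D.B k u) = 0 := by
  intro Φ h1 h2
  have h3 := D.ident k u Φ h1 h2
  simpa [hk] using h3

theorem AlgData.I_B_ker (D : AlgData W H) {k : W} (hk : D.I k = 0) (u : W) :
    D.I (D.B k u) = 0 := by
  refine D.dense.eq_zero_of_inner_right ℝ fun v => ?_
  have h := D.total k v u
  rw [hk, inner_zero_left] at h
  exact h.symm

theorem AlgData.B_ker [CompleteSpace W] (D : AlgData W H) {k} (hk : D.I k = 0) (u) :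
    D.B k u = 0 := by
  let S : Submodule ℝ W := LinearMap.ker D.I.toLinearMap
  have hS : ∀ x : S, D.I (x : W) = 0 := fun x => x.2
  have : CompleteSpace S := D.I.isClosed_ker.completeSpace_coe
  let b : S →L[ℝ] S →L[ℝ] S :=
    LinearMap.mkContinuous₂
      (LinearMap.mk₂ ℝ (fun x y : S => (⟨D.B (x : W) (y : W), D.I_B_ker (hS x) _⟩ : S))
        (fun x x' y => Subtype.ext (by simp))
        (fun c x y => Subtype.ext (by simp))
        (fun x y y' => Subtype.ext (by simp))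
        (fun c x y => Subtype.ext (by simp)))
      ‖D.B‖ (fun x y => D.B.le_opNorm₂ (x : W) (y : W))
  have hb : ∀ x y : S, ((b x y : S) : W) = D.B (x : W) (y : W) := fun _ _ => rfl
  have hb0 : b = 0 := by
    refine Killing.eq_zero b (fun x y => Subtype.ext (by rw [hb, hb, D.symm])) fun x z => ?_
    obtain ⟨Φ, h1, h2⟩ := exists_norming (z : W)
    refine ⟨Φ.comp S.subtypeL, ?_, h2, ?_⟩
    · refine ContinuousLinearMap.opNorm_le_bound _ zero_le_one fun y => ?_
      rw [one_mul, Real.norm_eq_abs]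
      exact apply_le_norm_of_norm_le_one h1 (y : W)
    · exact D.skew_of_ker (hS x) _ Φ h1 h2
  have hKK : ∀ x y, D.I x = 0 → D.I y = 0 → D.B x y = 0 := by
    intro x y hx hy
    have h := hb ⟨x, hx⟩ ⟨y, hy⟩
    rw [hb0] at h
    simpa using h.symm
  have h0 : D.B k = 0 := by
    refine skew_sq_zero (fun v => ?_) fun v => hKK _ _ hk (D.I_B_ker hk v)
    obtain ⟨Φ, h1, h2⟩ := exists_norming v
    exact ⟨Φ, h1, h2, D.skew_of_ker hk v Φ h1 h2⟩
  rw [h0]; rfl

end Vale.Agent.P084.Full
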