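import Vale.Agent.P084.Full.AlgBar

/-!
P084 (Tingley's problem), library: the rigidity of `AlgData` from the norm bound and the shifted
bound (maximiser of the cubic form and a two vector contradiction).
-/

namespace Vale.Agent.P084.Full

open scoped RealInnerProductSpace
open Filter Topology

variable {W H : Type*} [NormedAddCommGroup W] [NormedSpace ℝ W] [NormedAddCommGroup H]
  [InnerProductSpace ℝ H] [CompleteSpace W] {D : AlgData W H}

namespace BarData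

variable (E : BarData D)

/-- The identity hypothesis in terms of the extended map. -/
lemma ident_bar (h : H) (u : W) (Φ : W →L[ℝ] ℝ) (h1 : ‖Φ‖ ≤ 1) (h2 : Φ u = ‖u‖) :
    |Φ (E.Bb h (D.I u))| ≤ 2 * |⟪h, D.I u⟫| := by
  refine D.dense.induction_on (p := fun h => |Φ (E.Bb h (D.I u))| ≤ 2 * |⟪h, D.I u⟫|) h
    (isClosed_le (by fun_prop) (by fun_prop)) fun η => ?_
  rw [E.eq]
  exact D.ident η u Φ h1 h2

/-- The shifted bound in terms of the extended map. -/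
lemma shift_bar
    (hshift : ∀ (η ξ : W), ‖D.I η‖ ≤ 1 → ∀ s : ℝ, 0 < s →
      ‖D.B η ξ‖ ≤ 2 * ‖ξ‖ / s + 2 * |⟪D.I η, D.I ξ⟫| + 8 * s * ‖D.I (D.B η ξ)‖)
    {h : H} (hh : ‖h‖ ≤ 1) (ξ : W) {s : ℝ} (hs : 0 < s) :
    ‖E.Bb h (D.I ξ)‖ ≤ 2 * ‖ξ‖ / s + 2 * |⟪h, D.I ξ⟫| + 8 * s * ‖E.β h (D.I ξ)‖ := by
  let P : H → Prop := fun h => ‖E.Bb ((max 1 ‖h‖)⁻¹ • h) (D.I ξ)‖ ≤ 2 * ‖ξ‖ / s +
    2 * |⟪(max 1 ‖h‖)⁻¹ • h, D.I ξ⟫| + 8 * s * ‖D.I (E.Bb ((max 1 ‖h‖)⁻¹ • h) (D.I ξ))‖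
  have hP : P h := by
    have hc : Continuous fun h : H => (max 1 ‖h‖)⁻¹ • h :=
      ((continuous_const.max continuous_norm).inv₀ fun x =>
        (lt_of_lt_of_le one_pos (le_max_left _ _)).ne').smul continuous_id
    refine D.dense.induction_on (p := P) h (isClosed_le (by fun_prop) (by fun_prop)) fun η => ?_
    have hle : ‖D.I ((max 1 ‖D.I η‖)⁻¹ • η)‖ ≤ 1 := by
      rw [map_smul, norm_smul, norm_inv, Real.norm_of_nonneg (le_trans zero_le_one (le_max_left _ _)),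
        inv_mul_le_iff₀ (lt_of_lt_of_le one_pos (le_max_left _ _)), mul_one]
      exact le_max_right _ _
    show ‖_‖ ≤ _
    rw [← map_smul, E.eq]
    exact hshift _ ξ hle s hs
  simpa [P, max_eq_left hh, β] using hP

/-- Gradient along directions orthogonal to a near maximiser. -/
lemma gradient {e : H} {m δ s : ℝ} (he : ‖e‖ = 1) (hm : 0 ≤ m)
    (hb : ∀ x, E.τ x ≤ m * ‖x‖ ^ 3) (hmax : m - δ ≤ E.τ e) (hδ : 0 ≤ δ) (hs : 0 < s) (hs1 : s ≤ 1)
    {g : H} (hg : ⟪e, g⟫ = 0) :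
    |⟪g, E.β e e⟫| ≤ (δ / s + s * (m + 24 * ‖D.I‖)) * ‖g‖ := by
  rcases eq_or_ne g 0 with rfl | hg0
  · simp
  have key : ∀ g : H, ‖g‖ ≤ 1 → ⟪e, g⟫ = 0 → |⟪g, E.β e e⟫| ≤ δ / s + s * (m + 24 * ‖D.I‖) := by
    intro g hg1 hge
    refine abs_le.2 ⟨?_, E.cubic_step he hg1 hge hm (hb _) hmax hδ hs hs1⟩
    have := E.cubic_step he (g := -g) (by rwa [norm_neg]) (by simp [hge]) hm (hb _) hmax hδ hs hs1
    rw [inner_neg_left] at this
    linarith
  have hn : 0 < ‖g‖ := norm_pos_iff.2 hg0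
  have h := key (‖g‖⁻¹ • g) (by rw [norm_smul, norm_inv, norm_norm, inv_mul_cancel₀ hn.ne'])
    (by rw [real_inner_smul_right, hg, mul_zero])
  rw [real_inner_smul_left, abs_mul, abs_inv, abs_norm, inv_mul_le_iff₀ hn] at h
  linarith

lemma β_near_left {e : H} {m δ s : ℝ} (he : ‖e‖ = 1) (hm : 0 ≤ m)
    (hb : ∀ x, E.τ x ≤ m * ‖x‖ ^ 3) (hmax : m - δ ≤ E.τ e) (hδ : 0 ≤ δ) (hs : 0 < s)
    (hs1 : s ≤ 1) : ‖E.β e e - m • e‖ ≤ 2 * (δ / s + s * (m + 24 * ‖D.I‖)) + δ := by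
  set K := δ / s + s * (m + 24 * ‖D.I‖)
  set t := E.τ e with ht
  set g := E.β e e - t • e with hgd
  have hge : ⟪e, g⟫ = 0 := by
    rw [hgd, inner_sub_right, real_inner_smul_right, real_inner_self_eq_norm_sq, he]
    simp [ht, τ]
  have h1 : ‖g‖ ^ 2 ≤ K * ‖g‖ := by
    have h := le_trans (le_abs_self _) (E.gradient he hm hb hmax hδ hs hs1 hge)
    rwa [show ⟪g, E.β e e⟫ = ‖g‖ ^ 2 by
      rw [show E.β e e = g + t • e by rw [hgd]; abel, inner_add_right, real_inner_smul_right,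
        real_inner_comm e g, hge, real_inner_self_eq_norm_sq]; ring] at h
  have hK : 0 ≤ K := by positivity
  have hg : ‖g‖ ≤ K := by nlinarith [norm_nonneg g]
  have htm : t ≤ m := by have := hb e; rwa [he, one_pow, mul_one] at this
  have e1 : E.β e e - m • e = g + (t - m) • e := by rw [hgd]; module
  have h2 : ‖(t - m) • e‖ ≤ δ := by
    rw [norm_smul, he, mul_one, Real.norm_eq_abs, abs_le]; constructor <;> linarith
  rw [e1]
  refine (norm_add_le _ _).trans ?_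
  linarith

/-- First order condition at a near maximiser of the quadratic form of β(e,·). -/
lemma quad_step {e v w : H} {m s : ℝ} (he : ‖e‖ = 1) (hv : ‖v‖ = 1) (hwv : ⟪v, w⟫ = 0)
    (hw1 : ‖w‖ ≤ 1) (hm : 0 ≤ m) (hmC : m ≤ 6 * ‖D.I‖) (hs : 0 < s)
    (hμ : m - s ^ 2 ≤ |⟪v, E.β e v⟫|)
    (hQm : ∀ t : ℝ, |⟪v + t • w, E.β e (v + t • w)⟫| ≤ m * ‖v + t • w‖ ^ 2) :
    |⟪w, E.β e v⟫| ≤ s + s * (12 * ‖D.I‖) := by
  have hsymm : ⟪v, E.β e w⟫ = ⟪w, E.β e v⟫ := by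
    rw [E.β_total v e w, E.β_symm v w, ← E.β_total w e v]
  have hQw : |⟪w, E.β e w⟫| ≤ 6 * ‖D.I‖ := by
    refine (abs_real_inner_le_norm _ _).trans ?_
    have := E.β_le e w; rw [he] at this
    calc ‖w‖ * ‖E.β e w‖ ≤ 1 * (6 * ‖D.I‖ * 1 * 1) :=
          mul_le_mul hw1 (this.trans (by gcongr)) (norm_nonneg _) zero_le_one
      _ = _ := by ring
  have hstep : ∀ t : ℝ, t ^ 2 = s ^ 2 →
      |⟪v, E.β e v⟫ + 2 * t * ⟪w, E.β e v⟫ + t ^ 2 * ⟪w, E.β e w⟫| ≤ m + m * s ^ 2 := by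
    intro t ht2
    have e1 : ⟪v + t • w, E.β e (v + t • w)⟫ =
        ⟪v, E.β e v⟫ + 2 * t * ⟪w, E.β e v⟫ + t ^ 2 * ⟪w, E.β e w⟫ := by
      simp only [β_add_right, β_smul_right, inner_add_left, inner_add_right,
        real_inner_smul_left, real_inner_smul_right, hsymm]; ring
    have e2 : ‖v + t • w‖ ^ 2 ≤ 1 + s ^ 2 := by
      rw [norm_add_sq_real, hv, real_inner_smul_right, hwv, norm_smul, mul_pow, Real.norm_eq_abs,
        sq_abs, ht2]
      nlinarith [pow_le_one₀ (norm_nonneg w) hw1 (n := 2), sq_nonneg s]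
    rw [← e1]
    exact (hQm t).trans (by nlinarith)
  have hp := abs_le.1 (hstep s rfl)
  have hn := abs_le.1 (hstep (-s) (neg_sq s))
  have hQ' := abs_le.1 hQw
  have hs2 := sq_nonneg s
  have h1 := mul_le_mul_of_nonneg_left hQ'.1 hs2
  have h2 := mul_le_mul_of_nonneg_left hQ'.2 hs2
  have h3 := mul_le_mul_of_nonneg_left hmC hs2
  refine abs_le.2 ⟨?_, ?_⟩ <;> rcases abs_cases ⟪v, E.β e v⟫ with ⟨hμ1, -⟩ | ⟨hμ1, -⟩ <;>
    (rw [hμ1] at hμ; refine le_of_mul_le_mul_left ?_ (mul_pos two_pos hs); nlinarith)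

/-- An approximate eigenvector orthogonal to e has a small eigenvalue. -/
lemma eigen_small {e v : H} {μ ε η : ℝ} (he : ‖e‖ = 1) (hv : ‖v‖ = 1) (hve : ⟪e, v⟫ = 0)
    (hε : 0 < ε) (hμε : ε ≤ |μ|) (hu : ‖E.β e v - μ • v‖ ≤ 2 * η) :
    ε ^ 2 - 2 * η * ε ≤ ‖D.I‖ * (20 * η) := by
  have hη : 0 ≤ η := by linarith [norm_nonneg (E.β e v - μ • v)]
  have hμ0 : μ ≠ 0 := fun h => by rw [h, abs_zero] at hμε; linarith
  set v' := μ⁻¹ • E.Bb e v with hv'
  obtain ⟨Φ, hΦ1, hΦ2⟩ := exists_dual_vector'' ℝ v'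
  simp only [RCLike.ofReal_real_eq_id, id_eq] at hΦ2
  have hIv : D.I v' - v = μ⁻¹ • (E.β e v - μ • v) := by
    rw [hv', map_smul, smul_sub, inv_smul_smul₀ hμ0, β]
  have hIvn : ‖D.I v' - v‖ ≤ 2 * η / ε := by
    rw [hIv, norm_smul, norm_inv, Real.norm_eq_abs, inv_mul_eq_div]
    exact div_le_div₀ (by positivity) hu hε hμε
  have hi := E.ident_bar e v' Φ hΦ1 hΦ2
  have hdiff : ‖E.Bb e (D.I v') - μ • v'‖ ≤ 6 * (2 * η / ε) := by
    rw [show μ • v' = E.Bb e v by rw [hv', smul_inv_smul₀ hμ0], ← map_sub]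
    have := E.le e (D.I v' - v); rw [he, mul_one] at this
    exact this.trans (by gcongr)
  have hΦd : |Φ (E.Bb e (D.I v') - μ • v')| ≤ 6 * (2 * η / ε) :=
    ((Φ.le_opNorm _).trans (mul_le_of_le_one_left (norm_nonneg _) hΦ1)).trans hdiff
  rw [map_sub, map_smul Φ μ v', smul_eq_mul, hΦ2] at hΦd
  have hc : |⟪e, D.I v'⟫| ≤ 2 * η / ε := by
    rw [show ⟪e, D.I v'⟫ = ⟪e, D.I v' - v⟫ by rw [inner_sub_right, hve, sub_zero]]
    refine (abs_real_inner_le_norm _ _).trans ?_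
    rw [he, one_mul]; exact hIvn
  have hvv : ε * ‖v'‖ ≤ 8 * (2 * η / ε) + 2 * (2 * η / ε) := by
    have := abs_sub_abs_le_abs_sub (μ * ‖v'‖) (Φ (E.Bb e (D.I v')))
    rw [abs_sub_comm] at hΦd
    rw [abs_mul, abs_norm] at this
    linarith [mul_le_mul_of_nonneg_right hμε (norm_nonneg v'),
      show 0 ≤ 2 * η / ε by positivity]
  have hlow : 1 - 2 * η / ε ≤ ‖D.I‖ * ‖v'‖ := by
    have h := norm_sub_norm_le v (D.I v')
    rw [hv, norm_sub_rev] at h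
    linarith [D.I.le_opNorm v']
  have a := mul_le_mul_of_nonneg_left hlow (sq_nonneg ε)
  have b := mul_le_mul_of_nonneg_left hvv (mul_nonneg hε.le (norm_nonneg D.I))
  have e1 : ε ^ 2 * (1 - 2 * η / ε) = ε ^ 2 - 2 * η * ε := by field_simp
  have e2 : ε * ‖D.I‖ * (8 * (2 * η / ε) + 2 * (2 * η / ε)) = ‖D.I‖ * (20 * η) := by
    field_simp; ring
  nlinarith

/-- An almost maximising unit vector of |⟪v, β(e,v)⟫| on the complement of e. -/
lemma exists_quad_max {e v₁ : H} {ε δ : ℝ} (he : ‖e‖ = 1) (hv₁e : ⟪e, v₁⟫ = 0) (hδ : 0 < δ)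
    (hv₁ : ε * ‖v₁‖ ^ 2 < |⟪v₁, E.β e v₁⟫|) :
    ∃ v m, ‖v‖ = 1 ∧ ⟪e, v⟫ = 0 ∧ m ≤ 6 * ‖D.I‖ ∧ ε ≤ |⟪v, E.β e v⟫| ∧
      m - δ ≤ |⟪v, E.β e v⟫| ∧ ∀ w, ⟪e, w⟫ = 0 → |⟪w, E.β e w⟫| ≤ m * ‖w‖ ^ 2 := by
  have hv₁0 : v₁ ≠ 0 := by rintro rfl; simp [β] at hv₁
  set Q : H → ℝ := fun v => ⟪v, E.β e v⟫
  have hQs : ∀ (t : ℝ) v, Q (t • v) = t ^ 2 * Q v := fun t v => by
    simp [Q, real_inner_smul_left, real_inner_smul_right]; ring
  set S : Set ℝ := (fun v => |Q v|) '' {v | ‖v‖ = 1 ∧ ⟪e, v⟫ = 0}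
  have hSC : ∀ x ∈ S, x ≤ 6 * ‖D.I‖ := by
    rintro _ ⟨v, ⟨hv, -⟩, rfl⟩
    refine (abs_real_inner_le_norm _ _).trans ?_
    have := E.β_le e v; rw [he, hv] at this; rw [hv]; linarith
  have hSb : BddAbove S := ⟨_, hSC⟩
  have hunit : ∀ v : H, v ≠ 0 → ⟪e, v⟫ = 0 → |Q v| / ‖v‖ ^ 2 ∈ S := by
    intro v hv0 hv
    have hn : 0 < ‖v‖ := norm_pos_iff.2 hv0
    refine ⟨‖v‖⁻¹ • v, ⟨by rw [norm_smul, norm_inv, norm_norm, inv_mul_cancel₀ hn.ne'],
      by rw [real_inner_smul_right, hv, mul_zero]⟩, ?_⟩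
    simp only [hQs, abs_mul, inv_pow, abs_inv, abs_pow, abs_norm]
    ring
  set m := sSup S
  have hm : ε < m := lt_of_lt_of_le
    ((lt_div_iff₀ (pow_pos (norm_pos_iff.2 hv₁0) 2)).2 hv₁) (le_csSup hSb (hunit _ hv₁0 hv₁e))
  obtain ⟨_, ⟨v, ⟨hv, hve⟩, rfl⟩, hvm⟩ :=
    exists_lt_of_lt_csSup ⟨_, hunit _ hv₁0 hv₁e⟩ (show m - min (m - ε) δ < m by
      linarith [lt_min (show 0 < m - ε by linarith) hδ])
  refine ⟨v, m, hv, hve, csSup_le ⟨_, hunit _ hv₁0 hv₁e⟩ hSC, by linarith [min_le_left (m - ε) δ],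
    by linarith [min_le_right (m - ε) δ], fun w hw => ?_⟩
  rcases eq_or_ne w 0 with rfl | hw0
  · simp [β]
  exact (div_le_iff₀ (pow_pos (norm_pos_iff.2 hw0) 2)).1 (le_csSup hSb (hunit _ hw0 hw))

/-- Near a maximiser the compression of β(e,·) to the orthogonal complement is small. -/
lemma compression {Dm : ℝ} (hD : 0 < Dm) (hDb : ∀ x, E.τ x ≤ Dm * ‖x‖ ^ 3) {ε : ℝ} (hε : 0 < ε) :
    ∃ δ > 0, ∀ e : H, ‖e‖ = 1 → Dm - δ ≤ E.τ e →
      ∀ v : H, ⟪e, v⟫ = 0 → |⟪v, E.β e v⟫| ≤ ε * ‖v‖ ^ 2 := by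
  set N := ‖D.I‖
  set A := N + 1
  set Z := Dm + 36 * N + 1
  set s₁ := min 1 (ε ^ 2 / (64 * A * (6 * N + 1) * Z))
  have hA : 1 ≤ A := by simp [A, N]
  have hN : 0 ≤ N := norm_nonneg _
  have hs₁ : 0 < s₁ := lt_min one_pos (by positivity)
  refine ⟨s₁ ^ 2, by positivity, fun e he hmax => ?_⟩
  by_contra hno
  push Not at hno
  obtain ⟨v₁, hv₁e, hv₁⟩ := hno
  obtain ⟨v, m, hv, hve, hmC, hμε, hμ, hQm⟩ :=
    E.exists_quad_max he hv₁e (sq_pos_of_pos hs₁) hv₁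
  have hm0 : 0 ≤ m := by
    have := hQm v hve; rw [hv, one_pow, mul_one] at this
    exact (abs_nonneg _).trans this
  set μ := ⟪v, E.β e v⟫
  set η := s₁ * Z with hη
  have hve' : |⟪e, E.β e v⟫| ≤ η := by
    have := E.gradient he hD.le hDb hmax (sq_nonneg _) hs₁ (min_le_left _ _) hve
    rw [hv, mul_one, sq, mul_div_assoc, div_self hs₁.ne', mul_one] at this
    rw [E.β_total e e v, E.β_symm e v, ← E.β_total v e e]
    exact this.trans (by simp only [η, Z]; nlinarith)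
  have hu : ‖E.β e v - μ • v‖ ≤ 2 * η := by
    set u := E.β e v - μ • v with hud
    set r := u - ⟪e, u⟫ • e with hrd
    have hue : ⟪e, u⟫ = ⟪e, E.β e v⟫ := by
      rw [hud, inner_sub_right, real_inner_smul_right, hve, mul_zero, sub_zero]
    have huv : ⟪v, u⟫ = 0 := by
      rw [hud, inner_sub_right, real_inner_smul_right, real_inner_self_eq_norm_sq, hv]
      ring
    have hre : ⟪e, r⟫ = 0 := by
      rw [hrd, inner_sub_right, real_inner_smul_right, real_inner_self_eq_norm_sq, he]; ring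
    have hrv : ⟪v, r⟫ = 0 := by
      rw [hrd, inner_sub_right, real_inner_smul_right, huv, real_inner_comm e v, hve]; ring
    have hr : ‖r‖ ≤ η := by
      rcases eq_or_ne r 0 with h0 | h0
      · rw [h0, norm_zero]; positivity
      have hn : 0 < ‖r‖ := norm_pos_iff.2 h0
      have h := E.quad_step (w := ‖r‖⁻¹ • r) he hv (by rw [real_inner_smul_right, hrv, mul_zero])
        (by rw [norm_smul, norm_inv, norm_norm, inv_mul_cancel₀ hn.ne']) hm0 hmC hs₁ hμ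
        (fun t => hQm _ (by
          rw [inner_add_right, real_inner_smul_right, real_inner_smul_right, hve, hre]; ring))
      have e2 : ⟪r, E.β e v⟫ = ‖r‖ ^ 2 := by
        rw [show E.β e v = r + ⟪e, u⟫ • e + μ • v by rw [hrd, hud]; abel, inner_add_right,
          inner_add_right, real_inner_smul_right, real_inner_smul_right, real_inner_comm e r,
          real_inner_comm v r, hre, hrv, real_inner_self_eq_norm_sq]
        ring
      rw [real_inner_smul_left, e2, sq, inv_mul_cancel_left₀ hn.ne', abs_of_pos hn] at h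
      exact h.trans (by simp only [η, Z]; nlinarith)
    calc ‖u‖ = ‖r + ⟪e, u⟫ • e‖ := by rw [hrd, sub_add_cancel]
      _ ≤ η + η := (norm_add_le _ _).trans (add_le_add hr (by
          rw [norm_smul, he, mul_one, Real.norm_eq_abs, hue]; exact hve'))
      _ = 2 * η := by ring
  have h1 := E.eigen_small he hv hve hε hμε hu
  have hs2 : η * (64 * A * (6 * N + 1)) ≤ ε ^ 2 := by
    have := (le_div_iff₀ (by positivity)).1 (min_le_right (1 : ℝ) (ε ^ 2 / (64 * A * (6 * N + 1) * Z)))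
    simp only [η]; linarith
  have hεC : ε ≤ 6 * N := by
    refine hμε.trans ((abs_real_inner_le_norm _ _).trans ?_)
    have := E.β_le e v; rw [he, hv] at this; rw [hv]; linarith
  have hη0 : 0 < η := by positivity
  nlinarith [mul_le_mul_of_nonneg_left hεC hη0.le, mul_nonneg (mul_nonneg hη0.le hN) hN]

/-- On the complement of a near maximiser β(e,·) is small. -/
lemma perp_small {e : H} {ε η : ℝ} (he : ‖e‖ = 1) (hε : 0 ≤ ε) (hη : 0 ≤ η)
    (hcomp : ∀ v : H, ⟪e, v⟫ = 0 → |⟪v, E.β e v⟫| ≤ ε * ‖v‖ ^ 2)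
    (hgrad : ∀ g : H, ⟪e, g⟫ = 0 → |⟪g, E.β e e⟫| ≤ η * ‖g‖)
    {f : H} (hfe : ⟪e, f⟫ = 0) (hf : ‖f‖ = 1) : ‖E.β e f‖ ≤ 2 * ε + η := by
  set u := E.β e f
  set r := u - ⟪e, u⟫ • e with hrd
  have hre : ⟪e, r⟫ = 0 := by
    rw [hrd, inner_sub_right, real_inner_smul_right, real_inner_self_eq_norm_sq, he]; ring
  have h1 : |⟪e, u⟫| ≤ η := by
    have := hgrad f hfe; rw [hf, mul_one] at this
    rwa [E.β_total e e f, E.β_symm e f, ← E.β_total f e e]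
  have hr : ‖r‖ ≤ 2 * ε := by
    rcases eq_or_ne r 0 with h0 | h0
    · rw [h0, norm_zero]; positivity
    have hn : 0 < ‖r‖ := norm_pos_iff.2 h0
    set g := ‖r‖⁻¹ • r with hg
    have hgn : ‖g‖ = 1 := by rw [hg, norm_smul, norm_inv, norm_norm, inv_mul_cancel₀ hn.ne']
    have hge : ⟪e, g⟫ = 0 := by rw [hg, real_inner_smul_right, hre, mul_zero]
    have ha := abs_le.1 (hcomp (f + g) (by rw [inner_add_right, hfe, hge, add_zero]))
    have hb := abs_le.1 (hcomp (f - g) (by rw [inner_sub_right, hfe, hge, sub_zero]))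
    have hs : ⟪f, E.β e g⟫ = ⟪g, E.β e f⟫ := by
      rw [E.β_total f e g, E.β_symm f g, ← E.β_total g e f]
    have hp := parallelogram_law_with_norm ℝ f g
    simp only [hf, hgn] at hp
    simp only [β_add_right, β_sub_right, inner_add_left, inner_add_right, inner_sub_left,
      inner_sub_right, hs] at ha hb
    have hfin : ⟪g, u⟫ ≤ ε := by
      have : ε * ‖f + g‖ ^ 2 + ε * ‖f - g‖ ^ 2 = 4 * ε := by linear_combination ε * hp
      linarith
    have e2 : ⟪g, u⟫ = ‖r‖ := by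
      rw [hg, real_inner_smul_left, show u = r + ⟪e, u⟫ • e by rw [hrd]; abel, inner_add_right,
        real_inner_smul_right, real_inner_comm e r, hre, real_inner_self_eq_norm_sq]
      field_simp; ring
    linarith
  calc ‖u‖ = ‖r + ⟪e, u⟫ • e‖ := by rw [hrd, sub_add_cancel]
    _ ≤ 2 * ε + η := (norm_add_le _ _).trans (add_le_add hr (by
        rw [norm_smul, he, mul_one, Real.norm_eq_abs]; exact h1))

/-- The functional estimate along the second vector. -/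
lemma phi_small {e f : H} {ξ v : W} {α γ ε ε₁ P : ℝ} (he : ‖e‖ = 1) (hf : ‖f‖ = 1)
    (hef : ⟪e, f⟫ = 0) (hα : 1 ≤ α) (hγ : 1 ≤ γ) (hαP : α ≤ P) (hγP : γ ≤ P)
    (hv : v = E.Bb e e - E.Bb f f) (hξ : ‖D.I ξ - (α • e + γ • f)‖ ≤ ε₁)
    (hBef : ‖E.Bb e f‖ ≤ ε) {Φ : W →L[ℝ] ℝ} (hΦ1 : ‖Φ‖ ≤ 1) (hΦ2 : Φ ξ = ‖ξ‖) :
    |Φ v| ≤ 16 * P * ε₁ + P ^ 2 * ε := by
  set η := γ • e - α • f with hη
  set ζ := α • e + γ • f with hζ
  have hP : 1 ≤ P := hα.trans hαP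
  have hε₁ : 0 ≤ ε₁ := le_trans (norm_nonneg _) hξ
  have hηn : ‖η‖ ≤ 2 * P := by
    refine (norm_sub_le _ _).trans ?_
    rw [norm_smul, norm_smul, he, hf, Real.norm_of_nonneg (by linarith),
      Real.norm_of_nonneg (by linarith : (0:ℝ) ≤ α)]
    linarith
  have horth : ⟪η, ζ⟫ = 0 := by
    simp [hη, hζ, inner_add_right, inner_sub_left, real_inner_smul_left, real_inner_smul_right,
      he, hf, hef, real_inner_comm e f]
    ring
  have hc : |⟪η, D.I ξ⟫| ≤ 2 * P * ε₁ := by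
    rw [show ⟪η, D.I ξ⟫ = ⟪η, D.I ξ - ζ⟫ by rw [inner_sub_right, horth, sub_zero]]
    exact (abs_real_inner_le_norm _ _).trans (mul_le_mul hηn hξ (norm_nonneg _) (by positivity))
  have hBv : ‖E.Bb η (D.I ξ) - (α * γ) • v‖ ≤ 6 * (2 * P) * ε₁ + P ^ 2 * ε := by
    have e2 : E.Bb η (D.I ξ) - (α * γ) • v =
        E.Bb η (D.I ξ - ζ) + (γ * γ - α * α) • E.Bb e f := by
      simp only [hη, hζ, hv, map_sub, map_add, map_smul, FunLike.coe_sub,
        Pi.sub_apply, FunLike.coe_smul, Pi.smul_apply, E.symm f e]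
      module
    rw [e2]
    refine (norm_add_le _ _).trans (add_le_add ((E.le _ _).trans ?_) ?_)
    · exact mul_le_mul (by linarith) hξ (norm_nonneg _) (by positivity)
    · rw [norm_smul, Real.norm_eq_abs]
      refine mul_le_mul ?_ hBef (norm_nonneg _) (by positivity)
      rw [abs_le]; constructor <;> nlinarith
  have hi := E.ident_bar η ξ Φ hΦ1 hΦ2
  have hΦd : |Φ (E.Bb η (D.I ξ) - (α * γ) • v)| ≤ 6 * (2 * P) * ε₁ + P ^ 2 * ε :=
    ((Φ.le_opNorm _).trans (mul_le_of_le_one_left (norm_nonneg _) hΦ1)).trans hBv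
  rw [map_sub, map_smul, smul_eq_mul, abs_sub_comm] at hΦd
  have h0 := abs_sub_abs_le_abs_sub (α * γ * Φ v) (Φ (E.Bb η (D.I ξ)))
  rw [abs_mul, abs_of_pos (show 0 < α * γ by positivity)] at h0
  have := le_mul_of_one_le_left (abs_nonneg (Φ v)) (one_le_mul_of_one_le_of_one_le hα hγ)
  linarith

/-- The two vector contradiction. -/
lemma two_vectors {Dm M : ℝ} (hD : 0 < Dm)
    (h : ∀ ε : ℝ, 0 < ε → ∃ (a b : W) (F : ℝ) (e f : H), F ≤ 0 ∧ -Dm ≤ F ∧ ‖a‖ ≤ M ∧ ‖b‖ ≤ M ∧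
      ‖e‖ = 1 ∧ ‖f‖ = 1 ∧ ⟪e, f⟫ = 0 ∧ ‖D.I a - e‖ ≤ ε ∧ ‖D.I b - f‖ ≤ ε ∧
      ‖E.β e e - Dm • e‖ ≤ ε ∧ ‖E.β f f - F • f‖ ≤ ε ∧ ‖E.Bb e f‖ ≤ ε) : False := by
  have hM : 0 ≤ M := by
    obtain ⟨a, b, F, e, f, -, -, ha, -⟩ := h 1 one_pos
    exact (norm_nonneg a).trans ha
  set N := ‖D.I‖
  have hN : 0 ≤ N := norm_nonneg _
  set S := (2 * M * (N + 1) + 4) / Dm
  have hS : 0 < S := by positivity
  have hSD : S * Dm = 2 * M * (N + 1) + 4 := div_mul_cancel₀ _ hD.ne'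
  set P := 1 + S * Dm
  set R := 16 * P * (2 + 2 * S) + P ^ 2
  have hR : 0 < R := by positivity
  set ε := min 1 (1 / (4 * (N + 1) * (R + 1) * (S + 1)))
  have hε : 0 < ε := lt_min one_pos (by positivity)
  obtain ⟨a, b, F, e, f, hF, hFD, ha, hb, he, hf, hef, hIa, hIb, hee, hff, hBef⟩ := h ε hε
  set γ := 1 - S * F
  have hα : 1 ≤ P := by nlinarith
  have hγ : 1 ≤ γ := by nlinarith
  have hγP : γ ≤ P := by simp only [γ, P]; nlinarith
  set v := E.Bb e e - E.Bb f f with hvd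
  set ξ := a + b + S • v with hξ
  have hIξ : ‖D.I ξ - (P • e + γ • f)‖ ≤ ε * (2 + 2 * S) := by
    have e1 : D.I ξ - (P • e + γ • f) =
        (D.I a - e) + (D.I b - f) + S • ((E.β e e - Dm • e) - (E.β f f - F • f)) := by
      simp only [hξ, hvd, P, γ, map_add, map_smul, map_sub, β]; module
    have h3 : ‖S • ((E.β e e - Dm • e) - (E.β f f - F • f))‖ ≤ S * (ε + ε) := by
      rw [norm_smul, Real.norm_of_nonneg hS.le]
      exact mul_le_mul_of_nonneg_left ((norm_sub_le _ _).trans (add_le_add hee hff)) hS.le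
    rw [e1]
    refine (norm_add₃_le).trans ?_
    linarith
  obtain ⟨Φ, hΦ1, hΦ2⟩ := exists_dual_vector'' ℝ ξ
  simp only [RCLike.ofReal_real_eq_id, id_eq] at hΦ2
  have hΦv : |Φ v| ≤ R * ε := by
    have := E.phi_small he hf hef hα hγ le_rfl hγP hvd hIξ hBef hΦ1 hΦ2
    calc |Φ v| ≤ _ := this
      _ = R * ε := by simp only [R]; ring
  have hup : ‖ξ‖ ≤ 2 * M + S * (R * ε) := by
    have hs : ∀ x : W, Φ x ≤ ‖x‖ := fun x =>
      ((le_abs_self _).trans (Φ.le_opNorm x)).trans (mul_le_of_le_one_left (norm_nonneg _) hΦ1)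
    rw [← hΦ2, hξ, map_add, map_add, map_smul, smul_eq_mul]
    linarith [hs a, hs b, mul_le_mul_of_nonneg_left ((le_abs_self _).trans hΦv) hS.le]
  have hlow : P - ε * (2 + 2 * S) ≤ N * ‖ξ‖ := by
    have h1 : P ≤ ‖P • e + γ • f‖ := by
      refine (pow_le_pow_iff_left₀ (by linarith) (norm_nonneg _) two_ne_zero).1 ?_
      rw [norm_add_sq_real, norm_smul, norm_smul, he, hf, real_inner_smul_left,
        real_inner_smul_right, hef, mul_pow, mul_pow, Real.norm_eq_abs, Real.norm_eq_abs, sq_abs,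
        sq_abs]
      nlinarith
    have h2 := norm_sub_norm_le (P • e + γ • f) (D.I ξ)
    rw [norm_sub_rev] at h2
    linarith [D.I.le_opNorm ξ]
  have hεb : ε * (4 * (N + 1) * (R + 1) * (S + 1)) ≤ 1 :=
    (le_div_iff₀ (by positivity)).1 (min_le_right _ _)
  have hk1 : ε * (2 + 2 * S) ≤ 1 := by
    refine le_trans (mul_le_mul_of_nonneg_left ?_ hε.le) hεb
    calc 2 + 2 * S ≤ 4 * (1 * 1) * (S + 1) := by linarith
      _ ≤ 4 * ((N + 1) * (R + 1)) * (S + 1) := by gcongr <;> linarith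
      _ = _ := by ring
  have hk2 : N * (S * (R * ε)) ≤ 1 := by
    refine le_trans ?_ hεb
    calc N * (S * (R * ε)) = ε * (N * R * S) := by ring
      _ ≤ ε * (4 * (N + 1) * (R + 1) * (S + 1)) := by gcongr <;> linarith
  linarith [mul_le_mul_of_nonneg_left hup hN]

end BarData

end Vale.Agent.P084.Full
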