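import Vale.Agent.P084.Full.AlgKer
import Mathlib.Analysis.Normed.Operator.Extend
import Mathlib.Analysis.Normed.Module.RieszLemma

/-!
P084 (Tingley's problem): the operators `B η` of exact second order data are Hilbert-Schmidt for
the semi-inner product, have their eigenvectors in `W`, and are bounded by it.
-/

noncomputable section

namespace Vale.Agent.P084.Full

open scoped RealInnerProductSpace Topology
open Filter

set_option linter.unusedSectionVars false

variable {W H : Type*} [NormedAddCommGroup W] [NormedSpace ℝ W] [NormedAddCommGroup H]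
  [InnerProductSpace ℝ H]

section Hilbert

/-- The rank one operator `x ↦ ⟪v, x⟫ • v`. -/
def rankOne (v : H) : H →L[ℝ] H := (innerSL ℝ v).smulRight v

theorem rankOne_apply (v x : H) : rankOne v x = ⟪v, x⟫ • v := rfl

theorem isUnit_add_rankOne {A : H →L[ℝ] H} (hA : IsUnit A) {v : H} (hv : ‖v‖ = 1) {a l : ℝ}
    (ha : A v = a • v) (ha0 : a ≠ 0) (hal : a + l ≠ 0) : IsUnit (A + l • rankOne v) := by
  have hvv : ⟪v, v⟫ = 1 := by rw [real_inner_self_eq_norm_sq, hv, one_pow]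
  have e : A + l • rankOne v = A * (1 + (l / a) • rankOne v) := by
    ext x
    simp only [mul_apply_eq_comp, add_apply,
      one_apply_eq_self, smul_apply, rankOne_apply, map_add,
      map_smul, ha, smul_smul]
    congr 2
    field_simp
  rw [e]
  refine hA.mul ?_
  set b := l / a with hb
  have hb1 : 1 + b ≠ 0 := by
    rw [hb, one_add_div ha0]
    exact div_ne_zero hal ha0
  have hid : b + -b / (1 + b) + b * (-b / (1 + b)) = 0 := by field_simp; ring
  refine ⟨⟨1 + b • rankOne v, 1 + (-b / (1 + b)) • rankOne v, ?_, ?_⟩, rfl⟩ <;>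
    · ext x
      simp only [mul_apply_eq_comp, add_apply,
        one_apply_eq_self, smul_apply, rankOne_apply, inner_add_right,
        real_inner_smul_right, hvv, mul_one, smul_smul, add_assoc, ← add_smul]
      refine add_eq_left.2 (smul_eq_zero.2 (Or.inl ?_))
      linear_combination ⟪v, x⟫ * hid

/-- A symmetric operator of norm `M > 0` has `M` or `-M` in its spectrum. -/
theorem not_isUnit_norm_smul {S : H →L[ℝ] H} (hS : ∀ x y, ⟪S x, y⟫ = ⟪x, S y⟫)
    (hM : 0 < ‖S‖) (h1 : IsUnit (‖S‖ • (1 : H →L[ℝ] H) - S))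
    (h2 : IsUnit ((-‖S‖) • (1 : H →L[ℝ] H) - S)) : False := by
  set M := ‖S‖ with hMdef
  obtain ⟨U, hU⟩ := h1.mul h2
  set R : H →L[ℝ] H := ((U⁻¹ : (H →L[ℝ] H)ˣ) : H →L[ℝ] H)
  have hRU : ∀ x, ‖x‖ ≤ (‖R‖ + 1) * ‖M ^ 2 • x - S (S x)‖ := by
    intro x
    have hx : R ((U : H →L[ℝ] H) x) = x := by
      simp only [R, ← mul_apply_eq_comp, U.inv_mul, one_apply_eq_self]
    have hval : (U : H →L[ℝ] H) x = -(M ^ 2 • x - S (S x)) := by
      rw [hU]
      simp only [mul_apply_eq_comp, sub_apply,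
        smul_apply, one_apply_eq_self, map_sub, map_smul]
      module
    calc ‖x‖ = ‖R ((U : H →L[ℝ] H) x)‖ := by rw [hx]
      _ ≤ ‖R‖ * ‖(U : H →L[ℝ] H) x‖ := R.le_opNorm _
      _ ≤ _ := by rw [hval, norm_neg]; nlinarith [norm_nonneg (M ^ 2 • x - S (S x))]
  set k := ‖R‖ + 1
  have hk : 0 < k := by positivity
  set q := M ^ 2 - 1 / (k ^ 2 * M ^ 2)
  have hq : q < M ^ 2 := sub_lt_self _ (by positivity)
  have hbd : ∀ x, ‖S x‖ ^ 2 ≤ q * ‖x‖ ^ 2 := by
    intro x
    have h3 : ‖x‖ ^ 2 ≤ k ^ 2 * ‖M ^ 2 • x - S (S x)‖ ^ 2 := by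
      rw [← mul_pow]; exact pow_le_pow_left₀ (norm_nonneg _) (hRU x) 2
    have h4 : ‖M ^ 2 • x - S (S x)‖ ^ 2 ≤ M ^ 4 * ‖x‖ ^ 2 - M ^ 2 * ‖S x‖ ^ 2 := by
      have h5 : ‖S (S x)‖ ^ 2 ≤ M ^ 2 * ‖S x‖ ^ 2 := by
        rw [← mul_pow]; exact pow_le_pow_left₀ (norm_nonneg _) (S.le_opNorm _) 2
      rw [norm_sub_sq_real, norm_smul, Real.norm_of_nonneg (by positivity), real_inner_smul_left,
        ← hS x (S x), real_inner_self_eq_norm_sq]
      nlinarith
    have h6 := h3.trans (mul_le_mul_of_nonneg_left h4 (sq_nonneg k))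
    rw [show q * ‖x‖ ^ 2 = (k ^ 2 * (M ^ 4 * ‖x‖ ^ 2) - ‖x‖ ^ 2) / (k ^ 2 * M ^ 2) by
      simp only [q]; field_simp]
    rw [le_div_iff₀ (by positivity)]
    linarith
  rcases lt_or_ge q 0 with hq0 | hq0
  · have : S = 0 := by
      ext x
      have := hbd x
      have h7 : ‖S x‖ ^ 2 ≤ 0 := this.trans (mul_nonpos_of_nonpos_of_nonneg hq0.le (sq_nonneg _))
      simpa using norm_eq_zero.1 (pow_eq_zero_iff two_ne_zero |>.1 (le_antisymm h7 (sq_nonneg _)))
    simp [hMdef, this] at hM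
  · have hle : M ≤ √q := S.opNorm_le_bound (Real.sqrt_nonneg _) fun x => by
      rw [← pow_le_pow_iff_left₀ (norm_nonneg _) (by positivity) two_ne_zero, mul_pow,
        Real.sq_sqrt hq0]
      exact hbd x
    nlinarith [Real.sq_sqrt hq0, Real.sqrt_nonneg q]

end Hilbert

namespace AlgData

variable (D : AlgData W H)

/-- The operator is symmetric for the semi-inner product. -/
def IsSymm (A : W →L[ℝ] W) : Prop := ∀ x y, ⟪D.I (A x), D.I y⟫ = ⟪D.I x, D.I (A y)⟫

theorem isSymm_B (η : W) : D.IsSymm (D.B η) := fun x y => by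
  rw [real_inner_comm (D.I y) _, D.symm η x, D.total y x η, D.symm y η]

theorem ident_dual (η u : W) : ∃ Φ : W →L[ℝ] ℝ, ‖Φ‖ ≤ 1 ∧ Φ u = ‖u‖ ∧
    |Φ (D.B η u)| ≤ 2 * |⟪D.I η, D.I u⟫| := by
  obtain ⟨Φ, h1, h2⟩ := exists_dual_vector'' ℝ u
  have h2 : Φ u = ‖u‖ := by simpa using h2
  exact ⟨Φ, h1, h2, D.ident η u Φ h1 h2⟩

theorem norm_I_le {A : W →L[ℝ] W} (hA : D.IsSymm A) (x : W) :
    ‖D.I (A x)‖ ≤ ‖A‖ * ‖D.I x‖ := by
  set f : ℕ → ℝ := fun n => ‖D.I ((⇑A)^[n] x)‖ with hf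
  have hstep : ∀ n, f (n + 1) ^ 2 ≤ f n * f (n + 2) := by
    intro n
    simp only [hf, Function.iterate_succ_apply']
    rw [← real_inner_self_eq_norm_sq, hA]
    exact real_inner_le_norm _ _
  have hnn : ∀ n, 0 ≤ f n := fun n => norm_nonneg _
  have hb : ∀ n, f n ≤ ‖D.I‖ * (‖A‖ ^ n * ‖x‖) := by
    intro n
    refine (D.I.le_opNorm _).trans (mul_le_mul_of_nonneg_left ?_ (norm_nonneg _))
    induction n with
    | zero => simp
    | succ n ih =>
      rw [Function.iterate_succ_apply', pow_succ', mul_assoc]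
      exact (A.le_opNorm _).trans (mul_le_mul_of_nonneg_left ih (norm_nonneg _))
  have e0 : ‖D.I x‖ = f 0 := rfl
  have e1 : ‖D.I (A x)‖ = f 1 := rfl
  rw [e0, e1]
  by_cases h0 : f 0 = 0
  · have h := hstep 0
    simp only [zero_add, h0, zero_mul] at h
    rw [h0, mul_zero]
    nlinarith [hnn 1]
  have hratio : ∀ n, f 1 * f n ≤ f 0 * f (n + 1) := by
    intro n
    induction n with
    | zero => exact le_of_eq (mul_comm _ _)
    | succ n ih =>
      rcases (hnn (n + 1)).eq_or_lt with h | h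
      · rw [← h, mul_zero]; exact mul_nonneg (hnn 0) (hnn _)
      refine le_of_mul_le_mul_right ?_ h
      calc f 1 * f (n + 1) * f (n + 1) = f 1 * f (n + 1) ^ 2 := by ring
        _ ≤ f 1 * (f n * f (n + 2)) := mul_le_mul_of_nonneg_left (hstep n) (hnn 1)
        _ = f 1 * f n * f (n + 2) := by ring
        _ ≤ f 0 * f (n + 1) * f (n + 2) := mul_le_mul_of_nonneg_right ih (hnn _)
        _ = _ := by ring
  have hpow : ∀ n, f 1 ^ n * f 0 ≤ f 0 ^ n * f n := by
    intro n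
    induction n with
    | zero => simp
    | succ n ih =>
      calc f 1 ^ (n + 1) * f 0 = f 1 * (f 1 ^ n * f 0) := by ring
        _ ≤ f 1 * (f 0 ^ n * f n) := mul_le_mul_of_nonneg_left ih (hnn 1)
        _ = f 0 ^ n * (f 1 * f n) := by ring
        _ ≤ f 0 ^ n * (f 0 * f (n + 1)) := mul_le_mul_of_nonneg_left (hratio n) (pow_nonneg (hnn 0) n)
        _ = _ := by ring
  by_contra hlt
  push Not at hlt
  have hf0 : 0 < f 0 := (hnn 0).lt_of_ne' h0
  by_cases hA0 : ‖A‖ = 0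
  · rw [hA0, zero_mul] at hlt
    have h := hb 1
    rw [hA0, pow_one, zero_mul, mul_zero] at h
    linarith
  have hA1 : 0 < ‖A‖ := (norm_nonneg _).lt_of_ne' hA0
  have hr : 1 < f 1 / (‖A‖ * f 0) := (one_lt_div (by positivity)).2 hlt
  obtain ⟨n, hn⟩ := ((tendsto_pow_atTop_atTop_of_one_lt hr).eventually
    (eventually_gt_atTop (‖D.I‖ * ‖x‖ / f 0))).exists
  rw [div_pow, div_lt_div_iff₀ hf0 (by positivity)] at hn
  have h7 := (hpow n).trans (mul_le_mul_of_nonneg_left (hb n) (pow_nonneg hf0.le n))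
  rw [mul_pow] at hn
  nlinarith

variable [CompleteSpace H]

/-- The operator induced on `H`. -/
def desc (A : W →L[ℝ] W) : H →L[ℝ] H :=
  (D.I.comp A).toLinearMap.extendOfNorm D.I.toLinearMap

theorem desc_I {A : W →L[ℝ] W} (hA : D.IsSymm A) (x : W) : D.desc A (D.I x) = D.I (A x) :=
  LinearMap.extendOfNorm_eq (f := (D.I.comp A).toLinearMap) (e := D.I.toLinearMap) D.dense
    ⟨‖A‖, fun y => D.norm_I_le hA y⟩ x

theorem desc_ext {S S' : H →L[ℝ] H} (h : ∀ x, S (D.I x) = S' (D.I x)) : S = S' :=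
  ContinuousLinearMap.ext fun y =>
    congrFun (D.dense.equalizer S.continuous S'.continuous (funext h)) y

theorem desc_symm {A : W →L[ℝ] W} (hA : D.IsSymm A) (x y : H) :
    ⟪D.desc A x, y⟫ = ⟪x, D.desc A y⟫ := by
  induction x, y using D.dense.induction_on₂ with
  | hp => exact isClosed_eq (by fun_prop) (by fun_prop)
  | h a b => rw [D.desc_I hA, D.desc_I hA, hA]

theorem isUnit_of_bijective [CompleteSpace W] {A : W →L[ℝ] W} (hA : D.IsSymm A)
    (hb : Function.Bijective A) {S : H →L[ℝ] H} (hS : ∀ x, S (D.I x) = D.I (A x)) :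
    IsUnit S := by
  obtain ⟨U, rfl⟩ := ContinuousLinearMap.isUnit_iff_bijective.2 hb
  set R : W →L[ℝ] W := ((U⁻¹ : (W →L[ℝ] W)ˣ) : W →L[ℝ] W) with hR
  have h1 : ∀ x, (U : W →L[ℝ] W) (R x) = x := fun x => by
    simp only [hR, ← mul_apply_eq_comp, U.mul_inv, one_apply_eq_self]
  have h2 : ∀ x, R ((U : W →L[ℝ] W) x) = x := fun x => by
    simp only [hR, ← mul_apply_eq_comp, U.inv_mul, one_apply_eq_self]
  have hRs : D.IsSymm R := fun x y => by
    conv_lhs => rw [← h1 y]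
    rw [← hA, h1]
  exact ⟨⟨S, D.desc R, D.desc_ext fun x => by
      simp [D.desc_I hRs, hS, h1], D.desc_ext fun x => by
      simp [D.desc_I hRs, hS, h2]⟩, rfl⟩

variable (η : W)

/-- The functional `u ↦ ⟪I η, I u⟫`. -/
def cl : W →L[ℝ] ℝ := (innerSL ℝ (D.I η)).comp D.I

theorem cl_apply (u : W) : D.cl η u = ⟪D.I η, D.I u⟫ := rfl

theorem est (l : ℝ) (u : W) : |l| * ‖u‖ ≤ ‖l • u - D.B η u‖ + 2 * |D.cl η u| := by
  obtain ⟨Φ, h1, h2, h3⟩ := D.ident_dual η u
  have h4 : |Φ (l • u - D.B η u)| ≤ ‖l • u - D.B η u‖ :=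
    (Φ.le_opNorm _).trans (mul_le_of_le_one_left (norm_nonneg _) h1)
  rw [map_sub, map_smul, h2, smul_eq_mul] at h4
  have h5 : |l| * ‖u‖ = |l * ‖u‖| := by rw [abs_mul, abs_norm]
  rw [h5, cl_apply]
  have := abs_sub_abs_le_abs_sub (l * ‖u‖) (Φ (D.B η u))
  linarith

/-- `u ↦ ((l - B η) u, ⟪I η, I u⟫)`. -/
def gmap (l : ℝ) : W →L[ℝ] W × ℝ :=
  (l • ContinuousLinearMap.id ℝ W - D.B η).prod (D.cl η)

/-- `(u, r) ↦ gmap l u + r • q`. -/
def cmap (l : ℝ) (q : W × ℝ) : W × ℝ →L[ℝ] W × ℝ :=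
  (D.gmap η l).comp (ContinuousLinearMap.fst ℝ W ℝ) +
    (ContinuousLinearMap.snd ℝ W ℝ).smulRight q

theorem gmap_apply (l : ℝ) (u : W) : D.gmap η l u = (l • u - D.B η u, D.cl η u) := rfl

theorem cmap_apply (l : ℝ) (q z : W × ℝ) : D.cmap η l q z = D.gmap η l z.1 + z.2 • q := rfl

theorem gmap_bound (l : ℝ) (u : W) : |l| * ‖u‖ ≤ 3 * ‖D.gmap η l u‖ := by
  rw [gmap_apply]
  have h1 := norm_fst_le (l • u - D.B η u, D.cl η u)
  have h2 := norm_snd_le (l • u - D.B η u, D.cl η u)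
  rw [Real.norm_eq_abs] at h2
  linarith [D.est η l u]

/-- The range of `gmap l` has codimension one. -/
def CodimOne (l : ℝ) : Prop := ∃ q, Function.Bijective (D.cmap η l q)

variable {η} [CompleteSpace W]

theorem codimOne_large {l : ℝ} (hl : ‖D.B η‖ < |l|) : D.CodimOne η l := by
  have hl0 : l ≠ 0 := fun e => by simp [e] at hl; linarith [norm_nonneg (D.B η)]
  have hu : IsUnit (1 - l⁻¹ • D.B η) :=
    isUnit_one_sub_of_norm_lt_one (by
      rw [norm_smul, norm_inv, Real.norm_eq_abs, inv_mul_lt_iff₀ (abs_pos.2 hl0), mul_one]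
      exact hl)
  have hb : Function.Bijective (fun u => l • u - D.B η u) := by
    have h := ContinuousLinearMap.isUnit_iff_bijective.1 hu
    have e : (fun u => l • u - D.B η u) = (fun u => l • u) ∘ ⇑(1 - l⁻¹ • D.B η) := by
      funext u
      simp [smul_sub, smul_smul, hl0]
    rw [e]
    exact (show Function.Bijective fun u : W => l • u from
      (isUnit_iff_ne_zero.2 hl0).smul_bijective).comp h
  refine ⟨(0, 1), ?_, fun y => ?_⟩
  · intro z z' h
    rw [cmap_apply, cmap_apply, gmap_apply, gmap_apply] at h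
    simp only [Prod.smul_mk, smul_zero, Prod.mk_add_mk, add_zero, Prod.mk.injEq, smul_eq_mul,
      mul_one] at h
    have h1 := hb.1 h.1
    exact Prod.ext h1 (by rw [h1] at h; linarith [h.2])
  · obtain ⟨u, hu⟩ := hb.2 y.1
    refine ⟨(u, y.2 - D.cl η u), ?_⟩
    simp [cmap_apply, gmap_apply, hu]

theorem CodimOne.step {l l' : ℝ} (h : D.CodimOne η l) (hl : l ≠ 0) (h1 : 20 * |l' - l| < |l|)
    (h2 : 4 * |l' - l| < 1) : D.CodimOne η l' := by
  obtain ⟨q₀, hq₀⟩ := h
  have hl' : 0 < |l| := abs_pos.2 hl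
  let F : Submodule ℝ (W × ℝ) := (D.gmap η l).range
  have hFc : IsClosed (F : Set (W × ℝ)) := by
    have ha : AntilipschitzWith (3 / |l|).toNNReal (D.gmap η l) :=
      (D.gmap η l).antilipschitz_of_bound fun u => by
        rw [Real.coe_toNNReal _ (by positivity), div_mul_eq_mul_div, le_div_iff₀ hl']
        linarith [D.gmap_bound η l u]
    simpa [F, LinearMap.coe_range] using ha.isClosed_range (D.gmap η l).uniformContinuous
  have hF : q₀ ∉ F := by
    rintro ⟨u, hu⟩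
    have h3 : D.cmap η l q₀ (u, 0) = D.cmap η l q₀ (0, 1) := by
      simpa [cmap_apply] using hu
    simpa using congrArg Prod.snd (hq₀.1 h3)
  obtain ⟨q, hqF, hq1, hq⟩ := riesz_lemma_of_lt_one hFc ⟨q₀, hF⟩ (r := (1 / 2 : ℝ)) (by norm_num)
  set C := D.cmap η l q
  set K := 9 / |l| + 2
  have hK : ∀ z, ‖z‖ ≤ K * ‖C z‖ := by
    intro z
    have hr : |z.2| ≤ 2 * ‖C z‖ := by
      rcases eq_or_ne z.2 0 with h0 | h0
      · rw [h0, abs_zero]; positivity
      have h3 := hq (-(D.gmap η l) (z.2⁻¹ • z.1)) (neg_mem ⟨_, rfl⟩)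
      rw [sub_neg_eq_add, add_comm] at h3
      have e : C z = z.2 • (D.gmap η l (z.2⁻¹ • z.1) + q) := by
        simp [C, cmap_apply, smul_smul, h0, smul_add]
      rw [e, norm_smul, Real.norm_eq_abs]
      nlinarith [abs_nonneg z.2]
    have hg : ‖D.gmap η l z.1‖ ≤ 3 * ‖C z‖ := by
      have e : D.gmap η l z.1 = C z - z.2 • q := by simp [C, cmap_apply]
      rw [e]
      refine (norm_sub_le _ _).trans ?_
      rw [norm_smul, hq1, mul_one, Real.norm_eq_abs]
      linarith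
    have hu : ‖z.1‖ ≤ 9 / |l| * ‖C z‖ := by
      rw [div_mul_eq_mul_div, le_div_iff₀ hl', mul_comm]
      linarith [D.gmap_bound η l z.1]
    have hpos : 0 ≤ 9 / |l| * ‖C z‖ := by positivity
    rw [Prod.norm_def, Real.norm_eq_abs]
    refine max_le ?_ ?_ <;> simp only [K, add_mul] <;> nlinarith [norm_nonneg (C z)]
  have hCb : Function.Bijective C := by
    refine ⟨(injective_iff_map_eq_zero C).2 fun z hz =>
      norm_le_zero_iff.1 (by simpa [hz] using hK z), fun y => ?_⟩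
    obtain ⟨⟨a, b⟩, hab⟩ := hq₀.2 q
    obtain ⟨⟨u, r⟩, hur⟩ := hq₀.2 y
    simp only [cmap_apply] at hab hur
    have hb : b ≠ 0 := fun e => hqF ⟨a, by simpa [e] using hab⟩
    refine ⟨(u - (r / b) • a, r / b), ?_⟩
    simp only [C, cmap_apply, map_sub, map_smul, ← hab, ← hur, smul_add, smul_smul,
      div_mul_cancel₀ r hb]
    abel
  obtain ⟨U, hU⟩ := ContinuousLinearMap.isUnit_iff_bijective.2 hCb
  set R : W × ℝ →L[ℝ] W × ℝ := ((U⁻¹ : (W × ℝ →L[ℝ] W × ℝ)ˣ) : W × ℝ →L[ℝ] W × ℝ) with hR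
  set E := D.cmap η l' q - C
  have hE : ‖R * E‖ < 1 := by
    refine lt_of_le_of_lt (ContinuousLinearMap.opNorm_le_bound _ (M := K * |l' - l|)
      (by positivity) fun z => ?_) ?_
    · refine (hK _).trans ?_
      have e : C ((R * E) z) = E z := by
        rw [← hU, hR]
        simp only [← mul_apply_eq_comp, ← mul_assoc, U.mul_inv, one_mul]
      rw [e, mul_assoc K]
      refine mul_le_mul_of_nonneg_left ?_ (by positivity)
      have e2 : E z = ((l' - l) • z.1, 0) := by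
        simp [E, C, cmap_apply, gmap_apply, sub_smul]
      rw [e2, Prod.norm_mk, norm_zero, max_eq_left (norm_nonneg _), norm_smul, Real.norm_eq_abs]
      exact mul_le_mul_of_nonneg_left (norm_fst_le z) (abs_nonneg _)
    · rw [add_mul, div_mul_eq_mul_div]
      have : 9 * |l' - l| / |l| < 9 / 20 := by
        rw [div_lt_div_iff₀ hl' (by norm_num)]; linarith
      linarith
  have hu1 : IsUnit (1 + R * E) := by
    rw [← sub_neg_eq_add]; exact isUnit_one_sub_of_norm_lt_one (by rwa [norm_neg])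
  refine ⟨q, ContinuousLinearMap.isUnit_iff_bijective.1 ?_⟩
  have e : D.cmap η l' q = (U : W × ℝ →L[ℝ] W × ℝ) * (1 + R * E) := by
    rw [mul_add, mul_one, ← mul_assoc, hR, U.mul_inv, one_mul, hU]
    simp [E]
  rw [e]
  exact U.isUnit.mul hu1

theorem codimOne {l : ℝ} (hl : l ≠ 0) : D.CodimOne η l := by
  have hl' : 0 < |l| := abs_pos.2 hl
  set t : ℝ := min (1 / 21) (1 / (5 * |l|))
  have ht : 0 < t := lt_min (by norm_num) (by positivity)
  have key : ∀ k : ℕ, D.CodimOne η (l * (1 + k * t)) → D.CodimOne η l := by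
    intro k
    induction k with
    | zero => simp
    | succ k ih =>
      intro h
      refine ih (h.step D ?_ ?_ ?_)
      · exact mul_ne_zero hl (by positivity)
      all_goals
        rw [show l * (1 + (k : ℝ) * t) - l * (1 + ((k + 1 : ℕ) : ℝ) * t) = -(l * t) by
          push_cast; ring, abs_neg, abs_mul, abs_of_pos ht]
      · rw [abs_mul, abs_of_pos (show (0 : ℝ) < 1 + ((k + 1 : ℕ) : ℝ) * t by positivity)]
        have : t ≤ 1 / 21 := min_le_left _ _
        have : (0 : ℝ) ≤ ((k + 1 : ℕ) : ℝ) * t := by positivity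
        nlinarith
      · have h5 : t ≤ 1 / (5 * |l|) := min_le_right _ _
        rw [le_div_iff₀ (by positivity)] at h5
        nlinarith
  obtain ⟨k, hk⟩ := exists_nat_gt ((‖D.B η‖ + 1) / (|l| * t))
  refine key k (D.codimOne_large ?_)
  rw [div_lt_iff₀ (by positivity)] at hk
  rw [abs_mul, abs_of_pos (show (0 : ℝ) < 1 + (k : ℝ) * t by positivity)]
  nlinarith

/-- A normalised eigenvector in `W`. -/
def IsEigen (η : W) (l : ℝ) (u : W) : Prop := D.B η u = l • u ∧ ‖D.I u‖ = 1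

theorem eq_zero_of_kernel {l : ℝ} (hl : l ≠ 0) {u : W} (h : D.B η u = l • u)
    (hc : D.cl η u = 0) : u = 0 := by
  have := D.est η l u
  rw [h, sub_self, norm_zero, hc, abs_zero] at this
  have h' : |l| * ‖u‖ = 0 := le_antisymm (by linarith) (by positivity)
  simpa [hl] using h'

theorem isSymm_sub (l : ℝ) : D.IsSymm (l • ContinuousLinearMap.id ℝ W - D.B η) := fun x y => by
  simp [inner_sub_left, inner_sub_right, real_inner_smul_left, real_inner_smul_right, D.isSymm_B η x y]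

theorem isUnit_or_eigen {l : ℝ} (hl : l ≠ 0) :
    IsUnit (l • (1 : H →L[ℝ] H) - D.desc (D.B η)) ∨ ∃ u, D.IsEigen η l u := by
  by_cases hk : ∃ u, u ≠ 0 ∧ D.B η u = l • u
  · obtain ⟨u, hu, he⟩ := hk
    have hI : ‖D.I u‖ ≠ 0 := fun e => hu (D.eq_zero_of_kernel hl he (by
      rw [cl_apply, norm_eq_zero.1 e, inner_zero_right]))
    exact Or.inr ⟨‖D.I u‖⁻¹ • u, by rw [map_smul, he, smul_comm],
      by rw [map_smul, norm_smul, norm_inv, norm_norm, inv_mul_cancel₀ hI]⟩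
  push Not at hk
  left
  obtain ⟨q, hq⟩ := D.codimOne (η := η) hl
  refine D.isUnit_of_bijective (D.isSymm_sub (η := η) l) ⟨?_, fun y => ?_⟩ fun x => by
    simp [D.desc_I (D.isSymm_B η)]
  · refine (injective_iff_map_eq_zero _).2 fun u hu => ?_
    by_contra h
    exact hk u h (sub_eq_zero.1 hu).symm
  · obtain ⟨⟨a, b⟩, hab⟩ := hq.2 (0, 1)
    obtain ⟨⟨u, r⟩, hur⟩ := hq.2 (y, 0)
    simp only [cmap_apply, gmap_apply, Prod.smul_def, Prod.mk_add_mk, Prod.mk.injEq,
      smul_eq_mul] at hab hur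
    have hb : b ≠ 0 := fun e => by
      simp only [e, zero_smul, add_zero, zero_mul] at hab
      have ha : a = 0 := by_contra fun h => hk a h (sub_eq_zero.1 hab.1).symm
      simp [ha] at hab
    refine ⟨u - (r / b) • a, ?_⟩
    have h3 : l • a - D.B η a = -(b • q.1) := eq_neg_of_add_eq_zero_left hab.1
    show l • (u - (r / b) • a) - D.B η (u - (r / b) • a) = y
    rw [← hur.1, map_sub, map_smul, smul_sub, smul_comm l, sub_sub_sub_comm, ← smul_sub, h3,
      smul_neg, smul_smul, div_mul_cancel₀ r hb, sub_neg_eq_add]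

theorem isUnit_deflate {l : ℝ} (hl : l ≠ 0) {u : W} (hu : D.IsEigen η l u) :
    IsUnit (l • (1 : H →L[ℝ] H) - D.desc (D.B η) + l • rankOne (D.I u)) := by
  set A : W →L[ℝ] W := l • ContinuousLinearMap.id ℝ W - D.B η +
    l • ((innerSL ℝ (D.I u)).comp D.I).smulRight u with hA
  have hAx : ∀ x, A x = l • x - D.B η x + l • (⟪D.I u, D.I x⟫ • u) := fun x => rfl
  have hsymm : D.IsSymm A := fun x y => by
    simp only [hAx, map_add, map_sub, map_smul, inner_add_left, inner_add_right, inner_sub_left,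
      inner_sub_right, real_inner_smul_left, real_inner_smul_right, D.isSymm_B η x y,
      real_inner_comm (D.I x) (D.I u)]
    ring
  have huu : ⟪D.I u, D.I u⟫ = 1 := by rw [real_inner_self_eq_norm_sq, hu.2, one_pow]
  have horth : ∀ x, ⟪D.I u, D.I (l • x - D.B η x)⟫ = 0 := fun x => by
    rw [map_sub, map_smul, inner_sub_right, real_inner_smul_right, ← D.isSymm_B η u x, hu.1,
      map_smul, real_inner_smul_left, sub_self]
  have hu0 : u ≠ 0 := fun e => by simp [e] at huu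
  have hcu : D.cl η u ≠ 0 := fun e => hu0 (D.eq_zero_of_kernel hl hu.1 e)
  refine D.isUnit_of_bijective hsymm ⟨?_, fun y => ?_⟩ fun x => by
    simp [hAx, D.desc_I (D.isSymm_B η), rankOne_apply]
  · refine (injective_iff_map_eq_zero _).2 fun x hx => ?_
    rw [hAx] at hx
    have hp : ⟪D.I u, D.I x⟫ = 0 := by
      have := congrArg (fun v => ⟪D.I u, D.I v⟫) hx
      simp only [map_add, inner_add_right, horth, zero_add, map_smul, real_inner_smul_right, huu,
        mul_one, map_zero, inner_zero_right] at this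
      simpa [hl] using this
    simp only [hp, zero_smul, smul_zero, add_zero] at hx
    have hx' : D.B η x = l • x := (sub_eq_zero.1 hx).symm
    have h1 : x - (D.cl η x / D.cl η u) • u = 0 := D.eq_zero_of_kernel hl
      (by rw [map_sub (D.B η), map_smul (D.B η), hx', hu.1, smul_sub, smul_comm l]) (by
        rw [map_sub (D.cl η), map_smul (D.cl η), smul_eq_mul, div_mul_cancel₀ _ hcu, sub_self])
    rw [sub_eq_zero] at h1
    have h2 : D.cl η x / D.cl η u = 0 := by
      rw [h1, map_smul, real_inner_smul_right, huu, mul_one] at hp; exact hp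
    rw [h1, h2, zero_smul]
  · obtain ⟨q, hq⟩ := D.codimOne (η := η) hl
    have hdec : ∀ v, ∃ x r, v = l • x - D.B η x + r • q.1 := fun v => by
      obtain ⟨⟨x, r⟩, h⟩ := hq.2 (v, 0)
      exact ⟨x, r, (congrArg Prod.fst h).symm⟩
    obtain ⟨a, b, hab⟩ := hdec u
    obtain ⟨x, r, hxr⟩ := hdec y
    have hb : b ≠ 0 := fun e => by
      rw [e, zero_smul, add_zero] at hab
      have := horth a
      rw [← hab, huu] at this
      exact one_ne_zero this
    set x' := x - (r / b) • a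
    have hy : y = l • x' - D.B η x' + (r / b) • u := by
      rw [hxr]
      conv_rhs => rw [hab]
      simp only [x', map_sub, map_smul, smul_sub, smul_add, smul_smul, div_mul_cancel₀ r hb]
      module
    refine ⟨x' + ((r / b / l) - ⟪D.I u, D.I x'⟫) • u, ?_⟩
    rw [hy, hAx]
    simp only [map_add, map_smul, hu.1, inner_add_right, real_inner_smul_right, huu, mul_one]
    match_scalars <;> field_simp <;> ring

variable (η)

/-- The nonzero eigenvalues. -/
def eig : Set ℝ := {l | l ≠ 0 ∧ ∃ u, D.IsEigen η l u}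

/-- A chosen normalised eigenvector. -/
def vec (l : D.eig η) : W := l.2.2.choose

theorem isEigen_vec (l : D.eig η) : D.IsEigen η l (D.vec η l) := l.2.2.choose_spec

theorem orthonormal_vec : Orthonormal ℝ fun l => D.I (D.vec η l) := by
  refine ⟨fun l => (D.isEigen_vec η l).2, fun i j hij => ?_⟩
  have h := D.isSymm_B η (D.vec η i) (D.vec η j)
  rw [(D.isEigen_vec η i).1, (D.isEigen_vec η j).1, map_smul, map_smul, real_inner_smul_left,
    real_inner_smul_right] at h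
  have : ((i : ℝ) - j) * ⟪D.I (D.vec η i), D.I (D.vec η j)⟫ = 0 := by linarith
  simpa [sub_eq_zero, Subtype.coe_injective.eq_iff, hij] using this

theorem norm_vec_le (l : D.eig η) :
    |(l : ℝ)| * ‖D.vec η l‖ ≤ 2 * |⟪D.I η, D.I (D.vec η l)⟫| := by
  have h := D.est η l (D.vec η l)
  rw [(D.isEigen_vec η l).1, sub_self, norm_zero, zero_add] at h
  exact h

theorem sum_coeff_sq_le (y : H) (s : Finset (D.eig η)) :
    ∑ l ∈ s, ⟪y, D.I (D.vec η l)⟫ ^ 2 ≤ ‖y‖ ^ 2 :=
  le_of_eq_of_le (Finset.sum_congr rfl fun l _ => by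
      rw [real_inner_comm, Real.norm_eq_abs, sq_abs])
    ((D.orthonormal_vec η).sum_inner_products_le (s := s) y)

/-- There are finitely many eigenvalues off any neighbourhood of zero. -/
theorem finite_eig {ε : ℝ} (hε : 0 < ε) : {l : D.eig η | ε ≤ |(l : ℝ)|}.Finite := by
  by_contra hinf
  obtain ⟨m, hm⟩ := exists_nat_gt (4 * ‖D.I‖ ^ 2 * ‖D.I η‖ ^ 2 / ε ^ 2)
  obtain ⟨s, hs, hcard⟩ := Set.Infinite.exists_subset_card_eq hinf m
  have h1 : ∀ l ∈ s, ε ^ 2 ≤ 4 * ‖D.I‖ ^ 2 * ⟪D.I η, D.I (D.vec η l)⟫ ^ 2 := fun l hl => by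
    have h2 := D.norm_vec_le η l
    have h3 := D.I.le_opNorm (D.vec η l)
    rw [(D.isEigen_vec η l).2] at h3
    have h4 : ε ≤ |(l : ℝ)| := hs hl
    have h5 : ε ≤ 2 * ‖D.I‖ * |⟪D.I η, D.I (D.vec η l)⟫| := by
      calc ε ≤ |(l : ℝ)| * (‖D.I‖ * ‖D.vec η l‖) :=
            h4.trans (le_mul_of_one_le_right (abs_nonneg _) h3)
        _ = ‖D.I‖ * (|(l : ℝ)| * ‖D.vec η l‖) := by ring
        _ ≤ ‖D.I‖ * (2 * |⟪D.I η, D.I (D.vec η l)⟫|) :=
            mul_le_mul_of_nonneg_left h2 (norm_nonneg _)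
        _ = _ := by ring
    calc ε ^ 2 ≤ (2 * ‖D.I‖ * |⟪D.I η, D.I (D.vec η l)⟫|) ^ 2 := pow_le_pow_left₀ hε.le h5 2
      _ = _ := by rw [mul_pow, sq_abs]; ring
  have h6 := Finset.sum_le_sum h1
  rw [Finset.sum_const, hcard, nsmul_eq_mul, ← Finset.mul_sum] at h6
  have h7 := mul_le_mul_of_nonneg_left (D.sum_coeff_sq_le η (D.I η) s)
    (show (0 : ℝ) ≤ 4 * ‖D.I‖ ^ 2 by positivity)
  rw [div_lt_iff₀ (by positivity)] at hm
  linarith

/-- `desc (B η)` minus finitely many spectral pieces. -/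
def tail (s : Finset (D.eig η)) : H →L[ℝ] H :=
  D.desc (D.B η) - ∑ l ∈ s, (l : ℝ) • rankOne (D.I (D.vec η l))

theorem tail_symm (s : Finset (D.eig η)) (x y : H) : ⟪D.tail η s x, y⟫ = ⟪x, D.tail η s y⟫ := by
  simp only [tail, sub_apply, sum_apply,
    smul_apply, rankOne_apply, inner_sub_left, inner_sub_right, sum_inner,
    inner_sum, real_inner_smul_left, real_inner_smul_right]
  rw [D.desc_symm (D.isSymm_B η)]
  congr 1
  refine Finset.sum_congr rfl fun l _ => ?_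
  rw [real_inner_comm x]
  ring

theorem desc_vec (l : D.eig η) :
    D.desc (D.B η) (D.I (D.vec η l)) = (l : ℝ) • D.I (D.vec η l) := by
  rw [D.desc_I (D.isSymm_B η), (D.isEigen_vec η l).1, map_smul]

theorem isUnit_add_sum {m : ℝ} (hm : m ≠ 0) {A : H →L[ℝ] H} (hA : IsUnit A)
    (s : Finset (D.eig η))
    (hv : ∀ l ∈ s, A (D.I (D.vec η l)) = (m - l) • D.I (D.vec η l))
    (hne : ∀ l ∈ s, (l : ℝ) ≠ m) :
    IsUnit (A + ∑ l ∈ s, (l : ℝ) • rankOne (D.I (D.vec η l))) := by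
  classical
  induction s using Finset.induction_on with
  | empty => simpa using hA
  | insert l s hl ih =>
    rw [Finset.sum_insert hl, add_comm ((l : ℝ) • _), ← add_assoc]
    refine isUnit_add_rankOne (ih (fun j hj => hv j (Finset.mem_insert_of_mem hj))
      (fun j hj => hne j (Finset.mem_insert_of_mem hj))) ((D.orthonormal_vec η).1 l) (a := m - l)
      ?_ (sub_ne_zero.2 (hne l (Finset.mem_insert_self _ _)).symm) (by simpa using hm)
    rw [add_apply, hv l (Finset.mem_insert_self _ _),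
      sum_apply, Finset.sum_eq_zero, add_zero]
    intro j hj
    simp [rankOne_apply, (D.orthonormal_vec η).2 (show j ≠ l from fun e => hl (e ▸ hj))]

theorem isUnit_sub_tail {ε m : ℝ} (hε : 0 < ε) (hm : ε ≤ |m|) {s : Finset (D.eig η)}
    (hs : ∀ l : D.eig η, ε ≤ |(l : ℝ)| → l ∈ s) :
    IsUnit (m • (1 : H →L[ℝ] H) - D.tail η s) := by
  classical
  have hm0 : m ≠ 0 := abs_pos.1 (hε.trans_le hm)
  by_cases h : m ∈ D.eig η
  · set l₀ : D.eig η := ⟨m, h⟩
    have hl : l₀ ∈ s := hs l₀ hm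
    have e : m • (1 : H →L[ℝ] H) - D.tail η s =
        (m • 1 - D.desc (D.B η) + m • rankOne (D.I (D.vec η l₀))) +
          ∑ l ∈ s.erase l₀, (l : ℝ) • rankOne (D.I (D.vec η l)) := by
      rw [tail, ← Finset.add_sum_erase s _ hl]
      simp only [l₀]
      abel
    rw [e]
    refine D.isUnit_add_sum η hm0 (D.isUnit_deflate hm0 (D.isEigen_vec η l₀)) _ (fun l hl' => ?_)
      fun l hl' e' => (Finset.ne_of_mem_erase hl') (Subtype.ext e')
    simp [D.desc_vec η l, rankOne_apply,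
      (D.orthonormal_vec η).2 (Finset.ne_of_mem_erase hl').symm, sub_smul]
  · have e : m • (1 : H →L[ℝ] H) - D.tail η s =
        (m • 1 - D.desc (D.B η)) + ∑ l ∈ s, (l : ℝ) • rankOne (D.I (D.vec η l)) := by
      rw [tail]; abel
    rw [e]
    refine D.isUnit_add_sum η hm0 ?_ _ (fun l _ => by simp [D.desc_vec η l, sub_smul])
      fun l _ e' => h (e' ▸ l.2)
    exact (D.isUnit_or_eigen hm0).resolve_right fun hu => h ⟨hm0, hu⟩

theorem norm_tail_le {ε : ℝ} (hε : 0 < ε) {s : Finset (D.eig η)}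
    (hs : ∀ l : D.eig η, ε ≤ |(l : ℝ)| → l ∈ s) : ‖D.tail η s‖ ≤ ε := by
  by_contra hlt
  push Not at hlt
  refine not_isUnit_norm_smul (D.tail_symm η s) (hε.trans hlt) (D.isUnit_sub_tail η hε ?_ hs)
    (D.isUnit_sub_tail η hε ?_ hs)
  · rw [abs_norm]; exact hlt.le
  · rw [abs_neg, abs_norm]; exact hlt.le

theorem norm_B_le (a b : W) : ‖D.B a b‖ ≤ 6 * ‖D.I a‖ * ‖D.I b‖ := by
  classical
  set f : D.eig a → W := fun l => ((l : ℝ) * ⟪D.I (D.vec a l), D.I b⟫) • D.vec a l with hf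
  set P := ‖D.I a‖ * ‖D.I b‖
  have hsum : ∀ s : Finset (D.eig a), ∑ l ∈ s, ‖f l‖ ≤ 2 * P := by
    intro s
    calc ∑ l ∈ s, ‖f l‖
        ≤ ∑ l ∈ s, 2 * |⟪D.I a, D.I (D.vec a l)⟫ * ⟪D.I b, D.I (D.vec a l)⟫| := by
          refine Finset.sum_le_sum fun l _ => ?_
          rw [hf, norm_smul, Real.norm_eq_abs, abs_mul, abs_mul, real_inner_comm (D.I b),
            mul_right_comm, ← mul_assoc]
          exact mul_le_mul_of_nonneg_right (D.norm_vec_le a l) (abs_nonneg _)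
      _ = 2 * ∑ l ∈ s, |⟪D.I a, D.I (D.vec a l)⟫| * |⟪D.I b, D.I (D.vec a l)⟫| := by
          simp [Finset.mul_sum, abs_mul]
      _ ≤ 2 * P := by
          refine mul_le_mul_of_nonneg_left (le_of_pow_le_pow_left₀ two_ne_zero (by positivity) ?_)
            zero_le_two
          refine (Finset.sum_mul_sq_le_sq_mul_sq s _ _).trans ?_
          rw [mul_pow]
          exact mul_le_mul (by simpa [sq_abs] using D.sum_coeff_sq_le a (D.I a) s)
            (by simpa [sq_abs] using D.sum_coeff_sq_le a (D.I b) s)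
            (Finset.sum_nonneg fun _ _ => sq_nonneg _) (sq_nonneg _)
  have hnorm : Summable fun l => ‖f l‖ := summable_of_sum_le (fun l => norm_nonneg _) hsum
  have hS := hnorm.of_norm.hasSum
  set S := ∑' l, f l
  have hSn : ‖S‖ ≤ 2 * P :=
    (norm_tsum_le_tsum_norm hnorm).trans (hnorm.tsum_le_of_sum_le hsum)
  set r := D.B a b - S
  have hIr : D.I r = 0 := by
    have h1 : Tendsto (fun s : Finset (D.eig a) => D.I (D.B a b) - ∑ l ∈ s, D.I (f l)) atTop
        (𝓝 0) := by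
      rw [Metric.tendsto_atTop]
      intro ε hε
      have hc : 0 < ε / (‖D.I b‖ + 1) := by positivity
      refine ⟨(D.finite_eig a hc).toFinset, fun s hs => ?_⟩
      have e : D.I (D.B a b) - ∑ l ∈ s, D.I (f l) = D.tail a s (D.I b) := by
        simp [tail, D.desc_I (D.isSymm_B a), rankOne_apply, hf, smul_smul]
      rw [dist_zero_right, e]
      refine lt_of_le_of_lt ((D.tail a s).le_opNorm _) ?_
      refine lt_of_le_of_lt (mul_le_mul_of_nonneg_right (D.norm_tail_le a hc fun l hl =>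
        hs ((D.finite_eig a hc).mem_toFinset.2 hl)) (norm_nonneg _)) ?_
      rw [div_mul_eq_mul_div, div_lt_iff₀ (by positivity)]
      nlinarith [norm_nonneg (D.I b)]
    have h2 : Tendsto (fun s : Finset (D.eig a) => D.I (D.B a b) - ∑ l ∈ s, D.I (f l)) atTop
        (𝓝 (D.I (D.B a b) - D.I S)) := tendsto_const_nhds.sub (D.I.hasSum hS)
    rw [map_sub]
    exact tendsto_nhds_unique h2 h1
  have hBr : D.B a r = 0 := by rw [D.symm]; exact D.B_ker hIr a
  have hr : ‖r‖ ≤ ‖S‖ + 2 * P := by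
    refine le_of_forall_pos_le_add fun δ hδ => ?_
    set s := 2 * ‖b‖ / δ + 1
    have hs : 0 < s := by positivity
    obtain ⟨Φ, h1, h2, h3⟩ := D.ident_dual a (b + s • r)
    have hle : ∀ v, |Φ v| ≤ ‖v‖ := fun v =>
      (Φ.le_opNorm v).trans (mul_le_of_le_one_left (norm_nonneg _) h1)
    rw [map_add, map_smul, hBr, smul_zero, add_zero, map_add D.I, map_smul D.I, hIr, smul_zero,
      add_zero] at h3
    have h4 : 2 * |⟪D.I a, D.I b⟫| ≤ 2 * P :=
      mul_le_mul_of_nonneg_left (abs_real_inner_le_norm _ _) zero_le_two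
    have h5 : s * Φ r = ‖b + s • r‖ - Φ b := by rw [← h2, map_add, map_smul, smul_eq_mul]; ring
    have h6 : s * ‖r‖ ≤ ‖b + s • r‖ + ‖b‖ := by
      have := norm_sub_le (b + s • r) b
      rwa [add_sub_cancel_left, norm_smul, Real.norm_of_nonneg hs.le] at this
    have h7 : Φ r = Φ (D.B a b) - Φ S := map_sub Φ _ _
    have h8 := abs_le.1 h3
    have h9 := abs_le.1 (hle S)
    have h10 := abs_le.1 (hle b)
    have h11 : s * ‖r‖ ≤ s * (‖S‖ + 2 * P) + 2 * ‖b‖ := by nlinarith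
    have h12 : 2 * ‖b‖ ≤ s * δ := by
      simp only [s, add_mul, div_mul_cancel₀ _ hδ.ne']
      linarith
    exact le_of_mul_le_mul_left (by linarith [mul_add s (‖S‖ + 2 * P) δ]) hs
  calc ‖D.B a b‖ = ‖r + S‖ := by simp [r]
    _ ≤ ‖r‖ + ‖S‖ := norm_add_le _ _
    _ ≤ 6 * ‖D.I a‖ * ‖D.I b‖ := by rw [mul_assoc]; change _ ≤ 6 * P; linarith

theorem norm_B_le_shift {η ξ : W} (hη : ‖D.I η‖ ≤ 1) {s : ℝ} (hs : 0 < s) :
    ‖D.B η ξ‖ ≤ 2 * ‖ξ‖ / s + 2 * |⟪D.I η, D.I ξ⟫| + 8 * s * ‖D.I (D.B η ξ)‖ := by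
  set w := D.B η ξ
  obtain ⟨Φ, h1, h2, h3⟩ := D.ident_dual η (ξ + s • w)
  have hle : ∀ v, |Φ v| ≤ ‖v‖ := fun v =>
    (Φ.le_opNorm v).trans (mul_le_of_le_one_left (norm_nonneg _) h1)
  have h5 : s * Φ w = ‖ξ + s • w‖ - Φ ξ := by rw [← h2, map_add, map_smul, smul_eq_mul]; ring
  have h6 : s * ‖w‖ ≤ ‖ξ + s • w‖ + ‖ξ‖ := by
    have := norm_sub_le (ξ + s • w) ξ
    rwa [add_sub_cancel_left, norm_smul, Real.norm_of_nonneg hs.le] at this
  have h7 : ‖D.B η w‖ ≤ 6 * ‖D.I w‖ := (D.norm_B_le η w).trans (by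
    nlinarith [norm_nonneg (D.I w), norm_nonneg (D.I η)])
  rw [map_add, map_smul, map_add, map_smul, smul_eq_mul, map_add D.I, map_smul D.I, inner_add_right,
    real_inner_smul_right] at h3
  have h8 : |⟪D.I η, D.I w⟫| ≤ ‖D.I w‖ :=
    (abs_real_inner_le_norm _ _).trans (mul_le_of_le_one_left (norm_nonneg _) hη)
  have h9 : |⟪D.I η, D.I ξ⟫ + s * ⟪D.I η, D.I w⟫| ≤ |⟪D.I η, D.I ξ⟫| + s * ‖D.I w‖ :=
    (abs_add_le _ _).trans (by rw [abs_mul, abs_of_pos hs]; nlinarith)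
  have h10 := abs_le.1 h3
  have h11 := abs_le.1 (hle (D.B η w))
  have h12 := abs_le.1 (hle ξ)
  rw [show D.B η ξ = w from rfl] at *
  have h13 : Φ w ≤ 2 * |⟪D.I η, D.I ξ⟫| + 8 * s * ‖D.I w‖ := by nlinarith
  have h14 : ‖w‖ - 2 * ‖ξ‖ / s ≤ Φ w := by
    rw [sub_le_iff_le_add, ← sub_le_iff_le_add', le_div_iff₀ hs]
    nlinarith
  linarith

end AlgData

end Vale.Agent.P084.Full
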