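import Vale.Agent.P084.Full.AlgRigidOf
import Vale.Agent.P084.Full.AlgSmooth

/-!
P084 (Tingley's problem), library: rigidity of exact second order data.
-/

namespace Vale.Agent.P084.Full

open scoped RealInnerProductSpace

variable {W H : Type*} [NormedAddCommGroup W] [NormedSpace ℝ W] [NormedAddCommGroup H]
  [InnerProductSpace ℝ H]

/-- Second order data is scalar. -/
theorem AlgData.rigid [CompleteSpace W] [CompleteSpace H] (D : AlgData W H) :
    ∃ d, ‖d‖ ≤ 2 ∧ ∀ a b, D.B a b = ⟪D.I a, D.I b⟫ • d :=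
  D.rigid_of D.norm_B_le fun _η _ξ hη _s hs => D.norm_B_le_shift hη hs

end Vale.Agent.P084.Full
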