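import Vale.Agent.P084.Full.AlgMax

/-!
P084 (Tingley's problem), library: `AlgData` with the norm bound and the shifted bound has the
form B(a,b) = ⟪I a, I b⟫ d with ‖d‖ ≤ 2.
-/

namespace Vale.Agent.P084.Full

open scoped RealInnerProductSpace
open Filter Topology

variable {W H : Type*} [NormedAddCommGroup W] [NormedSpace ℝ W] [NormedAddCommGroup H]
  [InnerProductSpace ℝ H] [CompleteSpace W] {D : AlgData W H}

namespace BarData

variable (E : BarData D)

/-- The hypothesis of the shifted bound. -/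
abbrev ShiftBound (D : AlgData W H) : Prop :=
  ∀ (η ξ : W), ‖D.I η‖ ≤ 1 → ∀ s : ℝ, 0 < s →
    ‖D.B η ξ‖ ≤ 2 * ‖ξ‖ / s + 2 * |⟪D.I η, D.I ξ⟫| + 8 * s * ‖D.I (D.B η ξ)‖

/-- The first order condition on the complement of e. -/
lemma near_perp {e f : H} {m δ s t : ℝ} (he : ‖e‖ = 1) (hf : ‖f‖ = 1) (hef : ⟪e, f⟫ = 0)
    (hm : 0 ≤ m) (hb : ∀ x, ⟪e, x⟫ = 0 → E.τ x ≤ m * ‖x‖ ^ 3) (hmax : m - δ ≤ E.τ f)
    (hδ : 0 ≤ δ) (hs : 0 < s) (hs1 : s ≤ 1) (ht : ‖E.β e f‖ ≤ t) :
    ‖E.β f f - m • f‖ ≤ 2 * (δ / s + s * (m + 24 * ‖D.I‖)) + δ + t := by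
  set K := δ / s + s * (m + 24 * ‖D.I‖)
  have hK : 0 ≤ K := by positivity
  set c := ⟪e, E.β f f⟫
  set q := E.τ f with hq
  set g := E.β f f - q • f - c • e with hgd
  have hfg : ⟪f, g⟫ = 0 := by
    rw [hgd, inner_sub_right, inner_sub_right, real_inner_smul_right, real_inner_smul_right,
      real_inner_self_eq_norm_sq, hf, real_inner_comm e f, hef]
    simp [hq, τ]
  have heg : ⟪e, g⟫ = 0 := by
    rw [hgd, inner_sub_right, inner_sub_right, real_inner_smul_right, real_inner_smul_right,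
      real_inner_self_eq_norm_sq, he, hef]
    ring
  have hc : |c| ≤ t := by
    have h : c = ⟪f, E.β e f⟫ := E.β_total e f f
    rw [h]
    refine (abs_real_inner_le_norm _ _).trans ?_
    rw [hf, one_mul]; exact ht
  have hg : ‖g‖ ≤ K := by
    rcases eq_or_ne g 0 with h0 | h0
    · rw [h0, norm_zero]; exact hK
    have hn : 0 < ‖g‖ := norm_pos_iff.2 h0
    have h := E.cubic_step (g := ‖g‖⁻¹ • g) hf
      (by rw [norm_smul, norm_inv, norm_norm, inv_mul_cancel₀ hn.ne'])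
      (by rw [real_inner_smul_right, hfg, mul_zero]) hm
      (hb _ (by rw [inner_add_right, real_inner_smul_right, real_inner_smul_right, hef, heg]; ring))
      hmax hδ hs hs1
    have e2 : ⟪g, E.β f f⟫ = ‖g‖ ^ 2 := by
      rw [show E.β f f = g + q • f + c • e by rw [hgd]; abel, inner_add_right, inner_add_right,
        real_inner_smul_right, real_inner_smul_right, real_inner_comm f g, real_inner_comm e g,
        hfg, heg, real_inner_self_eq_norm_sq]
      ring
    rwa [real_inner_smul_left, e2, sq, inv_mul_cancel_left₀ hn.ne'] at h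
  have hqm : q ≤ m := by have := hb f hef; rwa [hf, one_pow, mul_one] at this
  have e1 : E.β f f - m • f = g + (q - m) • f + c • e := by rw [hgd]; module
  rw [e1]
  refine norm_add₃_le.trans ?_
  rw [norm_smul, norm_smul, hf, he, mul_one, mul_one, Real.norm_eq_abs, Real.norm_eq_abs,
    abs_sub_comm, abs_of_nonneg (sub_nonneg.2 hqm)]
  linarith

/-- Small `β(e,f)` with a bounded preimage of f gives a small value in W. -/
lemma w_small (hshift : ShiftBound D) {M tol : ℝ} (hM : 0 ≤ M) (htol : 0 < tol) :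
    ∃ t₀ > 0, ∀ (e f : H) (b : W), ‖e‖ = 1 → ⟪e, f⟫ = 0 → ‖b‖ ≤ M → ‖D.I b - f‖ ≤ t₀ →
      ‖E.β e f‖ ≤ t₀ → ‖E.Bb e f‖ ≤ tol := by
  set s := (4 * M + 1) / tol
  have hs : 0 < s := by positivity
  set C := 8 * s * (1 + 6 * ‖D.I‖) + 8
  have hC : 0 < C := by positivity
  refine ⟨tol / (2 * C), by positivity, fun e f b he hef hb hIb hβ => ?_⟩
  set t := tol / (2 * C) with ht
  have htC : t * C = tol / 2 := by rw [ht]; field_simp
  have h1 := E.shift_bar hshift he.le b hs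
  have h2 : |⟪e, D.I b⟫| ≤ t := by
    rw [show ⟪e, D.I b⟫ = ⟪e, D.I b - f⟫ by rw [inner_sub_right, hef, sub_zero]]
    refine (abs_real_inner_le_norm _ _).trans ?_
    rw [he, one_mul]; exact hIb
  have h3 : ‖E.β e (D.I b)‖ ≤ t + 6 * ‖D.I‖ * t := by
    rw [show E.β e (D.I b) = E.β e f + E.β e (D.I b - f) by rw [β_sub_right]; abel]
    refine (norm_add_le _ _).trans (add_le_add hβ ((E.β_le _ _).trans ?_))
    rw [he, mul_one]; gcongr
  have h4 : ‖E.Bb e f‖ ≤ ‖E.Bb e (D.I b)‖ + 6 * t := by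
    have e4 : E.Bb e f = E.Bb e (D.I b) - E.Bb e (D.I b - f) := by rw [map_sub]; abel
    rw [e4]
    refine (norm_sub_le _ _).trans (add_le_add le_rfl ((E.le _ _).trans ?_))
    rw [he, mul_one]; gcongr
  have h5 : 2 * ‖b‖ / s ≤ tol / 2 := by
    rw [div_le_iff₀ hs]
    have e5 : tol / 2 * s = (4 * M + 1) / 2 := by simp only [s]; field_simp
    rw [e5]; linarith
  have h6 := mul_le_mul_of_nonneg_left h3 (show (0 : ℝ) ≤ 8 * s by positivity)
  nlinarith

/-- A nonzero cubic form is impossible in dimension at least two. -/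
lemma τ_eq_zero (hshift : ShiftBound D) {a₁ a₂ : W} (h₁ : ‖D.I a₁‖ = 1) (h₂ : ‖D.I a₂‖ = 1)
    (h₁₂ : ⟪D.I a₁, D.I a₂⟫ = 0) (x : H) : E.τ x = 0 := by
  by_contra hx
  obtain ⟨x, hxp⟩ : ∃ x, 0 < E.τ x := by
    rcases lt_or_gt_of_ne hx with h | h
    · exact ⟨-x, by rw [E.τ_neg]; linarith⟩
    · exact ⟨x, h⟩
  set S : Set ℝ := E.τ '' {x | ‖x‖ = 1}
  have hSb : BddAbove S := ⟨6 * ‖D.I‖, by
    rintro _ ⟨y, hy, rfl⟩
    have := (le_abs_self _).trans (E.τ_le y)
    rwa [hy, one_pow, mul_one] at this⟩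
  have hscale : ∀ {y : H}, y ≠ 0 → ‖(‖y‖⁻¹ • y)‖ = 1 := fun {y} hy => by
    rw [norm_smul, norm_inv, norm_norm, inv_mul_cancel₀ (norm_ne_zero_iff.2 hy)]
  have hx0 : x ≠ 0 := by rintro rfl; simp [τ, β] at hxp
  set Dm := sSup S
  have hxS : (‖x‖⁻¹) ^ 3 * E.τ x ∈ S := ⟨_, hscale hx0, E.τ_smul _ _⟩
  have hD : 0 < Dm := lt_of_lt_of_le (by positivity) (le_csSup hSb hxS)
  have hDb : ∀ y, E.τ y ≤ Dm * ‖y‖ ^ 3 := fun y => by
    rcases eq_or_ne y 0 with rfl | hy
    · simp [τ, β]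
    have := le_csSup hSb ⟨_, hscale hy, E.τ_smul _ _⟩
    rw [inv_pow, inv_mul_le_iff₀ (pow_pos (norm_pos_iff.2 hy) 3)] at this
    linarith
  have hnear : ∀ δ : ℝ, 0 < δ → ∃ e : H, ‖e‖ = 1 ∧ Dm - δ ≤ E.τ e := fun δ hδ => by
    obtain ⟨_, ⟨e, he, rfl⟩, h⟩ := exists_lt_of_lt_csSup ⟨_, hxS⟩ (show Dm - δ < Dm by linarith)
    exact ⟨e, he, h.le⟩
  set N := ‖D.I‖
  have hN : 0 ≤ N := norm_nonneg _
  set Z := Dm + 24 * N + 1
  have hZ : 1 ≤ Z := by simp only [Z]; linarith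
  set Ma := 6 / Dm
  -- the first vector and the smallness of β(e,·) on its complement
  have hfirst : ∀ t : ℝ, 0 < t → ∀ s : ℝ, 0 < s → s ≤ 1 → s * Z ≤ t → ∃ δ > 0, δ ≤ t ∧
      ∀ e : H, ‖e‖ = 1 → Dm - δ ≤ E.τ e → ‖E.β e e - Dm • e‖ ≤ 3 * t ∧
        ∀ f : H, ⟪e, f⟫ = 0 → ‖f‖ = 1 → ‖E.β e f‖ ≤ 3 * t := by
    intro t ht s hs hs1 hsZ
    obtain ⟨δ₁, hδ₁, hcomp⟩ := E.compression hD hDb ht
    refine ⟨min (min δ₁ t) (s * s), by positivity, (min_le_left _ _).trans (min_le_right _ _),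
      fun e he hmax => ?_⟩
    set δ := min (min δ₁ t) (s * s)
    have hδs : δ / s ≤ s := (div_le_iff₀ hs).2 (min_le_right _ _)
    have hK : δ / s + s * (Dm + 24 * N) ≤ t := by
      refine le_trans ?_ hsZ; simp only [Z]; linarith
    have hδt : δ ≤ t := (min_le_left _ _).trans (min_le_right _ _)
    have hδ0 : 0 ≤ δ := by positivity
    refine ⟨(E.β_near_left he hD.le hDb hmax hδ0 hs hs1).trans (by linarith), fun f hfe hf => ?_⟩
    refine (E.perp_small he ht.le ht.le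
      (hcomp e he (le_trans (sub_le_sub_left ((min_le_left _ _).trans (min_le_left _ _)) _) hmax))
      (fun g hg => (E.gradient he hD.le hDb hmax hδ0 hs hs1 hg).trans (by gcongr)) hfe hf).trans ?_
    linarith
  have ha : ∀ e : H, ‖e‖ = 1 → ‖Dm⁻¹ • E.Bb e e‖ ≤ Ma ∧
      ‖D.I (Dm⁻¹ • E.Bb e e) - e‖ = ‖E.β e e - Dm • e‖ / Dm := fun e he => by
    constructor
    · rw [norm_smul, norm_inv, Real.norm_of_nonneg hD.le, inv_mul_eq_div]
      have := E.le e e; rw [he] at this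
      exact div_le_div_of_nonneg_right (by linarith) hD.le
    · rw [map_smul, show Dm⁻¹ • D.I (E.Bb e e) - e = Dm⁻¹ • (E.β e e - Dm • e) by
          rw [smul_sub, inv_smul_smul₀ hD.ne', β], norm_smul, norm_inv, Real.norm_of_nonneg hD.le,
        inv_mul_eq_div]
  by_cases hA : ∃ η₀ > 0, ∀ δ > 0, ∃ e : H, ‖e‖ = 1 ∧ Dm - δ ≤ E.τ e ∧
      ∃ f : H, ‖f‖ = 1 ∧ ⟪e, f⟫ = 0 ∧ η₀ < E.τ f
  · obtain ⟨η₀, hη₀, hA⟩ := hA
    refine E.two_vectors (M := max Ma (6 / η₀)) hD fun ε hε => ?_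
    obtain ⟨t₀, ht₀, hw⟩ := E.w_small hshift (M := max Ma (6 / η₀)) (le_max_of_le_left
      (by positivity)) hε
    set ρ := min ε t₀
    have hρ : 0 < ρ := lt_min hε ht₀
    set t := ρ / 8 * min 1 (min η₀ Dm)
    have ht : 0 < t := by positivity
    have ht1 : 8 * t ≤ ρ := by
      have := mul_le_mul_of_nonneg_left (min_le_left 1 (min η₀ Dm)) (show 0 ≤ ρ / 8 by positivity)
      simp only [t]; linarith
    have htη : 8 * t ≤ ρ * η₀ := by
      have := mul_le_mul_of_nonneg_left ((min_le_right 1 (min η₀ Dm)).trans (min_le_left _ _))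
        (show 0 ≤ ρ / 8 by positivity)
      simp only [t]; linarith
    have htD : 8 * t ≤ ρ * Dm := by
      have := mul_le_mul_of_nonneg_left ((min_le_right 1 (min η₀ Dm)).trans (min_le_right _ _))
        (show 0 ≤ ρ / 8 by positivity)
      simp only [t]; linarith
    set s := min 1 (t / Z)
    have hs : 0 < s := lt_min one_pos (by positivity)
    have hsZ : s * Z ≤ t := (le_div_iff₀ (by linarith)).1 (min_le_right _ _)
    obtain ⟨δ, hδ, -, hfirst⟩ := hfirst t ht s hs (min_le_left _ _) hsZ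
    obtain ⟨e, he, hmax, f₁, hf₁, hef₁, hτf₁⟩ := hA δ hδ
    obtain ⟨hee, hperp⟩ := hfirst e he hmax
    set S₂ : Set ℝ := E.τ '' {f | ‖f‖ = 1 ∧ ⟪e, f⟫ = 0}
    have hS₂b : BddAbove S₂ := hSb.mono (Set.image_mono fun f hf => hf.1)
    have hS₂n : E.τ f₁ ∈ S₂ := ⟨f₁, ⟨hf₁, hef₁⟩, rfl⟩
    set m := sSup S₂
    have hm : η₀ < m := lt_of_lt_of_le hτf₁ (le_csSup hS₂b hS₂n)
    have hmD : m ≤ Dm := csSup_le_csSup hSb ⟨_, hS₂n⟩ (Set.image_mono fun f hf => hf.1)
    have hmb : ∀ y, ⟪e, y⟫ = 0 → E.τ y ≤ m * ‖y‖ ^ 3 := fun y hy => by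
      rcases eq_or_ne y 0 with rfl | hy0
      · simp [τ, β]
      have := le_csSup hS₂b ⟨_, ⟨hscale hy0, by rw [real_inner_smul_right, hy, mul_zero]⟩,
        E.τ_smul _ _⟩
      rw [inv_pow, inv_mul_le_iff₀ (pow_pos (norm_pos_iff.2 hy0) 3)] at this
      linarith
    obtain ⟨_, ⟨g, ⟨hg, heg⟩, rfl⟩, hgm⟩ :=
      exists_lt_of_lt_csSup ⟨_, hS₂n⟩ (show m - s * s < m by nlinarith)
    have hβg : ‖E.β g g - m • g‖ ≤ 6 * t := by
      refine (E.near_perp he hg heg (hη₀.trans hm).le hmb hgm.le (mul_nonneg hs.le hs.le) hs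
        (min_le_left _ _) (hperp g heg hg)).trans ?_
      rw [mul_div_assoc, div_self hs.ne', mul_one]
      have h1 : s + s * (m + 24 * N) ≤ s * Z := by simp only [Z]; nlinarith
      have h2 : s * s ≤ s * Z := by nlinarith [min_le_left (1 : ℝ) (t / Z)]
      linarith
    have hm0 : 0 < m := hη₀.trans hm
    refine ⟨Dm⁻¹ • E.Bb e e, -(m⁻¹ • E.Bb g g), -m, e, -g, by linarith, by linarith,
      (ha e he).1.trans (le_max_left _ _), ?_, he, by rw [norm_neg, hg], by simp [heg], ?_, ?_, ?_,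
      ?_, ?_⟩
    · refine le_max_of_le_right ?_
      rw [norm_neg, norm_smul, norm_inv, Real.norm_of_nonneg hm0.le, inv_mul_eq_div]
      have := E.le g g; rw [hg] at this
      exact div_le_div₀ (by norm_num) (by linarith) hη₀ hm.le
    · rw [(ha e he).2, div_le_iff₀ hD]
      exact hee.trans (le_trans (by linarith) (mul_le_mul_of_nonneg_right (min_le_left ε t₀) hD.le))
    · rw [map_neg, map_smul, show -(m⁻¹ • D.I (E.Bb g g)) - -g = -(m⁻¹ • (E.β g g - m • g)) by
          rw [smul_sub, inv_smul_smul₀ hm0.ne', β]; abel, norm_neg, norm_smul, norm_inv,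
        Real.norm_of_nonneg hm0.le, inv_mul_eq_div, div_le_iff₀ hm0]
      exact hβg.trans (le_trans (by linarith) ((mul_le_mul_of_nonneg_left hm.le hρ.le).trans
        (mul_le_mul_of_nonneg_right (min_le_left ε t₀) hm0.le)))
    · linarith [min_le_left ε t₀]
    · rw [β_neg_left, β_neg_right, neg_neg, smul_neg, neg_smul, neg_neg]
      linarith [min_le_left ε t₀]
    · refine hw e (-g) (-(m⁻¹ • E.Bb g g)) he (by simp [heg]) ?_ ?_ ?_
      · refine le_max_of_le_right ?_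
        rw [norm_neg, norm_smul, norm_inv, Real.norm_of_nonneg hm0.le, inv_mul_eq_div]
        have := E.le g g; rw [hg] at this
        exact div_le_div₀ (by norm_num) (by linarith) hη₀ hm.le
      · rw [map_neg, map_smul, show -(m⁻¹ • D.I (E.Bb g g)) - -g = -(m⁻¹ • (E.β g g - m • g)) by
            rw [smul_sub, inv_smul_smul₀ hm0.ne', β]; abel, norm_neg, norm_smul, norm_inv,
          Real.norm_of_nonneg hm0.le, inv_mul_eq_div, div_le_iff₀ hm0]
        exact hβg.trans (le_trans (by linarith) ((mul_le_mul_of_nonneg_left hm.le hρ.le).trans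
          (mul_le_mul_of_nonneg_right (min_le_right ε t₀) hm0.le)))
      · rw [β_neg_right, norm_neg]
        linarith [hperp g heg hg, min_le_right ε t₀]
  · push Not at hA
    set M := max Ma (‖a₁‖ + ‖a₂‖)
    refine E.two_vectors (M := M) hD fun ε hε => ?_
    obtain ⟨t₀, ht₀, hw⟩ := E.w_small hshift (M := M) (le_max_of_le_left (by positivity)) hε
    set ρ := min ε t₀
    have hρ : 0 < ρ := lt_min hε ht₀
    set t := ρ / 16 * min 1 Dm
    have ht : 0 < t := by positivity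
    have ht1 : 16 * t ≤ ρ := by
      have := mul_le_mul_of_nonneg_left (min_le_left 1 Dm) (show 0 ≤ ρ / 16 by positivity)
      simp only [t]; linarith
    have htD : 16 * t ≤ ρ * Dm := by
      have := mul_le_mul_of_nonneg_left (min_le_right 1 Dm) (show 0 ≤ ρ / 16 by positivity)
      simp only [t]; linarith
    set s := min 1 (t / Z)
    have hs : 0 < s := lt_min one_pos (by positivity)
    have hs1 : s ≤ 1 := min_le_left _ _
    have hsZ : s * Z ≤ t := (le_div_iff₀ (by linarith)).1 (min_le_right _ _)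
    set η₀ := min (min 1 t) (s * t / 2)
    have hη₀ : 0 < η₀ := by positivity
    obtain ⟨δ₀, hδ₀, hB⟩ := hA η₀ hη₀
    obtain ⟨δ, hδ, -, hfirst⟩ := hfirst t ht s hs hs1 hsZ
    obtain ⟨e, he, hmax⟩ := hnear (min δ δ₀) (lt_min hδ hδ₀)
    obtain ⟨hee, hperp⟩ := hfirst e he (le_trans (sub_le_sub_left (min_le_left _ _) _) hmax)
    have hB' := hB e he (le_trans (sub_le_sub_left (min_le_right _ _) _) hmax)
    obtain ⟨b, hb, hbn, hbe⟩ : ∃ b : W, ‖b‖ ≤ ‖a₁‖ + ‖a₂‖ ∧ ‖D.I b‖ = 1 ∧ ⟪e, D.I b⟫ = 0 := by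
      set p := ⟪e, D.I a₁⟫
      set q := ⟪e, D.I a₂⟫
      by_cases hpq : p = 0
      · exact ⟨a₁, le_add_of_nonneg_right (norm_nonneg _), h₁, hpq⟩
      set r := √(p ^ 2 + q ^ 2)
      have hr : 0 < r := Real.sqrt_pos.2 (by positivity)
      have hr2 : r ^ 2 = p ^ 2 + q ^ 2 := Real.sq_sqrt (by positivity)
      refine ⟨r⁻¹ • (q • a₁ - p • a₂), ?_, ?_, ?_⟩
      · rw [norm_smul, norm_inv, Real.norm_of_nonneg hr.le, inv_mul_le_iff₀ hr]
        refine (norm_sub_le _ _).trans ?_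
        rw [norm_smul, norm_smul, Real.norm_eq_abs, Real.norm_eq_abs, mul_add]
        refine add_le_add (mul_le_mul_of_nonneg_right ?_ (norm_nonneg _))
          (mul_le_mul_of_nonneg_right ?_ (norm_nonneg _)) <;>
          · rw [← Real.sqrt_sq_eq_abs]; exact Real.sqrt_le_sqrt (by nlinarith)
      · refine (pow_left_inj₀ (norm_nonneg _) zero_le_one two_ne_zero).1 ?_
        rw [map_smul, map_sub, map_smul, map_smul, norm_smul, norm_inv, Real.norm_of_nonneg hr.le,
          mul_pow, norm_sub_sq_real, norm_smul, norm_smul, h₁, h₂, real_inner_smul_left,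
          real_inner_smul_right, h₁₂, inv_pow, hr2, mul_one, mul_one, Real.norm_eq_abs,
          Real.norm_eq_abs, sq_abs, sq_abs]
        field_simp
        ring
      · rw [map_smul, map_sub, map_smul, map_smul, real_inner_smul_right, inner_sub_right,
          real_inner_smul_right, real_inner_smul_right]
        ring
    set f := D.I b
    have hlow : -η₀ ≤ E.τ f := by
      have := hB' (-f) (by rw [norm_neg, hbn]) (by rw [inner_neg_right, hbe, neg_zero])
      rw [E.τ_neg] at this; linarith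
    have hmb : ∀ y, ⟪e, y⟫ = 0 → E.τ y ≤ η₀ * ‖y‖ ^ 3 := fun y hy => by
      rcases eq_or_ne y 0 with rfl | hy0
      · simp [τ, β]
      have := hB' _ (hscale hy0) (by rw [real_inner_smul_right, hy, mul_zero])
      rw [E.τ_smul, inv_pow, inv_mul_le_iff₀ (pow_pos (norm_pos_iff.2 hy0) 3)] at this
      linarith
    have hβf : ‖E.β f f‖ ≤ 12 * t := by
      have h := E.near_perp he hbn hbe hη₀.le hmb (δ := 2 * η₀) (by linarith) (by linarith) hs hs1
        (hperp f hbe hbn)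
      have hηt : η₀ ≤ t := (min_le_left _ _).trans (min_le_right _ _)
      have hη1 : η₀ ≤ 1 := (min_le_left _ _).trans (min_le_left _ _)
      have hηs : 2 * η₀ / s ≤ t := by
        rw [div_le_iff₀ hs]
        linarith [min_le_right (min 1 t) (s * t / 2)]
      have h1 : s * (η₀ + 24 * N) ≤ t := le_trans (mul_le_mul_of_nonneg_left
        (by simp only [Z]; linarith) hs.le) hsZ
      have h2 := norm_add_le (E.β f f - η₀ • f) (η₀ • f)
      rw [sub_add_cancel, norm_smul, hbn, mul_one, Real.norm_of_nonneg hη₀.le] at h2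
      linarith
    refine ⟨Dm⁻¹ • E.Bb e e, b, 0, e, f, le_rfl, by linarith, (ha e he).1.trans (le_max_left _ _),
      hb.trans (le_max_right _ _), he, hbn, hbe, ?_, by simp [f, hε.le], ?_, ?_, ?_⟩
    · rw [(ha e he).2, div_le_iff₀ hD]
      exact hee.trans (le_trans (by linarith) (mul_le_mul_of_nonneg_right (min_le_left ε t₀) hD.le))
    · linarith [min_le_left ε t₀]
    · rw [zero_smul, sub_zero]; linarith [min_le_left ε t₀]
    · exact hw e f b he hbe (hb.trans (le_max_right _ _)) (by simp [f, ht₀.le])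
        (by linarith [hperp f hbe hbn, min_le_right ε t₀])

/-- A vanishing cubic form makes the map scalar. -/
lemma scalar_of_τ (hshift : ShiftBound D) (hτ : ∀ x, E.τ x = 0) {e : H} (he : ‖e‖ = 1) (x y : H) :
    E.Bb x y = ⟪x, y⟫ • E.Bb e e := by
  have h1 : ∀ h : H, ‖h‖ ≤ 1 → ∀ x, ‖E.Bb h x‖ ≤ 2 * |⟪h, x⟫| := fun h hh x => by
    refine D.dense.induction_on (p := fun x => ‖E.Bb h x‖ ≤ 2 * |⟪h, x⟫|) x
      (isClosed_le (by fun_prop) (by fun_prop)) fun ξ => ?_
    refine le_of_forall_pos_le_add fun ε hε => ?_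
    have := E.shift_bar hshift hh ξ (show 0 < (2 * ‖ξ‖ + 1) / ε by positivity)
    rw [E.β_eq_zero_of_τ hτ, norm_zero, mul_zero, add_zero] at this
    have h2 : 2 * ‖ξ‖ / ((2 * ‖ξ‖ + 1) / ε) ≤ ε := by
      rw [div_le_iff₀ (by positivity)]; field_simp; linarith
    linarith
  have h0 : ∀ h x : H, ⟪h, x⟫ = 0 → E.Bb h x = 0 := fun h x hhx => by
    have := h1 ((‖h‖ + 1)⁻¹ • h) (by
      rw [norm_smul, norm_inv, Real.norm_of_nonneg (by positivity), inv_mul_le_iff₀ (by positivity)]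
      linarith) x
    rw [real_inner_smul_left, hhx, mul_zero, abs_zero, mul_zero, map_smul] at this
    simpa [smul_eq_zero, (show ‖h‖ + 1 ≠ 0 by positivity)] using this
  set d := E.Bb e e
  have hperp : ∀ f, ⟪e, f⟫ = 0 → E.Bb f f = ‖f‖ ^ 2 • d := fun f hf => by
    have h := h0 (‖f‖ • e + f) (‖f‖ • e - f) (by
      simp [inner_add_left, inner_sub_right, real_inner_smul_left, real_inner_smul_right, hf, he,
        norm_smul, real_inner_comm e f])
    simp [h0 e f hf, E.symm f e] at h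
    rw [smul_smul, ← sq, add_neg_eq_zero] at h
    exact h.symm
  set x' := x - ⟪e, x⟫ • e with hx'
  set y' := y - ⟪e, y⟫ • e with hy'
  have hx0 : ⟪e, x'⟫ = 0 := by
    simp [hx', inner_sub_right, real_inner_smul_right, he]
  have hy0 : ⟪e, y'⟫ = 0 := by
    simp [hy', inner_sub_right, real_inner_smul_right, he]
  set k := ⟪x', y'⟫ / ‖x'‖ ^ 2
  have hxy : E.Bb x' y' = ⟪x', y'⟫ • d := by
    rcases eq_or_ne x' 0 with h | h
    · simp [h]
    have hk : k * ‖x'‖ ^ 2 = ⟪x', y'⟫ := div_mul_cancel₀ _ (by positivity)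
    have := h0 x' (y' - k • x') (by
      rw [inner_sub_right, real_inner_smul_right, real_inner_self_eq_norm_sq, hk, sub_self])
    rw [map_sub, map_smul, hperp x' hx0, smul_smul, hk, sub_eq_zero] at this
    exact this
  have ex : x = ⟪e, x⟫ • e + x' := by rw [hx']; abel
  have ey : y = ⟪e, y⟫ • e + y' := by rw [hy']; abel
  conv_lhs => rw [ex, ey]
  conv_rhs => rw [ex, ey]
  simp [hxy, h0 e y' hy0, E.symm x' e, h0 e x' hx0, inner_add_left, inner_add_right,
    real_inner_smul_left, real_inner_smul_right, he, hx0, hy0, real_inner_comm e x']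
  module

end BarData

/-- Rigidity from the two bounds. -/
theorem AlgData.rigid_of (D : AlgData W H)
    (hle : ∀ a b, ‖D.B a b‖ ≤ 6 * ‖D.I a‖ * ‖D.I b‖) (hshift : BarData.ShiftBound D) :
    ∃ d, ‖d‖ ≤ 2 ∧ ∀ a b, D.B a b = ⟪D.I a, D.I b⟫ • d := by
  obtain ⟨E⟩ := exists_barData D hle
  by_cases hI : ∀ a, D.I a = 0
  · refine ⟨0, by norm_num, fun a b => ?_⟩
    have := hle a b
    rw [hI a, norm_zero, mul_zero, zero_mul, norm_le_zero_iff] at this
    rw [this, smul_zero]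
  push Not at hI
  obtain ⟨w, hw⟩ := hI
  set a₁ := ‖D.I w‖⁻¹ • w
  have ha₁ : ‖D.I a₁‖ = 1 := by
    rw [map_smul, norm_smul, norm_inv, norm_norm, inv_mul_cancel₀ (norm_ne_zero_iff.2 hw)]
  clear_value a₁
  obtain ⟨d, hd⟩ : ∃ d, ∀ x y : H, E.Bb x y = ⟪x, y⟫ • d := by
    by_cases h2 : ∀ a, D.I a = ⟪D.I a₁, D.I a⟫ • D.I a₁
    · have hall : ∀ x : H, x = ⟪D.I a₁, x⟫ • D.I a₁ := fun x =>
        D.dense.induction_on (p := fun x => x = ⟪D.I a₁, x⟫ • D.I a₁) x
          (isClosed_eq continuous_id (by fun_prop)) h2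
      refine ⟨E.Bb (D.I a₁) (D.I a₁), fun x y => ?_⟩
      conv_lhs => rw [hall x, hall y]
      conv_rhs => rw [hall x]
      simp [real_inner_smul_left, smul_smul, mul_comm]
    push Not at h2
    obtain ⟨w₂, hw₂⟩ := h2
    set z := w₂ - ⟪D.I a₁, D.I w₂⟫ • a₁ with hz
    have hz0 : D.I z ≠ 0 := by
      rw [hz, map_sub, map_smul]; exact sub_ne_zero.2 hw₂
    have hτ := E.τ_eq_zero hshift ha₁ (a₂ := ‖D.I z‖⁻¹ • z)
      (by rw [map_smul, norm_smul, norm_inv, norm_norm, inv_mul_cancel₀ (norm_ne_zero_iff.2 hz0)])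
      (by
        rw [map_smul, real_inner_smul_right, hz, map_sub, map_smul, inner_sub_right,
          real_inner_smul_right, real_inner_self_eq_norm_sq, ha₁]
        ring)
    exact ⟨_, E.scalar_of_τ hshift hτ ha₁⟩
  refine ⟨d, ?_, fun a b => by rw [← E.eq, hd]⟩
  by_cases hId : D.I d = 0
  · refine le_of_forall_pos_le_add fun ε hε => ?_
    have h := E.shift_bar hshift ha₁.le a₁ (show 0 < (2 * ‖a₁‖ + 1) / ε by positivity)
    rw [BarData.β, hd, map_smul, hId, smul_zero, norm_zero, mul_zero, add_zero,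
      real_inner_self_eq_norm_sq, ha₁, one_pow, one_smul, abs_one, mul_one] at h
    have h2 : 2 * ‖a₁‖ / ((2 * ‖a₁‖ + 1) / ε) ≤ ε := by
      rw [div_le_iff₀ (by positivity)]; field_simp; linarith
    linarith
  · obtain ⟨Φ, hΦ1, hΦ2⟩ := exists_dual_vector'' ℝ d
    simp only [RCLike.ofReal_real_eq_id, id_eq] at hΦ2
    have h := E.ident_bar (D.I d) d Φ hΦ1 hΦ2
    rw [hd, map_smul, smul_eq_mul, hΦ2, abs_mul, abs_norm, real_inner_self_eq_norm_sq, abs_pow, abs_norm
      ] at h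
    have : 0 < ‖D.I d‖ ^ 2 := by positivity
    nlinarith

end Vale.Agent.P084.Full
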