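import Vale.Agent.P084.Full.MirrorSmooth

/-!
P084 (Tingley's problem), library for the general case: the properties of a family of averaged
second derivatives of the extension at one point from which the second order data are built.
-/

namespace Vale.Agent.P084.Full

open Filter Topology Orbit

variable {X Y : Type*} [NormedAddCommGroup X] [NormedSpace ℝ X] [NormedAddCommGroup Y]
  [NormedSpace ℝ Y]

/-- The functional `w ↦ Q a (M w)` on the target, `M` the inverse of the derivative at `z`. -/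
noncomputable def formFun (f : PIso X Y) (z : X) (Q : X →L[ℝ] X →L[ℝ] ℝ) (a : X) : Y →L[ℝ] ℝ :=
  (Q a).comp (fderiv ℝ f.Gi (f.G z))

/-- Approximate second derivatives `T n i b φ` of the extension at `z` along `e i`, applied to `b`
and tested at `φ`, with the properties which survive in the limit. -/
structure Approx (f : PIso X Y) (e : ℕ → X) (z : X) (Q : X →L[ℝ] X →L[ℝ] ℝ) where
  T : ℕ → ℕ → X → (Y →L[ℝ] ℝ) → ℝ
  lin_b : ∀ i φ a b (r : ℝ),
    Tendsto (fun n => T n i (a + r • b) φ - T n i a φ - r * T n i b φ) atTop (𝓝 0)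
  lin_φ : ∀ i b φ ψ (r : ℝ),
    Tendsto (fun n => T n i b (φ + r • ψ) - T n i b φ - r * T n i b ψ) atTop (𝓝 0)
  bound : ∃ K : ℝ, ∀ (c : ℕ →₀ ℝ) b φ (ε : ℝ), 0 < ε → ∀ᶠ n in atTop,
    |∑ i ∈ c.support, c i * T n i b φ| ≤ K * ‖∑ i ∈ c.support, c i • e i‖ * ‖b‖ * ‖φ‖ + ε
  symm : ∀ i j φ, Tendsto (fun n => T n i (e j) φ - T n j (e i) φ) atTop (𝓝 0)
  radial : ∀ i φ, Tendsto (fun n => T n i z φ) atTop (𝓝 0)
  t3 : ∀ i b, Tendsto (fun n => T n i b (dNorm (f.G z))) atTop (𝓝 0)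
  total : ∀ i j c,
    Tendsto (fun n => T n j c (formFun f z Q (e i)) - T n i c (formFun f z Q (e j))) atTop (𝓝 0)
  ident : ∀ (ξ : X) (β : Y →L[ℝ] ℝ), dNorm z ξ = 0 → ‖β‖ ≤ 1 → β (dG f z ξ) = ‖ξ‖ →
    ∀ (c : ℕ →₀ ℝ) (ε : ℝ), 0 < ε → ∀ᶠ n in atTop,
      ∑ i ∈ c.support, c i * T n i ξ β ≤ 2 * |Q (∑ i ∈ c.support, c i • e i) ξ| + ε

end Vale.Agent.P084.Full
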