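import Vale.Agent.P084.Full.Smooth

/-!
P084 (Tingley's problem), general case: at every unit point which is not smooth the one-sided
derivative of the extension is a surjective linear isometry, and increments there are bounded in
both directions. If the point is not rough, it is a limit of points with large second
differences, along which the amplification is uniform.
-/

namespace Vale.Agent.P084.Full

open Filter Topology Metric Orbit
open Orbit.PIso (C0 C0_pos K0 supp_of_hasFDerivAt symm_G symm_Gi M_apply apply_M)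

variable {X Y : Type*} [NormedAddCommGroup X] [NormedSpace ℝ X] [NormedAddCommGroup Y]
  [NormedSpace ℝ Y]

/-- At a point which is not rough the norm is differentiable, with quadratic second difference. -/
lemma exists_deriv_of_not_rough {s : X} (hr : ¬ Rough s) :
    ∃ (π : X →L[ℝ] ℝ) (C r : ℝ), 0 ≤ C ∧ 0 < r ∧ HasFDerivAt (fun w : X => ‖w‖) π s ∧
      ∀ a, ‖a‖ < r → sd s a ≤ C * ‖a‖ ^ 2 := by
  rw [Rough] at hr
  push Not at hr
  obtain ⟨C, r, hr0, hb⟩ := hr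
  obtain ⟨φ, hφ⟩ := exists_supp s
  have hb' : ∀ a, ‖a‖ < r → sd s a ≤ max C 0 * ‖a‖ ^ 2 := fun a ha =>
    (hb a ha).trans (mul_le_mul_of_nonneg_right (le_max_left _ _) (sq_nonneg _))
  refine ⟨φ, max C 0, r, le_max_right _ _, hr0, ?_, hb'⟩
  refine hasFDerivAt_iff_isLittleO_nhds_zero.2
    ((Asymptotics.IsBigO.of_bound (max C 0) ?_).trans_isLittleO
      (Asymptotics.isLittleO_norm_pow_id (E' := X) one_lt_two))
  filter_upwards [Metric.ball_mem_nhds (0 : X) hr0] with a ha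
  rw [mem_ball_zero_iff] at ha
  have h1 := hφ.le (s + a)
  have h2 := norm_add_le_sd hφ a
  rw [map_add, hφ.2] at h1
  rw [Real.norm_of_nonneg (by linarith), norm_pow, norm_norm]
  linarith [hb' a ha]

/-- Close to a point which is not smooth there are unit points with large second differences. -/
lemma exists_unit_sd_large {s : X} (hs : ‖s‖ = 1) (h : ¬ Smooth s) (C : ℝ) {r : ℝ} (hr : 0 < r) :
    ∃ x a : X, ‖x‖ = 1 ∧ ‖x - s‖ < r ∧ ‖a‖ < r ∧ C * ‖a‖ ^ 2 < sd x a := by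
  by_contra hne
  push Not at hne
  refine h ⟨fun e => by simp [e] at hs, min (1 / 2) (r / 2), 2 * max C 0, by positivity,
    fun w hw a ha => ?_⟩
  have hwr : ‖w - s‖ < r / 2 := hw.trans_le (min_le_right _ _)
  have har : ‖a‖ < r / 2 := ha.trans_le (min_le_right _ _)
  have hn : |‖w‖ - 1| ≤ ‖w - s‖ := by simpa [hs] using abs_norm_sub_norm_le w s
  have hn2 : 1 / 2 ≤ ‖w‖ := by linarith [(abs_le.1 hn).1, min_le_left (1 / 2 : ℝ) (r / 2)]
  set n := ‖w‖ with hndef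
  have hn0 : 0 < n := by linarith
  have hw0 : w ≠ 0 := norm_pos_iff.1 hn0
  have hinv : n⁻¹ ≤ 2 := by rw [inv_le_comm₀ hn0 two_pos]; linarith
  have hxs : ‖n⁻¹ • w - s‖ < r := by
    have e : ‖n⁻¹ • w - w‖ = |n - 1| := by
      rw [show n⁻¹ • w - w = (n⁻¹ - 1) • w by module, norm_smul, Real.norm_eq_abs, ← hndef,
        ← abs_of_pos hn0, ← abs_mul, abs_of_pos hn0, sub_mul, inv_mul_cancel₀ hn0.ne', one_mul,
        abs_sub_comm]
    linarith [norm_sub_le_norm_sub_add_norm_sub (n⁻¹ • w) w s]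
  have han : ‖n⁻¹ • a‖ = n⁻¹ * ‖a‖ := by
    rw [norm_smul, norm_inv, Real.norm_of_nonneg hn0.le]
  have h1 := hne (n⁻¹ • w) (n⁻¹ • a) (norm_smul_inv_norm hw0) hxs (by
    rw [han]; nlinarith [mul_le_mul_of_nonneg_right hinv (norm_nonneg a)])
  rw [sd_smul (inv_pos.2 hn0), inv_inv, smul_inv_smul₀ hn0.ne', han] at h1
  have h2 : n⁻¹ * sd w a ≤ n⁻¹ * (max C 0 * (n⁻¹ * ‖a‖ ^ 2)) := by
    refine h1.trans ?_
    rw [show n⁻¹ * (max C 0 * (n⁻¹ * ‖a‖ ^ 2)) = max C 0 * (n⁻¹ * ‖a‖) ^ 2 by ring]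
    exact mul_le_mul_of_nonneg_right (le_max_left _ _) (sq_nonneg _)
  refine (le_of_mul_le_mul_left h2 (inv_pos.2 hn0)).trans ?_
  rw [show 2 * max C 0 * ‖a‖ ^ 2 = max C 0 * (2 * ‖a‖ ^ 2) by ring]
  exact mul_le_mul_of_nonneg_left (mul_le_mul_of_nonneg_right hinv (sq_nonneg _))
    (le_max_right _ _)

omit [NormedSpace ℝ X] in
lemma sd_le_sd_add (x s b : X) : sd x b ≤ sd s b + 4 * ‖x - s‖ := by
  have h1 := abs_norm_sub_norm_le (x + b) (s + b)
  have h2 := abs_norm_sub_norm_le (x - b) (s - b)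
  have h3 := abs_norm_sub_norm_le x s
  rw [show x + b - (s + b) = x - s by abel] at h1
  rw [show x - b - (s - b) = x - s by abel] at h2
  unfold sd
  linarith [(abs_le.1 h1).2, (abs_le.1 h2).2, (abs_le.1 h3).1]

variable (f : PIso X Y)

/-- Linear one-sided derivatives at nearby unit points are close. -/
lemma Ld_close [CompleteSpace Y] {x s : X} (hx : ‖x‖ = 1) (hs : ‖s‖ = 1) {Tx Ts : X →L[ℝ] Y}
    (hTx : ∀ a, f.Ld x a = Tx a) (hTs : ∀ a, f.Ld s a = Ts a) {C : ℝ} (hC : 0 ≤ C) {t : ℝ}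
    (ht : 0 < t) (ht1 : t ≤ 1 / 65536) {v : X} (hv : ‖v‖ ≤ 1)
    (hsd : sd s (t • v) ≤ C * ‖t • v‖ ^ 2) :
    t * ‖Tx v - Ts v‖ ≤ (6 + 4 * C0) * ‖x - s‖ + C0 * (2 * C + 8) * t ^ 2 := by
  have htv : ‖t • v‖ ≤ t := by
    rw [norm_smul, Real.norm_of_nonneg ht.le]; exact mul_le_of_le_one_right ht.le hv
  have htv2 : ‖t • v‖ ^ 2 ≤ t ^ 2 := pow_le_pow_left₀ (norm_nonneg _) htv 2
  have hsd' : sd s (t • v) ≤ C * t ^ 2 := hsd.trans (mul_le_mul_of_nonneg_left htv2 hC)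
  have a1 := f.Ld_est hx (htv.trans ht1)
  have a2 := f.Ld_est hs (htv.trans ht1)
  rw [hTx] at a1
  rw [hTs] at a2
  have b1 : ‖x + t • v‖ - ‖x‖ - dirN x (t • v) + 4 * ‖t • v‖ ^ 2 ≤
      C * t ^ 2 + 4 * ‖x - s‖ + 4 * t ^ 2 := by
    linarith [defect_le_sd' x (t • v), sd_le_sd_add x s (t • v)]
  have b2 : ‖s + t • v‖ - ‖s‖ - dirN s (t • v) + 4 * ‖t • v‖ ^ 2 ≤ C * t ^ 2 + 4 * t ^ 2 := by
    linarith [defect_le_sd' s (t • v)]
  have c1 := f.norm_G_sub_le (x + t • v) (s + t • v)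
  rw [show x + t • v - (s + t • v) = x - s by abel] at c1
  have c2 := f.norm_G_sub_le x s
  have e : t * ‖Tx v - Ts v‖ = ‖((f.G (x + t • v) - f.G (s + t • v)) - (f.G x - f.G s)) -
      ((f.G (x + t • v) - f.G x - Tx (t • v)) - (f.G (s + t • v) - f.G s - Ts (t • v)))‖ := by
    have e' : ((f.G (x + t • v) - f.G (s + t • v)) - (f.G x - f.G s)) -
        ((f.G (x + t • v) - f.G x - Tx (t • v)) - (f.G (s + t • v) - f.G s - Ts (t • v))) =
        t • (Tx v - Ts v) := by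
      rw [map_smul, map_smul]; module
    rw [e', norm_smul, Real.norm_of_nonneg ht.le]
  rw [e]
  refine (norm_sub_le _ _).trans ((add_le_add (norm_sub_le _ _) (norm_sub_le _ _)).trans ?_)
  have d1 := a1.trans (mul_le_mul_of_nonneg_left b1 C0_pos.le)
  have d2 := a2.trans (mul_le_mul_of_nonneg_left b2 C0_pos.le)
  linarith

/-- The candidate map is almost contractive, uniformly in the point. -/
lemma norm_M_le_near {x : X} {π : X →L[ℝ] ℝ} {L : X →L[ℝ] Y} (hx : ‖x‖ = 1) (hπ : Supp x π)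
    {π' : Y →L[ℝ] ℝ} (hπ'y : 7 / 8 ≤ π' (f.G x)) {W : Y} {Bm : ℝ} (hBm : 1 ≤ Bm)
    (hWB : 2 * ‖L‖ + ‖W‖ ≤ Bm) {κ t η ε : ℝ} (hκ0 : 0 < κ) (hκ : κ ≤ 1 / 4)
    (hκB : Bm * κ ≤ ε / 8) (ht0 : 0 < t)
    (hmod : ∀ b, ‖b‖ ≤ 2 * t → ‖f.G x + b‖ ≤ 1 + π' b + 3 / 4 * (κ * t))
    (hη0 : 0 ≤ η) (hη1 : η ≤ ε / 8) (hη2 : Bm * (η / t) ≤ ε / 8) (hA : f.Approx x π L W η)
    {v : X} (hv : ‖v‖ ≤ 1) : ‖PIso.M x π L W v‖ ≤ 1 + ε := by
  set y := f.G x with hy
  have hy1 : ‖y‖ = 1 := by rw [hy, f.norm_G, hx]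
  have main : ∀ v, ‖v‖ ≤ 1 → 0 ≤ π' (PIso.M x π L W v) → ‖PIso.M x π L W v‖ ≤ 1 + ε := by
    intro v hv hpos
    set m := ‖PIso.M x π L W v‖ with hm
    have hmB : m ≤ Bm := (PIso.norm_M_le_aux (L := L) hx hπ W hv).trans hWB
    rcases eq_or_ne m 0 with h0 | h0
    · rw [h0]
      have : 0 ≤ Bm * κ := by positivity
      linarith
    have hm0 : 0 < m := lt_of_le_of_ne (norm_nonneg _) (Ne.symm h0)
    set u := m⁻¹ • PIso.M x π L W v with hu
    have hu1 : ‖u‖ = 1 := by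
      rw [hu, norm_smul, norm_inv, Real.norm_of_nonneg hm0.le, ← hm, inv_mul_cancel₀ h0]
    have hMu : PIso.M x π L W v = m • u := by rw [hu, smul_smul, mul_inv_cancel₀ h0, one_smul]
    have hπu : 0 ≤ π' u := by
      rw [hu, map_smul, smul_eq_mul]; exact mul_nonneg (inv_nonneg.2 hm0.le) hpos
    set b := (-t) • (u + κ • y) with hb
    have hbn : ‖b‖ ≤ 2 * t := by
      rw [hb, norm_smul, norm_neg, Real.norm_of_nonneg ht0.le, mul_comm 2 t]
      refine mul_le_mul_of_nonneg_left ((norm_add_le _ _).trans ?_) ht0.le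
      rw [norm_smul κ y, hy1, hu1, Real.norm_of_nonneg hκ0.le]
      linarith
    have hk : ‖y + b‖ < 1 := by
      have h' := hmod b hbn
      have e : π' b = -t * (π' u + κ * π' y) := by
        rw [hb, map_smul, map_add, map_smul π' κ y, smul_eq_mul, smul_eq_mul]
      have h1 : t * κ * (7 / 8) ≤ t * κ * π' y :=
        mul_le_mul_of_nonneg_left hπ'y (by positivity)
      have h2 : 0 < t * κ := mul_pos ht0 hκ0
      have h3 : 0 ≤ t * π' u := mul_nonneg ht0.le hπu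
      rw [e] at h'
      linarith
    obtain ⟨t', ht', hts⟩ := exists_beyond (x := y) hy1 hk
    set w := f.Gi (y - t' • (y - (y + b))) with hw
    have hw1 : ‖w‖ = 1 := by rw [hw, f.norm_Gi, hts]
    have hyk : y - (y + b) = t • (u + κ • y) := by rw [hb]; module
    have hqu : ∀ q : Y →L[ℝ] ℝ, (∀ z, q z ≤ ‖z‖) → ‖x - w‖ - η ≤ q (y - f.G w) →
        1 - 2 * κ - η / t ≤ q u := by
      intro q hq h
      rw [← f.dist_unit hx hw1, hw, f.G_Gi, ← hy, sub_sub_cancel, hyk, norm_smul, norm_smul,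
        Real.norm_of_nonneg (by linarith), Real.norm_of_nonneg ht0.le, map_smul, map_smul,
        smul_eq_mul, smul_eq_mul] at h
      have h1 : t' * (t * ‖u + κ • y‖ - η) ≤ t' * (t * q (u + κ • y)) := by
        have := le_mul_of_one_le_left hη0 ht'
        linarith
      have h2 := le_of_mul_le_mul_left h1 (by linarith)
      have h3 : ‖u + κ • y‖ - η / t ≤ q (u + κ • y) := by
        refine le_of_mul_le_mul_left ?_ ht0
        rw [mul_sub, mul_div_cancel₀ _ ht0.ne']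
        exact h2
      have h4 := norm_sub_norm_le u (-(κ • y))
      rw [sub_neg_eq_add, norm_neg, norm_smul κ y, hy1, hu1, Real.norm_of_nonneg hκ0.le] at h4
      have h5 := mul_le_mul_of_nonneg_left (hq y) hκ0.le
      rw [hy1] at h5
      rw [map_add, map_smul q κ y, smul_eq_mul] at h3
      linarith
    have hfin : ∀ (p : X →L[ℝ] ℝ) (q : Y →L[ℝ] ℝ), (∀ z, p z ≤ ‖z‖) → (∀ z, q z ≤ ‖z‖) →
        (∀ τ, π τ = 0 → q (L τ) = p τ) → ‖x - w‖ - η ≤ q (y - f.G w) →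
        π v * (q W - p x) ≤ η → m ≤ 1 + ε := by
      intro p q hp hq hc h hs
      have h1 := apply_M (W := W) (show π x = 1 by rw [hπ.2, hx]) hc v
      rw [hMu, map_smul, smul_eq_mul] at h1
      have h2 := mul_le_mul_of_nonneg_left (hqu q hq h) hm0.le
      have h3 := (hp v).trans hv
      have h4 : m * (2 * κ + η / t) ≤ Bm * (2 * κ + η / t) := by gcongr
      linarith
    obtain ⟨⟨p₁, q₁, hp₁, hq₁, hc₁, -, hn₁, hs₁⟩, ⟨p₂, q₂, hp₂, hq₂, hc₂, -, hn₂, hs₂⟩⟩ :=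
      hA w hw1
    have hv1 : |π v| ≤ 1 := (abs_le.2 ⟨hπ.ge v, hπ.le v⟩).trans hv
    rcases le_or_gt 0 (π v) with h | h
    · refine hfin p₁ q₁ hp₁ hq₁ hc₁ hn₁ ?_
      calc π v * (q₁ W - p₁ x) ≤ π v * η := by gcongr; linarith
        _ ≤ η := mul_le_of_le_one_left hη0 (le_of_abs_le hv1)
    · refine hfin p₂ q₂ hp₂ hq₂ hc₂ hn₂ ?_
      calc π v * (q₂ W - p₂ x) ≤ π v * (-η) :=
            mul_le_mul_of_nonpos_left (by linarith) h.le
        _ ≤ η := by
          have := mul_le_of_le_one_left hη0 (show -π v ≤ 1 by linarith [neg_le_of_abs_le hv1])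
          linarith
  rcases le_or_gt 0 (π' (PIso.M x π L W v)) with h | h
  · exact main v hv h
  · have := main (-v) (by rwa [norm_neg]) (by rw [map_neg, map_neg]; linarith)
    rwa [map_neg, norm_neg] at this

variable [CompleteSpace X] [CompleteSpace Y]

/-- The one-sided derivative at a point of differentiability is the derivative. -/
lemma exists_linear_Ld {x : X} (hx : ‖x‖ = 1) {π : X →L[ℝ] ℝ}
    (hd : HasFDerivAt (fun w : X => ‖w‖) π x) :
    ∃ L : X ≃L[ℝ] Y, HasFDerivAt f.G (L : X →L[ℝ] Y) x ∧ L x = f.G x ∧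
      HasFDerivAt (fun w : Y => ‖w‖) (π.comp (L.symm : Y →L[ℝ] X)) (f.G x) ∧
      (∀ a, f.Ld x a = L a) ∧ ‖(L : X →L[ℝ] Y)‖ ≤ 3 := by
  obtain ⟨L, hL, hLx, hd', -⟩ := f.exists_deriv_equiv hx hd
  have hLd : ∀ a, f.Ld x a = L a := fun a => by
    refine tendsto_nhds_unique (f.tendsto_Ld hx a) ?_
    have hl : HasDerivAt (fun t : ℝ => f.G (x + t • a)) (L a) 0 := by
      have h0 : HasDerivAt (fun t : ℝ => x + t • a) a 0 := by
        simpa using ((hasDerivAt_id (0 : ℝ)).smul_const a).const_add x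
      exact hL.comp_hasDerivAt_of_eq 0 h0 (by simp)
    have ht : Tendsto (fun n : ℕ => ((2 : ℝ) ^ n)⁻¹) atTop (𝓝[≠] 0) :=
      tendsto_nhdsWithin_iff.2 ⟨tendsto_inv_atTop_zero.comp
        (tendsto_pow_atTop_atTop_of_one_lt one_lt_two), Eventually.of_forall fun n => by simp⟩
    refine (hl.tendsto_slope_zero.comp ht).congr fun n => ?_
    simp [PIso.dq]
  refine ⟨L, hL, hLx, hd', hLd, ContinuousLinearMap.opNorm_le_bound _ (by norm_num) fun a => ?_⟩
  have h := f.norm_Ld_sub_le hx a 0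
  rwa [f.Ld_zero hx, sub_zero, sub_zero, hLd] at h

/-- At a point which is not smooth the one-sided derivative does not increase norms. -/
lemma norm_Ld_le_of_not_smooth {s : X} (hs : ‖s‖ = 1) (h : ¬ Smooth s) (v : X) :
    ‖f.Ld s v‖ ≤ ‖v‖ := by
  by_cases hrs : Rough s
  · obtain ⟨T, hT, -⟩ := f.exists_isometry' hs hrs
    rw [hT, T.norm_map]
  obtain ⟨π, C, rC, hC, hrC, hd, hsd⟩ := exists_deriv_of_not_rough hrs
  obtain ⟨L, -, hLs, hd', hLd, -⟩ := exists_linear_Ld f hs hd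
  rw [hLd]
  refine PIso.le_of_unit_bound (L : X →L[ℝ] Y) (fun ε hε u hu => ?_) v
  set π' := π.comp (L.symm : Y →L[ℝ] X) with hπ'
  set ys := f.G s with hys
  have hys1 : ‖ys‖ = 1 := by rw [hys, f.norm_G, hs]
  have hys0 : ys ≠ 0 := fun e => by simp [e] at hys1
  have hπs := supp_of_hasFDerivAt hys0 hd'
  obtain ⟨N, hN⟩ := exists_nat_gt (16 / ε)
  have hN1 : (0 : ℝ) < N := lt_trans (by positivity) hN
  have hN0 : 0 < N := by exact_mod_cast hN1
  have h2N : 2 / (N : ℝ) ≤ ε / 8 := by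
    rw [div_lt_iff₀ hε] at hN
    rw [div_le_iff₀ hN1]
    linarith
  set ε₁ : ℝ := min (1 / 4) (ε / (144 * N)) with hε₁
  have hε₁0 : 0 < ε₁ := lt_min (by norm_num) (by positivity)
  have hεN : N * (9 * ε₁) ≤ ε / 16 := by
    have h : ε₁ ≤ ε / (144 * N) := min_le_right _ _
    rw [le_div_iff₀ (by positivity)] at h
    linarith
  have hε₁ε : ε₁ ≤ ε / 4 := by
    refine (min_le_right _ _).trans (div_le_div_of_nonneg_left hε.le (by norm_num) ?_)
    have : (1 : ℝ) ≤ N := by exact_mod_cast hN0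
    linarith
  set Bm : ℝ := 7 + 2 * C0 with hBm
  have hC0 := C0_pos
  have hBm1 : 1 ≤ Bm := by linarith
  set κ : ℝ := min (1 / 4) (ε₁ / (8 * Bm)) with hκdef
  have hκ0 : 0 < κ := lt_min (by norm_num) (by positivity)
  have hκB : Bm * κ ≤ ε₁ / 8 := by
    have h : κ ≤ ε₁ / (8 * Bm) := min_le_right _ _
    rw [le_div_iff₀ (by positivity)] at h
    linarith
  obtain ⟨r, hr, hball⟩ := Metric.eventually_nhds_iff.1
    ((hasFDerivAt_iff_isLittleO_nhds_zero.1 hd').bound (show 0 < κ / 4 by positivity))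
  set t : ℝ := r / 4 with ht
  have ht0 : 0 < t := by positivity
  set η : ℝ := min (min (ε₁ / 8) (ε₁ * t / (8 * Bm))) (ε / (64 * N)) with hη
  have hη0 : 0 < η := lt_min (lt_min (by positivity) (by positivity)) (by positivity)
  have hη1 : η ≤ ε₁ / 8 := (min_le_left _ _).trans (min_le_left _ _)
  have hη2 : Bm * (η / t) ≤ ε₁ / 8 := by
    have h := (min_le_left (min (ε₁ / 8) (ε₁ * t / (8 * Bm))) (ε / (64 * N))).trans
      (min_le_right _ _)
    rw [← hη, le_div_iff₀ (by positivity)] at h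
    rw [← mul_div_assoc, div_le_iff₀ ht0]
    linarith
  have hηN : N * (4 * η) ≤ ε / 16 := by
    have h : η ≤ ε / (64 * N) := min_le_right _ _
    rw [le_div_iff₀ (by positivity)] at h
    linarith
  set δ : ℝ := min (1 / 4) (η / 6) with hδ
  have hδ0 : 0 < δ := lt_min (by norm_num) (by linarith)
  -- the increment used in the comparison of derivatives
  set t₀ : ℝ := min (min (1 / 65536) (rC / 2)) (ε / (8 * (C0 * (2 * C + 8)))) with ht₀
  have ht₀0 : 0 < t₀ := lt_min (lt_min (by norm_num) (by positivity)) (by positivity)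
  have ht₀1 : t₀ ≤ 1 / 65536 := (min_le_left _ _).trans (min_le_left _ _)
  have ht₀2 : t₀ ≤ rC / 2 := (min_le_left _ _).trans (min_le_right _ _)
  have ht₀3 : C0 * (2 * C + 8) * t₀ ≤ ε / 8 := by
    have h : t₀ ≤ ε / (8 * (C0 * (2 * C + 8))) := min_le_right _ _
    rw [le_div_iff₀ (by positivity)] at h
    linarith
  set D : ℝ := min (min (κ * t / 4) (1 / 8)) (min (ε * t₀ / (8 * (6 + 4 * C0)))
    (min (δ / 32) (1 / 32768))) with hD
  have hD0 : 0 < D :=
    lt_min (lt_min (by positivity) (by norm_num))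
      (lt_min (by positivity) (lt_min (by positivity) (by norm_num)))
  obtain ⟨x, a, hx, hxs, ha, hbig⟩ := exists_unit_sd_large hs h (max 1 (K0 / (δ * η))) hD0
  have hxs1 : ‖x - s‖ ≤ κ * t / 4 :=
    hxs.le.trans ((min_le_left _ _).trans (min_le_left _ _))
  have hxs2 : ‖x - s‖ ≤ 1 / 8 := hxs.le.trans ((min_le_left _ _).trans (min_le_right _ _))
  have hxs3 : (6 + 4 * C0) * ‖x - s‖ ≤ ε / 8 * t₀ := by
    have h : ‖x - s‖ ≤ ε * t₀ / (8 * (6 + 4 * C0)) :=
      hxs.le.trans ((min_le_right _ _).trans (min_le_left _ _))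
    rw [le_div_iff₀ (by positivity)] at h
    linarith
  have ha1 : ‖a‖ < δ / 32 :=
    ha.trans_le ((min_le_right _ _).trans ((min_le_right _ _).trans (min_le_left _ _)))
  have ha2 : ‖a‖ ≤ 1 / 32768 :=
    ha.le.trans ((min_le_right _ _).trans ((min_le_right _ _).trans (min_le_right _ _)))
  suffices key : ∃ Tx : X →L[ℝ] Y, (∀ b, f.Ld x b = Tx b) ∧ ‖Tx u‖ ≤ 1 + ε / 2 by
    obtain ⟨Tx, hTx, hTu⟩ := key
    have hsd0 : sd s (t₀ • u) ≤ C * ‖t₀ • u‖ ^ 2 := by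
      refine hsd _ ?_
      rw [norm_smul, Real.norm_of_nonneg ht₀0.le]
      linarith [mul_le_of_le_one_right ht₀0.le hu]
    have h1 := Ld_close f (Ts := (L : X →L[ℝ] Y)) hx hs hTx hLd hC ht₀0 ht₀1 hu hsd0
    have h2 : C0 * (2 * C + 8) * t₀ ^ 2 ≤ ε / 8 * t₀ := by
      rw [sq, ← mul_assoc]; exact mul_le_mul_of_nonneg_right ht₀3 ht₀0.le
    have h3 : ‖Tx u - L u‖ ≤ ε / 4 := le_of_mul_le_mul_left
      (show t₀ * ‖Tx u - L u‖ ≤ t₀ * (ε / 4) by
        simp only [ContinuousLinearEquiv.coe_coe] at h1; linarith) ht₀0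
    have h4 := norm_le_norm_add_norm_sub' (L u) (Tx u)
    rw [norm_sub_rev] at h3
    simp only [ContinuousLinearEquiv.coe_coe]
    linarith
  by_cases hrx : Rough x
  · obtain ⟨T, hT, -⟩ := f.exists_isometry' hx hrx
    exact ⟨(T.toContinuousLinearEquiv : X →L[ℝ] Y), hT, by
      simp only [ContinuousLinearEquiv.coe_coe, LinearIsometryEquiv.coe_toContinuousLinearEquiv,
        T.norm_map]
      linarith⟩
  obtain ⟨πx, -, -, -, -, hdx, -⟩ := exists_deriv_of_not_rough hrx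
  obtain ⟨Lx, hLx, hLxx, -, hLdx, hLn⟩ := exists_linear_Ld f hx hdx
  have hx0 : x ≠ 0 := fun e => by simp [e] at hx
  have hπx := supp_of_hasFDerivAt hx0 hdx
  set y := f.G x with hy
  have hy1 : ‖y‖ = 1 := by rw [hy, f.norm_G, hx]
  have hdist : ‖y - ys‖ = ‖x - s‖ := f.dist_unit hx hs
  have hge1 : ‖a‖ ^ 2 ≤ sd x a := by
    have := mul_le_mul_of_nonneg_right (le_max_left 1 (K0 / (δ * η))) (sq_nonneg ‖a‖)
    linarith
  have hge2 : K0 / (δ * η) * ‖a‖ ^ 2 ≤ sd x a := by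
    have := mul_le_mul_of_nonneg_right (le_max_right 1 (K0 / (δ * η))) (sq_nonneg ‖a‖)
    linarith
  have hΦ : 0 < sd x a := lt_of_le_of_lt (by positivity) hbig
  have ha0 : a ≠ 0 := by
    rintro rfl
    simp [sd, hx] at hΦ
    linarith
  have hR : K0 * ‖a‖ ^ 2 / δ ≤ η * sd x a := by
    have h := mul_le_mul_of_nonneg_left hge2 hη0.le
    rwa [show η * (K0 / (δ * η) * ‖a‖ ^ 2) = K0 * ‖a‖ ^ 2 / δ by field_simp] at h
  have hAp := f.approx_of_sd (η := η) hx hdx hLx ha0 (by linarith : 32 * ‖a‖ ≤ δ)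
    (min_le_left _ _) (by linarith [min_le_right (1 / 4 : ℝ) (η / 6)]) hΦ hR
  set W := y - (sd x a)⁻¹ • f.E2 x a with hW
  have hWB : 2 * ‖(Lx : X →L[ℝ] Y)‖ + ‖W‖ ≤ Bm := by
    have h1 : ‖W‖ ≤ 1 + 2 * C0 := by
      refine (norm_sub_le _ _).trans ?_
      rw [hy1, norm_smul, norm_inv, Real.norm_of_nonneg hΦ.le, ← div_eq_inv_mul]
      refine add_le_add le_rfl ((div_le_iff₀ hΦ).2 ((f.norm_E2_le hx ha2).trans ?_))
      have := mul_le_mul_of_nonneg_left hge1 C0_pos.le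
      linarith
    linarith
  have hπ'y : 7 / 8 ≤ π' y := by
    have h1 := hπs.ge (y - ys)
    rw [map_sub, hπs.2, hys1, hdist] at h1
    linarith
  have hmod : ∀ b, ‖b‖ ≤ 2 * t → ‖y + b‖ ≤ 1 + π' b + 3 / 4 * (κ * t) := by
    intro b hb
    have h1 := hball (y := b) (by rw [dist_zero_right]; linarith)
    rw [Real.norm_eq_abs, hys1] at h1
    have h2 := norm_le_norm_add_norm_sub' (y + b) (ys + b)
    rw [add_sub_add_right_eq_sub, hdist] at h2
    have h3 : κ / 4 * ‖b‖ ≤ κ / 4 * (2 * t) := by gcongr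
    linarith [(abs_le.1 h1).2]
  have hM : ∀ w, ‖w‖ ≤ 1 → ‖PIso.M x πx (Lx : X →L[ℝ] Y) W w‖ ≤ 1 + ε₁ := fun w hw =>
    norm_M_le_near f hx hπx hπ'y hBm1 hWB hκ0 (min_le_left _ _) hκB ht0 hmod hη0.le hη1 hη2 hAp hw
  have hc := f.amplify hx hπx hη0.le hε₁0 (min_le_left _ _) hAp hM hN0
  have hcW : ‖y - W‖ ≤ ε / 4 := by linarith
  refine ⟨(Lx : X →L[ℝ] Y), hLdx, ?_⟩
  have e : (Lx : X →L[ℝ] Y) u = PIso.M x πx (Lx : X →L[ℝ] Y) W u + πx u • (y - W) := by
    rw [M_apply, map_sub, map_smul]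
    simp only [ContinuousLinearEquiv.coe_coe, hLxx]
    clear_value W
    module
  rw [e]
  refine (norm_add_le _ _).trans ?_
  rw [norm_smul, Real.norm_eq_abs]
  have h1 : |πx u| ≤ 1 := (abs_le.2 ⟨hπx.ge u, hπx.le u⟩).trans hu
  linarith [hM u hu, mul_le_of_le_one_left (norm_nonneg (y - W)) h1]

/-- **Lemma BAD.** At a point which is not smooth the one-sided derivative is a surjective linear
isometry and increments are bounded in both directions. -/
theorem exists_isometry_of_not_smooth {s : X} (hs : ‖s‖ = 1) (h : ¬ Smooth s) :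
    ∃ T : X ≃ₗᵢ[ℝ] Y, (∀ a, f.Ld s a = T a) ∧
      (∀ a : X, ‖a‖ ≤ 1 / 65536 →
        ‖f.G (s + a) - f.G s‖ ≤ ‖a‖ + C0 * (sd s a + 4 * ‖a‖ ^ 2)) ∧
      ∀ k : Y, ‖k‖ ≤ 1 / 65536 →
        ‖f.Gi (f.G s + k) - s‖ ≤ ‖k‖ + C0 * (sd (f.G s) k + 4 * ‖k‖ ^ 2) := by
  have hy : ‖f.G s‖ = 1 := by rw [f.norm_G, hs]
  obtain ⟨T, hT⟩ : ∃ T : X ≃ₗᵢ[ℝ] Y, ∀ a, f.Ld s a = T a := by
    by_cases hrs : Rough s
    · obtain ⟨T, hT, -⟩ := f.exists_isometry' hs hrs
      exact ⟨T, hT⟩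
    obtain ⟨π, -, -, -, -, hd, -⟩ := exists_deriv_of_not_rough hrs
    obtain ⟨L, -, -, -, hLd, -⟩ := exists_linear_Ld f hs hd
    have hns : ¬ Smooth (f.G s) := fun hsm => h (by
      simpa [f.Gi_G] using smooth_G f.symm hsm)
    have hn : ∀ a, ‖L a‖ = ‖a‖ := fun a => by
      refine le_antisymm ?_ ?_
      · rw [← hLd]; exact norm_Ld_le_of_not_smooth f hs h a
      · have h1 := norm_Ld_le_of_not_smooth f.symm hy hns (f.Ld s a)
        rwa [f.symm_Ld_Ld hs, hLd] at h1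
    exact ⟨⟨L.toLinearEquiv, hn⟩, hLd⟩
  refine ⟨T, hT, fun a ha => ?_, fun k hk => ?_⟩
  · have h1 := norm_add_le (f.G (s + a) - f.G s - f.Ld s a) (f.Ld s a)
    rw [sub_add_cancel, hT, T.norm_map, ← hT] at h1
    have h2 := mul_le_mul_of_nonneg_left
      (add_le_add_right (defect_le_sd' s a) (4 * ‖a‖ ^ 2)) C0_pos.le
    linarith [f.Ld_est hs ha]
  · have e : f.symm.Ld (f.G s) k = T.symm k := by
      conv_lhs => rw [← T.apply_symm_apply k, ← hT, f.symm_Ld_Ld hs]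
    have h1 := norm_add_le (f.Gi (f.G s + k) - f.Gi (f.G s) - f.symm.Ld (f.G s) k)
      (f.symm.Ld (f.G s) k)
    rw [sub_add_cancel, f.Gi_G, e, T.symm.norm_map, ← e] at h1
    have h2 := mul_le_mul_of_nonneg_left
      (add_le_add_right (defect_le_sd' (f.G s) k) (4 * ‖k‖ ^ 2)) C0_pos.le
    have h3 := f.symm.Ld_est hy hk
    rw [symm_G, f.Gi_G] at h3
    linarith

end Vale.Agent.P084.Full
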