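import Mathlib

/-!
P084 (Tingley's problem), library for the general case: the Ekeland variational principle and the
existence of cones avoiding a closed set at a boundary point.
-/

namespace Vale.Agent.P084.Full

open Filter Topology Metric

/-- **Ekeland's variational principle** for a continuous function bounded below. -/
theorem ekeland {M : Type*} [MetricSpace M] [CompleteSpace M] {g : M → ℝ} (hg : Continuous g)
    {b : ℝ} (hb : ∀ u, b ≤ g u) {θ : ℝ} (hθ : 0 < θ) (u₀ : M) :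
    ∃ v, g v + θ * dist v u₀ ≤ g u₀ ∧ ∀ u, u ≠ v → g v < g u + θ * dist u v := by
  set S : M → Set M := fun u => {w | g w + θ * dist w u ≤ g u} with hS
  have hself : ∀ u, u ∈ S u := fun u => by simp [hS]
  have htrans : ∀ u w x, w ∈ S u → x ∈ S w → x ∈ S u := fun u w x hw hx => by
    simp only [hS, Set.mem_ofPred_eq] at hw hx ⊢
    have := mul_le_mul_of_nonneg_left (dist_triangle x w u) hθ.le
    linarith
  have hclosed : ∀ u, IsClosed (S u) := fun u =>
    isClosed_le (hg.add (continuous_const.mul (continuous_id.dist continuous_const)))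
      continuous_const
  have hbdd : ∀ u, BddBelow (g '' S u) := fun u => ⟨b, by rintro _ ⟨w, -, rfl⟩; exact hb w⟩
  have hnext : ∀ (n : ℕ) u, ∃ w ∈ S u, ∀ x ∈ S u, g w ≤ g x + (1 / 2 : ℝ) ^ n := fun n u => by
    obtain ⟨_, ⟨w, hw, rfl⟩, hlt⟩ := exists_lt_of_csInf_lt ((Set.nonempty_of_mem (hself u)).image g)
      (lt_add_of_pos_right (sInf (g '' S u)) (show (0 : ℝ) < (1 / 2) ^ n by positivity))
    exact ⟨w, hw, fun x hx => by linarith [csInf_le (hbdd u) ⟨x, hx, rfl⟩]⟩
  choose nx hnx1 hnx2 using hnext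
  set u : ℕ → M := fun n => Nat.rec u₀ (fun k a => nx k a) n with hu
  have hsucc : ∀ n, u (n + 1) = nx n (u n) := fun n => rfl
  have hmem : ∀ n m, n ≤ m → u m ∈ S (u n) := fun n m h => by
    induction m, h using Nat.le_induction with
    | base => exact hself _
    | succ m _ ih => exact htrans _ _ _ ih (hsucc m ▸ hnx1 m (u m))
  have hdiam : ∀ n m, n + 1 ≤ m → θ * dist (u m) (u (n + 1)) ≤ (1 / 2 : ℝ) ^ n := fun n m h => by
    have h1 : g (u m) + θ * dist (u m) (u (n + 1)) ≤ g (u (n + 1)) := hmem _ _ h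
    have h2 := hnx2 n (u n) (u m) (hmem n m (by omega))
    rw [← hsucc] at h2
    linarith
  have hc : CauchySeq u := by
    refine Metric.cauchySeq_iff'.2 fun ε hε => ?_
    obtain ⟨n, hn⟩ := exists_pow_lt_of_lt_one (mul_pos hθ hε) (by norm_num : (1 / 2 : ℝ) < 1)
    exact ⟨n + 1, fun m hm => lt_of_mul_lt_mul_left ((hdiam n m hm).trans_lt hn) hθ.le⟩
  obtain ⟨v, hv⟩ := cauchySeq_tendsto_of_complete hc
  have hvS : ∀ n, v ∈ S (u n) := fun n =>
    (hclosed _).mem_of_tendsto hv (eventually_atTop.2 ⟨n, hmem n⟩)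
  refine ⟨v, hvS 0, fun x hx => ?_⟩
  by_contra! hle
  have hxS : ∀ n, x ∈ S (u n) := fun n => htrans _ _ _ (hvS n) hle
  have hgap : ∀ n, θ * dist x v ≤ (1 / 2 : ℝ) ^ n := fun n => by
    have h1 := hnx2 n (u n) x (hxS n)
    rw [← hsucc] at h1
    have h2 : g v + θ * dist v (u (n + 1)) ≤ g (u (n + 1)) := hvS (n + 1)
    have := mul_nonneg hθ.le (dist_nonneg (x := v) (y := u (n + 1)))
    linarith
  have h0 : θ * dist x v ≤ 0 := ge_of_tendsto'
    (tendsto_pow_atTop_nhds_zero_of_lt_one (by norm_num) (by norm_num : (1 / 2 : ℝ) < 1)) hgap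
  have := mul_pos hθ (dist_pos.2 hx)
  linarith

variable {X : Type*} [NormedAddCommGroup X] [NormedSpace ℝ X] [CompleteSpace X]

/-- **Drop lemma.** Near any point of a closed set there is a point of the set at which a
truncated cone pointing at a given outside point avoids the set. -/
theorem exists_cone {C : Set X} (hC : IsClosed C) {s₀ z : X} (hs₀ : s₀ ∈ C) (hz : z ∉ C) :
    ∃ s ∈ C, ‖s - s₀‖ ≤ 2 * ‖s₀ - z‖ ∧ ∃ ρ : ℝ, 0 < ρ ∧ ρ < ‖z - s‖ ∧
      ∀ t : ℝ, 0 < t → t ≤ 1 → ∀ v : X, ‖v‖ < ρ → s + t • (z - s + v) ∉ C := by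
  have : CompleteSpace C := hC.completeSpace_coe
  obtain ⟨⟨s, hsC⟩, h1, h2⟩ := ekeland (g := fun w : C => ‖(w : X) - z‖)
    (continuous_subtype_val.sub continuous_const).norm (b := 0) (fun _ => norm_nonneg _)
    (θ := 1 / 2) (by norm_num) ⟨s₀, hs₀⟩
  rw [Subtype.dist_eq, dist_eq_norm] at h1
  simp only at h1
  have he : 0 < ‖z - s‖ := norm_pos_iff.2 (sub_ne_zero.2 fun h => hz (h ▸ hsC))
  refine ⟨s, hsC, by linarith [norm_nonneg (s - z)], ‖z - s‖ / 3, by linarith, by linarith,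
    fun t ht ht1 v hv hw => ?_⟩
  have hne : (⟨s + t • (z - s + v), hw⟩ : C) ≠ ⟨s, hsC⟩ := fun h => by
    have h' := congrArg Subtype.val h
    simp only [add_eq_left, smul_eq_zero, ht.ne', false_or] at h'
    have := congrArg norm (add_eq_zero_iff_eq_neg.1 h')
    rw [norm_neg] at this
    linarith
  have h3 := h2 _ hne
  rw [Subtype.dist_eq, dist_eq_norm] at h3
  simp only [add_sub_cancel_left, norm_smul, Real.norm_of_nonneg ht.le] at h3
  have h4 : ‖s + t • (z - s + v) - z‖ ≤ (1 - t) * ‖z - s‖ + t * ‖v‖ := by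
    rw [show s + t • (z - s + v) - z = (t - 1) • (z - s) + t • v by module]
    refine (norm_add_le _ _).trans_eq ?_
    rw [norm_smul, norm_smul, Real.norm_of_nonneg ht.le, Real.norm_eq_abs,
      abs_of_nonpos (by linarith)]
    ring
  have h5 := mul_le_mul_of_nonneg_left (norm_add_le (z - s) v) ht.le
  rw [norm_sub_rev s z] at h3
  have h6 : t * ‖v‖ ≤ t * (‖z - s‖ / 3) := mul_le_mul_of_nonneg_left hv.le ht.le
  linarith [mul_pos ht he]

end Vale.Agent.P084.Full
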