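import Vale.Agent.P084.Full.DualBase

/-!
P084 (Tingley's problem), library: the dual lemma. If the Hessian of `g` is a scalar multiple of
the Hessian of a convex function `N` near a compact face of `N` (in an approximate sense), then
`g` is a constant multiple of `N` plus an affine function near this face.
-/

namespace Vale.Agent.P084.Full.Dual

open MeasureTheory Set Metric Filter Topology Module Bornology
open scoped NNReal ENNReal RealInnerProductSpace

variable {E : Type*} [NormedAddCommGroup E] [InnerProductSpace ℝ E] [FiniteDimensional ℝ E]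

/-- The Riesz representative of a functional. -/
noncomputable def rep : (E →L[ℝ] ℝ) →L[ℝ] E :=
  LinearMap.toContinuousLinearMap
    { toFun := fun f => (InnerProductSpace.toDual ℝ E).symm f
      map_add' := fun f g => map_add _ f g
      map_smul' := fun c f => by simp }

lemma inner_rep (f : E →L[ℝ] ℝ) (v : E) : ⟪rep f, v⟫ = f v :=
  InnerProductSpace.toDual_symm_apply

lemma norm_rep (f : E →L[ℝ] ℝ) : ‖rep f‖ = ‖f‖ :=
  (InnerProductSpace.toDual ℝ E).symm.norm_map f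

lemma rep_inj {f g : E →L[ℝ] ℝ} (h : rep f = rep g) : f = g := by
  ext v; rw [← inner_rep, h, inner_rep]

omit [FiniteDimensional ℝ E] in
/-- The gradient inequality. -/
lemma subgrad {N : E → ℝ} (hN : ConvexOn ℝ univ N) {x : E} (hx : DifferentiableAt ℝ N x) (y : E) :
    N x + fderiv ℝ N x (y - x) ≤ N y := by
  have h1 : ConvexOn ℝ univ (fun t : ℝ => N (AffineMap.lineMap x y t)) := by
    have := hN.comp_affineMap (AffineMap.lineMap (k := ℝ) x y)
    rwa [preimage_univ] at this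
  have h2 : HasDerivAt (fun t : ℝ => AffineMap.lineMap x y t) (y - x) 0 :=
    AffineMap.hasDerivAt_lineMap
  have h3 : HasFDerivAt N (fderiv ℝ N x) (AffineMap.lineMap x y (0 : ℝ)) := by
    rw [AffineMap.lineMap_apply_zero]; exact hx.hasFDerivAt
  have h4 := h1.le_slope_of_hasDerivAt (mem_univ 0) (mem_univ 1) zero_lt_one
    (h3.comp_hasDerivAt (0 : ℝ) h2)
  rw [slope_def_field] at h4
  simp only [AffineMap.lineMap_apply_one, AffineMap.lineMap_apply_zero, sub_zero, div_one] at h4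
  linarith

omit [FiniteDimensional ℝ E] in
/-- The differential of a convex function is monotone. -/
lemma mono_grad {N : E → ℝ} (hN : ConvexOn ℝ univ N) {x y : E} (hx : DifferentiableAt ℝ N x)
    (hy : DifferentiableAt ℝ N y) : 0 ≤ (fderiv ℝ N x - fderiv ℝ N y) (x - y) := by
  have h1 := subgrad hN hx y
  have h2 := subgrad hN hy x
  rw [← neg_sub x y, map_neg] at h1
  rw [sub_apply]
  linarith

omit [FiniteDimensional ℝ E] in
/-- The second derivative of a convex function is nonnegative. -/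
lemma second_nonneg {N : E → ℝ} (hN : ConvexOn ℝ univ N) {W : Set E} (hW : IsOpen W)
    (hNd : DifferentiableOn ℝ N W) {u : E} (hu : u ∈ W)
    (h2 : DifferentiableAt ℝ (fderiv ℝ N) u) (v : E) :
    0 ≤ fderiv ℝ (fderiv ℝ N) u v v := by
  have h4 : HasDerivAt (fun t : ℝ => u + t • v) v 0 := by
    simpa using ((hasDerivAt_id (0 : ℝ)).smul_const v).const_add u
  have h5 : HasFDerivAt (fderiv ℝ N) (fderiv ℝ (fderiv ℝ N) u) (u + (0 : ℝ) • v) := by
    simpa using h2.hasFDerivAt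
  have h6 := ((ContinuousLinearMap.apply ℝ ℝ v).hasFDerivAt.comp_hasDerivAt (0 : ℝ)
    (h5.comp_hasDerivAt (0 : ℝ) h4)).tendsto_slope_zero_right
  refine ge_of_tendsto h6 ?_
  have hev : ∀ᶠ t : ℝ in 𝓝[>] 0, u + t • v ∈ W := by
    refine mem_nhdsWithin_of_mem_nhds ?_
    exact h4.continuousAt.preimage_mem_nhds (by simpa using hW.mem_nhds hu)
  filter_upwards [hev, self_mem_nhdsWithin] with t ht (ht0 : (0 : ℝ) < t)
  have h7 := mono_grad hN (hNd.differentiableAt (hW.mem_nhds ht))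
    (hNd.differentiableAt (hW.mem_nhds hu))
  rw [add_sub_cancel_left, map_smul, smul_eq_mul] at h7
  simp only [Function.comp_apply, ContinuousLinearMap.apply_apply, zero_add, zero_smul, add_zero,
    smul_eq_mul]
  rw [← sub_apply]
  exact mul_nonneg (inv_nonneg.2 ht0.le) (nonneg_of_mul_nonneg_right h7 ht0)

variable [MeasurableSpace E] [BorelSpace E]

/-- The regularised Legendre map: uniformly Lipschitz, with derivative close to a scalar outside
a set of small measure. -/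
lemma regularised (μ : Measure E) [μ.IsAddHaarMeasure] {W : Set E} (hW : IsOpen W)
    (hWm : μ W ≠ ∞) {N g : E → ℝ} {C K s : ℝ} (hC : 0 ≤ C) (hK : 0 ≤ K) (hs : 0 < s) (hs1 : s ≤ 1)
    (hN : ConvexOn ℝ univ N) (hNd : DifferentiableOn ℝ N W)
    (hNL : ∀ u ∈ W, ∀ v ∈ W, ‖fderiv ℝ N u - fderiv ℝ N v‖ ≤ C * ‖u - v‖)
    (hgL : ∀ u ∈ W, ∀ v ∈ W, ‖fderiv ℝ g u - fderiv ℝ g v‖ ≤ C * ‖u - v‖)
    (hess : ∀ᵐ u ∂μ, u ∈ W → ∃ c : ℝ, |c| ≤ K ∧
      fderiv ℝ (fderiv ℝ g) u = c • fderiv ℝ (fderiv ℝ N) u)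
    (u0 : E) {B : Set E} (hB : IsOpen B) (hBc : Convex ℝ B)
    (hBW : B ⊆ (fun u => rep (fderiv ℝ N u) + (s ^ 2) • (u - u0)) '' W) :
    ∃ (Φ : E → E) (A : Set E), LipschitzOnWith K.toNNReal Φ B ∧
      (∀ u ∈ W, rep (fderiv ℝ N u) + (s ^ 2) • (u - u0) ∈ B →
        Φ (rep (fderiv ℝ N u) + (s ^ 2) • (u - u0)) = rep (fderiv ℝ g u)) ∧
      MeasurableSet A ∧
      μ A ≤ ENNReal.ofReal (s * (C + 1) ^ (finrank ℝ E - 1) * (μ W).toReal) ∧
      ∀ a d : E, ⟪a, d⟫ = 0 →
        ∀ᵐ q ∂μ, q ∈ B → q ∉ A → |⟪a, fderiv ℝ Φ q d⟫| ≤ K * s * ‖a‖ * ‖d‖ := by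
  set ε := s ^ 2 with hεdef
  have hε : 0 < ε := by positivity
  have hε1 : ε ≤ 1 := pow_le_one₀ hs.le hs1
  set F : E → E := fun u => rep (fderiv ℝ N u) + ε • (u - u0) with hFdef
  have hNat : ∀ u ∈ W, DifferentiableAt ℝ N u := fun u hu => hNd.differentiableAt (hW.mem_nhds hu)
  have hFexp : ∀ u ∈ W, ∀ v ∈ W, ε * ‖u - v‖ ≤ ‖F u - F v‖ := by
    intro u hu v hv
    have h1 : ε * ‖u - v‖ ^ 2 ≤ ⟪F u - F v, u - v⟫ := by
      have e : F u - F v = rep (fderiv ℝ N u - fderiv ℝ N v) + ε • (u - v) := by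
        simp only [hFdef, map_sub, smul_sub]; abel
      rw [e, inner_add_left, inner_rep, real_inner_smul_left, real_inner_self_eq_norm_sq]
      linarith [mono_grad hN (hNat u hu) (hNat v hv)]
    rcases eq_or_ne (u - v) 0 with h0 | h0
    · simp [h0]
    refine le_of_mul_le_mul_right (a := ‖u - v‖) ?_ (norm_pos_iff.2 h0)
    linarith [real_inner_le_norm (F u - F v) (u - v), mul_assoc ε ‖u - v‖ ‖u - v‖]
  have hinj : InjOn F W := by
    intro u hu v hv e
    have h1 := hFexp u hu v hv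
    rw [e, sub_self, norm_zero] at h1
    exact sub_eq_zero.1 (norm_le_zero_iff.1 (nonpos_of_mul_nonpos_right h1 hε))
  set Φ : E → E := fun q => rep (fderiv ℝ g (Function.invFunOn F W q)) with hΦdef
  have hval : ∀ u ∈ W, Φ (F u) = rep (fderiv ℝ g u) := fun u hu => by
    simp only [hΦdef, hinj.leftInvOn_invFunOn hu]
  have hL0 : LipschitzOnWith (C / ε).toNNReal Φ B := by
    refine LipschitzOnWith.of_dist_le_mul fun p hp q hq => ?_
    obtain ⟨u, hu, rfl⟩ := hBW hp
    obtain ⟨v, hv, rfl⟩ := hBW hq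
    rw [hval u hu, hval v hv, dist_eq_norm, dist_eq_norm, ← map_sub, norm_rep,
      Real.coe_toNNReal _ (div_nonneg hC hε.le)]
    refine (hgL u hu v hv).trans ?_
    rw [div_mul_eq_mul_div, le_div_iff₀ hε, mul_assoc, mul_comm ‖u - v‖ ε]
    exact mul_le_mul_of_nonneg_left (hFexp u hu v hv) hC
  have hFL : LipschitzOnWith (C + ε).toNNReal F W := by
    refine LipschitzOnWith.of_dist_le_mul fun u hu v hv => ?_
    rw [dist_eq_norm, dist_eq_norm, Real.coe_toNNReal _ (add_nonneg hC hε.le)]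
    have e : F u - F v = rep (fderiv ℝ N u - fderiv ℝ N v) + ε • (u - v) := by
      simp only [hFdef, map_sub, smul_sub]; abel
    rw [e]
    refine (norm_add_le _ _).trans ?_
    rw [norm_rep, norm_smul, Real.norm_of_nonneg hε.le, add_mul]
    linarith [hNL u hu v hv]
  -- the exceptional null set
  set Z : Set E := {u | u ∈ W ∧ ¬ (DifferentiableAt ℝ (fderiv ℝ N) u ∧
    DifferentiableAt ℝ (fderiv ℝ g) u ∧
    ∃ c : ℝ, |c| ≤ K ∧ fderiv ℝ (fderiv ℝ g) u = c • fderiv ℝ (fderiv ℝ N) u)} with hZdef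
  have hZ : μ Z = 0 := by
    have l1 : LipschitzOnWith C.toNNReal (fderiv ℝ N) W :=
      LipschitzOnWith.of_dist_le_mul fun u hu v hv => by
        rw [dist_eq_norm, dist_eq_norm, Real.coe_toNNReal _ hC]; exact hNL u hu v hv
    have l2 : LipschitzOnWith C.toNNReal (fderiv ℝ g) W :=
      LipschitzOnWith.of_dist_le_mul fun u hu v hv => by
        rw [dist_eq_norm, dist_eq_norm, Real.coe_toNNReal _ hC]; exact hgL u hu v hv
    have h0 : ∀ᵐ u ∂μ, u ∉ Z := by
      filter_upwards [l1.ae_differentiableWithinAt_of_mem (μ := μ),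
        l2.ae_differentiableWithinAt_of_mem (μ := μ), hess] with u h1 h2 h3 hu
      exact hu.2 ⟨(h1 hu.1).differentiableAt (hW.mem_nhds hu.1),
        (h2 hu.1).differentiableAt (hW.mem_nhds hu.1), h3 hu.1⟩
    simpa [ae_iff] using h0
  have hFZ : μ (F '' Z) = 0 := image_null μ (hFL.mono fun u hu => hu.1) hZ
  -- the derivative at almost every point
  have hder : ∀ᵐ q ∂μ, q ∈ B → ∃ u ∈ W, F u = q ∧ DifferentiableAt ℝ F u ∧
      (fderiv ℝ F u : E →ₗ[ℝ] E).IsSymmetric ∧
      (∀ v, ε * ‖v‖ ^ 2 ≤ ⟪fderiv ℝ F u v, v⟫) ∧ ‖fderiv ℝ F u‖ ≤ C + 1 ∧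
      ∃ c : ℝ, |c| ≤ K ∧ ∀ w, fderiv ℝ Φ q (fderiv ℝ F u w) = c • (fderiv ℝ F u w - ε • w) := by
    filter_upwards [hL0.ae_differentiableWithinAt_of_mem (μ := μ),
      measure_eq_zero_iff_ae_notMem.1 hFZ] with q hq hqZ hqB
    obtain ⟨u, hu, rfl⟩ := hBW hqB
    have hu' : DifferentiableAt ℝ (fderiv ℝ N) u ∧ DifferentiableAt ℝ (fderiv ℝ g) u ∧
        ∃ c : ℝ, |c| ≤ K ∧ fderiv ℝ (fderiv ℝ g) u = c • fderiv ℝ (fderiv ℝ N) u := by
      by_contra hc; exact hqZ ⟨u, ⟨hu, hc⟩, rfl⟩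
    obtain ⟨hn, hg, c, hcK, hc⟩ := hu'
    set Q : E →L[ℝ] E := rep.comp (fderiv ℝ (fderiv ℝ N) u) with hQ
    have hT : HasFDerivAt F (Q + ε • ContinuousLinearMap.id ℝ E) u := by
      have h1 := (rep (E := E)).hasFDerivAt.comp u hn.hasFDerivAt
      have h2 := ((hasFDerivAt_id (𝕜 := ℝ) u).sub_const u0).const_smul ε
      exact h1.add h2
    have hTe : fderiv ℝ F u = Q + ε • ContinuousLinearMap.id ℝ E := hT.fderiv
    refine ⟨u, hu, rfl, hT.differentiableAt, ?_, ?_, ?_, c, hcK, ?_⟩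
    · intro x y
      have hev : ∀ᶠ y in 𝓝 u, HasFDerivAt N (fderiv ℝ N y) y :=
        eventually_of_mem (hW.mem_nhds hu) fun y hy => (hNat y hy).hasFDerivAt
      have hsym := second_derivative_symmetric_of_eventually hev hn.hasFDerivAt x y
      simp only [hTe, hQ, ContinuousLinearMap.coe_coe, add_apply,
        ContinuousLinearMap.comp_apply, smul_apply,
        ContinuousLinearMap.id_apply, inner_add_left, inner_add_right, inner_rep,
        real_inner_smul_left, real_inner_smul_right]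
      rw [real_inner_comm (rep _) x, inner_rep, hsym]
    · intro v
      simp only [hTe, hQ, add_apply, ContinuousLinearMap.comp_apply,
        smul_apply, ContinuousLinearMap.id_apply, inner_add_left, inner_rep,
        real_inner_smul_left, real_inner_self_eq_norm_sq]
      linarith [second_nonneg hN hW hNd hu hn v]
    · rw [hTe]
      refine ContinuousLinearMap.opNorm_le_bound _ (by linarith) fun v => ?_
      simp only [hQ, add_apply, ContinuousLinearMap.comp_apply,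
        smul_apply, ContinuousLinearMap.id_apply]
      refine (norm_add_le _ _).trans ?_
      rw [norm_rep, norm_smul, Real.norm_of_nonneg hε.le]
      have h1 : ‖fderiv ℝ (fderiv ℝ N) u‖ ≤ (C.toNNReal : ℝ) :=
        norm_fderiv_le_of_lipschitzOn ℝ (hW.mem_nhds hu)
          (LipschitzOnWith.of_dist_le_mul fun u hu v hv => by
            rw [dist_eq_norm, dist_eq_norm, Real.coe_toNNReal _ hC]; exact hNL u hu v hv)
      rw [Real.coe_toNNReal _ hC] at h1
      have h2 := (fderiv ℝ (fderiv ℝ N) u).le_of_opNorm_le h1 v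
      have h3 := mul_le_mul_of_nonneg_right hε1 (norm_nonneg v)
      linarith
    · intro w
      have hcomp : HasFDerivAt (fun v => Φ (F v))
          ((fderiv ℝ Φ (F u)).comp (Q + ε • ContinuousLinearMap.id ℝ E)) u :=
        ((hq hqB).differentiableAt (hB.mem_nhds hqB)).hasFDerivAt.comp u hT
      have hEq : (fun v => rep (fderiv ℝ g v)) =ᶠ[𝓝 u] fun v => Φ (F v) :=
        eventually_of_mem (hW.mem_nhds hu) fun v hv => (hval v hv).symm
      have hu2 := (hcomp.congr_of_eventuallyEq hEq).unique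
        ((rep (E := E)).hasFDerivAt.comp u hg.hasFDerivAt)
      have h3 := congrArg (fun T : E →L[ℝ] E => T w) hu2
      simp only [hc, ContinuousLinearMap.comp_apply, smul_apply, map_smul] at h3
      rw [hTe]
      refine h3.trans ?_
      simp [hQ]
  have hsurj : ∀ {T : E →L[ℝ] E}, (∀ v, ε * ‖v‖ ^ 2 ≤ ⟪T v, v⟫) → Function.Surjective T := by
    intro T hT
    refine (LinearMap.injective_iff_surjective (f := (T : E →ₗ[ℝ] E))).1 ?_
    refine (injective_iff_map_eq_zero _).2 fun v hv => ?_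
    have h1 := hT v
    rw [show T v = 0 from hv, inner_zero_left] at h1
    have h2 : ‖v‖ ^ 2 ≤ 0 := nonpos_of_mul_nonpos_right h1 hε
    exact norm_eq_zero.1 (pow_eq_zero_iff two_ne_zero |>.1 (le_antisymm h2 (sq_nonneg _)))
  have hsmall : ∀ {T : E →L[ℝ] E}, (∀ v, ε * ‖v‖ ^ 2 ≤ ⟪T v, v⟫) → ∀ w,
      ‖T w - ε • w‖ ≤ ‖T w‖ := by
    intro T hT w
    refine pow_le_pow_iff_left₀ (norm_nonneg _) (norm_nonneg _) two_ne_zero |>.1 ?_
    rw [norm_sub_sq_real, real_inner_smul_right, norm_smul, Real.norm_of_nonneg hε.le, mul_pow]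
    have h0 := mul_le_mul_of_nonneg_left (hT w) hε.le
    have h1 : 0 ≤ ε * (ε * ‖w‖ ^ 2) := by positivity
    linarith
  -- the Lipschitz bound
  have hKL : LipschitzOnWith K.toNNReal Φ B := by
    refine LipschitzOnWith.of_dist_le_mul fun p hp q hq => ?_
    rw [dist_eq_norm, dist_eq_norm, Real.coe_toNNReal _ hK]
    obtain ⟨r1, hr1, hb1⟩ := Metric.isOpen_iff.1 hB p hp
    obtain ⟨r2, hr2, hb2⟩ := Metric.isOpen_iff.1 hB q hq
    set a := Φ p - Φ q with ha
    rcases eq_or_ne a 0 with h0 | h0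
    · rw [h0, norm_zero]; positivity
    refine le_of_mul_le_mul_right (a := ‖a‖) ?_ (norm_pos_iff.2 h0)
    refine le_of_forall_pos_le_add fun e he => ?_
    set L0 : ℝ≥0 := (C / ε).toNNReal
    set δ := min (min r1 r2) (e / (2 * (L0 * ‖a‖) + 1)) with hδdef
    have hδ : 0 < δ := lt_min (lt_min hr1 hr2) (by positivity)
    have hl := line_bound μ hB hBc hL0 (A := ∅) MeasurableSet.empty (a := a) (d := p - q)
      (η := K * ‖p - q‖ * ‖a‖) (θ := 0) (by positivity) le_rfl (by simp) ?_ hδ (p := q)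
      ((ball_subset_ball ((min_le_left _ _).trans (min_le_right _ _))).trans hb2)
      (by rw [add_sub_cancel]
          exact (ball_subset_ball ((min_le_left _ _).trans (min_le_left _ _))).trans hb1)
    · rw [add_sub_cancel, ← ha, real_inner_self_eq_norm_sq, zero_div, mul_zero, add_zero,
        abs_of_nonneg (sq_nonneg _)] at hl
      have h1 : δ * (2 * (L0 * ‖a‖) + 1) ≤ e :=
        (le_div_iff₀ (by positivity)).1 (min_le_right _ _)
      linarith [sq ‖a‖]
    filter_upwards [hder] with x hx hxB _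
    obtain ⟨u, -, -, -, -, hpos, -, c, hc, hD⟩ := hx hxB
    obtain ⟨w, hw⟩ := hsurj hpos (p - q)
    have h1 := abs_real_inner_le_norm a (fderiv ℝ Φ x (p - q))
    rw [← hw, hD, norm_smul, Real.norm_eq_abs] at h1
    rw [← hw, hD]
    refine h1.trans ?_
    have h2 := mul_le_mul hc (hsmall hpos w) (norm_nonneg _) hK
    have h3 := mul_le_mul_of_nonneg_left h2 (norm_nonneg a)
    linarith
  -- the exceptional set of small measure
  set θ0 := s * (C + 1) ^ (finrank ℝ E - 1) with hθ0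
  set S : Set E :=
    (W ∩ {u | DifferentiableAt ℝ F u}) ∩ {u | |(fderiv ℝ F u).det| ≤ θ0} with hS
  have hSm : MeasurableSet S :=
    (hW.measurableSet.inter (measurableSet_of_differentiableAt ℝ F)).inter
      (measurableSet_le ((ContinuousLinearMap.continuous_det.abs.measurable).comp
        (measurable_fderiv ℝ F)) measurable_const)
  refine ⟨Φ, toMeasurable μ (F '' S), hKL, fun u hu _ => hval u hu, measurableSet_toMeasurable _ _,
    ?_, fun a d had => ?_⟩
  · rw [measure_toMeasurable]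
    refine (addHaar_image_le_lintegral_abs_det_fderiv μ hSm
      (fun x hx => (hx.1.2.hasFDerivAt).hasFDerivWithinAt)).trans ?_
    refine (setLIntegral_mono measurable_const (g := fun _ => ENNReal.ofReal θ0)
      fun x hx => ENNReal.ofReal_le_ofReal hx.2).trans ?_
    rw [setLIntegral_const, ENNReal.ofReal_mul (p := θ0) (by positivity), ENNReal.ofReal_toReal hWm]
    exact mul_le_mul_right (measure_mono fun x hx => hx.1.1) _
  · filter_upwards [hder] with q hq hqB hqA
    obtain ⟨u, hu, rfl, hd, hsym, hpos, hnorm, c, hc, hD⟩ := hq hqB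
    set T := fderiv ℝ F u with hTdef
    have hbig : ∀ v, s * ‖v‖ ^ 2 ≤ ⟪T v, v⟫ := by
      intro v
      by_contra hlt
      push Not at hlt
      exact hqA (subset_toMeasurable _ _ ⟨u, ⟨⟨hu, hd⟩, det_le_of_small hsym
        (fun v => (by positivity : (0:ℝ) ≤ ε * ‖v‖ ^ 2).trans (hpos v)) hnorm hlt⟩, rfl⟩)
    obtain ⟨w, rfl⟩ := hsurj hpos d
    rw [hD, real_inner_smul_right, inner_sub_right, had, zero_sub, real_inner_smul_right, abs_mul,
      abs_neg, abs_mul, abs_of_pos hε]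
    have h1 : s * ‖w‖ ≤ ‖T w‖ := by
      rcases eq_or_ne w 0 with rfl | hw
      · simp
      refine le_of_mul_le_mul_right (a := ‖w‖) ?_ (norm_pos_iff.2 hw)
      linarith [hbig w, real_inner_le_norm (T w) w, sq ‖w‖, mul_assoc s ‖w‖ ‖w‖]
    have h2 : ε * |⟪a, w⟫| ≤ s * ‖a‖ * ‖T w‖ := by
      have h3 := mul_le_mul_of_nonneg_left h1 (mul_nonneg hs.le (norm_nonneg a))
      have h4 := mul_le_mul_of_nonneg_left (abs_real_inner_le_norm a w) hε.le
      have h5 : ε * (‖a‖ * ‖w‖) = s * ‖a‖ * (s * ‖w‖) := by rw [hεdef]; ring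
      linarith
    have h6 := mul_le_mul hc h2 (by positivity) hK
    linarith

/-- **Dual lemma.** If the Hessians of `gk` are bounded scalar multiples of those of the convex
functions `Nk`, then the limit `g` is a constant multiple of the limit `N` plus an affine function
near every bounded face of `N` contained in the domain. -/
theorem _root_.Vale.Agent.P084.Full.dual_lemma (μ : Measure E) [μ.IsAddHaarMeasure]
    (hdim : 2 ≤ finrank ℝ E) {U : Set E} (hU : IsOpen U) {N g : E → ℝ} {Nk gk : ℕ → E → ℝ}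
    {C K : ℝ} (hN : ConvexOn ℝ univ N) (hNd : DifferentiableOn ℝ N U)
    (hgd : DifferentiableOn ℝ g U) (hNk : ∀ k, ConvexOn ℝ univ (Nk k))
    (hNkd : ∀ k, DifferentiableOn ℝ (Nk k) U)
    (hNkL : ∀ k, ∀ u ∈ U, ∀ v ∈ U,
      ‖fderiv ℝ (Nk k) u - fderiv ℝ (Nk k) v‖ ≤ C * ‖u - v‖)
    (hgkL : ∀ k, ∀ u ∈ U, ∀ v ∈ U,
      ‖fderiv ℝ (gk k) u - fderiv ℝ (gk k) v‖ ≤ C * ‖u - v‖)
    (hNlim : ∀ u ∈ U, Tendsto (fun k => fderiv ℝ (Nk k) u) atTop (𝓝 (fderiv ℝ N u)))
    (hglim : ∀ u ∈ U, Tendsto (fun k => fderiv ℝ (gk k) u) atTop (𝓝 (fderiv ℝ g u)))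
    (hess : ∀ k, ∀ᵐ u ∂μ, u ∈ U → ∃ c : ℝ, |c| ≤ K ∧
      fderiv ℝ (fderiv ℝ (gk k)) u = c • fderiv ℝ (fderiv ℝ (Nk k)) u)
    {u0 : E} (hu0 : u0 ∈ U)
    (hMb : IsBounded {u | N u = N u0 + fderiv ℝ N u0 (u - u0)})
    (hMU : {u | N u = N u0 + fderiv ℝ N u0 (u - u0)} ⊆ U) :
    ∃ c : ℝ, |c| ≤ K ∧ ∃ W, IsOpen W ∧ Convex ℝ W ∧
      {u | N u = N u0 + fderiv ℝ N u0 (u - u0)} ⊆ W ∧ W ⊆ U ∧
      (∃ (l : E →L[ℝ] ℝ) (b : ℝ), ∀ u ∈ W, g u = c * N u + l u + b) ∧
      ¬ ∃ (l : E →L[ℝ] ℝ) (b : ℝ), ∀ u ∈ W, N u = l u + b := by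
  have : Nontrivial E := Module.nontrivial_of_finrank_pos (R := ℝ) (by omega)
  have hK : 0 ≤ K := by
    by_contra hneg
    have h1 : ∀ᵐ u ∂μ, u ∉ U := by
      filter_upwards [hess 0] with u hu huU
      obtain ⟨c, hc, -⟩ := hu huU
      linarith [abs_nonneg c]
    exact (hU.measure_pos μ ⟨u0, hu0⟩).ne' (measure_eq_zero_iff_ae_notMem.2 h1)
  set C' := max C 0 with hC'def
  have hC' : 0 ≤ C' := le_max_right _ _
  have hNkL' : ∀ k, ∀ u ∈ U, ∀ v ∈ U,
      ‖fderiv ℝ (Nk k) u - fderiv ℝ (Nk k) v‖ ≤ C' * ‖u - v‖ := fun k u hu v hv =>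
    (hNkL k u hu v hv).trans (mul_le_mul_of_nonneg_right (le_max_left _ _) (norm_nonneg _))
  have hgkL' : ∀ k, ∀ u ∈ U, ∀ v ∈ U,
      ‖fderiv ℝ (gk k) u - fderiv ℝ (gk k) v‖ ≤ C' * ‖u - v‖ := fun k u hu v hv =>
    (hgkL k u hu v hv).trans (mul_le_mul_of_nonneg_right (le_max_left _ _) (norm_nonneg _))
  have hNL : ∀ u ∈ U, ∀ v ∈ U, ‖fderiv ℝ N u - fderiv ℝ N v‖ ≤ C' * ‖u - v‖ := fun u hu v hv =>
    le_of_tendsto ((hNlim u hu).sub (hNlim v hv)).norm
      (Eventually.of_forall fun k => hNkL' k u hu v hv)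
  have hN'c : ContinuousOn (fderiv ℝ N) U :=
    (LipschitzOnWith.of_dist_le_mul (K := C'.toNNReal) fun u hu v hv => by
      rw [dist_eq_norm, dist_eq_norm, Real.coe_toNNReal _ hC']; exact hNL u hu v hv).continuousOn
  set p0 := fderiv ℝ N u0 with hp0
  set M : Set E := {u | N u = N u0 + p0 (u - u0)} with hMdef
  have hNat : ∀ u ∈ U, DifferentiableAt ℝ N u := fun u hu => hNd.differentiableAt (hU.mem_nhds hu)
  have hNc : Continuous N := continuousOn_univ.1 (hN.continuousOn isOpen_univ)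
  have hge : ∀ u, N u0 + p0 (u - u0) ≤ N u := subgrad hN (hNat u0 hu0)
  have hMc : IsCompact M :=
    isCompact_of_isClosed_isBounded (isClosed_eq hNc (by fun_prop)) hMb
  have hMconv : Convex ℝ M := by
    intro x hx y hy α β hα hβ hab
    simp only [hMdef, mem_ofPred_eq] at hx hy ⊢
    refine le_antisymm ((hN.2 (mem_univ x) (mem_univ y) hα hβ hab).trans (le_of_eq ?_)) (hge _)
    simp only [smul_eq_mul, map_sub, map_add, map_smul] at hx hy ⊢
    rw [hx, hy]
    linear_combination (N u0 - p0 u0) * hab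
  have hu0M : u0 ∈ M := by simp [hMdef]
  obtain ⟨δ, hδ, hδU⟩ := hMc.exists_cthickening_subset_open hU hMU
  set W := thickening δ M with hWdef
  set Cl := cthickening δ M with hCldef
  have hWopen : IsOpen W := isOpen_thickening
  have hWCl : W ⊆ Cl := thickening_subset_cthickening _ _
  have hWU : W ⊆ U := hWCl.trans hδU
  have hMW : M ⊆ W := self_subset_thickening hδ M
  have hClc : IsCompact Cl := hMc.cthickening
  have hClconv : Convex ℝ Cl := hMconv.cthickening δ
  have hWm : μ W ≠ ∞ := ((measure_mono hWCl).trans_lt hClc.measure_lt_top).ne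
  -- bounds on the collar
  set S1 := Cl \ W with hS1
  have hS1c : IsCompact S1 := hClc.diff hWopen
  obtain ⟨η, hη, hηS⟩ : ∃ η : ℝ, 0 < η ∧ ∀ u ∈ S1, η ≤ (fderiv ℝ N u - p0) (u - u0) := by
    rcases S1.eq_empty_or_nonempty with h0 | h0
    · exact ⟨1, one_pos, by simp [h0]⟩
    obtain ⟨x, hx, hxmin⟩ := hS1c.exists_isMinOn h0
      (f := fun u => (fderiv ℝ N u - p0) (u - u0))
      (((hN'c.mono (fun u hu => hδU hu.1)).sub continuousOn_const).clm_apply (by fun_prop))
    refine ⟨_, ?_, hxmin⟩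
    have h1 := subgrad hN (hNat x (hδU hx.1)) u0
    have h2 : N u0 + p0 (x - u0) < N x :=
      lt_of_le_of_ne (hge x) fun e => hx.2 (hMW e.symm)
    rw [← neg_sub x u0, map_neg] at h1
    simp only [sub_apply]
    linarith
  obtain ⟨Rb, hRb, hRS⟩ : ∃ R : ℝ, 0 < R ∧ ∀ u ∈ Cl, ‖u - u0‖ ≤ R := by
    obtain ⟨R, hR⟩ := hClc.isBounded.subset_closedBall u0
    refine ⟨max R 1, by positivity, fun u hu => ?_⟩
    rw [← dist_eq_norm]
    exact (mem_closedBall.1 (hR hu)).trans (le_max_left _ _)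
  set q0 := rep p0 with hq0
  set ρ := η / (4 * Rb) with hρdef
  have hρ : 0 < ρ := by positivity
  set B := ball q0 ρ with hBdef
  set s : ℕ → ℝ := fun k => 1 / ((k : ℝ) + 1) with hsdef
  have hs0 : ∀ k, 0 < s k := fun k => by positivity
  have hs1 : ∀ k, s k ≤ 1 := fun k => by
    rw [hsdef]; exact div_le_one_of_le₀ (by simp) (by positivity)
  have hslim : Tendsto s atTop (𝓝 0) := tendsto_one_div_add_atTop_nhds_zero_nat
  set F : ℕ → E → E := fun k u => rep (fderiv ℝ (Nk k) u) + (s k ^ 2) • (u - u0) with hFdef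
  have hFlim : ∀ u ∈ U, Tendsto (fun k => F k u) atTop (𝓝 (rep (fderiv ℝ N u))) := by
    intro u hu
    simpa using (((rep (E := E)).continuous.tendsto _).comp (hNlim u hu)).add
      ((hslim.pow 2).smul_const (u - u0))
  -- uniform convergence on the collar
  have hunif : ∀ᶠ k in atTop, ∀ u ∈ S1, ‖fderiv ℝ (Nk k) u - fderiv ℝ N u‖ ≤ ρ := by
    have hr : 0 < ρ / (4 * (C' + 1)) := by positivity
    obtain ⟨t, hts, htf, htc⟩ := finite_cover_balls_of_compact hS1c hr
    have h1 : ∀ᶠ k in atTop, ∀ x ∈ t, ‖fderiv ℝ (Nk k) x - fderiv ℝ N x‖ ≤ ρ / 2 := by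
      refine htf.eventually_all.2 fun x hx => ?_
      have := (hNlim x (hδU (hts hx).1)).eventually (closedBall_mem_nhds _ (half_pos hρ))
      simpa [mem_closedBall, dist_eq_norm] using this
    filter_upwards [h1] with k hk u hu
    obtain ⟨x, hx, hux⟩ := mem_iUnion₂.1 (htc hu)
    rw [mem_ball, dist_eq_norm] at hux
    have a1 := hNkL' k u (hδU hu.1) x (hδU (hts hx).1)
    have a2 := hNL u (hδU hu.1) x (hδU (hts hx).1)
    have a3 : ‖u - x‖ * (4 * (C' + 1)) ≤ ρ := ((lt_div_iff₀ (by positivity)).1 hux).le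
    have a4 := norm_sub_le_norm_sub_add_norm_sub (fderiv ℝ (Nk k) u) (fderiv ℝ (Nk k) x)
      (fderiv ℝ N u)
    have a5 := norm_sub_le_norm_sub_add_norm_sub (fderiv ℝ (Nk k) x) (fderiv ℝ N x)
      (fderiv ℝ N u)
    rw [norm_sub_rev (fderiv ℝ N x) (fderiv ℝ N u)] at a5
    linarith [hk x hx, norm_nonneg (u - x)]
  -- every point of the ball is reached
  have hsub : ∀ᶠ k in atTop, B ⊆ F k '' W := by
    filter_upwards [hunif] with k hk q hq
    set ε := s k ^ 2
    have hd : ∀ u ∈ U, HasFDerivAt (fun u => Nk k u - ⟪q, u⟫ + ε / 2 * ‖u - u0‖ ^ 2)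
        (fderiv ℝ (Nk k) u - innerSL ℝ q + (ε / 2) • (2 • innerSL ℝ (u - u0))) u := by
      intro u hu
      have h1 := (((hNkd k).differentiableAt (hU.mem_nhds hu)).hasFDerivAt).sub
        ((innerSL ℝ q).hasFDerivAt (x := u))
      have h2 := (((hasFDerivAt_id (𝕜 := ℝ) u).sub_const u0).norm_sq).const_mul (ε / 2)
      simpa [Pi.sub_def, Pi.add_def, Pi.sub_apply, Pi.add_apply] using h1.add h2
    obtain ⟨u, hu, humin⟩ := hClc.exists_isMinOn ⟨u0, hWCl (hMW hu0M)⟩
      (f := fun u => Nk k u - ⟪q, u⟫ + ε / 2 * ‖u - u0‖ ^ 2)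
      (fun u hu => (hd u (hδU hu)).continuousAt.continuousWithinAt)
    by_cases huW : u ∈ W
    · refine ⟨u, huW, ?_⟩
      have h0 := (humin.isLocalMin (mem_of_superset (hWopen.mem_nhds huW) hWCl)).hasFDerivAt_eq_zero
        (hd u (hδU hu))
      refine ext_inner_right ℝ fun v => ?_
      have := congrArg (fun T : E →L[ℝ] ℝ => T v) h0
      simp at this
      simp only [hFdef, inner_add_left, inner_rep, real_inner_smul_left, inner_sub_left]
      linarith [show s k ^ 2 * (⟪u, v⟫ - ⟪u0, v⟫) = ε * (⟪u, v⟫ - ⟪u0, v⟫) from rfl]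
    · exfalso
      have h0 := humin.localize.hasFDerivWithinAt_nonneg (hd u (hδU hu)).hasFDerivWithinAt
        (sub_mem_posTangentConeAt_of_segment_subset
          (hClconv.segment_subset hu (hWCl (hMW hu0M))))
      have h1 := hηS u ⟨hu, huW⟩
      have h2 := (fderiv ℝ (Nk k) u - fderiv ℝ N u).le_of_opNorm_le (hk u ⟨hu, huW⟩) (u - u0)
      rw [Real.norm_eq_abs] at h2
      have h3 : |⟪q - q0, u - u0⟫| ≤ ρ * ‖u - u0‖ := (abs_real_inner_le_norm _ _).trans
        (mul_le_mul_of_nonneg_right (by rw [← dist_eq_norm]; exact (mem_ball.1 hq).le)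
          (norm_nonneg _))
      have h4 : ρ * ‖u - u0‖ ≤ η / 4 := by
        refine (mul_le_mul_of_nonneg_left (hRS u hu) hρ.le).trans (le_of_eq ?_)
        rw [hρdef]; field_simp
      rw [inner_sub_left, hq0, inner_rep] at h3
      simp only [sub_apply] at h1 h2
      rw [show u0 - u = -(u - u0) from (neg_sub u u0).symm, map_neg] at h0
      simp only [add_apply, sub_apply,
        smul_apply, innerSL_apply_apply, real_inner_self_eq_norm_sq,
        smul_eq_mul, nsmul_eq_mul, Nat.cast_ofNat] at h0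
      have h5 : 0 ≤ ε * ‖u - u0‖ ^ 2 := by positivity
      linarith [(abs_le.1 h2).1, (abs_le.1 h3).2]
  have hu0B : ∀ᶠ k in atTop, F k u0 ∈ B :=
    (hFlim u0 hu0).eventually (isOpen_ball.mem_nhds (mem_ball_self hρ))
  set θ : ℕ → ℝ := fun k => s k * (C' + 1) ^ (finrank ℝ E - 1) * (μ W).toReal with hθdef
  have hex : ∀ k, ∃ (Φ : E → E) (A : Set E), B ⊆ F k '' W →
      LipschitzOnWith K.toNNReal Φ B ∧
      (∀ u ∈ W, F k u ∈ B → Φ (F k u) = rep (fderiv ℝ (gk k) u)) ∧
      MeasurableSet A ∧ μ A ≤ ENNReal.ofReal (θ k) ∧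
      ∀ a d : E, ⟪a, d⟫ = 0 →
        ∀ᵐ q ∂μ, q ∈ B → q ∉ A → |⟪a, fderiv ℝ Φ q d⟫| ≤ K * s k * ‖a‖ * ‖d‖ := by
    intro k
    by_cases hk : B ⊆ F k '' W
    · obtain ⟨Φ, A, h⟩ := regularised μ hWopen hWm hC' hK (hs0 k) (hs1 k) (hNk k)
        ((hNkd k).mono hWU) (fun u hu v hv => hNkL' k u (hWU hu) v (hWU hv))
        (fun u hu v hv => hgkL' k u (hWU hu) v (hWU hv))
        ((hess k).mono fun u h hu => h (hWU hu)) u0 isOpen_ball (convex_ball q0 ρ) hk
      exact ⟨Φ, A, fun _ => h⟩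
    · exact ⟨fun _ => 0, ∅, fun h => absurd h hk⟩
  choose Φ A hΦ using hex
  set 𝔘 : Ultrafilter ℕ := Ultrafilter.of atTop with h𝔘
  have h𝔘le : (𝔘 : Filter ℕ) ≤ atTop := Ultrafilter.of_le _
  have hlimit : ∀ p, ∃ x, p ∈ B → Tendsto (fun k => Φ k p) 𝔘 (𝓝 x) := by
    intro p
    by_cases hp : p ∈ B
    · set bd := ‖rep (fderiv ℝ g u0)‖ + K * ‖p - q0‖ + 1
      have hev : ∀ᶠ k in atTop, Φ k p ∈ closedBall (0 : E) bd := by
        have h1 : Tendsto (fun k => ‖rep (fderiv ℝ (gk k) u0)‖ + K * ‖p - F k u0‖) atTop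
            (𝓝 (‖rep (fderiv ℝ g u0)‖ + K * ‖p - q0‖)) :=
          (((rep (E := E)).continuous.tendsto _).comp (hglim u0 hu0)).norm.add
            (((tendsto_const_nhds.sub (hFlim u0 hu0)).norm).const_mul K)
        filter_upwards [hsub, hu0B, h1.eventually (eventually_le_nhds (lt_add_one _))]
          with k hk hk0 hk1
        obtain ⟨hL, hv, -⟩ := hΦ k hk
        have h2 := hL.norm_sub_le hp hk0
        rw [hv u0 (hMW hu0M) hk0, Real.coe_toNNReal _ hK] at h2
        rw [mem_closedBall_zero_iff]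
        linarith [norm_le_norm_add_norm_sub' (Φ k p) (rep (fderiv ℝ (gk k) u0))]
      obtain ⟨x, -, hx⟩ := (isCompact_closedBall (0 : E) bd).ultrafilter_le_nhds'
        (𝔘.map (fun k => Φ k p)) (Ultrafilter.mem_map.2 (h𝔘le hev))
      exact ⟨x, fun _ => hx⟩
    · exact ⟨0, fun h => absurd h hp⟩
  choose Ψ hΨ using hlimit
  have hΨK : ∀ p ∈ B, ∀ q ∈ B, ‖Ψ p - Ψ q‖ ≤ K * ‖p - q‖ := by
    intro p hp q hq
    refine le_of_tendsto ((hΨ p hp).sub (hΨ q hq)).norm (h𝔘le ?_)
    filter_upwards [hsub] with k hk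
    have h1 := (hΦ k hk).1.norm_sub_le hp hq
    rwa [Real.coe_toNNReal _ hK] at h1
  have hpar : ∀ p ∈ B, ∀ q ∈ B, ∀ a : E, ⟪a, q - p⟫ = 0 → ⟪a, Ψ q - Ψ p⟫ = 0 := by
    intro p hp q hq a ha
    obtain ⟨r1, hr1, hb1⟩ := Metric.isOpen_iff.1 isOpen_ball p hp
    obtain ⟨r2, hr2, hb2⟩ := Metric.isOpen_iff.1 isOpen_ball q hq
    refine abs_nonpos_iff.1 (le_of_forall_pos_le_add fun e he => ?_)
    set δ' := min (min r1 r2) (e / (2 * (K.toNNReal * ‖a‖) + 1)) with hδ'def
    have hδ' : 0 < δ' := lt_min (lt_min hr1 hr2) (by positivity)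
    set m := (μ (ball p δ')).toReal
    have hb : ∀ᶠ k in atTop, |⟪a, Φ k q - Φ k p⟫| ≤ K * s k * ‖a‖ * ‖q - p‖ +
        K.toNNReal * ‖q - p‖ * ‖a‖ * (θ k / m) + 2 * (K.toNNReal * δ' * ‖a‖) := by
      filter_upwards [hsub] with k hk
      obtain ⟨hL, -, hAm, hAμ, hd⟩ := hΦ k hk
      have h1 := line_bound μ isOpen_ball (convex_ball q0 ρ) hL hAm (a := a) (d := q - p)
        (θ := θ k) (by have := hs0 k; positivity)
        (by have := hs0 k; simp only [hθdef]; positivity) hAμ (hd a (q - p) ha) hδ' (p := p)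
        ((ball_subset_ball ((min_le_left _ _).trans (min_le_left _ _))).trans hb1)
        (by rw [add_sub_cancel]
            exact (ball_subset_ball ((min_le_left _ _).trans (min_le_right _ _))).trans hb2)
      rwa [add_sub_cancel] at h1
    have hl : Tendsto (fun k => K * s k * ‖a‖ * ‖q - p‖ +
        K.toNNReal * ‖q - p‖ * ‖a‖ * (θ k / m) + 2 * (K.toNNReal * δ' * ‖a‖)) atTop
        (𝓝 (2 * (K.toNNReal * δ' * ‖a‖))) := by
      have hθ : Tendsto θ atTop (𝓝 0) := by
        simpa [hθdef] using (hslim.mul_const ((C' + 1) ^ (finrank ℝ E - 1))).mul_const (μ W).toReal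
      simpa using ((((hslim.const_mul K).mul_const ‖a‖).mul_const ‖q - p‖).add
        ((hθ.div_const m).const_mul ((K.toNNReal : ℝ) * ‖q - p‖ * ‖a‖))).add_const
          (2 * (K.toNNReal * δ' * ‖a‖))
    have h2 := le_of_tendsto_of_tendsto
      (((tendsto_const_nhds (x := a)).inner ((hΨ q hq).sub (hΨ p hp))).abs)
      (hl.mono_left h𝔘le) (h𝔘le hb)
    refine h2.trans ?_
    have h3 : δ' * (2 * (K.toNNReal * ‖a‖) + 1) ≤ e :=
      (le_div_iff₀ (by positivity)).1 (min_le_right _ _)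
    linarith
  obtain ⟨c, hc⟩ := affine_of_parallel hdim hρ hpar
  have hcK : |c| ≤ K := by
    obtain ⟨v, hv⟩ := exists_norm_eq E (half_pos hρ).le
    have hm : q0 + v ∈ B := by
      rw [hBdef, mem_ball, dist_eq_norm, add_sub_cancel_left, hv]; linarith
    have h1 := hΨK _ hm _ (mem_ball_self hρ)
    rw [hc _ hm, add_sub_cancel_left, add_sub_cancel_left, norm_smul, Real.norm_eq_abs, hv] at h1
    exact le_of_mul_le_mul_right h1 (half_pos hρ)
  -- near the face
  have hO : IsOpen (U ∩ (fun u => rep (fderiv ℝ N u)) ⁻¹' B) :=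
    ((rep (E := E)).continuous.comp_continuousOn hN'c).isOpen_inter_preimage hU isOpen_ball
  have hMO : M ⊆ W ∩ (U ∩ (fun u => rep (fderiv ℝ N u)) ⁻¹' B) := by
    intro x hx
    refine ⟨hMW hx, hMU hx, ?_⟩
    have hmin : IsLocalMin (fun u => N u - p0 u) x := Eventually.of_forall fun u => by
      have h1 := hge u
      have h2 : N x = N u0 + p0 (x - u0) := hx
      rw [map_sub] at h1 h2
      linarith
    have h0 := hmin.hasFDerivAt_eq_zero ((hNat x (hMU hx)).hasFDerivAt.sub p0.hasFDerivAt)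
    show rep (fderiv ℝ N x) ∈ B
    rw [sub_eq_zero.1 h0]; exact mem_ball_self hρ
  obtain ⟨δ2, hδ2, hδ2O⟩ := hMc.exists_thickening_subset_open (hWopen.inter hO) hMO
  set W2 := thickening δ2 M
  have hW2U : W2 ⊆ U := fun u hu => hWU (hδ2O hu).1
  refine ⟨c, hcK, W2, isOpen_thickening, hMconv.thickening δ2, self_subset_thickening hδ2 M, hW2U,
    ?_, ?_⟩
  · set l := fderiv ℝ g u0 - c • fderiv ℝ N u0
    have hgrad : ∀ u ∈ W2, fderiv ℝ g u = c • fderiv ℝ N u + l := by
      intro u hu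
      obtain ⟨huW, huU, huB⟩ := hδ2O hu
      have hkey : ∀ u ∈ W, rep (fderiv ℝ N u) ∈ B →
          Ψ (rep (fderiv ℝ N u)) = rep (fderiv ℝ g u) := by
        intro u huW huB
        refine tendsto_nhds_unique (hΨ _ huB) (Tendsto.mono_left ?_ h𝔘le)
        rw [tendsto_iff_norm_sub_tendsto_zero]
        have h1 : Tendsto (fun k => K * ‖rep (fderiv ℝ N u) - F k u‖ +
            ‖rep (fderiv ℝ (gk k) u) - rep (fderiv ℝ g u)‖) atTop (𝓝 0) := by
          simpa using (((tendsto_const_nhds (x := rep (fderiv ℝ N u))).sub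
            (hFlim u (hWU huW))).norm.const_mul K).add
            ((((rep (E := E)).continuous.tendsto _).comp (hglim u (hWU huW))).sub
              (tendsto_const_nhds (x := rep (fderiv ℝ g u)))).norm
        refine squeeze_zero' (Eventually.of_forall fun k => norm_nonneg _) ?_ h1
        filter_upwards [hsub, (hFlim u (hWU huW)).eventually (isOpen_ball.mem_nhds huB)]
          with k hk hk0
        obtain ⟨hL, hv, -⟩ := hΦ k hk
        have h2 := hL.norm_sub_le huB hk0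
        rw [hv u huW hk0, Real.coe_toNNReal _ hK] at h2
        linarith [norm_sub_le_norm_sub_add_norm_sub (Φ k (rep (fderiv ℝ N u)))
          (rep (fderiv ℝ (gk k) u)) (rep (fderiv ℝ g u))]
      refine rep_inj ?_
      rw [← hkey u huW huB, hc _ huB, hkey u0 (hMW hu0M) (mem_ball_self hρ), map_add, map_smul,
        map_sub, map_smul, smul_sub]
      abel
    have hd : ∀ u ∈ W2, HasFDerivAt (fun u => g u - c * N u - l u) (0 : E →L[ℝ] ℝ) u := by
      intro u hu
      have h1 := ((hgd.differentiableAt (hU.mem_nhds (hW2U hu))).hasFDerivAt.sub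
        ((hNat u (hW2U hu)).hasFDerivAt.const_mul c)).sub l.hasFDerivAt
      rw [hgrad u hu, add_sub_cancel_left, sub_self] at h1
      exact h1
    obtain ⟨b, hb⟩ := isOpen_thickening.exists_is_const_of_fderiv_eq_zero
      (hMconv.thickening δ2).isPreconnected
      (fun u hu => (hd u hu).differentiableAt.differentiableWithinAt)
      (fun u hu => (hd u hu).fderiv)
    exact ⟨l, b, fun u hu => by linarith [hb u hu]⟩
  · rintro ⟨l, b, hlb⟩
    have hu0W2 : u0 ∈ W2 := self_subset_thickening hδ2 M hu0M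
    have hl : p0 = l := by
      refine ((l.hasFDerivAt.add_const b).congr_of_eventuallyEq ?_).fderiv
      exact eventually_of_mem (isOpen_thickening.mem_nhds hu0W2) hlb
    have hsubM : W2 ⊆ M := fun u hu => by
      show N u = N u0 + p0 (u - u0)
      rw [hlb u hu, hlb u0 hu0W2, hl, map_sub]; ring
    have heq : M = W2 := Subset.antisymm (self_subset_thickening hδ2 M) hsubM
    rcases isClopen_iff.1 (⟨hMc.isClosed, heq ▸ isOpen_thickening⟩ : IsClopen M) with h | h
    · exact absurd (h ▸ hu0M : u0 ∈ (∅ : Set E)) (notMem_empty _)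
    · exact NormedSpace.unbounded_univ ℝ E (h ▸ hMb)

end Vale.Agent.P084.Full.Dual
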