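import Vale.Agent.P084.Full.Patch
import Vale.Agent.P084.Full.Dual

/-!
P084 (Tingley's problem), library for the general case: the dual lemma applied to the slices
through a face gives the local coefficients.
-/

namespace Vale.Agent.P084.Full

open Filter Topology Metric Orbit MeasureTheory
open scoped NNReal

variable {X Y : Type*} [NormedAddCommGroup X] [NormedSpace ℝ X] [NormedAddCommGroup Y]
  [NormedSpace ℝ Y] (f : PIso X Y) [CompleteSpace X] [CompleteSpace Y]

omit [CompleteSpace X] in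
/-- The derivative of the norm along an affine slice. -/
lemma hasFDerivAt_norm_slice {m : ℕ} (A : EuclideanSpace ℝ (Fin m) →L[ℝ] X) {c : X}
    {u : EuclideanSpace ℝ (Fin m)} (hu : Smooth (c + A u)) :
    HasFDerivAt (fun v => ‖c + A v‖) ((dNorm (c + A u)).comp A) u :=
  hu.hasFDerivAt_norm.comp u (A.hasFDerivAt.const_add c)

/-- The derivative of a functional of the extension along an affine slice. -/
lemma hasFDerivAt_G_slice {m : ℕ} (A : EuclideanSpace ℝ (Fin m) →L[ℝ] X) (φ : Y →L[ℝ] ℝ) {c : X}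
    {u : EuclideanSpace ℝ (Fin m)} (hu : Smooth (c + A u)) :
    HasFDerivAt (fun v => φ (f.G (c + A v))) ((φ.comp (dG f (c + A u))).comp A) u :=
  HasFDerivAt.comp (g := φ ∘ f.G) u (φ.hasFDerivAt.comp (c + A u) (hasFDerivAt_G f hu))
    (A.hasFDerivAt.const_add c)

omit [CompleteSpace X] in
/-- A line derivative in the space gives one in the slice. -/
lemma hasLineDerivAt_slice {m : ℕ} (A : EuclideanSpace ℝ (Fin m) →L[ℝ] X) {c : X}
    {u v : EuclideanSpace ℝ (Fin m)} {F : X → ℝ} {F' : ℝ}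
    (h : HasLineDerivAt ℝ F F' (c + A u) (A v)) :
    HasLineDerivAt ℝ (fun w => F (c + A w)) F' u v := by
  unfold HasLineDerivAt at h ⊢
  refine h.congr_of_eventuallyEq (Eventually.of_forall fun t => ?_)
  simp only [map_add, map_smul, add_assoc]

/-- The Hessians along a translate are proportional almost everywhere. -/
lemma hess_slice {m : ℕ} (v : Fin m → X) (φ : Y →L[ℝ] ℝ) {c : X} {K : ℝ}
    (hK : K = 2 * ‖φ‖) {U : Set (EuclideanSpace ℝ (Fin m))} (hU : IsOpen U)
    {A : EuclideanSpace ℝ (Fin m) →L[ℝ] X} (hA : ∀ u, A u = ∑ i, u i • v i)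
    (hUS : ∀ u ∈ U, Smooth (c + A u)) {CN Cg : ℝ≥0}
    (hN : LipschitzOnWith CN (fun u => (dNorm (c + A u)).comp A) U)
    (hg : LipschitzOnWith Cg (fun u => (φ.comp (dG f (c + A u))).comp A) U)
    (hae : ∀ᵐ u : Fin m → ℝ, Smooth (c + ∑ i, u i • v i) →
      ∃ (Q : Fin m → Fin m → ℝ) (cc : ℝ), |cc| ≤ 2 * ‖φ‖ ∧ (∀ i j, Q i j = Q j i) ∧
        (∀ i j, Q i j ^ 2 ≤ Q i i * Q j j) ∧ (∀ i, 0 ≤ Q i i) ∧ ∀ i j,
          HasLineDerivAt ℝ (fun y => dNorm y (v j)) (Q i j) (c + ∑ i, u i • v i) (v i) ∧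
          HasLineDerivAt ℝ (fun y => φ (dG f y (v j))) (cc * Q i j) (c + ∑ i, u i • v i) (v i) ∧
          HasLineDerivAt ℝ (fun y => dNorm (f.G (c + ∑ i, u i • v i)) (dG f y (v j))) 0
            (c + ∑ i, u i • v i) (v i)) :
    ∀ᵐ u : EuclideanSpace ℝ (Fin m), u ∈ U → ∃ cc : ℝ, |cc| ≤ K ∧
      fderiv ℝ (fderiv ℝ (fun w => φ (f.G (c + A w)))) u =
        cc • fderiv ℝ (fderiv ℝ (fun w => ‖c + A w‖)) u := by
  have h0 := (PiLp.volume_preserving_ofLp (Fin m)).quasiMeasurePreserving.ae hae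
  filter_upwards [h0, hN.ae_differentiableWithinAt_of_mem, hg.ae_differentiableWithinAt_of_mem]
    with u hu hNd hgd huU
  have eA : c + ∑ i, u.ofLp i • v i = c + A u := by rw [hA]
  rw [eA] at hu
  obtain ⟨Q, cc, hcc, -, -, -, hl⟩ := hu (hUS u huU)
  refine ⟨cc, hK ▸ hcc, ?_⟩
  have dN := (hNd huU).differentiableAt (hU.mem_nhds huU)
  have dg := (hgd huU).differentiableAt (hU.mem_nhds huU)
  have eN : fderiv ℝ (fun w => ‖c + A w‖) =ᶠ[𝓝 u] fun w => (dNorm (c + A w)).comp A :=
    eventually_of_mem (hU.mem_nhds huU) fun w hw => (hasFDerivAt_norm_slice A (hUS w hw)).fderiv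
  have eg : fderiv ℝ (fun w => φ (f.G (c + A w))) =ᶠ[𝓝 u]
      fun w => (φ.comp (dG f (c + A w))).comp A :=
    eventually_of_mem (hU.mem_nhds huU) fun w hw => (hasFDerivAt_G_slice f A φ (hUS w hw)).fderiv
  rw [eN.fderiv_eq, eg.fderiv_eq]
  set b := EuclideanSpace.basisFun (Fin m) ℝ
  have eb : ∀ i, A (b i) = v i := fun i => by
    rw [hA]
    simp [b, EuclideanSpace.basisFun_apply, PiLp.single_apply]
  refine ContinuousLinearMap.coe_injective (b.toBasis.ext fun i => ?_)
  refine ContinuousLinearMap.coe_injective (b.toBasis.ext fun j => ?_)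
  simp only [OrthonormalBasis.coe_toBasis, ContinuousLinearMap.coe_coe, smul_apply, smul_eq_mul]
  obtain ⟨h1, h2, -⟩ := hl i j
  rw [← eb i] at h1 h2
  have k1 := ((ContinuousLinearMap.apply ℝ ℝ (b j)).hasFDerivAt.comp u
    dN.hasFDerivAt).hasLineDerivAt (b i)
  have k2 := ((ContinuousLinearMap.apply ℝ ℝ (b j)).hasFDerivAt.comp u
    dg.hasFDerivAt).hasLineDerivAt (b i)
  simp only [Function.comp_def, ContinuousLinearMap.apply_apply, ContinuousLinearMap.coe_comp,
    eb j] at k1 k2
  rw [k1.unique (hasLineDerivAt_slice A h1), k2.unique (hasLineDerivAt_slice A h2)]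

/-- Lipschitz restriction of the first derivatives to a slice. -/
lemma lipschitz_slice {m : ℕ} {Z : Type*} [NormedAddCommGroup Z] [NormedSpace ℝ Z]
    (A : EuclideanSpace ℝ (Fin m) →L[ℝ] X) (φ : Z →L[ℝ] ℝ) {F : X → X →L[ℝ] Z} {K : ℝ≥0}
    {S : Set X} (hF : LipschitzOnWith K F S) {c : X} {U : Set (EuclideanSpace ℝ (Fin m))}
    (hU : ∀ u ∈ U, c + A u ∈ S) :
    LipschitzOnWith (‖φ‖₊ * K * ‖A‖₊ * ‖A‖₊) (fun u => (φ.comp (F (c + A u))).comp A) U := by
  refine LipschitzOnWith.of_dist_le_mul fun u hu v hv => ?_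
  rw [dist_eq_norm, dist_eq_norm]
  have h1 := hF.norm_sub_le (hU u hu) (hU v hv)
  rw [add_sub_add_left_eq_sub, ← map_sub] at h1
  have h2 : (φ.comp (F (c + A u))).comp A - (φ.comp (F (c + A v))).comp A =
      (φ.comp (F (c + A u) - F (c + A v))).comp A := by ext w; simp
  rw [h2]
  push_cast
  calc ‖(φ.comp (F (c + A u) - F (c + A v))).comp A‖
      ≤ ‖φ‖ * ‖F (c + A u) - F (c + A v)‖ * ‖A‖ :=
        (ContinuousLinearMap.opNorm_comp_le _ _).trans (mul_le_mul_of_nonneg_right
          (ContinuousLinearMap.opNorm_comp_le _ _) (norm_nonneg _))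
    _ ≤ ‖φ‖ * (K * (‖A‖ * ‖u - v‖)) * ‖A‖ := by
        gcongr
        exact h1.trans (mul_le_mul_of_nonneg_left (A.le_opNorm _) K.coe_nonneg)
    _ = ‖φ‖ * K * ‖A‖ * ‖A‖ * ‖u - v‖ := by ring

variable {f}

/-- Coefficients exist on every slice of dimension at least three. -/
theorem hasLoc (hS : SliceData f)
    (hbad : ∀ s : X, ‖s‖ = 1 → ¬ Smooth s → ∃ T : X ≃ₗᵢ[ℝ] Y, ∀ a, f.Ld s a = T a) :
    HasLoc f := by
  intro φ z hz S hfd hzS h3
  set n := ‖z‖ with hn
  have hn0 : 0 < n := hz.1.norm_pos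
  set S₀ : Submodule ℝ X := S ⊓ LinearMap.ker (dNorm z).toLinearMap with hS₀
  have hfd₀ : FiniteDimensional ℝ S₀ := Submodule.finiteDimensional_of_le inf_le_left
  set m := Module.finrank ℝ S₀ with hm
  have hm2 : 2 ≤ m := by
    set p : S →ₗ[ℝ] ℝ := (dNorm z).toLinearMap.comp S.subtype with hp
    have h1 := p.finrank_range_add_finrank_ker
    have h2 : Module.finrank ℝ (LinearMap.range p) ≤ 1 :=
      (Submodule.finrank_le _).trans_eq (Module.finrank_self ℝ)
    have h4 : (LinearMap.ker p).map S.subtype = S₀ := by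
      rw [hS₀, hp, LinearMap.ker_comp, Submodule.map_comap_subtype]
    have h5 : Module.finrank ℝ (LinearMap.ker p) = m := by
      rw [hm, ← h4, Submodule.finrank_map_subtype_eq]
    omega
  set E := EuclideanSpace ℝ (Fin m)
  let Φ : E ≃L[ℝ] S₀ := ContinuousLinearEquiv.ofFinrankEq (by rw [finrank_euclideanSpace_fin])
  let A : E →L[ℝ] X := S₀.subtypeL.comp (Φ : E →L[ℝ] S₀)
  set v : Fin m → X := fun i => A (EuclideanSpace.basisFun (Fin m) ℝ i) with hv
  have hA : ∀ u, A u = ∑ i, u.ofLp i • v i := fun u => by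
    conv_lhs => rw [← (EuclideanSpace.basisFun (Fin m) ℝ).sum_repr u, map_sum]
    simp [hv]
  have hAS : ∀ u, A u ∈ S := fun u => (inf_le_left : S₀ ≤ S) (Φ u).2
  have hAπ : ∀ u, dNorm z (A u) = 0 := fun u => by
    have := (inf_le_right : S₀ ≤ LinearMap.ker (dNorm z).toLinearMap) (Φ u).2
    exact this
  obtain ⟨P₀, hP₀⟩ := Submodule.ClosedComplemented.of_finiteDimensional S₀
  let P : X →L[ℝ] E := (Φ.symm : S₀ →L[ℝ] E).comp P₀
  have hPA : ∀ u, P (A u) = u := fun u => by
    show Φ.symm (P₀ ((Φ u : S₀) : X)) = u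
    rw [hP₀, Φ.symm_apply_apply]
  have hAP : ∀ a ∈ S, dNorm z a = 0 → A (P a) = a := fun a ha ha' => by
    show ((Φ (Φ.symm (P₀ a)) : S₀) : X) = a
    rw [Φ.apply_symm_apply]
    exact congrArg Subtype.val (hP₀ ⟨a, ha, ha'⟩)
  have hAinv : ∀ u, ‖u‖ ≤ ‖P‖ * ‖A u‖ := fun u => by
    have := P.le_opNorm (A u)
    rwa [hPA] at this
  -- the face
  set F : Set X := Face z S
  have hFO : ∀ x ∈ F, Smooth x := fun x hx => (nonIso_of_face f hS hbad hz hx.2.1 hx.2.2).1.1
  have hFA : ∀ x ∈ F, z + A (P (x - z)) = x := fun x hx => by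
    rw [hAP _ (S.sub_mem hx.1 hzS) (by rw [map_sub, hx.2.2, hz.1.dNorm_self, sub_self]),
      add_sub_cancel]
  have hsh : Continuous fun u : E => z + A u := by fun_prop
  have hFc : IsCompact F := by
    have hFclosed : IsClosed F := by
      have hSc : IsClosed (S : Set X) := S.closed_of_finiteDimensional
      exact hSc.inter ((isClosed_eq continuous_norm continuous_const).inter
        (isClosed_eq (dNorm z).continuous continuous_const))
    refine ((isCompact_closedBall (0 : E) (‖P‖ * (2 * n))).image hsh).of_isClosed_subset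
      hFclosed fun x hx => ⟨P (x - z), mem_closedBall_zero_iff.2 ?_, hFA x hx⟩
    refine (P.le_opNorm _).trans (mul_le_mul_of_nonneg_left ?_ (norm_nonneg _))
    linarith [norm_sub_le x z, hx.2.1]
  obtain ⟨δ, hδ, hδS⟩ := hFc.exists_thickening_subset_open isOpen_smooth hFO
  set U : Set E := (fun u => z + A u) ⁻¹' thickening (δ / 4) F with hUdef
  have hU : IsOpen U := isOpen_thickening.preimage hsh
  have hUc : IsCompact (closure U) := by
    refine Metric.isCompact_of_isClosed_isBounded isClosed_closure ?_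
    refine (Metric.isBounded_closedBall (x := (0 : E)) (r := ‖P‖ * (2 * n + δ))).subset ?_
    refine closure_minimal (fun u hu => ?_) isClosed_closedBall
    rw [mem_closedBall_zero_iff]
    refine (hAinv u).trans (mul_le_mul_of_nonneg_left ?_ (norm_nonneg _))
    obtain ⟨x, hx, hd⟩ := mem_thickening_iff.1 hu
    rw [dist_eq_norm] at hd
    have h1 := norm_sub_le (z + A u) z
    rw [add_sub_cancel_left] at h1
    have h2 := norm_le_norm_add_norm_sub' (z + A u) x
    linarith [hx.2.1]
  -- translates with good second order data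
  have hd : ∀ k : ℕ, 0 < δ / 4 / (k + 1) := fun k => by positivity
  choose c hc hae using fun k : ℕ => hS m m v v φ z (δ / 4 / (k + 1)) (hd k)
  have hct : Tendsto c atTop (𝓝 z) := by
    refine tendsto_iff_norm_sub_tendsto_zero.2 (squeeze_zero (fun k => norm_nonneg _)
      (fun k => (hc k).le) ?_)
    simpa [div_eq_mul_inv] using tendsto_one_div_add_atTop_nhds_zero_nat.const_mul (δ / 4)
  set K : Set X := (fun p : X × E => p.1 + A p.2) '' ((insert z (Set.range c)) ×ˢ closure U) with hK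
  have hKc : IsCompact K := (hct.isCompact_insert_range.prod hUc).image (by fun_prop)
  have hKS : K ⊆ {y | Smooth y} := by
    rintro _ ⟨⟨b, u⟩, ⟨hb, hu⟩, rfl⟩
    refine hδS ?_
    have h1 : z + A u ∈ cthickening (δ / 4) F :=
      (closure_minimal (t := (fun u => z + A u) ⁻¹' cthickening (δ / 4) F)
        (fun w hw => thickening_subset_cthickening _ _ hw)
        (isClosed_cthickening.preimage hsh) hu : _)
    obtain ⟨x, hx, hd'⟩ :=
      mem_thickening_iff.1 (cthickening_subset_thickening' (by linarith : 0 < δ / 2)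
        (by linarith) F h1)
    rw [dist_eq_norm] at hd'
    refine mem_thickening_iff.2 ⟨x, hx, ?_⟩
    have hbz : ‖b - z‖ ≤ δ / 4 := by
      rcases hb with h | ⟨k, rfl⟩
      · rw [show b = z from h, sub_self, norm_zero]; linarith
      · refine (hc k).le.trans (div_le_self (by linarith) ?_)
        linarith [k.cast_nonneg (α := ℝ)]
    rw [dist_eq_norm, show b + A u - x = (b - z) + (z + A u - x) by abel]
    linarith [norm_add_le (b - z) (z + A u - x)]
  have hmem : ∀ k, ∀ u ∈ U, c k + A u ∈ K := fun k u hu =>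
    ⟨(c k, u), ⟨Or.inr ⟨k, rfl⟩, subset_closure hu⟩, rfl⟩
  have hmem0 : ∀ u ∈ U, z + A u ∈ K := fun u hu =>
    ⟨(z, u), ⟨Or.inl rfl, subset_closure hu⟩, rfl⟩
  obtain ⟨a₁, ha₁⟩ := (LocallyLipschitzOn.mono (locallyLipschitzOn_dNorm (X := X))
    hKS).exists_lipschitzOnWith_of_compact hKc
  obtain ⟨a₂, ha₂⟩ := (LocallyLipschitzOn.mono (locallyLipschitzOn_dG f)
    hKS).exists_lipschitzOnWith_of_compact hKc
  set CN := ‖ContinuousLinearMap.id ℝ ℝ‖₊ * a₁ * ‖A‖₊ * ‖A‖₊
  set Cg := ‖φ‖₊ * a₂ * ‖A‖₊ * ‖A‖₊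
  have hLN : ∀ k, LipschitzOnWith CN (fun u => (dNorm (c k + A u)).comp A) U := fun k => by
    have := lipschitz_slice A (ContinuousLinearMap.id ℝ ℝ) ha₁ (hmem k)
    simpa only [ContinuousLinearMap.id_comp] using this
  have hLg : ∀ k, LipschitzOnWith Cg (fun u => (φ.comp (dG f (c k + A u))).comp A) U := fun k =>
    lipschitz_slice A φ ha₂ (hmem k)
  have hfN : ∀ k, ∀ u ∈ U, fderiv ℝ (fun w => ‖c k + A w‖) u = (dNorm (c k + A u)).comp A :=
    fun k u hu => (hasFDerivAt_norm_slice A (hKS (hmem k u hu))).fderiv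
  have hfg : ∀ k, ∀ u ∈ U,
      fderiv ℝ (fun w => φ (f.G (c k + A w))) u = (φ.comp (dG f (c k + A u))).comp A :=
    fun k u hu => (hasFDerivAt_G_slice f A φ (hKS (hmem k u hu))).fderiv
  have hcv : ∀ a : X, ConvexOn ℝ Set.univ fun u : E => ‖a + A u‖ := fun a =>
    ((convexOn_univ_norm (E := X)).translate_right a).comp_linearMap A.toLinearMap |>.subset
      (Set.subset_univ _) convex_univ
  have hA0 : z + A 0 = z := by rw [map_zero, add_zero]
  have hM : ∀ u : E, ‖z + A u‖ = ‖z + A 0‖ + fderiv ℝ (fun w => ‖z + A w‖) 0 (u - 0) ↔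
      z + A u ∈ F := by
    intro u
    rw [(hasFDerivAt_norm_slice A (show Smooth (z + A 0) by rw [hA0]; exact hz.1)).fderiv]
    show ‖z + A u‖ = ‖z + A 0‖ + dNorm (z + A 0) (A (u - 0)) ↔ z + A u ∈ F
    rw [sub_zero, hA0, hAπ, add_zero]
    exact ⟨fun h => ⟨S.add_mem hzS (hAS u), h,
      by rw [map_add, hAπ, add_zero, hz.1.dNorm_self]⟩, fun h => h.2.1⟩
  obtain ⟨cc, -, W, hW, -, hMW, hWU, ⟨l, b₀, hlin⟩, -⟩ := dual_lemma (volume : Measure E)
    (by rw [finrank_euclideanSpace_fin]; exact hm2) hU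
    (N := fun u => ‖z + A u‖) (g := fun u => φ (f.G (z + A u)))
    (Nk := fun k u => ‖c k + A u‖) (gk := fun k u => φ (f.G (c k + A u)))
    (C := max CN Cg) (K := 2 * ‖φ‖) (hcv z)
    (fun u hu => (hasFDerivAt_norm_slice A
      (hKS (hmem0 u hu))).differentiableAt.differentiableWithinAt)
    (fun u hu => (hasFDerivAt_G_slice f A φ
      (hKS (hmem0 u hu))).differentiableAt.differentiableWithinAt)
    (fun k => hcv (c k))
    (fun k u hu => (hasFDerivAt_norm_slice A
      (hKS (hmem k u hu))).differentiableAt.differentiableWithinAt)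
    (fun k u hu w hw => by
      rw [hfN k u hu, hfN k w hw]
      exact ((hLN k).norm_sub_le hu hw).trans
        (mul_le_mul_of_nonneg_right (le_max_left _ _) (norm_nonneg _)))
    (fun k u hu w hw => by
      rw [hfg k u hu, hfg k w hw]
      exact ((hLg k).norm_sub_le hu hw).trans
        (mul_le_mul_of_nonneg_right (le_max_right _ _) (norm_nonneg _)))
    (fun u hu => by
      rw [show fderiv ℝ (fun w => ‖z + A w‖) u = (dNorm (z + A u)).comp A from
        (hasFDerivAt_norm_slice A (hKS (hmem0 u hu))).fderiv]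
      refine Tendsto.congr (fun k => (hfN k u hu).symm) ?_
      have hcont : ContinuousAt (fun y : X => (dNorm y).comp A) (z + A u) :=
        ((ContinuousLinearMap.compL ℝ E X ℝ).flip A).continuous.continuousAt.comp
          ((locallyLipschitzOn_dNorm (X := X)).continuousOn.continuousAt
            (isOpen_smooth.mem_nhds (hKS (hmem0 u hu))))
      exact hcont.tendsto.comp (hct.add_const (A u)))
    (fun u hu => by
      rw [show fderiv ℝ (fun w => φ (f.G (z + A w))) u = (φ.comp (dG f (z + A u))).comp A from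
        (hasFDerivAt_G_slice f A φ (hKS (hmem0 u hu))).fderiv]
      refine Tendsto.congr (fun k => (hfg k u hu).symm) ?_
      have hcont : ContinuousAt (fun y : X => (φ.comp (dG f y)).comp A) (z + A u) :=
        ((ContinuousLinearMap.compL ℝ E X ℝ).flip A).continuous.continuousAt.comp
          ((ContinuousLinearMap.compL ℝ X Y ℝ φ).continuous.continuousAt.comp
            ((locallyLipschitzOn_dG f).continuousOn.continuousAt
              (isOpen_smooth.mem_nhds (hKS (hmem0 u hu)))))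
      exact hcont.tendsto.comp (hct.add_const (A u)))
    (fun k => hess_slice f v φ rfl hU hA (fun u hu => hKS (hmem k u hu)) (hLN k) (hLg k) (hae k))
    (u0 := 0) (by
      show z + A 0 ∈ thickening (δ / 4) F
      rw [hA0]
      exact self_subset_thickening (by linarith) _ (mem_face_self hz.1 hzS))
    (by
      refine (Metric.isBounded_closedBall (x := (0 : E)) (r := ‖P‖ * (2 * n))).subset
        fun u hu => mem_closedBall_zero_iff.2 ?_
      refine (hAinv u).trans (mul_le_mul_of_nonneg_left ?_ (norm_nonneg _))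
      have h1 := norm_sub_le (z + A u) z
      rw [add_sub_cancel_left] at h1
      linarith [((hM u).1 hu).2.1])
    (fun u hu => self_subset_thickening (by linarith : (0 : ℝ) < δ / 4) _ ((hM u).1 hu))
  -- back to the cone
  set r : X → ℝ := fun x => n / dNorm z x
  set W' : Set X := {x | 0 < dNorm z x} ∩ (fun x => P (r x • x - z)) ⁻¹' W with hW'
  have hpos : IsOpen {x : X | 0 < dNorm z x} := isOpen_lt continuous_const (dNorm z).continuous
  have hW'o : IsOpen W' := by
    refine ContinuousOn.isOpen_inter_preimage ?_ hpos hW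
    refine P.continuous.comp_continuousOn (((continuousOn_const.div
      (dNorm z).continuous.continuousOn fun x hx => ne_of_gt hx).smul continuousOn_id).sub
        continuousOn_const)
  refine ⟨cc, W', fun h => dNorm z h / n * b₀ + l (P (h - (dNorm z h / n) • z)), hW'o,
    fun x hx => ⟨show 0 < dNorm z x by rw [hx.2.2]; exact hn0, ?_⟩, fun x hx hxS => ?_⟩
  · show P (r x • x - z) ∈ W
    rw [show r x = 1 by simp only [r, hx.2.2, ← hn, div_self hn0.ne'], one_smul]
    exact hMW ((hM _).2 (by rw [hFA x hx]; exact hx))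
  obtain ⟨hx0, hxW⟩ := hx
  have hx0' : 0 < dNorm z x := hx0
  have hr0 : 0 < r x := div_pos hn0 hx0'
  set u := P (r x • x - z)
  set p := z + A u
  have hp : r x • x = p := by
    show r x • x = z + A (P (r x • x - z))
    rw [hAP _ (S.sub_mem (S.smul_mem _ hxS) hzS) (by
      rw [map_sub, map_smul, hz.1.dNorm_self, smul_eq_mul, div_mul_cancel₀ _ hx0'.ne', sub_self]),
      add_sub_cancel]
  have hxW' : u ∈ W := hxW
  have hps : Smooth p := hKS (hmem0 u (hWU hxW'))
  have hxe : x = (r x)⁻¹ • p := by rw [← hp, inv_smul_smul₀ hr0.ne']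
  have hxs : Smooth x := by rw [hxe]; exact hps.smul (inv_pos.2 hr0)
  refine ⟨hxs, fun h hh => ?_⟩
  rw [hxe, dG_smul f hps (inv_pos.2 hr0), dNorm_smul hps (inv_pos.2 hr0)]
  set α := dNorm z h / n
  set w := P (h - α • z) - α • u
  have hAw : A w = h - α • z - α • A u := by
    show A (P (h - α • z) - α • u) = _
    rw [map_sub A, map_smul A, hAP _ (S.sub_mem hh (S.smul_mem α hzS)) (by
      rw [map_sub, map_smul, hz.1.dNorm_self, smul_eq_mul, div_mul_cancel₀ _ hn0.ne', sub_self])]
  have hh' : h = α • p + A w := by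
    rw [hAw]; simp only [p]; module
  have hder : φ (dG f p (A w)) = cc * dNorm p (A w) + l w := by
    have e1 : (fun y => φ (f.G (z + A y))) =ᶠ[𝓝 u] fun y => cc * ‖z + A y‖ + l y + b₀ :=
      eventually_of_mem (hW.mem_nhds hxW') hlin
    have h1 := (hasFDerivAt_G_slice f A φ hps).congr_of_eventuallyEq e1.symm
    have h2 := ((((hasFDerivAt_norm_slice A hps).const_mul cc).add l.hasFDerivAt).add_const b₀)
    have h3 := DFunLike.congr_fun (h1.unique h2) w
    simpa using h3
  have hpp : φ (dG f p p) = cc * dNorm p p + (l u + b₀) := by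
    have := hlin u hxW'
    rw [dG_self f hps, hps.dNorm_self]
    simp only [p]; linarith
  show φ (dG f p h) = cc * dNorm p h + (α * b₀ + l (P (h - α • z)))
  conv_lhs => rw [hh']
  conv_rhs => arg 1; rw [hh']
  simp only [map_add, map_smul, smul_eq_mul, hder, hpp]
  simp only [w, map_sub, map_smul, smul_eq_mul]
  ring

/-- **Patching** from second order data. -/
theorem patch (hS : SliceData f)
    (hbad : ∀ s : X, ‖s‖ = 1 → ¬ Smooth s → ∃ T : X ≃ₗᵢ[ℝ] Y, ∀ a, f.Ld s a = T a)
    (hdim : ¬FiniteDimensional ℝ X) {z : X} (hz : NonIso f z) :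
    ∃ (A : X →L[ℝ] Y) (w : Y),
      (∀ u ∈ connectedComponentIn {x | NonIso f x} z, dG f u = A + (dNorm u).smulRight w) ∧
      ∃ u ∈ connectedComponentIn {x | NonIso f x} z, dNorm u ≠ dNorm z :=
  patch_of_hasLoc (hasLoc hS hbad) hS hbad hdim hz

end Vale.Agent.P084.Full
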