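import Vale.Agent.P084.Full.Exit
import Vale.Agent.P084.Full.Drop
import Vale.Agent.P084.Full.LocalSlice
import Vale.Agent.P084.Full.BadPoint

/-!
P084 (Tingley's problem), general case, end of step 4: a component of the non-isometric smooth
set on which the derivative is `A + dNorm ⊗ w` cannot exist.
-/

namespace Vale.Agent.P084.Full

open Filter Topology Metric Orbit MeasureTheory
open scoped NNReal

variable {X Y : Type*} [NormedAddCommGroup X] [NormedSpace ℝ X] [NormedAddCommGroup Y]
  [NormedSpace ℝ Y] [CompleteSpace X] [CompleteSpace Y]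

/-- A Lipschitz function with almost everywhere vanishing derivative takes equal end values. -/
lemma eq_of_ae_deriv_zero {g : ℝ → ℝ} {K : ℝ≥0} (hg : LipschitzOnWith K g (Set.Icc 0 1))
    (hd : ∀ᵐ r : ℝ, r ∈ Set.Ioo (0 : ℝ) 1 → HasDerivAt g 0 r) : g 1 = g 0 := by
  have h0 : LipschitzOnWith (0 : ℝ≥0) (fun _ : ℝ => (0 : ℝ)) (Set.Icc 0 1) :=
    (LipschitzWith.const 0).lipschitzOnWith
  have h1 := le_of_ae_deriv_le hg h0 (hd.mono fun r hr hr01 =>
    ⟨0, 0, hr hr01, hasDerivAt_const _ _, le_rfl⟩)
  have h2 := le_of_ae_deriv_le h0 hg (hd.mono fun r hr hr01 =>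
    ⟨0, 0, hasDerivAt_const _ _, hr hr01, le_rfl⟩)
  linarith

variable (f : PIso X Y)

/-- Near a point where the radial part does not vanish the derivative of the norm is constant. -/
lemma dNorm_locally_const (hS : SliceData f) {z : X} (hz : Smooth z) (A : X →L[ℝ] Y) (w : Y)
    (hform : ∀ᶠ u in 𝓝 z, dG f u = A + (dNorm u).smulRight w)
    (hq : dNorm (f.G z) w ≠ 0) : ∀ᶠ u in 𝓝 z, dNorm u = dNorm z := by
  have hqc : ContinuousAt (fun u => dNorm (f.G u) w) z :=
    (ContinuousLinearMap.apply ℝ ℝ w).continuous.continuousAt.comp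
      (((locallyLipschitzOn_dNorm (X := Y)).continuousOn.continuousAt
        (isOpen_smooth.mem_nhds (smooth_G f hz))).comp f.continuous_G.continuousAt)
  obtain ⟨r, C, hr, hC, hu⟩ := hz.norm_uniform
  obtain ⟨r₁, hr₁, hb⟩ := Metric.eventually_nhds_iff.1 (hform.and (hqc.eventually_ne hq))
  have hform' : ∀ u, ‖u - z‖ < r₁ → dG f u = A + (dNorm u).smulRight w ∧ dNorm (f.G u) w ≠ 0 :=
    fun u hu => hb (by rwa [dist_eq_norm])
  set ρ := min r r₁ / 4 with hρ
  have hρ0 : 0 < ρ := by positivity
  have hρr : 4 * ρ ≤ r := by rw [hρ]; linarith [min_le_left r r₁]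
  have hρr₁ : 4 * ρ ≤ r₁ := by rw [hρ]; linarith [min_le_right r r₁]
  filter_upwards [ball_mem_nhds z hρ0] with u hu'
  rw [mem_ball, dist_eq_norm] at hu'
  refine ContinuousLinearMap.ext fun b => ?_
  set a := u - z with ha
  have hd : ∀ n : ℕ, 0 < ρ / ((n : ℝ) + 1) := fun n => by positivity
  choose c hc hae using fun n : ℕ => hS 1 2 ![a] ![a, b] 0 z _ (hd n)
  have hcz : ∀ n, ‖c n - z‖ < ρ := fun n =>
    (hc n).trans_le (div_le_self hρ0.le (by linarith [n.cast_nonneg (α := ℝ)]))
  have hin : ∀ n, ∀ s ∈ Set.Icc (0 : ℝ) 1, ‖c n + s • a - z‖ < 2 * ρ := fun n s hs => by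
    rw [show c n + s • a - z = (c n - z) + s • a by abel]
    refine (norm_add_le _ _).trans_lt ?_
    rw [norm_smul, Real.norm_of_nonneg hs.1]
    linarith [hcz n, mul_le_of_le_one_left (norm_nonneg a) hs.2]
  have key : ∀ n, dNorm (c n + a) b = dNorm (c n) b := fun n => by
    have hlip : LipschitzOnWith (Real.toNNReal (C * ‖a‖ * ‖b‖))
        (fun s : ℝ => dNorm (c n + s • a) b) (Set.Icc 0 1) := by
      refine LipschitzOnWith.of_dist_le' fun s hs t ht => ?_
      rw [dist_eq_norm, dist_eq_norm]
      have h1 := (hu (c n + t • a) (by linarith [hin n t ht])).2.2 (c n + s • a)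
        (by linarith [hin n s hs])
      rw [add_sub_add_left_eq_sub, ← sub_smul, norm_smul] at h1
      have h2 := ((dNorm (c n + s • a) - dNorm (c n + t • a)).le_opNorm b).trans
        (mul_le_mul_of_nonneg_right h1 (norm_nonneg b))
      rw [sub_apply] at h2
      linarith
    have hder : ∀ᵐ s : ℝ, s ∈ Set.Ioo (0 : ℝ) 1 →
        HasDerivAt (fun s : ℝ => dNorm (c n + s • a) b) 0 s := by
      have hr := (volume_preserving_funUnique (Fin 1) ℝ).symm.quasiMeasurePreserving.ae (hae n)
      filter_upwards [hr] with s hs hs01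
      simp only [MeasurableEquiv.funUnique_symm_apply, uniqueElim_const,
        Finset.univ_unique, Finset.sum_singleton, Fin.default_eq_zero,
        Matrix.cons_val_zero] at hs
      set y := c n + s • a with hy
      have hyz : ‖y - z‖ < 2 * ρ := hin n s ⟨hs01.1.le, hs01.2.le⟩
      obtain ⟨Q, cc, -, -, -, -, hl⟩ := hs (hu y (by linarith)).1
      obtain ⟨h1, -, h3⟩ := hl 0 1
      simp only [Matrix.cons_val_zero, Matrix.cons_val_one, Matrix.cons_val_fin_one] at h1 h3
      set P := dNorm (f.G y) with hP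
      have h1' : HasDerivAt (fun t : ℝ => dNorm (y + t • a) b) (Q 0 1) 0 := h1
      have h3' : HasDerivAt (fun t : ℝ => P (dG f (y + t • a) b)) 0 0 := h3
      have hev : (fun t : ℝ => P (dG f (y + t • a) b)) =ᶠ[𝓝 0]
          fun t => P (A b) + dNorm (y + t • a) b * P w := by
        have hcont : ContinuousAt (fun t : ℝ => y + t • a) 0 := by fun_prop
        have hm : ∀ᶠ t in 𝓝 (0 : ℝ), y + t • a ∈ ball z r₁ := hcont.preimage_mem_nhds
          (isOpen_ball.mem_nhds (by
            rw [zero_smul, add_zero, mem_ball, dist_eq_norm]; linarith))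
        filter_upwards [hm] with t ht
        rw [mem_ball, dist_eq_norm] at ht
        rw [(hform' _ ht).1, add_apply, ContinuousLinearMap.smulRight_apply, map_add, map_smul,
          smul_eq_mul]
      have h4 := ((h1'.mul_const (P w)).const_add (P (A b))).congr_of_eventuallyEq hev
      have h5 : Q 0 1 = 0 :=
        (mul_eq_zero.1 (h3'.unique h4).symm).resolve_right (hform' y (by linarith)).2
      rw [h5] at h1'
      have h6 : HasDerivAt (fun t : ℝ => dNorm (y + t • a) b) 0 (s - s) := by rwa [sub_self]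
      refine (h6.comp_sub_const s s).congr_of_eventuallyEq (Eventually.of_forall fun t => ?_)
      simp only [hy]
      congr 2
      module
    simpa using eq_of_ae_deriv_zero hlip hder
  have hct : Tendsto c atTop (𝓝 z) := by
    refine tendsto_iff_norm_sub_tendsto_zero.2 (squeeze_zero (fun n => norm_nonneg _)
      (fun n => (hc n).le) ?_)
    simpa [div_eq_mul_inv] using tendsto_one_div_add_atTop_nhds_zero_nat.const_mul ρ
  have cN : ∀ {y : X}, Smooth y → ContinuousAt (fun v => dNorm v b) y := fun {y} hy =>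
    (ContinuousLinearMap.apply ℝ ℝ b).continuous.continuousAt.comp
      ((locallyLipschitzOn_dNorm (X := X)).continuousOn.continuousAt (isOpen_smooth.mem_nhds hy))
  have hct' : Tendsto (fun n => c n + a) atTop (𝓝 u) := by
    simpa [ha] using hct.add_const a
  have l1 := (cN (hu u (by linarith)).1).tendsto.comp hct'
  have l2 := (cN hz).tendsto.comp hct
  exact tendsto_nhds_unique (l1.congr fun n => key n) l2

/-- A point of the closure of a component lying in the open set lies in the component. -/
lemma mem_component_of_mem_closure {z s : X} (hs : NonIso f s)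
    (hc : s ∈ closure (connectedComponentIn {x | NonIso f x} z)) :
    s ∈ connectedComponentIn {x | NonIso f x} z := by
  obtain ⟨u, hu1, hu2⟩ := mem_closure_iff_nhds.1 hc _
    ((isOpen_nonIso f).connectedComponentIn.mem_nhds (mem_connectedComponentIn (x := s) hs))
  rw [connectedComponentIn_eq hu2, ← connectedComponentIn_eq hu1]
  exact mem_connectedComponentIn hs

/-- The one-sided derivative at the normalisation of a point outside the non-isometric set is a
linear isometry. -/
lemma exists_isometric_Ld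
    (hbad : ∀ s : X, ‖s‖ = 1 → ¬ Smooth s → ∃ T : X ≃ₗᵢ[ℝ] Y, ∀ a, f.Ld s a = T a)
    {s : X} (hs : ‖s‖ = 1) (hn : ¬ NonIso f s) :
    ∃ T : X →L[ℝ] Y, (∀ a, ‖T a‖ = ‖a‖) ∧ ∀ a, f.Ld s a = T a := by
  by_cases hsm : Smooth s
  · refine ⟨dG f s, fun a => ?_, fun a => ?_⟩
    · by_contra h
      exact hn ⟨hsm, a, h⟩
    · rw [dG_eq_Ld f hsm, hs, inv_one, one_smul]
  · obtain ⟨T, hT⟩ := hbad s hs hsm
    exact ⟨(T.toContinuousLinearEquiv : X →L[ℝ] Y), fun a => T.norm_map a, hT⟩

/-- **No component.** If on every component the derivative has the patched form, there are no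
smooth points with a derivative which is not isometric. -/
theorem iso_of_patch (hdim : 1 < Module.rank ℝ X) (hS : SliceData f)
    (hbad : ∀ s : X, ‖s‖ = 1 → ¬ Smooth s → ∃ T : X ≃ₗᵢ[ℝ] Y, ∀ a, f.Ld s a = T a)
    (hpatch : ∀ z, NonIso f z → ∃ (A : X →L[ℝ] Y) (w : Y),
      (∀ u ∈ connectedComponentIn {x | NonIso f x} z, dG f u = A + (dNorm u).smulRight w) ∧
      ∃ u ∈ connectedComponentIn {x | NonIso f x} z, dNorm u ≠ dNorm z) :
    ∀ z : X, Smooth z → ∀ a, ‖dG f z a‖ = ‖a‖ := by
  intro z hzs a₀
  by_contra hne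
  have hz : NonIso f z := ⟨hzs, a₀, hne⟩
  obtain ⟨A, w, hform, u₁, hu₁, hu₁ne⟩ := hpatch z hz
  set O := connectedComponentIn {x | NonIso f x} z with hO
  have hOo : IsOpen O := (isOpen_nonIso f).connectedComponentIn
  have hOsub : O ⊆ {x | NonIso f x} := connectedComponentIn_subset _ _
  have hOs : ∀ u ∈ O, Smooth u := fun u hu => (hOsub hu).1
  have hzO : z ∈ O := mem_connectedComponentIn (F := {x | NonIso f x}) hz
  have hOpre : IsPreconnected O := isPreconnected_connectedComponentIn
  -- the radial part vanishes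
  have hq : ∀ u ∈ O, dNorm (f.G u) w = 0 := by
    intro v hv
    by_contra hvq
    obtain ⟨e, -, hLe, -, -, -, -, -, -, -⟩ := exists_dG f (hOs v hv)
    set d := e.symm w with hd
    have hπd : dNorm v d = dNorm (f.G v) w := by
      rw [← dNorm_dG f (hOs v hv) d, hLe]
      simp [d]
    set Z := {u ∈ O | dNorm u = dNorm v} with hZ
    have hZsub : O ⊆ interior Z := by
      refine hOpre.subset_of_closure_inter_subset isOpen_interior ⟨v, hv, ?_⟩ ?_
      · refine mem_interior_iff_mem_nhds.2 ?_
        filter_upwards [hOo.mem_nhds hv, dNorm_locally_const f hS (hOs v hv) A w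
          (Filter.eventually_of_mem (hOo.mem_nhds hv) hform) hvq] with u h1 h2
        exact ⟨h1, h2⟩
      · rintro u ⟨hu, huO⟩
        have heq : dNorm u = dNorm v := by
          refine ContinuousLinearMap.ext fun b => ?_
          have hc : ContinuousAt (fun y => dNorm y b) u :=
            (ContinuousLinearMap.apply ℝ ℝ b).continuous.continuousAt.comp
              ((locallyLipschitzOn_dNorm (X := X)).continuousOn.continuousAt
                (isOpen_smooth.mem_nhds (hOs u huO)))
          have h1 := hc.continuousWithinAt.mem_closure (s := interior Z) (t := {dNorm v b}) hu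
            fun y hy => by simp [(interior_subset hy).2]
          simpa using h1
        have hqu : dNorm (f.G u) w ≠ 0 := by
          have h1 : dG f u d = w := by
            rw [show dG f u = dG f v by rw [hform u huO, hform v hv, heq], hLe]
            simp [d]
          rw [← h1, dNorm_dG f (hOs u huO), heq, hπd]
          exact hvq
        refine mem_interior_iff_mem_nhds.2 ?_
        filter_upwards [hOo.mem_nhds huO, dNorm_locally_const f hS (hOs u huO) A w
          (Filter.eventually_of_mem (hOo.mem_nhds huO) hform) hqu] with y h1 h2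
        exact ⟨h1, h2.trans heq⟩
    exact hu₁ne ((interior_subset (hZsub hu₁)).2.trans (interior_subset (hZsub hzO)).2.symm)
  -- w vanishes
  have hw : w = 0 := by
    obtain ⟨e, -, hLe, -, -, -, -, -, -, -⟩ := exists_dG f hzs
    set d := e.symm w with hd
    have hd0 : dG f z d = w := by rw [hLe]; simp [d]
    have hπd : ∀ u ∈ O, dNorm u d = 0 := by
      intro u hu
      have h1 := congrArg (dNorm (f.G u)) hd0
      rw [hform z hzO, add_apply, ContinuousLinearMap.smulRight_apply, map_add, map_smul,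
        hq u hu, smul_zero, add_zero] at h1
      have h2 := dNorm_dG f (hOs u hu) d
      rw [hform u hu, add_apply, ContinuousLinearMap.smulRight_apply, map_add, map_smul,
        hq u hu, smul_zero, add_zero, h1] at h2
      exact h2.symm
    by_contra hw0
    have hdne : d ≠ 0 := fun h => hw0 (by rw [← hd0, h, map_zero])
    set γ : ℝ → X := fun t => z + t • d with hγ
    have hγc : Continuous γ := by fun_prop
    set J : Set ℝ := {t | ‖γ t‖ = ‖z‖} with hJ
    have hJc : IsClosed J := isClosed_eq hγc.norm continuous_const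
    have hJO : ∀ t ∈ J, γ t ∈ O := by
      intro t ht
      have hzd : dNorm z (γ t) = ‖z‖ := by
        rw [hγ, map_add, map_smul, hπd z hzO, smul_zero, add_zero, hzs.dNorm_self]
      have hsub : segment ℝ z (γ t) ⊆ {x | NonIso f x} := by
        rw [segment_eq_image']
        rintro _ ⟨s, hs, rfl⟩
        obtain ⟨h1, h2⟩ := norm_segment hzs ht hzd hs
        exact (nonIso_of_face f hS hbad hz h1 h2).1
      exact (convex_segment z (γ t)).isPreconnected.subset_connectedComponentIn
        (left_mem_segment ℝ z (γ t)) hsub (right_mem_segment ℝ z (γ t))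
    have hJo : IsOpen J := by
      refine isOpen_iff_mem_nhds.2 fun t ht => ?_
      obtain ⟨η, hη, hb⟩ := Metric.mem_nhds_iff.1
        (hγc.continuousAt.preimage_mem_nhds (hOo.mem_nhds (hJO t ht)))
      refine Filter.mem_of_superset (ball_mem_nhds t hη) fun s hs => ?_
      have hder : ∀ x ∈ ball t η, HasDerivWithinAt (fun x : ℝ => ‖γ x‖) ((fun _ => (0 : ℝ)) x)
          (ball t η) x := by
        intro x hx
        have h0 : HasDerivAt γ d x := by
          rw [hγ]
          simpa using ((hasDerivAt_id x).smul_const d).const_add z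
        have h1 := (hOs _ (hb hx)).hasFDerivAt_norm.comp_hasDerivAt x h0
        rw [hπd _ (hb hx)] at h1
        exact h1.hasDerivWithinAt
      have h2 := (convex_ball t η).norm_image_sub_le_of_norm_hasDerivWithin_le (C := 0) hder
        (fun x _ => by simp) (mem_ball_self hη) hs
      rw [zero_mul, norm_le_zero_iff, sub_eq_zero] at h2
      exact h2.trans ht
    have hall : J = Set.univ :=
      IsClopen.eq_univ ⟨hJc, hJo⟩ ⟨0, by simp [hJ, hγ]⟩
    set t : ℝ := (2 * ‖z‖ + 1) / ‖d‖ with ht
    have htJ : ‖γ t‖ = ‖z‖ := by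
      have : t ∈ J := hall ▸ Set.mem_univ t
      exact this
    have hdp : 0 < ‖d‖ := norm_pos_iff.2 hdne
    have h1 := norm_sub_le (γ t) z
    rw [hγ, add_sub_cancel_left, norm_smul, Real.norm_of_nonneg (by positivity), ht,
      div_mul_cancel₀ _ hdp.ne'] at h1
    rw [hγ] at htJ
    linarith
  have hA : ∀ u ∈ O, dG f u = A := fun u hu => by
    rw [hform u hu, hw]; ext b; simp
  have hAne : ‖A a₀‖ ≠ ‖a₀‖ := by rw [← hA z hzO]; exact hne
  -- a boundary point away from the origin
  by_cases hall : ({0}ᶜ : Set X) ⊆ O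
  · have ha0 : a₀ ≠ 0 := by rintro rfl; simp at hAne
    have h1 := dG_self f (hOs a₀ (hall ha0))
    rw [hA _ (hall ha0)] at h1
    exact hAne (by rw [h1, f.norm_G])
  obtain ⟨s₀, hs₀0, hs₀c, hs₀O⟩ : ∃ s₀ : X, s₀ ≠ 0 ∧ s₀ ∈ closure O ∧ s₀ ∉ O := by
    by_contra! hcon
    exact hall ((isConnected_compl_singleton_of_one_lt_rank hdim 0).isPreconnected
      |>.subset_of_closure_inter_subset hOo ⟨z, hzs.ne, hzO⟩ fun s hs => hcon s hs.2 hs.1)
  have hs₀p : 0 < ‖s₀‖ := norm_pos_iff.2 hs₀0
  obtain ⟨z₁, hz₁O, hz₁⟩ := Metric.mem_closure_iff.1 hs₀c (‖s₀‖ / 4) (by positivity)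
  rw [dist_eq_norm] at hz₁
  obtain ⟨s, hsC, hss, ρ, hρ, -, hcone⟩ := exists_cone hOo.isClosed_compl
    (show s₀ ∈ Oᶜ from hs₀O) (show z₁ ∉ Oᶜ from not_not.2 hz₁O)
  have hs0 : s ≠ 0 := by
    rintro rfl
    rw [zero_sub, norm_neg] at hss
    linarith
  have hcone' : ∀ b, ‖b - (z₁ - s)‖ < ρ → ∀ t : ℝ, 0 < t → t ≤ 1 → s + t • b ∈ O := by
    intro b hb t ht ht1
    have := hcone t ht ht1 _ hb
    rw [add_sub_cancel] at this
    exact not_not.1 this
  have hsn : ¬ NonIso f s := fun h => hsC (mem_component_of_mem_closure f h (by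
    refine mem_closure_of_tendsto (f := fun t : ℝ => s + t • (z₁ - s)) (b := 𝓝[>] (0 : ℝ)) ?_ ?_
    · exact ((continuous_const.add (continuous_id.smul continuous_const)).tendsto' 0 s
        (by simp)).mono_left nhdsWithin_le_nhds
    · filter_upwards [Ioc_mem_nhdsGT zero_lt_one] with t ht
      exact hcone' _ (by simpa using hρ) t ht.1 ht.2))
  set n := ‖s‖ with hn
  have hn0 : 0 < n := norm_pos_iff.2 hs0
  set x := n⁻¹ • s with hxdef
  have hx : ‖x‖ = 1 := norm_smul_inv_norm hs0
  have hxn : ¬ NonIso f x := fun h => hsn (by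
    have := h.smul f hn0
    rwa [hxdef, smul_inv_smul₀ hn0.ne'] at this)
  obtain ⟨T, hT, hLd⟩ := exists_isometric_Ld f hbad hx hxn
  have haff : ∀ b, ‖b - (z₁ - s)‖ < ρ → f.Ld x b = A b := by
    intro b hb
    have hline : ∀ t ∈ Set.Ioc (0 : ℝ) 1, f.G (s + t • b) = f.G s + t • A b := by
      intro t ht
      set F : ℝ → Y := fun t => f.G (s + t • b) - t • A b with hF
      have hFc : Continuous F :=
        (f.continuous_G.comp (by fun_prop)).sub (continuous_id.smul continuous_const)
      have hconst : ∀ a ∈ Set.Ioc (0 : ℝ) t, F t = F a := fun a ha => by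
        refine constant_of_has_deriv_right_zero hFc.continuousOn (fun y hy => ?_) t
          (Set.right_mem_Icc.2 ha.2)
        have hyO := hcone' b hb y (ha.1.trans_le hy.1) (hy.2.le.trans ht.2)
        have h0 : HasDerivAt (fun u : ℝ => s + u • b) b y := by
          simpa using ((hasDerivAt_id y).smul_const b).const_add s
        have h1 := (hasFDerivAt_G f (hOs _ hyO)).comp_hasDerivAt y h0
        rw [hA _ hyO] at h1
        have h2 := h1.sub ((hasDerivAt_id y).smul_const (A b))
        rw [one_smul, sub_self] at h2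
        exact h2.hasDerivWithinAt
      have h0 : F t = F 0 := by
        refine tendsto_nhds_unique (l := 𝓝[>] (0 : ℝ)) tendsto_const_nhds
          ((hFc.tendsto 0).mono_left nhdsWithin_le_nhds |>.congr' ?_)
        filter_upwards [Ioc_mem_nhdsGT ht.1] with a ha
        exact (hconst a ha).symm
      simp only [hF, zero_smul, add_zero, sub_zero] at h0
      rw [← h0]; abel
    refine tendsto_nhds_unique (f.tendsto_Ld hx b) (tendsto_const_nhds.congr' ?_)
    have hev : ∀ᶠ k : ℕ in atTop, n * ((2 : ℝ) ^ k)⁻¹ ≤ 1 := by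
      have h1 : Tendsto (fun k : ℕ => n * ((2 : ℝ) ^ k)⁻¹) atTop (𝓝 0) := by
        simpa using (tendsto_inv_atTop_zero.comp
          (tendsto_pow_atTop_atTop_of_one_lt one_lt_two)).const_mul n
      exact h1.eventually_le_const one_pos
    filter_upwards [hev] with k hk
    have h1 := hline (n * ((2 : ℝ) ^ k)⁻¹) ⟨by positivity, hk⟩
    have e1 : x + ((2 : ℝ) ^ k)⁻¹ • b = n⁻¹ • (s + (n * ((2 : ℝ) ^ k)⁻¹) • b) := by
      rw [hxdef, smul_add, smul_smul n⁻¹, inv_mul_cancel_left₀ hn0.ne']
    simp only [PIso.dq]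
    rw [e1, hxdef, f.G_smul _ (inv_nonneg.2 hn0.le), f.G_smul _ (inv_nonneg.2 hn0.le), h1,
      ← smul_sub, add_sub_cancel_left, smul_smul, smul_smul]
    rw [show (2 : ℝ) ^ k * n⁻¹ * (n * ((2 : ℝ) ^ k)⁻¹) = 1 by field_simp, one_smul]
  have hTA : ∀ b, T b = A b := by
    intro b
    rcases eq_or_ne b 0 with rfl | hb
    · simp
    have hbn : 0 < ‖b‖ := norm_pos_iff.2 hb
    set c : ℝ := ρ / (2 * ‖b‖) with hc
    have hc0 : 0 < c := by positivity
    have hcb : ‖c • b‖ < ρ := by
      rw [norm_smul, Real.norm_of_nonneg hc0.le, hc, div_mul_eq_mul_div,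
        div_lt_iff₀ (by positivity)]
      linarith [mul_pos hρ hbn]
    have h1 := haff (z₁ - s + c • b) (by simpa using hcb)
    have h2 := haff (z₁ - s) (by simpa using hρ)
    rw [hLd] at h1 h2
    rw [map_add T, map_add A, h2, add_right_inj, map_smul, map_smul] at h1
    exact smul_right_injective Y hc0.ne' h1
  exact hAne (by rw [← hTA, hT])

/-- **The derivative is isometric at every smooth point**, given the second order data. -/
theorem iso_of_smooth (hS : SliceData f) (hdim : ¬FiniteDimensional ℝ X) :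
    ∀ z : X, Smooth z → ∀ a, ‖dG f z a‖ = ‖a‖ := by
  have hbad : ∀ s : X, ‖s‖ = 1 → ¬ Smooth s → ∃ T : X ≃ₗᵢ[ℝ] Y, ∀ a, f.Ld s a = T a :=
    fun s hs h => by
      obtain ⟨T, hT, -⟩ := exists_isometry_of_not_smooth f hs h
      exact ⟨T, hT⟩
  have hrank : 1 < Module.rank ℝ X := by
    rw [← not_le]
    intro h
    exact hdim (Module.rank_lt_aleph0_iff.1 (h.trans_lt Cardinal.one_lt_aleph0))
  exact iso_of_patch f hrank hS hbad fun z hz => patch hS hbad hdim hz

end Vale.Agent.P084.Full
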