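import Vale.Agent.P084.Orbit.Main
import Vale.Agent.P084.Fin.Main

/-!
P084 (Tingley's problem), library for the general case: it suffices to treat separable spaces of
infinite dimension.
-/

namespace Vale.Agent.P084.Full

open Filter Topology Metric TopologicalSpace Orbit

universe u v

variable {X : Type u} {Y : Type v} [NormedAddCommGroup X] [NormedSpace ℝ X]
  [NormedAddCommGroup Y] [NormedSpace ℝ Y]

/-- The finite-dimensional case. -/
lemma linear_of_finite [FiniteDimensional ℝ X] (f : PIso X Y) :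
    ∃ L : X ≃ₗᵢ[ℝ] Y, ∀ v, L v = f.G v := by
  let φ : sphere (0 : X) 1 → sphere (0 : Y) 1 := fun x =>
    ⟨f.G x, mem_sphere_zero_iff_norm.2 ((f.norm_G _).trans (mem_sphere_zero_iff_norm.1 x.2))⟩
  have hφ : Isometry φ := Isometry.of_dist_eq fun a b => by
    rw [Subtype.dist_eq, Subtype.dist_eq, dist_eq_norm, dist_eq_norm]
    exact f.dist_unit (mem_sphere_zero_iff_norm.1 a.2) (mem_sphere_zero_iff_norm.1 b.2)
  have hsurj : Function.Surjective φ := fun w =>
    ⟨⟨f.Gi w, mem_sphere_zero_iff_norm.2 ((f.norm_Gi _).trans (mem_sphere_zero_iff_norm.1 w.2))⟩,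
      Subtype.ext (f.G_Gi w)⟩
  obtain ⟨T, hT⟩ := extends_linearly_finite hφ hsurj
  refine ⟨T, fun v => ?_⟩
  rcases eq_or_ne v 0 with rfl | hv
  · rw [map_zero, f.G_zero]
  have h := hT ⟨‖v‖⁻¹ • v, mem_sphere_zero_iff_norm.2 (norm_smul_inv_norm hv)⟩
  simp only [φ, map_smul, f.G_smul _ (inv_nonneg.2 (norm_nonneg v))] at h
  exact smul_right_injective Y (inv_ne_zero (norm_ne_zero_iff.2 hv)) h

/-- Restriction to subspaces exchanged by the extension. -/
def restrict (f : PIso X Y) (P : Submodule ℝ X) (Q : Submodule ℝ Y)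
    (hP : ∀ v ∈ P, f.G v ∈ Q) (hQ : ∀ w ∈ Q, f.Gi w ∈ P) : PIso P Q where
  G v := ⟨f.G v, hP v v.2⟩
  Gi w := ⟨f.Gi w, hQ w w.2⟩
  Gi_G v := Subtype.ext (f.Gi_G v)
  G_Gi w := Subtype.ext (f.G_Gi w)
  norm_G v := f.norm_G v
  G_smul t ht v := Subtype.ext (f.G_smul t ht v)
  key v x hx := f.key v x hx

/-- Every separable set lies in separable closed subspaces exchanged by the extension. -/
lemma exists_invariant (f : PIso X Y) {s : Set X} (hs : IsSeparable s) :
    ∃ (P : Submodule ℝ X) (Q : Submodule ℝ Y), s ⊆ P ∧ IsClosed (P : Set X) ∧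
      IsClosed (Q : Set Y) ∧ IsSeparable (P : Set X) ∧ IsSeparable (Q : Set Y) ∧
      (∀ v ∈ P, f.G v ∈ Q) ∧ ∀ w ∈ Q, f.Gi w ∈ P := by
  set down : Submodule ℝ X → Submodule ℝ Y := fun P => Submodule.span ℝ (f.G '' P)
  set up : Submodule ℝ Y → Submodule ℝ X := fun Q => Submodule.span ℝ (f.Gi '' Q)
  set A : ℕ → Submodule ℝ X := fun n => Nat.rec (Submodule.span ℝ s) (fun _ P => up (down P)) n
    with hA
  have hmono : Monotone A := monotone_nat_of_le_succ fun n v hv =>
    Submodule.subset_span ⟨f.G v, Submodule.subset_span ⟨v, hv, rfl⟩, f.Gi_G v⟩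
  have hBmono : Monotone fun n => down (A n) := fun n m h =>
    Submodule.span_mono (Set.image_mono (hmono h))
  have hAs : ∀ n, IsSeparable (A n : Set X) := by
    intro n
    induction n with
    | zero => exact hs.span
    | succ n ih => exact ((((ih.image f.continuous_G).span)).image f.symm.continuous_G).span
  have hBs : ∀ n, IsSeparable (down (A n) : Set Y) := fun n => ((hAs n).image f.continuous_G).span
  set P := (⨆ n, A n).topologicalClosure
  set Q := (⨆ n, down (A n)).topologicalClosure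
  have eP : ((⨆ n, A n : Submodule ℝ X) : Set X) = ⋃ n, (A n : Set X) :=
    Submodule.coe_iSup_of_chain ⟨A, hmono⟩
  have eQ : ((⨆ n, down (A n) : Submodule ℝ Y) : Set Y) = ⋃ n, (down (A n) : Set Y) :=
    Submodule.coe_iSup_of_chain ⟨_, hBmono⟩
  have cP : (P : Set X) = closure (⋃ n, (A n : Set X)) := by
    rw [Submodule.topologicalClosure_coe, eP]
  have cQ : (Q : Set Y) = closure (⋃ n, (down (A n) : Set Y)) := by
    rw [Submodule.topologicalClosure_coe, eQ]
  refine ⟨P, Q, fun v hv => ?_, Submodule.isClosed_topologicalClosure _,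
    Submodule.isClosed_topologicalClosure _, ?_, ?_, fun v hv => ?_, fun w hw => ?_⟩
  · rw [cP]
    exact subset_closure (Set.mem_iUnion.2 ⟨0, Submodule.subset_span hv⟩)
  · rw [cP]; exact (IsSeparable.iUnion hAs).closure
  · rw [cQ]; exact (IsSeparable.iUnion hBs).closure
  · rw [← SetLike.mem_coe, cP] at hv
    rw [← SetLike.mem_coe, cQ]
    refine map_mem_closure f.continuous_G hv fun a ha => ?_
    obtain ⟨n, hn⟩ := Set.mem_iUnion.1 ha
    exact Set.mem_iUnion.2 ⟨n, Submodule.subset_span ⟨a, hn, rfl⟩⟩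
  · rw [← SetLike.mem_coe, cQ] at hw
    rw [← SetLike.mem_coe, cP]
    refine map_mem_closure f.symm.continuous_G hw fun b hb => ?_
    obtain ⟨n, hn⟩ := Set.mem_iUnion.1 hb
    exact Set.mem_iUnion.2 ⟨n + 1, Submodule.subset_span ⟨b, hn, rfl⟩⟩

/-- **Reduction.** It suffices to prove linearity on separable infinite-dimensional spaces. -/
theorem linear_of_separable [CompleteSpace X] [CompleteSpace Y]
    (h : ∀ (X' : Type u) (Y' : Type v) [NormedAddCommGroup X'] [NormedSpace ℝ X']
      [CompleteSpace X'] [SeparableSpace X'] [NormedAddCommGroup Y'] [NormedSpace ℝ Y']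
      [CompleteSpace Y'] [SeparableSpace Y'] (g : PIso X' Y'), ¬FiniteDimensional ℝ X' →
      ∃ L : X' ≃ₗᵢ[ℝ] Y', ∀ v, L v = g.G v)
    (f : PIso X Y) : ∃ L : X ≃ₗᵢ[ℝ] Y, ∀ v, L v = f.G v := by
  have key : ∀ a b : X, f.G (a + b) = f.G a + f.G b ∧ ∀ t : ℝ, f.G (t • a) = t • f.G a := by
    intro a b
    obtain ⟨P, Q, hsP, hPc, hQc, hPs, hQs, hP, hQ⟩ :=
      exists_invariant f (Set.toFinite {a, b}).countable.isSeparable
    have : CompleteSpace P := hPc.completeSpace_coe
    have : CompleteSpace Q := hQc.completeSpace_coe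
    have : SeparableSpace P := hPs.separableSpace
    have : SeparableSpace Q := hQs.separableSpace
    obtain ⟨L, hL⟩ : ∃ L : P ≃ₗᵢ[ℝ] Q, ∀ v, L v = (restrict f P Q hP hQ).G v := by
      by_cases hfin : FiniteDimensional ℝ P
      · exact linear_of_finite _
      · exact h P Q _ hfin
    have hv : ∀ v : P, ((L v : Q) : Y) = f.G v := fun v => congrArg Subtype.val (hL v)
    set a' : P := ⟨a, hsP (Set.mem_insert a _)⟩
    set b' : P := ⟨b, hsP (Set.mem_insert_of_mem a rfl)⟩
    refine ⟨?_, fun t => ?_⟩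
    · have e := hv (a' + b')
      rw [map_add, Submodule.coe_add, Submodule.coe_add, hv, hv] at e
      exact e.symm
    · have e := hv (t • a')
      rw [map_smul, Submodule.coe_smul, Submodule.coe_smul, hv] at e
      exact e.symm
  exact ⟨{ toFun := f.G
           invFun := f.Gi
           left_inv := f.Gi_G
           right_inv := f.G_Gi
           map_add' := fun a b => (key a b).1
           map_smul' := fun t a => (key a a).2 t
           norm_map' := f.norm_G }, fun _ => rfl⟩

end Vale.Agent.P084.Full
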