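import Vale.Agent.P084.Full.BadPoint
import Vale.Agent.P084.Full.Reduction
import Vale.Agent.P084.Full.Component

/-!
P084 (Tingley's problem), general case: if the derivative at smooth points is isometric, the
extension is a linear isometry; and the reduction of the main theorem to that statement.
-/

namespace Vale.Agent.P084.Full

open Filter Topology Metric TopologicalSpace Orbit
open Orbit.PIso (C0 C0_pos symm_G)

universe u v

variable {X : Type u} {Y : Type v} [NormedAddCommGroup X] [NormedSpace ℝ X] [CompleteSpace X]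
  [NormedAddCommGroup Y] [NormedSpace ℝ Y] [CompleteSpace Y]

/-- Increments are bounded at every unit point. -/
lemma step_of_smooth_isometric (f : PIso X Y)
    (h : ∀ z : X, Smooth z → ∀ a, ‖dG f z a‖ = ‖a‖) {x : X} (hx : ‖x‖ = 1) (a : X)
    (ha : ‖a‖ ≤ 1 / 65536) :
    ‖f.G (x + a) - f.G x‖ ≤ ‖a‖ + C0 * (sd x a + 4 * ‖a‖ ^ 2) := by
  by_cases hs : Smooth x
  · obtain ⟨e, -, hLe, -, -, -, -, -, -, hest⟩ := exists_dG f hs
    have h1 := hest a (by rw [hx]; linarith)
    rw [hx, div_one] at h1
    have h2 := h x hs a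
    rw [hLe] at h2
    have h3 := norm_add_le (f.G (x + a) - f.G x - e a) (e a)
    rw [sub_add_cancel] at h3
    have h4 := norm_add_le_sd hs.supp a
    rw [hx] at h4
    have h5 : C0 * (‖x + a‖ - 1 - dNorm x a + 4 * ‖a‖ ^ 2) ≤
        C0 * (sd x a + 4 * ‖a‖ ^ 2) :=
      mul_le_mul_of_nonneg_left (by linarith) C0_pos.le
    simp only [ContinuousLinearEquiv.coe_coe] at h2
    linarith
  · obtain ⟨_, -, h1, -⟩ := exists_isometry_of_not_smooth f hx hs
    exact h1 a ha

/-- The hypothesis passes to the inverse. -/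
lemma smooth_isometric_symm (f : PIso X Y) (h : ∀ z : X, Smooth z → ∀ a, ‖dG f z a‖ = ‖a‖)
    (w : Y) (hw : Smooth w) (b : Y) : ‖dG f.symm w b‖ = ‖b‖ := by
  have hz : Smooth (f.Gi w) := smooth_G f.symm hw
  obtain ⟨e, -, hLe, -, -, -, -, hGi, -⟩ := exists_dG f hz
  rw [f.G_Gi] at hGi
  have h1 := h _ hz (e.symm b)
  rw [hLe] at h1
  simp only [ContinuousLinearEquiv.coe_coe, e.apply_symm_apply] at h1
  show ‖fderiv ℝ f.Gi w b‖ = ‖b‖
  rw [hGi.fderiv]
  exact h1.symm

/-- **Isometric derivatives at smooth points suffice.** -/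
theorem linear_of_smooth_isometric (f : PIso X Y)
    (h : ∀ z : X, Smooth z → ∀ a, ‖dG f z a‖ = ‖a‖) :
    ∃ L : X ≃ₗᵢ[ℝ] Y, ∀ v, L v = f.G v := by
  have h1 := f.lipschitz_of_dense {x | ‖x‖ = 1} (fun z hz => subset_closure hz)
    (fun x hx => step_of_smooth_isometric f h hx)
  have h2 := f.symm.lipschitz_of_dense {x | ‖x‖ = 1} (fun z hz => subset_closure hz)
    (fun x hx => step_of_smooth_isometric f.symm (smooth_isometric_symm f h) hx)
  let e : X ≃ᵢ Y :=
    { toFun := f.G
      invFun := f.Gi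
      left_inv := f.Gi_G
      right_inv := f.G_Gi
      isometry_toFun := Isometry.of_dist_eq fun a b => by
        rw [dist_eq_norm, dist_eq_norm]
        refine le_antisymm (h1 a b) ?_
        simpa [f.Gi_G] using h2 (f.G a) (f.G b) }
  exact ⟨e.toRealLinearIsometryEquivOfMapZero f.G_zero, fun v => rfl⟩

/-- If the derivative is isometric at the smooth points of separable infinite-dimensional spaces,
every surjective isometry of unit spheres extends linearly. -/
theorem extends_of_smooth_isometric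
    (h : ∀ (X' : Type u) (Y' : Type v) [NormedAddCommGroup X'] [NormedSpace ℝ X']
      [CompleteSpace X'] [SeparableSpace X'] [NormedAddCommGroup Y'] [NormedSpace ℝ Y']
      [CompleteSpace Y'] [SeparableSpace Y'] (g : PIso X' Y'), ¬FiniteDimensional ℝ X' →
      ∀ z : X', Smooth z → ∀ a, ‖dG g z a‖ = ‖a‖)
    {f : sphere (0 : X) 1 → sphere (0 : Y) 1} (hf : Isometry f) (hsurj : Function.Surjective f) :
    ∃ T : X ≃ₗᵢ[ℝ] Y, ∀ x : sphere (0 : X) 1, T (x : X) = (f x : Y) := by
  obtain ⟨s, hs⟩ := exists_pIso hf hsurj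
  obtain ⟨T, hT⟩ := linear_of_separable
    (fun X' Y' => fun g hfin => linear_of_smooth_isometric g (h X' Y' g hfin)) s
  exact ⟨T, fun x => by rw [hT, hs]⟩

/-- The main theorem from the second order data of separable infinite-dimensional spaces. -/
theorem extends_of_sliceData
    (h : ∀ (X' : Type u) (Y' : Type v) [NormedAddCommGroup X'] [NormedSpace ℝ X']
      [CompleteSpace X'] [SeparableSpace X'] [NormedAddCommGroup Y'] [NormedSpace ℝ Y']
      [CompleteSpace Y'] [SeparableSpace Y'] (g : PIso X' Y'), ¬FiniteDimensional ℝ X' →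
      SliceData g)
    {f : sphere (0 : X) 1 → sphere (0 : Y) 1} (hf : Isometry f) (hsurj : Function.Surjective f) :
    ∃ T : X ≃ₗᵢ[ℝ] Y, ∀ x : sphere (0 : X) 1, T (x : X) = (f x : Y) :=
  extends_of_smooth_isometric
    (fun X' Y' => fun g hfin => iso_of_smooth g (h X' Y' g hfin) hfin) hf hsurj

end Vale.Agent.P084.Full
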