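import Vale.Agent.P084.Full.AverageLaw

/-!
P084 (Tingley's problem), library for the general case: slices of the reference law and almost
everywhere Gateaux differentiability of Lipschitz functions.
-/

namespace Vale.Agent.P084.Full.Average

open MeasureTheory Filter Topology Set Function Metric
open scoped NNReal ENNReal

variable {X : Type*} [NormedAddCommGroup X] [NormedSpace ℝ X] [CompleteSpace X]
  [MeasurableSpace X] [BorelSpace X] [SecondCountableTopology X] {e : ℕ → X}

omit [CompleteSpace X] [MeasurableSpace X] [BorelSpace X] [SecondCountableTopology X] in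
lemma sum_smul_mem_span {k : ℕ} {v : Fin k → X}
    (hv : ∀ j, v j ∈ Submodule.span ℝ (range e)) (u : Fin k → ℝ) :
    ∑ j, u j • v j ∈ Submodule.span ℝ (range e) :=
  Submodule.sum_mem _ fun j _ => Submodule.smul_mem _ _ (hv j)

/-- **Slices.** A property holding almost surely holds at almost every point of almost every
translate of a finite slice. -/
theorem ae_slice (he : Summable fun i => ‖e i‖) {k : ℕ} {v : Fin k → X}
    (hv : ∀ j, v j ∈ Submodule.span ℝ (range e)) {p : X → Prop} (hp : ∀ᵐ y ∂mu e, p y) :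
    ∀ᵐ c ∂mu e, ∀ᵐ u : Fin k → ℝ, p (c + ∑ j, u j • v j) := by
  set N := toMeasurable (mu e) {y | ¬ p y}
  have hN : ∀ᵐ y ∂mu e, y ∉ N :=
    measure_eq_zero_iff_ae_notMem.1 (by rw [measure_toMeasurable]; exact ae_iff.1 hp)
  have hm : MeasurableSet {q : X × (Fin k → ℝ) | q.1 + ∑ j, q.2 j • v j ∉ N} :=
    ((measurableSet_toMeasurable _ _).compl).preimage
      (by fun_prop : Continuous fun q : X × (Fin k → ℝ) => q.1 + ∑ j, q.2 j • v j).measurable
  have h2 : ∀ᵐ c ∂mu e, ∀ᵐ u : Fin k → ℝ, c + ∑ j, u j • v j ∉ N :=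
    (Measure.ae_ae_comm hm).2 (ae_of_all _ fun u => ae_translate he (sum_smul_mem_span hv u) hN)
  filter_upwards [h2] with c hc
  filter_upwards [hc] with u hu
  by_contra h
  exact hu (subset_toMeasurable _ _ h)

/-- Translates of a slice on which the property holds almost everywhere are dense. -/
theorem exists_translate (he : Summable fun i => ‖e i‖)
    (hd : Dense (Submodule.span ℝ (range e) : Set X)) {k : ℕ} {v : Fin k → X}
    (hv : ∀ j, v j ∈ Submodule.span ℝ (range e)) {p : X → Prop} (hp : ∀ᵐ y ∂mu e, p y)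
    (a : X) {ε : ℝ} (hε : 0 < ε) :
    ∃ c, ‖c - a‖ < ε ∧ ∀ᵐ u : Fin k → ℝ, p (c + ∑ j, u j • v j) := by
  have hb := mu_pos he hd isOpen_ball ⟨a, mem_ball_self hε⟩
  by_contra hcon
  refine hb.ne' (measure_eq_zero_iff_ae_notMem.2 ?_)
  filter_upwards [ae_slice he hv hp] with c hc hca
  exact hcon ⟨c, by simpa [dist_eq_norm] using hca, hc⟩

/-- A measurable property holding at almost every point of every translate of a finite slice
holds almost surely. -/
theorem ae_of_slices (he : Summable fun i => ‖e i‖) {k : ℕ} {v : Fin k → X}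
    (hv : ∀ j, v j ∈ Submodule.span ℝ (range e)) {p : X → Prop} (hm : MeasurableSet {y | p y})
    (h : ∀ c, ∀ᵐ u : Fin k → ℝ, p (c + ∑ j, u j • v j)) : ∀ᵐ y ∂mu e, p y := by
  have hmm : MeasurableSet {q : X × (Fin k → ℝ) | p (q.1 + ∑ j, q.2 j • v j)} :=
    hm.preimage (by fun_prop : Continuous fun q : X × (Fin k → ℝ) =>
      q.1 + ∑ j, q.2 j • v j).measurable
  obtain ⟨u, hu⟩ := ((Measure.ae_ae_comm (μ := mu e) (ν := volume) hmm).1 (ae_of_all _ h)).exists
  have := ae_translate he (Submodule.neg_mem _ (sum_smul_mem_span hv u)) hu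
  simpa using this

/-- The first `n` directions, as a map from coefficients. -/
noncomputable def sl (e : ℕ → X) (n : ℕ) : (Fin n → ℝ) →L[ℝ] X :=
  ∑ i : Fin n, (ContinuousLinearMap.proj (R := ℝ) (φ := fun _ : Fin n => ℝ) i).smulRight (e i)

omit [CompleteSpace X] [MeasurableSpace X] [BorelSpace X] [SecondCountableTopology X] in
lemma sl_apply (e : ℕ → X) (n : ℕ) (u : Fin n → ℝ) : sl e n u = ∑ i : Fin n, u i • e i := by
  simp [sl]

omit [CompleteSpace X] [MeasurableSpace X] [BorelSpace X] [SecondCountableTopology X] in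
lemma exists_sl_eq {a : X} (ha : a ∈ Submodule.span ℝ (range e)) :
    ∃ N, ∀ n, N ≤ n → ∃ u, sl e n u = a := by
  obtain ⟨c, rfl⟩ := Finsupp.mem_span_range_iff_exists_finsupp.1 ha
  refine ⟨c.support.sup id + 1, fun n hn => ⟨fun i => c i, ?_⟩⟩
  rw [sl_apply, Fin.sum_univ_eq_sum_range (fun i => c i • e i) n]
  refine (c.sum_of_support_subset (fun i hi => ?_) (fun i x => x • e i) fun i _ => zero_smul _ _).symm
  exact Finset.mem_range.2 (lt_of_lt_of_le (Nat.lt_succ_of_le (Finset.le_sup (f := id) hi)) hn)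

/-- **Almost everywhere Gateaux differentiability** of a globally Lipschitz function. -/
theorem ae_gateaux_of_lipschitzWith (he : Summable fun i => ‖e i‖)
    (hd : Dense (Submodule.span ℝ (range e) : Set X)) {g : X → ℝ} {K : ℝ≥0}
    (hg : LipschitzWith K g) :
    ∀ᵐ z ∂mu e, ∃ l : X →L[ℝ] ℝ, ∀ a, HasLineDerivAt ℝ g (l a) z a := by
  have hA : ∀ n, ∀ᵐ z ∂mu e, DifferentiableAt ℝ (fun u => g (z + sl e n u)) 0 := by
    intro n
    have hm0 := measurableSet_of_differentiableAt_with_param ℝ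
      (f := fun (z : X) (u : Fin n → ℝ) => g (z + sl e n u))
      (hg.continuous.comp (by fun_prop))
    have hm : MeasurableSet {z : X | DifferentiableAt ℝ (fun u => g (z + sl e n u)) 0} :=
      hm0.preimage (by fun_prop : Measurable fun z : X => (z, (0 : Fin n → ℝ)))
    refine ae_of_slices he (v := fun i : Fin n => e i)
      (fun i => Submodule.subset_span (mem_range_self _)) hm fun c => ?_
    have hL : LipschitzWith (K * (0 + ‖sl e n‖₊)) fun u => g (c + sl e n u) :=
      hg.comp ((LipschitzWith.const c).add (sl e n).lipschitz)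
    filter_upwards [hL.ae_differentiableAt] with u hu
    have e1 : (fun w => g (c + ∑ j : Fin n, u j • e j + sl e n w)) =
        (fun w => g (c + sl e n w)) ∘ fun w => u + w := by
      funext w
      rw [Function.comp_apply, map_add, ← sl_apply, add_assoc]
    rw [e1]
    exact DifferentiableAt.comp 0 (by simpa using hu) (by fun_prop)
  filter_upwards [ae_all_iff.2 hA] with z hz
  set S := Submodule.span ℝ (range e)
  have hline : ∀ n u, HasLineDerivAt ℝ g
      (fderiv ℝ (fun w => g (z + sl e n w)) 0 u) z (sl e n u) := by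
    intro n u
    have := ((hz n).hasFDerivAt).hasLineDerivAt u
    simpa [HasLineDerivAt] using this
  have hlin : IsLinearMap ℝ fun a : S => lineDeriv ℝ g z (a : X) := by
    constructor
    · intro a b
      obtain ⟨N, hN⟩ := exists_sl_eq a.2
      obtain ⟨M, hM⟩ := exists_sl_eq b.2
      obtain ⟨u, hu⟩ := hN (max N M) (le_max_left _ _)
      obtain ⟨w, hw⟩ := hM (max N M) (le_max_right _ _)
      rw [Submodule.coe_add, ← hu, ← hw, ← map_add, (hline _ _).lineDeriv, (hline _ _).lineDeriv,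
        (hline _ _).lineDeriv, map_add]
    · intro t a
      rw [Submodule.coe_smul, lineDeriv_smul]
  set l₀ : S →L[ℝ] ℝ := (IsLinearMap.mk' _ hlin).mkContinuous K fun a => by
    simpa using norm_lineDeriv_le_of_lipschitz ℝ hg (x₀ := z) (v := (a : X))
  have hdense : DenseRange (S.subtypeL) := by
    simpa [DenseRange] using hd
  set l : X →L[ℝ] ℝ := l₀.extend S.subtypeL
  have hl : ∀ b : S, l b = lineDeriv ℝ g z (b : X) := fun b =>
    l₀.extend_eq hdense isometry_subtype_coe.isUniformInducing b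
  refine ⟨l, fun a => ?_⟩
  unfold HasLineDerivAt
  rw [hasDerivAt_iff_tendsto_slope_zero, Metric.tendsto_nhds]
  intro ε hε
  obtain ⟨b, hbS, hb⟩ := Metric.mem_closure_iff.1 (hd.closure_eq ▸ mem_univ a)
    (ε / (2 * (K + ‖l‖ + 1))) (by positivity)
  obtain ⟨N, hN⟩ := exists_sl_eq hbS
  obtain ⟨u, hu⟩ := hN N le_rfl
  have hbd : HasLineDerivAt ℝ g (l b) z b := by
    rw [hl ⟨b, hbS⟩]
    have h := hline N u
    rw [hu] at h
    exact h.lineDifferentiableAt.hasLineDerivAt
  have ht := hasDerivAt_iff_tendsto_slope_zero.1 hbd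
  rw [Metric.tendsto_nhds] at ht
  filter_upwards [ht (ε / 2) (half_pos hε), self_mem_nhdsWithin] with t htε ht0
  simp only [zero_add, zero_smul, add_zero, smul_eq_mul, dist_eq_norm, Real.norm_eq_abs] at htε ⊢
  have ht0' : (0 : ℝ) < |t| := abs_pos.2 ht0
  have h1 : |t⁻¹ * (g (z + t • a) - g z) - t⁻¹ * (g (z + t • b) - g z)| ≤ K * ‖a - b‖ := by
    rw [← mul_sub, sub_sub_sub_cancel_right, abs_mul, abs_inv]
    refine (mul_le_mul_of_nonneg_left (hg.norm_sub_le _ _) (by positivity)).trans_eq ?_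
    rw [add_sub_add_left_eq_sub, ← smul_sub, norm_smul, Real.norm_eq_abs]
    field_simp
  have h2 : |l a - l b| ≤ ‖l‖ * ‖a - b‖ := by
    rw [← map_sub]; exact l.le_opNorm _
  rw [dist_eq_norm] at hb
  have h3 : (K + ‖l‖) * ‖a - b‖ ≤ ε / 2 * 1 := by
    calc (K + ‖l‖) * ‖a - b‖ ≤ (K + ‖l‖ + 1) * (ε / (2 * (K + ‖l‖ + 1))) :=
          mul_le_mul (le_add_of_nonneg_right zero_le_one) hb.le (norm_nonneg _) (by positivity)
      _ = ε / 2 * 1 := by field_simp
  rw [abs_le] at h1 h2
  rw [abs_lt] at htε ⊢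
  constructor <;> nlinarith [h1.1, h1.2, h2.1, h2.2, htε.1, htε.2, h3, norm_nonneg (a - b)]

/-- **Almost everywhere Gateaux differentiability** of a function Lipschitz on an open set. -/
theorem ae_gateaux (he : Summable fun i => ‖e i‖)
    (hd : Dense (Submodule.span ℝ (range e) : Set X)) {f : X → ℝ} {U : Set X} (hU : IsOpen U)
    {K : ℝ≥0} (hf : LipschitzOnWith K f U) :
    ∀ᵐ z ∂mu e, z ∈ U → ∃ l : X →L[ℝ] ℝ, ∀ a, HasLineDerivAt ℝ f (l a) z a := by
  obtain ⟨g, hg, hfg⟩ := hf.extend_real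
  filter_upwards [ae_gateaux_of_lipschitzWith he hd hg] with z hz hzU
  obtain ⟨l, hl⟩ := hz
  exact ⟨l, fun a => (hl a).congr_of_eventuallyEq
    (hfg.eventuallyEq_of_mem (hU.mem_nhds hzU))⟩

end Vale.Agent.P084.Full.Average
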