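import Vale.Agent.P084.Full.AverageLaw

/-!
P084 (Tingley's problem), library for the general case: scales along which countably many bounded
measurable functions are almost surely approximated by their averages, in the strong sense.
-/

namespace Vale.Agent.P084.Full.Average

open MeasureTheory Filter Topology Set Function Metric
open scoped NNReal ENNReal

variable {X : Type*} [NormedAddCommGroup X] [NormedSpace ℝ X] [CompleteSpace X]
  [MeasurableSpace X] [BorelSpace X] [SecondCountableTopology X] {e : ℕ → X}

/-- The mean oscillation of a bounded measurable function over the kernel at scale `d`. -/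
lemma integrable_osc (he : Summable fun i => ‖e i‖) {h : X → ℝ} (hm : Measurable h) {M : ℝ}
    (hM : ∀ y, |h y| ≤ M) (d : ℝ) (z : X) (a : ℝ) :
    Integrable (fun c => |h (z + Sh (step d e) c) - a|) P := by
  have hS := continuous_Sh (summable_step he d)
  refine Integrable.of_bound
    (((hm.comp (by fun_prop : Continuous fun c => z + Sh (step d e) c).measurable).sub_const
      a).abs).aestronglyMeasurable (M + |a|) (ae_of_all _ fun c => ?_)
  rw [Real.norm_eq_abs, abs_abs]
  exact (abs_sub _ _).trans (add_le_add (hM _) le_rfl)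

lemma exists_scale (he : Summable fun i => ‖e i‖) {h : X → ℝ} (hm : Measurable h) {M : ℝ}
    (hM : ∀ y, |h y| ≤ M) {ε : ℝ} (hε : 0 < ε) :
    ∃ δ > 0, ∀ d, |d| ≤ δ →
      ∫ z, Av (step d e) (fun y => |h y - h z|) z ∂mu e ≤ ε := by
  haveI := isProbabilityMeasure_mu he
  obtain ⟨δ, hδ, hb⟩ := translate_L1 (e := e) hm hM (A := 2) hε
  refine ⟨min 1 (δ / (rad e + 1)), lt_min one_pos (by have := rad_nonneg e; positivity),
    fun d hd => ?_⟩
  have hS := continuous_Sh (summable_step he d)
  have hbound : ∀ c, ∫ z, |h (z + Sh (step d e) c) - h z| ∂mu e ≤ ε := fun c => by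
    refine hb _ ?_ ((dom_step he d c).mono (by linarith [hd.trans (min_le_left _ _)]))
    refine ((norm_Sh_le (summable_step he d) c).trans (rad_step_le he d)).trans ?_
    have h0 := rad_nonneg e
    have h1 := mul_le_mul (hd.trans (min_le_right _ _)) (le_add_of_nonneg_right zero_le_one) h0
      (by positivity)
    rwa [div_mul_cancel₀ _ (by positivity)] at h1
  have hjm : AEStronglyMeasurable
      (fun q : X × (ℕ → ℝ) => |h (q.1 + Sh (step d e) q.2) - h q.1|) ((mu e).prod P) :=
    (((hm.comp (by fun_prop : Continuous fun q : X × (ℕ → ℝ) =>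
      q.1 + Sh (step d e) q.2).measurable).sub (hm.comp measurable_fst)).abs).aestronglyMeasurable
  have hji : Integrable
      (fun q : X × (ℕ → ℝ) => |h (q.1 + Sh (step d e) q.2) - h q.1|) ((mu e).prod P) :=
    Integrable.of_bound hjm (M + M) (ae_of_all _ fun q => by
      rw [Real.norm_eq_abs, abs_abs]
      exact (abs_sub _ _).trans (add_le_add (hM _) (hM _)))
  simp only [Av]
  rw [integral_integral_swap hji]
  refine (integral_mono hji.integral_prod_right (integrable_const ε) hbound).trans_eq ?_
  simp

lemma measurable_osc (he : Summable fun i => ‖e i‖) {h : X → ℝ} (hm : Measurable h) (d : ℝ) :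
    Measurable fun z => Av (step d e) (fun y => |h y - h z|) z := by
  have hS := continuous_Sh (summable_step he d)
  exact (((hm.comp (by fun_prop : Continuous fun q : X × (ℕ → ℝ) =>
    q.1 + Sh (step d e) q.2).measurable).sub (hm.comp measurable_fst)).abs.stronglyMeasurable
    |>.integral_prod_right').measurable

/-- **Good scales.** -/
theorem exists_scales (he : Summable fun i => ‖e i‖) {h : ℕ → X → ℝ} (hm : ∀ m, Measurable (h m))
    (hb : ∀ m, ∃ M, ∀ y, |h m y| ≤ M) {θ : ℕ → ℝ} (hθ : ∀ k, 0 < θ k) :
    ∃ d : ℕ → ℝ, (∀ k, 0 < d k ∧ d k ≤ θ k) ∧ Tendsto d atTop (𝓝 0) ∧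
      ∀ᵐ z ∂mu e, ∀ m, Tendsto (fun k => Av (step (d k) e) (fun y => |h m y - h m z|) z) atTop
        (𝓝 0) := by
  haveI := isProbabilityMeasure_mu he
  choose M hM using hb
  choose δ hδ hδb using fun m k : ℕ => exists_scale he (hm m) (hM m) (ε := (1 / 4 : ℝ) ^ k)
    (by positivity)
  set d : ℕ → ℝ := fun k => min (min (θ k) (1 / ((k : ℝ) + 1)))
    ((Finset.range (k + 1)).inf' (Finset.nonempty_range_iff.2 (Nat.succ_ne_zero k)) fun m => δ m k)
    with hd
  have hdpos : ∀ k, 0 < d k := fun k =>
    lt_min (lt_min (hθ k) (by positivity)) ((Finset.lt_inf'_iff _).2 fun m _ => hδ m k)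
  have hd1 : ∀ k, d k ≤ 1 / ((k : ℝ) + 1) := fun k => (min_le_left _ _).trans (min_le_right _ _)
  refine ⟨d, fun k => ⟨hdpos k, (min_le_left _ _).trans (min_le_left _ _)⟩,
    squeeze_zero (fun k => (hdpos k).le) hd1 tendsto_one_div_add_atTop_nhds_zero_nat,
    ae_all_iff.2 fun m => ?_⟩
  set G : ℕ → X → ℝ := fun k z => Av (step (d (k + m)) e) (fun y => |h m y - h m z|) z with hG
  have hG0 : ∀ k z, 0 ≤ G k z := fun k z => integral_nonneg fun c => abs_nonneg _
  have hGm : ∀ k, Measurable (G k) := fun k => measurable_osc he (hm m) _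
  have hGi : ∀ k, Integrable (G k) (mu e) := fun k =>
    Integrable.of_bound (hGm k).aestronglyMeasurable (M m + M m) (ae_of_all _ fun z => by
      refine norm_Av_le (summable_step he _) fun y _ => ?_
      rw [Real.norm_eq_abs, abs_abs]
      exact (abs_sub _ _).trans (add_le_add (hM m _) (hM m _)))
  have hfin : ∑' k, ∫⁻ z, ENNReal.ofReal (G k z) ∂mu e ≠ ∞ := by
    refine ne_top_of_le_ne_top (b := ∑' k, ENNReal.ofReal ((1 / 4 : ℝ) ^ k)) ?_
      (ENNReal.tsum_le_tsum fun k => ?_)
    · rw [← ENNReal.ofReal_tsum_of_nonneg (fun n => by positivity)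
        (summable_geometric_of_lt_one (by norm_num) (by norm_num))]
      exact ENNReal.ofReal_ne_top
    rw [← ofReal_integral_eq_lintegral_ofReal (hGi k) (ae_of_all _ (hG0 k))]
    refine ENNReal.ofReal_le_ofReal ((hδb m (k + m) _ ?_).trans
      (pow_le_pow_of_le_one (by norm_num) (by norm_num) (Nat.le_add_right k m)))
    rw [abs_of_pos (hdpos _)]
    exact (min_le_right _ _).trans (Finset.inf'_le _ (Finset.mem_range.2 (by omega)))
  rw [← lintegral_tsum fun k => (hGm k).ennreal_ofReal.aemeasurable] at hfin
  filter_upwards [ae_lt_top (Measurable.tsum fun k => (hGm k).ennreal_ofReal) hfin] with z hz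
  have h0 := (ENNReal.summable_toReal hz.ne).tendsto_atTop_zero
  exact (tendsto_add_atTop_iff_nat m).1 (h0.congr fun k => ENNReal.toReal_ofReal (hG0 k z))

/-- Along good scales the averages converge to the value. -/
lemma tendsto_Av_of_osc (he : Summable fun i => ‖e i‖) {h : X → ℝ} (hm : Measurable h) {M : ℝ}
    (hM : ∀ y, |h y| ≤ M) {d : ℕ → ℝ} {z : X}
    (hz : Tendsto (fun k => Av (step (d k) e) (fun y => |h y - h z|) z) atTop (𝓝 0)) :
    Tendsto (fun k => Av (step (d k) e) h z) atTop (𝓝 (h z)) := by
  rw [tendsto_iff_norm_sub_tendsto_zero]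
  refine squeeze_zero (fun k => norm_nonneg _) (fun k => ?_) hz
  have hS := continuous_Sh (summable_step he (d k))
  have hi : Integrable (fun c => h (z + Sh (step (d k) e) c)) P :=
    Integrable.of_bound
      ((hm.comp (by fun_prop : Continuous fun c =>
        z + Sh (step (d k) e) c).measurable)).aestronglyMeasurable M (ae_of_all _ fun c => hM _)
  have e1 : Av (step (d k) e) h z - h z = ∫ c, (h (z + Sh (step (d k) e) c) - h z) ∂P := by
    rw [integral_sub hi (integrable_const _)]
    simp [Av]
  rw [e1, Real.norm_eq_abs]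
  exact abs_integral_le_integral_abs

end Vale.Agent.P084.Full.Average
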