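import Vale.Agent.P084.Full.AverageBase

/-!
P084 (Tingley's problem), library for the general case: uniform averages over finite index sets,
weakly null bounded families have almost surely null averages, and test functions.
-/

namespace Vale.Agent.P084.Full.Average

open MeasureTheory Filter Topology Set Function Metric
open scoped NNReal ENNReal

/-- The uniform average over a finite index set. -/
noncomputable def avg {E : Type*} [AddCommGroup E] [Module ℝ E] (s : Finset ℕ) (u : ℕ → E) : E :=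
  (s.card : ℝ)⁻¹ • ∑ k ∈ s, u k

section Avg

variable {E : Type*} [NormedAddCommGroup E] [NormedSpace ℝ E]

lemma avg_const {s : Finset ℕ} (hs : s.Nonempty) (a : E) : avg s (fun _ => a) = a := by
  rw [avg, Finset.sum_const, ← Nat.cast_smul_eq_nsmul ℝ, smul_smul,
    inv_mul_cancel₀ (by exact_mod_cast hs.card_pos.ne'), one_smul]

lemma avg_add (s : Finset ℕ) (u v : ℕ → E) : avg s (fun k => u k + v k) = avg s u + avg s v := by
  simp [avg, Finset.sum_add_distrib, smul_add]

lemma avg_sub (s : Finset ℕ) (u v : ℕ → E) : avg s (fun k => u k - v k) = avg s u - avg s v := by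
  simp [avg, Finset.sum_sub_distrib, smul_sub]

lemma avg_smul (s : Finset ℕ) (r : ℝ) (u : ℕ → E) : avg s (fun k => r • u k) = r • avg s u := by
  rw [avg, avg, ← Finset.smul_sum, smul_comm]

lemma avg_congr {s : Finset ℕ} {u v : ℕ → E} (h : ∀ k ∈ s, u k = v k) : avg s u = avg s v := by
  rw [avg, avg, Finset.sum_congr rfl h]

lemma avg_map {E' : Type*} [NormedAddCommGroup E'] [NormedSpace ℝ E'] (T : E →L[ℝ] E')
    (s : Finset ℕ) (u : ℕ → E) : T (avg s u) = avg s fun k => T (u k) := by
  simp [avg, map_sum]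

lemma norm_avg_le {s : Finset ℕ} (hs : s.Nonempty) {u : ℕ → E} {B : ℝ}
    (hu : ∀ k ∈ s, ‖u k‖ ≤ B) : ‖avg s u‖ ≤ B := by
  rw [avg, norm_smul, norm_inv, Real.norm_natCast]
  refine (mul_le_mul_of_nonneg_left ((norm_sum_le _ _).trans (Finset.sum_le_card_nsmul _ _ _ hu))
    (by positivity)).trans_eq ?_
  rw [nsmul_eq_mul, ← mul_assoc, inv_mul_cancel₀ (by exact_mod_cast hs.card_pos.ne'), one_mul]

/-- Averages over later and later indices inherit the limit. -/
lemma avg_tendsto {s : ℕ → Finset ℕ} (hs : ∀ n, (s n).Nonempty ∧ ∀ k ∈ s n, n ≤ k) {u : ℕ → E}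
    {a : E} (hu : Tendsto u atTop (𝓝 a)) : Tendsto (fun n => avg (s n) u) atTop (𝓝 a) := by
  rw [Metric.tendsto_atTop] at hu ⊢
  intro ε hε
  obtain ⟨N, hN⟩ := hu (ε / 2) (half_pos hε)
  refine ⟨N, fun n hn => lt_of_le_of_lt ?_ (half_lt_self hε)⟩
  rw [dist_eq_norm]
  conv_lhs => rw [← avg_const (hs n).1 a, ← avg_sub]
  exact norm_avg_le (hs n).1 fun k hk => by
    rw [← dist_eq_norm]; exact (hN k (hn.trans ((hs n).2 k hk))).le

end Avg

section Mazur

variable {α : Type*} [MeasurableSpace α] {ν : Measure α} [IsFiniteMeasure ν]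

lemma integral_sum_sq_le (n : ℕ) (G : ℕ → α → ℝ) (hG : ∀ p, Measurable (G p)) {B : ℝ}
    (hB : 0 ≤ B) (hGb : ∀ p, ∀ᵐ x ∂ν, |G p x| ≤ B) {ε : ℝ} (hε : 0 ≤ ε)
    (horth : ∀ p q, p < q → q < n → |∫ x, G q x * G p x ∂ν| ≤ ε) :
    ∫ x, (∑ p ∈ Finset.range n, G p x) ^ 2 ∂ν ≤ n * (B ^ 2 * ν.real univ) + n ^ 2 * ε := by
  have hint : ∀ p q, Integrable (fun x => G p x * G q x) ν := fun p q => by
    refine Integrable.of_bound ((hG p).mul (hG q)).aestronglyMeasurable (B * B) ?_
    filter_upwards [hGb p, hGb q] with x hp hq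
    rw [Real.norm_eq_abs, abs_mul]
    exact mul_le_mul hp hq (abs_nonneg _) hB
  have hsum : ∀ m, Integrable (fun x => (∑ p ∈ Finset.range m, G p x) ^ 2) ν := fun m => by
    simp_rw [sq, Finset.sum_mul_sum]
    exact integrable_finset_sum _ fun p _ => integrable_finset_sum _ fun q _ => hint p q
  induction n with
  | zero => simp
  | succ n ih =>
    have h1 : ∫ x, G n x ^ 2 ∂ν ≤ B ^ 2 * ν.real univ := by
      simp_rw [sq]
      refine (integral_mono_ae (hint n n) (integrable_const (B * B)) ?_).trans_eq ?_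
      · filter_upwards [hGb n] with x hx
        rw [abs_le] at hx
        nlinarith [hx.1, hx.2]
      · rw [integral_const, smul_eq_mul, mul_comm]
    have h2 : |∫ x, (∑ p ∈ Finset.range n, G p x) * G n x ∂ν| ≤ n * ε := by
      simp_rw [Finset.sum_mul]
      rw [integral_finset_sum _ fun p _ => hint p n]
      refine (Finset.abs_sum_le_sum_abs _ _).trans ?_
      refine (Finset.sum_le_card_nsmul _ _ ε fun p hp => ?_).trans_eq (by
        rw [Finset.card_range, nsmul_eq_mul])
      rw [show (fun x => G p x * G n x) = fun x => G n x * G p x from funext fun x => mul_comm _ _]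
      exact horth p n (Finset.mem_range.1 hp) (Nat.lt_succ_self n)
    have hprod : Integrable (fun x => (∑ p ∈ Finset.range n, G p x) * G n x) ν := by
      simp_rw [Finset.sum_mul]
      exact integrable_finset_sum _ fun p _ => hint p n
    have hnn : Integrable (fun x => G n x ^ 2) ν := by simp_rw [sq]; exact hint n n
    have e1 : ∀ x, (∑ p ∈ Finset.range (n + 1), G p x) ^ 2 =
        (∑ p ∈ Finset.range n, G p x) ^ 2 + (2 * ((∑ p ∈ Finset.range n, G p x) * G n x)
          + G n x ^ 2) := fun x => by rw [Finset.sum_range_succ]; ring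
    have hrest : Integrable
        (fun x => 2 * ((∑ p ∈ Finset.range n, G p x) * G n x) + G n x ^ 2) ν :=
      (hprod.const_mul 2).add hnn
    simp_rw [e1]
    rw [integral_add (hsum n) hrest, integral_add (hprod.const_mul 2) hnn, integral_const_mul]
    have hε0 : 0 ≤ (n : ℝ) * ε := (abs_nonneg _).trans h2
    have ih' := ih fun p q hpq hq => horth p q hpq (Nat.lt_succ_of_lt hq)
    rw [abs_le] at h2
    push_cast
    nlinarith [h1, h2.2, ih', hε, (Nat.cast_nonneg n : (0 : ℝ) ≤ n)]

omit [IsFiniteMeasure ν] in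
/-- A block of almost orthogonal indices. -/
lemma exists_block (n N : ℕ) {F : ℕ → ℕ → α → ℝ} (hF : ∀ j k, Measurable (F j k)) {M : ℕ → ℝ}
    (hM : ∀ j k, ∀ᵐ x ∂ν, |F j k x| ≤ M j)
    (hnull : ∀ j, ∀ φ : α → ℝ, Measurable φ → (∃ B, ∀ x, |φ x| ≤ B) →
      Tendsto (fun k => ∫ x, φ x * F j k x ∂ν) atTop (𝓝 0)) {ε : ℝ} (hε : 0 < ε) :
    ∃ idx : ℕ → ℕ, StrictMono idx ∧ (∀ p, n ≤ idx p) ∧
      ∀ j, j < N → ∀ p q, p < q → |∫ x, F j (idx q) x * F j (idx p) x ∂ν| ≤ ε := by
  have key : ∀ L : List ℕ, ∃ k, n ≤ k ∧ (∀ l ∈ L, l < k) ∧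
      ∀ j, j < N → ∀ l ∈ L, |∫ x, F j k x * F j l x ∂ν| ≤ ε := by
    intro L
    have hev : ∀ j ∈ Finset.range N, ∀ l ∈ L.toFinset,
        ∀ᶠ k in atTop, |∫ x, F j k x * F j l x ∂ν| ≤ ε := by
      intro j _ l _
      set φ : α → ℝ := fun x => max (-|M j|) (min |M j| (F j l x))
      have hφ : ∀ x, |φ x| ≤ |M j| := fun x =>
        abs_le.2 ⟨le_max_left _ _, max_le (by linarith [abs_nonneg (M j)]) (min_le_left _ _)⟩
      have h := hnull j φ (by fun_prop) ⟨_, hφ⟩
      filter_upwards [(tendsto_zero_iff_abs_tendsto_zero _).1 h |>.eventually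
        (eventually_le_nhds hε)] with k hk
      refine le_of_eq_of_le ?_ hk
      simp only [Function.comp_apply]
      congr 1
      refine integral_congr_ae ?_
      filter_upwards [hM j l] with x hx
      rw [mul_comm (φ x)]
      congr 1
      have h1 := (abs_le.1 (hx.trans (le_abs_self _)))
      simp only [φ, min_eq_right h1.2, max_eq_right h1.1]
    have hev' : ∀ᶠ k in atTop, ∀ j ∈ Finset.range N, ∀ l ∈ L.toFinset,
        |∫ x, F j k x * F j l x ∂ν| ≤ ε :=
      (Finset.eventually_all _).2 fun j hj => (Finset.eventually_all _).2 fun l hl => hev j hj l hl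
    obtain ⟨k, hk, hk', hk''⟩ := (hev'.and ((eventually_ge_atTop n).and
      (eventually_gt_atTop L.sum))).exists
    exact ⟨k, hk', fun l hl => lt_of_le_of_lt (List.le_sum_of_mem hl) hk'',
      fun j hj l hl => hk j (Finset.mem_range.2 hj) l (List.mem_toFinset.2 hl)⟩
  choose nxt h1 h2 h3 using key
  let pre : ℕ → List ℕ := fun p => Nat.rec [] (fun _ L => nxt L :: L) p
  have hpre : ∀ p q, p < q → nxt (pre p) ∈ pre q := by
    intro p q hpq
    induction q with
    | zero => omega
    | succ q ih =>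
      rcases Nat.lt_succ_iff_lt_or_eq.1 hpq with h | h
      · exact List.mem_cons_of_mem _ (ih h)
      · subst h; exact List.mem_cons_self
  exact ⟨fun p => nxt (pre p), fun p q hpq => h2 _ _ (hpre p q hpq), fun p => h1 _,
    fun j hj p q hpq => h3 _ j hj _ (hpre p q hpq)⟩

/-- **Weakly null bounded families have null averages**, almost surely and simultaneously. -/
theorem exists_avg {F : ℕ → ℕ → α → ℝ} (hF : ∀ j k, Measurable (F j k)) {M : ℕ → ℝ}
    (hM : ∀ j k, ∀ᵐ x ∂ν, |F j k x| ≤ M j)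
    (hnull : ∀ j, ∀ φ : α → ℝ, Measurable φ → (∃ B, ∀ x, |φ x| ≤ B) →
      Tendsto (fun k => ∫ x, φ x * F j k x ∂ν) atTop (𝓝 0)) :
    ∃ s : ℕ → Finset ℕ, (∀ n, (s n).Nonempty ∧ ∀ k ∈ s n, n ≤ k) ∧
      ∀ᵐ x ∂ν, ∀ j, Tendsto (fun n => avg (s n) fun k => F j k x) atTop (𝓝 0) := by
  set V := ν.real univ
  set η : ℕ → ℝ := fun n => (1 / 4 : ℝ) ^ n with hη
  set S : ℕ → ℝ := fun n => ∑ j ∈ Finset.range n, |M j| ^ 2 * V
  set N : ℕ → ℕ := fun n => ⌈S n / η n⌉₊ + 1
  have hblock : ∀ n, ∃ s : Finset ℕ, (s.Nonempty ∧ ∀ k ∈ s, n ≤ k) ∧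
      ∀ j, j < n → ∫ x, (avg s fun k => F j k x) ^ 2 ∂ν ≤ 2 * η n := by
    intro n
    obtain ⟨idx, hmono, hge, horth⟩ := exists_block n n hF hM hnull
      (show 0 < η n by positivity)
    refine ⟨(Finset.range (N n)).image idx, ⟨(Finset.nonempty_range_iff.2 (Nat.succ_ne_zero _)).image _,
      fun k hk => ?_⟩, fun j hj => ?_⟩
    · obtain ⟨p, -, rfl⟩ := Finset.mem_image.1 hk
      exact hge p
    have hN : (0 : ℝ) < N n := by positivity
    have e1 : ∀ x, (avg ((Finset.range (N n)).image idx) fun k => F j k x) ^ 2 =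
        ((N n : ℝ)⁻¹) ^ 2 * (∑ p ∈ Finset.range (N n), F j (idx p) x) ^ 2 := fun x => by
      rw [avg, Finset.card_image_of_injective _ hmono.injective, Finset.card_range,
        Finset.sum_image fun a _ b _ h => hmono.injective h, smul_eq_mul, mul_pow]
    simp_rw [e1]
    rw [integral_const_mul]
    refine (mul_le_mul_of_nonneg_left (integral_sum_sq_le (N n) (fun p => F j (idx p))
      (fun p => hF _ _) (abs_nonneg (M j))
      (fun p => (hM j (idx p)).mono fun x hx => hx.trans (le_abs_self _))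
      (show (0 : ℝ) ≤ η n by positivity) (fun p q hpq _ => horth j hj p q hpq)) (by positivity)).trans ?_
    have hS : |M j| ^ 2 * V ≤ S n :=
      Finset.single_le_sum (f := fun i => |M i| ^ 2 * V)
        (fun i _ => mul_nonneg (sq_nonneg _) measureReal_nonneg) (Finset.mem_range.2 hj)
    have hSN : S n ≤ η n * N n := by
      have h1 : S n / η n ≤ N n := (Nat.le_ceil _).trans (by simp [N])
      rwa [div_le_iff₀ (by positivity), mul_comm] at h1
    calc ((N n : ℝ)⁻¹) ^ 2 * ((N n : ℝ) * (|M j| ^ 2 * V) + (N n : ℝ) ^ 2 * η n)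
        = (|M j| ^ 2 * V) / N n + η n := by field_simp
      _ ≤ 2 * η n := by
        have : (|M j| ^ 2 * V) / N n ≤ η n := by
          rw [div_le_iff₀ hN]; exact hS.trans hSN
        linarith
  choose s hs1 hs2 using hblock
  refine ⟨s, hs1, ae_all_iff.2 fun j => ?_⟩
  set G : ℕ → α → ℝ := fun n x => (avg (s n) fun k => F j k x) ^ 2 with hG
  have hGm : ∀ n, Measurable (G n) := fun n => by
    simp only [hG, avg, smul_eq_mul]
    fun_prop
  have hGi : ∀ n, Integrable (G n) ν := by
    intro n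
    refine Integrable.of_bound (hGm n).aestronglyMeasurable (|M j| ^ 2) ?_
    filter_upwards [ae_all_iff.2 fun k => hM j k] with x hx
    rw [Real.norm_eq_abs, hG]
    simp only [abs_pow]
    exact pow_le_pow_left₀ (abs_nonneg _)
      (norm_avg_le (E := ℝ) (hs1 n).1 fun k _ => (hx k).trans (le_abs_self _)) 2
  have hfin : ∑' n, ∫⁻ x, ENNReal.ofReal (G (n + (j + 1)) x) ∂ν ≠ ∞ := by
    refine ne_top_of_le_ne_top (b := ∑' n, ENNReal.ofReal (2 * η n)) ?_ (ENNReal.tsum_le_tsum fun n => ?_)
    · rw [← ENNReal.ofReal_tsum_of_nonneg (fun n => by positivity)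
        ((summable_geometric_of_lt_one (by norm_num) (by norm_num)).mul_left 2)]
      exact ENNReal.ofReal_ne_top
    rw [← ofReal_integral_eq_lintegral_ofReal (hGi _) (ae_of_all _ fun x => sq_nonneg _)]
    refine ENNReal.ofReal_le_ofReal ((hs2 _ j (by omega)).trans ?_)
    refine mul_le_mul_of_nonneg_left ?_ zero_le_two
    exact pow_le_pow_of_le_one (by norm_num) (by norm_num) (by omega)
  rw [← lintegral_tsum fun n => (hGm _).ennreal_ofReal.aemeasurable] at hfin
  filter_upwards [ae_lt_top (Measurable.tsum fun n => (hGm _).ennreal_ofReal) hfin] with x hx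
  have h0 := (ENNReal.summable_toReal hx.ne).tendsto_atTop_zero
  have h1 : Tendsto (fun n => G n x) atTop (𝓝 0) :=
    (tendsto_add_atTop_iff_nat (j + 1)).1 (h0.congr fun n => ENNReal.toReal_ofReal (sq_nonneg _))
  have h2 := (Real.continuous_sqrt.tendsto 0).comp h1
  rw [Real.sqrt_zero] at h2
  exact (tendsto_zero_iff_abs_tendsto_zero _).2
    (h2.congr fun n => by simp [hG, Real.sqrt_sq_eq_abs])

end Mazur

section Test

variable {X : Type*} [PseudoMetricSpace X]

/-- Lipschitz regularisation of a bounded continuous function. -/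
lemma exists_lipschitz_approx {g : X → ℝ} (hg : Continuous g) {B : ℝ} (hB : ∀ y, |g y| ≤ B) :
    ∃ G : ℕ → X → ℝ, (∀ n : ℕ, LipschitzWith ((n : ℝ≥0) + 1) (G n)) ∧ (∀ n y, |G n y| ≤ B) ∧
      ∀ y, Tendsto (fun n => G n y) atTop (𝓝 (g y)) := by
  rcases isEmpty_or_nonempty X with hX | hX
  · exact ⟨fun _ _ => 0, fun n => LipschitzWith.const' _, fun _ y => (hX.false y).elim,
      fun y => (hX.false y).elim⟩
  set G : ℕ → X → ℝ := fun n y => ⨅ x, (g x + ((n : ℝ) + 1) * dist y x)
  have hbdd : ∀ (n : ℕ) y, BddBelow (range fun x => g x + ((n : ℝ) + 1) * dist y x) := fun n y => by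
    refine ⟨-B, ?_⟩
    rintro - ⟨x, rfl⟩
    have := (abs_le.1 (hB x)).1
    have h2 : 0 ≤ ((n : ℝ) + 1) * dist y x := by positivity
    linarith
  have hle : ∀ n y, G n y ≤ g y := fun n y => by
    simpa using ciInf_le (hbdd n y) y
  refine ⟨G, fun n => LipschitzWith.of_le_add_mul _ fun y y' => ?_, fun n y => ?_, fun y => ?_⟩
  · simp only [NNReal.coe_add, NNReal.coe_natCast, NNReal.coe_one]
    rw [← sub_le_iff_le_add]
    refine le_ciInf fun x => ?_
    rw [sub_le_iff_le_add]
    refine (ciInf_le (hbdd n y) x).trans ?_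
    have := mul_le_mul_of_nonneg_left (dist_triangle y y' x) (by positivity : (0 : ℝ) ≤ (n : ℝ) + 1)
    linarith
  · refine abs_le.2 ⟨le_ciInf fun x => ?_, (hle n y).trans (abs_le.1 (hB y)).2⟩
    have := (abs_le.1 (hB x)).1
    have h2 : 0 ≤ ((n : ℝ) + 1) * dist y x := by positivity
    linarith
  rw [Metric.tendsto_atTop]
  intro ε hε
  obtain ⟨δ, hδ, hgδ⟩ := Metric.continuous_iff.1 hg y (ε / 2) (half_pos hε)
  obtain ⟨N, hN⟩ := exists_nat_ge (2 * B / δ)
  refine ⟨N, fun n hn => ?_⟩
  have h1 : g y - ε / 2 ≤ G n y := le_ciInf fun x => by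
    rcases lt_or_ge (dist x y) δ with h | h
    · have := (abs_lt.1 (by simpa [Real.dist_eq] using hgδ x h)).1
      have h2 : 0 ≤ ((n : ℝ) + 1) * dist y x := by positivity
      linarith
    · have h2 : 2 * B ≤ ((n : ℝ) + 1) * dist y x := by
        rw [dist_comm]
        refine le_trans ?_ (mul_le_mul_of_nonneg_left h (by positivity))
        rw [div_le_iff₀ hδ] at hN
        refine hN.trans (mul_le_mul_of_nonneg_right ?_ hδ.le)
        have : (N : ℝ) ≤ n := by exact_mod_cast hn
        linarith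
      linarith [(abs_le.1 (hB x)).1, (abs_le.1 (hB y)).2]
  rw [Real.dist_eq, abs_lt]
  constructor <;> linarith [hle n y]

end Test

section TestNull

variable {X : Type*} [MetricSpace X] [MeasurableSpace X] [BorelSpace X] {ν : Measure X}
  [IsFiniteMeasure ν]

/-- Weak nullity against Lipschitz functions supported well inside an open set gives weak nullity
against all bounded measurable functions on that set. -/
theorem tendsto_integral_of_test {U : Set X} (hU : IsOpen U) {F : ℕ → X → ℝ}
    (hF : ∀ k, Measurable (F k)) {M : ℝ} (hM : ∀ k, ∀ y ∈ U, |F k y| ≤ M)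
    (h : ∀ θ : X → ℝ, ∀ r : ℝ, ∀ K : ℝ≥0, 0 < r → LipschitzWith K θ → (∃ A, ∀ y, |θ y| ≤ A) →
      (∀ y, θ y ≠ 0 → ball y r ⊆ U) → Tendsto (fun k => ∫ y, θ y * F k y ∂ν) atTop (𝓝 0))
    {φ : X → ℝ} (hφ : Measurable φ) {B : ℝ} (hB : ∀ y, |φ y| ≤ B) :
    Tendsto (fun k => ∫ y in U, φ y * F k y ∂ν) atTop (𝓝 0) := by
  classical
  rcases U.eq_empty_or_nonempty with rfl | hne
  · simp
  rw [Metric.tendsto_atTop]
  intro ε hε
  have hM0 : 0 ≤ M := (abs_nonneg _).trans (hM 0 _ hne.some_mem)
  obtain ⟨g, hg, -⟩ := (Integrable.of_bound (μ := ν) hφ.aestronglyMeasurable B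
    (ae_of_all _ hB)).exists_boundedContinuous_integral_sub_le (ε := ε / (4 * (M + 1))) (by positivity)
  obtain ⟨G, hG1, hG2, hG3⟩ := exists_lipschitz_approx g.continuous (B := ‖g‖)
    (fun y => by simpa using g.norm_coe_le_norm y)
  -- cutoff functions
  set χ : ℕ → X → ℝ := fun n y =>
    if Uᶜ.Nonempty then max 0 (min 1 (((n : ℝ) + 1) * infDist y Uᶜ - 1)) else 1
  have hχb : ∀ n y, |χ n y| ≤ 1 := fun n y => by
    simp only [χ]
    split_ifs
    · exact abs_le.2 ⟨le_trans (by norm_num) (le_max_left _ _), max_le zero_le_one (min_le_left _ _)⟩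
    · simp
  have hχl : ∀ n : ℕ, LipschitzWith ((n : ℝ≥0) + 1) (χ n) := fun n => by
    simp only [χ]
    split_ifs
    · refine (LipschitzWith.of_le_add_mul _ fun y y' => ?_).const_min 1 |>.const_max 0
      simp only [NNReal.coe_add, NNReal.coe_natCast, NNReal.coe_one]
      have := mul_le_mul_of_nonneg_left (infDist_le_infDist_add_dist (s := Uᶜ) (x := y) (y := y'))
        (by positivity : (0 : ℝ) ≤ (n : ℝ) + 1)
      linarith
    · exact LipschitzWith.const' _
  have hχU : ∀ (n : ℕ) y, χ n y ≠ 0 → ball y (1 / ((n : ℝ) + 1)) ⊆ U := by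
    intro n y hy x hx
    by_contra hxU
    have hc : Uᶜ.Nonempty := ⟨x, hxU⟩
    simp only [χ, if_pos hc] at hy
    refine hy (max_eq_left ((min_le_right _ _).trans ?_))
    have h1 : infDist y Uᶜ ≤ 1 / ((n : ℝ) + 1) :=
      (infDist_le_dist_of_mem (show x ∈ Uᶜ from hxU)).trans
        (le_of_lt (by rw [dist_comm]; exact mem_ball.1 hx))
    rw [le_div_iff₀ (by positivity)] at h1
    linarith
  have hχlim : ∀ y, Tendsto (fun n => χ n y) atTop (𝓝 (U.indicator (fun _ => (1 : ℝ)) y)) := by
    intro y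
    by_cases hy : y ∈ U
    · rw [indicator_of_mem hy]
      by_cases hc : Uᶜ.Nonempty
      · have hpos : 0 < infDist y Uᶜ :=
          ((hU.isClosed_compl.notMem_iff_infDist_pos hc).1 (fun h => h hy))
        obtain ⟨N, hN⟩ := exists_nat_ge (2 / infDist y Uᶜ)
        refine tendsto_const_nhds.congr' ?_
        filter_upwards [eventually_ge_atTop N] with n hn
        simp only [χ, if_pos hc]
        rw [div_le_iff₀ hpos] at hN
        have : (N : ℝ) * infDist y Uᶜ ≤ n * infDist y Uᶜ := by gcongr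
        rw [min_eq_left (by linarith), max_eq_right zero_le_one]
      · simp only [χ, if_neg hc]; exact tendsto_const_nhds
    · rw [indicator_of_notMem hy]
      refine tendsto_const_nhds.congr' (Eventually.of_forall fun n => ?_)
      by_contra hne'
      exact hy (hχU n y (Ne.symm hne') (mem_ball_self (by positivity)))
  have hlim : Tendsto (fun n => ∫ y in U, |g y - G n y * χ n y| ∂ν) atTop (𝓝 0) := by
    have := tendsto_integral_of_dominated_convergence (μ := ν.restrict U)
      (F := fun n y => |g y - G n y * χ n y|) (f := fun _ => 0) (fun _ => 2 * ‖g‖)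
      (fun n => (g.continuous.sub ((hG1 n).continuous.mul (hχl n).continuous)).abs.aestronglyMeasurable)
      (integrable_const _) (fun n => ae_of_all _ fun y => by
        rw [Real.norm_eq_abs, abs_abs, two_mul]
        refine (abs_sub _ _).trans (add_le_add (g.norm_coe_le_norm y) ?_)
        rw [abs_mul]
        exact (mul_le_mul (hG2 n y) (hχb n y) (abs_nonneg _) (norm_nonneg _)).trans_eq (mul_one _))
      ((ae_restrict_mem hU.measurableSet).mono fun y hy => by
        have := ((hG3 y).mul (hχlim y)).const_sub (g y)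
        rw [indicator_of_mem hy, mul_one, sub_self] at this
        simpa using this.abs)
    simpa using this
  obtain ⟨n, hn⟩ := (hlim.eventually (eventually_le_nhds
    (show (0 : ℝ) < ε / (4 * (M + 1)) by positivity))).exists
  set θ : X → ℝ := fun y => G n y * χ n y
  have hθb : ∀ y, |θ y| ≤ ‖g‖ := fun y => by
    rw [abs_mul]
    exact (mul_le_mul (hG2 n y) (hχb n y) (abs_nonneg _) (norm_nonneg _)).trans_eq (mul_one _)
  obtain ⟨K, hθl⟩ : ∃ K, LipschitzWith K θ := by
    refine ⟨(‖g‖₊ * (n + 1)) + ((n + 1) * 1), LipschitzWith.of_dist_le_mul fun y y' => ?_⟩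
    rw [Real.dist_eq, show θ y - θ y' = G n y * (χ n y - χ n y') + (G n y - G n y') * χ n y' by
      simp only [θ]; ring]
    refine (abs_add_le _ _).trans ?_
    rw [abs_mul, abs_mul]
    simp only [NNReal.coe_add, NNReal.coe_mul, coe_nnnorm, NNReal.coe_natCast, NNReal.coe_one]
    have a1 := (hχl n).dist_le_mul y y'
    have a2 := (hG1 n).dist_le_mul y y'
    simp only [Real.dist_eq, NNReal.coe_add, NNReal.coe_natCast, NNReal.coe_one] at a1 a2
    have b1 := mul_le_mul (hG2 n y) a1 (abs_nonneg _) (norm_nonneg _)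
    have b2 := mul_le_mul a2 (hχb n y') (abs_nonneg _) (by positivity)
    linarith
  obtain ⟨N, hN⟩ := Metric.tendsto_atTop.1
    (h θ _ K (by positivity : (0 : ℝ) < 1 / ((n : ℝ) + 1)) hθl ⟨_, hθb⟩
      (fun y hy => hχU n y fun h0 => hy (by simp [θ, h0]))) (ε / 4) (by positivity)
  refine ⟨N, fun k hk => ?_⟩
  have hsupp : ∫ y in U, θ y * F k y ∂ν = ∫ y, θ y * F k y ∂ν :=
    setIntegral_eq_integral_of_forall_compl_eq_zero fun y hy => by
      have : χ n y = 0 := by
        by_contra h0
        exact hy (hχU n y h0 (mem_ball_self (by positivity)))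
      simp [θ, this]
  have hθm : Measurable θ := hθl.continuous.measurable
  have i1 : Integrable (fun y => |φ y - g y| + |g y - θ y|) (ν.restrict U) :=
    Integrable.of_bound (by fun_prop) (|B| + ‖g‖ + (‖g‖ + ‖g‖)) (ae_of_all _ fun y => by
      rw [Real.norm_eq_abs, abs_of_nonneg (by positivity)]
      exact add_le_add ((abs_sub _ _).trans (add_le_add ((hB y).trans (le_abs_self _))
        (g.norm_coe_le_norm y))) ((abs_sub _ _).trans (add_le_add (g.norm_coe_le_norm y) (hθb y))))
  have iθ : Integrable (fun y => θ y * F k y) (ν.restrict U) :=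
    Integrable.of_bound (hθm.mul (hF k)).aestronglyMeasurable (‖g‖ * M)
      ((ae_restrict_mem hU.measurableSet).mono fun y hy => by
        rw [Real.norm_eq_abs, abs_mul]
        exact mul_le_mul (hθb y) (hM k y hy) (abs_nonneg _) (norm_nonneg _))
  have iφ : Integrable (fun y => φ y * F k y) (ν.restrict U) :=
    Integrable.of_bound (hφ.mul (hF k)).aestronglyMeasurable (|B| * M)
      ((ae_restrict_mem hU.measurableSet).mono fun y hy => by
        rw [Real.norm_eq_abs, abs_mul]
        exact mul_le_mul ((hB y).trans (le_abs_self _)) (hM k y hy) (abs_nonneg _) (abs_nonneg _))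
  have hdiff : |∫ y in U, φ y * F k y ∂ν - ∫ y in U, θ y * F k y ∂ν| ≤
      M * ∫ y in U, (|φ y - g y| + |g y - θ y|) ∂ν := by
    rw [← integral_sub iφ iθ, ← integral_const_mul]
    refine abs_integral_le_integral_abs.trans (integral_mono_ae (iφ.sub iθ).abs (i1.const_mul M) ?_)
    filter_upwards [ae_restrict_mem hU.measurableSet] with y hy
    rw [← sub_mul, abs_mul, mul_comm M]
    exact mul_le_mul (abs_sub_le _ _ _) (hM k y hy) (abs_nonneg _) (by positivity)
  have j1 : Integrable (fun y => |φ y - g y|) ν :=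
    Integrable.of_bound (by fun_prop) (|B| + ‖g‖) (ae_of_all _ fun y => by
      rw [Real.norm_eq_abs, abs_abs]
      exact (abs_sub _ _).trans (add_le_add ((hB y).trans (le_abs_self _)) (g.norm_coe_le_norm y)))
  have j2 : Integrable (fun y => |g y - θ y|) (ν.restrict U) :=
    Integrable.of_bound (by fun_prop) (‖g‖ + ‖g‖) (ae_of_all _ fun y => by
      rw [Real.norm_eq_abs, abs_abs]
      exact (abs_sub _ _).trans (add_le_add (g.norm_coe_le_norm y) (hθb y)))
  rw [integral_add j1.restrict j2] at hdiff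
  have e1 : ∫ y in U, |φ y - g y| ∂ν ≤ ε / (4 * (M + 1)) :=
    (setIntegral_le_integral j1 (ae_of_all _ fun y => abs_nonneg _)).trans
      (by simpa [Real.norm_eq_abs] using hg)
  have e2 : M * (ε / (4 * (M + 1))) ≤ ε / 4 := by
    rw [mul_div_assoc', div_le_div_iff₀ (by positivity) (by norm_num)]
    nlinarith
  have e3 := hN k hk
  rw [dist_zero_right, Real.norm_eq_abs, ← hsupp, abs_lt] at e3
  rw [dist_zero_right, Real.norm_eq_abs, abs_lt]
  rw [abs_le] at hdiff
  constructor <;> nlinarith [mul_le_mul_of_nonneg_left (add_le_add e1 hn) hM0, e2, hdiff.1, hdiff.2]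

end TestNull

end Vale.Agent.P084.Full.Average
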