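import Vale.Agent.P084.Full.AverageDeriv
import Vale.Agent.P084.Full.AverageAe
import Vale.Agent.P084.Full.AverageWeak
import Vale.Agent.P084.Full.AverageScale

/-!
P084 (Tingley's problem), library for the general case: averaging, collected.
-/
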