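import Mathlib

/-!
P084 (Tingley's problem), library for the general case: averaging along countably many summable
directions, the derivative of an average and integration by parts.
-/

namespace Vale.Agent.P084.Full.Average

open MeasureTheory Filter Topology Set Function Metric
open scoped NNReal ENNReal

/-- Clipping to the unit interval. -/
def clip (u : ℝ) : ℝ := max (-1) (min 1 u)

/-- The tent density. -/
def tent (u : ℝ) : ℝ := max 0 (1 - |u|)

/-- The logarithmic derivative of the reflected tent density. -/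
noncomputable def wt (u : ℝ) : ℝ := if u < 0 then -(tent u)⁻¹ else (tent u)⁻¹

/-- The law of one coordinate. -/
noncomputable def nu : Measure ℝ := volume.withDensity fun u => ENNReal.ofReal (tent u)

/-- The law of the coefficients. -/
noncomputable def P : Measure (ℕ → ℝ) := Measure.infinitePi fun _ => nu

lemma abs_clip_le (u : ℝ) : |clip u| ≤ 1 :=
  abs_le.2 ⟨le_max_left _ _, max_le (by norm_num) (min_le_left _ _)⟩

lemma clip_of_abs_le {u : ℝ} (hu : |u| ≤ 1) : clip u = u := by
  rw [abs_le] at hu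
  rw [clip, min_eq_right hu.2, max_eq_right hu.1]

@[fun_prop]
lemma continuous_clip : Continuous clip := by unfold clip; fun_prop

@[fun_prop]
lemma continuous_tent : Continuous tent := by unfold tent; fun_prop

lemma tent_nonneg (u : ℝ) : 0 ≤ tent u := le_max_left _ _

lemma tent_le_one (u : ℝ) : tent u ≤ 1 := max_le zero_le_one (by linarith [abs_nonneg u])

lemma tent_eq_zero {u : ℝ} (hu : 1 ≤ |u|) : tent u = 0 := max_eq_left (by linarith)

lemma abs_lt_of_tent_ne_zero {u : ℝ} (hu : tent u ≠ 0) : |u| < 1 :=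
  lt_of_not_ge fun h => hu (tent_eq_zero h)

lemma abs_tent_sub (u v : ℝ) : |tent u - tent v| ≤ |u - v| := by
  refine (abs_max_sub_max_le_max 0 (1 - |u|) 0 (1 - |v|)).trans ?_
  rw [sub_self, abs_zero]
  refine max_le (abs_nonneg _) ?_
  rw [show 1 - |u| - (1 - |v|) = -(|u| - |v|) by ring, abs_neg]
  exact abs_abs_sub_abs_le_abs_sub u v

lemma hasCompactSupport_tent : HasCompactSupport tent :=
  HasCompactSupport.intro (isCompact_Icc (a := -1) (b := 1)) fun u hu =>
    tent_eq_zero (le_of_lt (lt_of_not_ge fun h => hu (abs_le.1 h)))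

lemma integrable_tent : Integrable tent :=
  continuous_tent.integrable_of_hasCompactSupport hasCompactSupport_tent

lemma integral_tent : ∫ u, tent u = 1 := by
  have h1 : ∫ u, tent u = ∫ u, max 0 (1 - |u|) := rfl
  rw [h1, integral_comp_abs (f := fun x => max 0 (1 - x))]
  have h2 : ∫ x in Ioi (0 : ℝ), max 0 (1 - x) = ∫ x in Ioc (0 : ℝ) 1, (1 - x) := by
    refine setIntegral_eq_of_subset_of_ae_sdiff_eq_zero measurableSet_Ioi.nullMeasurableSet
      Ioc_subset_Ioi_self ?_ |>.trans
      (setIntegral_congr_fun measurableSet_Ioc fun x hx => max_eq_right (by linarith [hx.2]))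
    filter_upwards with x hx
    exact max_eq_left (by linarith [not_le.1 fun h => hx.2 ⟨hx.1, h⟩])
  rw [h2, ← intervalIntegral.integral_of_le zero_le_one,
    intervalIntegral.integral_sub intervalIntegrable_const intervalIntegral.intervalIntegrable_id,
    intervalIntegral.integral_const, integral_id]
  norm_num

instance : IsProbabilityMeasure nu :=
  ⟨by rw [nu, withDensity_apply _ MeasurableSet.univ, Measure.restrict_univ,
    ← ofReal_integral_eq_lintegral_ofReal integrable_tent (ae_of_all _ tent_nonneg),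
    integral_tent, ENNReal.ofReal_one]⟩

instance : IsProbabilityMeasure P := by unfold P; infer_instance

lemma measurable_upd (i : ℕ) : Measurable fun p : (ℕ → ℝ) × ℝ => update p.1 i p.2 := by
  refine measurable_pi_lambda _ fun j => ?_
  rcases eq_or_ne j i with rfl | h
  · simpa using measurable_snd
  · simpa [update_of_ne h] using measurable_fst.eval

lemma continuous_upd (i : ℕ) : Continuous fun p : (ℕ → ℝ) × ℝ => update p.1 i p.2 := by fun_prop

lemma P_eq_map_prod (i : ℕ) : P = (P.prod nu).map fun p => update p.1 i p.2 := by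
  refine (Measure.eq_infinitePi (fun _ => nu) fun s t ht => ?_).symm
  classical
  rw [Measure.map_apply (measurable_upd i) (MeasurableSet.pi s.countable_toSet fun j _ => ht j)]
  by_cases hi : i ∈ s
  · have : (fun p : (ℕ → ℝ) × ℝ => update p.1 i p.2) ⁻¹' (Set.pi s t) =
        (Set.pi (s.erase i) t) ×ˢ t i := by
      ext p
      simp only [mem_preimage, Set.mem_pi, Finset.mem_coe, mem_prod, Finset.mem_erase]
      refine ⟨fun h => ⟨fun j hj => ?_, by simpa using h i hi⟩, fun h j hj => ?_⟩
      · simpa [update_of_ne hj.1] using h j hj.2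
      · rcases eq_or_ne j i with rfl | hji
        · simpa using h.2
        · simpa [update_of_ne hji] using h.1 j ⟨hji, hj⟩
    rw [this, Measure.prod_prod, P, Measure.infinitePi_pi _ fun j _ => ht j,
      ← Finset.prod_erase_mul _ _ hi]
  · have : (fun p : (ℕ → ℝ) × ℝ => update p.1 i p.2) ⁻¹' (Set.pi s t) =
        (Set.pi s t) ×ˢ univ := by
      ext p
      simp only [mem_preimage, Set.mem_pi, Finset.mem_coe, mem_prod, mem_univ, and_true]
      exact forall₂_congr fun j hj => by rw [update_of_ne (ne_of_mem_of_not_mem hj hi)]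
    rw [this, Measure.prod_prod, measure_univ, mul_one, P,
      Measure.infinitePi_pi _ fun j _ => ht j]

lemma P_eq_map (i : ℕ) : P = ((P.prod volume).withDensity
    fun p => ENNReal.ofReal (tent p.2)).map fun p => update p.1 i p.2 := by
  conv_lhs => rw [P_eq_map_prod i]
  rw [nu, prod_withDensity_right (by fun_prop)]

section Split

variable {F : Type*} [NormedAddCommGroup F] [NormedSpace ℝ F]

/-- Splitting off one coordinate. -/
lemma integral_split (i : ℕ) {g : (ℕ → ℝ) → F} (hg : AEStronglyMeasurable g P) :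
    ∫ c, g c ∂P = ∫ p, tent p.2 • g (update p.1 i p.2) ∂P.prod volume := by
  conv_lhs => rw [P_eq_map i]
  rw [P_eq_map i] at hg
  rw [integral_map (measurable_upd i).aemeasurable hg,
    integral_withDensity_eq_integral_toReal_smul (by fun_prop)
      (ae_of_all _ fun p => ENNReal.ofReal_lt_top)]
  simp [ENNReal.toReal_ofReal (tent_nonneg _)]

lemma integrable_split_iff (i : ℕ) {g : (ℕ → ℝ) → F} (hg : AEStronglyMeasurable g P) :
    Integrable g P ↔
      Integrable (fun p : (ℕ → ℝ) × ℝ => tent p.2 • g (update p.1 i p.2)) (P.prod volume) := by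
  conv_lhs => rw [P_eq_map i]
  rw [P_eq_map i] at hg
  rw [integrable_map_measure hg (measurable_upd i).aemeasurable,
    integrable_withDensity_iff_integrable_smul' (by fun_prop)
      (ae_of_all _ fun p => ENNReal.ofReal_lt_top)]
  simp [ENNReal.toReal_ofReal (tent_nonneg _), Function.comp_def]

end Split

lemma ae_split (i : ℕ) {q : (ℕ → ℝ) → Prop} (hq : MeasurableSet {c | q c})
    (h : ∀ c : ℕ → ℝ, ∀ᵐ u : ℝ, |u| < 1 → q (update c i u)) : ∀ᵐ c ∂P, q c := by
  rw [P_eq_map i, ae_map_iff (measurable_upd i).aemeasurable hq,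
    ae_withDensity_iff (by fun_prop)]
  have h' : ∀ᵐ p ∂P.prod volume, |p.2| < 1 → q (update p.1 i p.2) := by
    refine (Measure.ae_prod_iff_ae_ae ?_).2 (ae_of_all _ h)
    exact MeasurableSet.imp (measurableSet_lt (by fun_prop) measurable_const)
      (measurable_upd i hq)
  filter_upwards [h'] with p hp hne
  exact hp (abs_lt_of_tent_ne_zero fun h0 => hne (by rw [h0, ENNReal.ofReal_zero]))

/-- A weight not depending on the coordinate `i`. -/
structure Free (i : ℕ) (W : (ℕ → ℝ) → ℝ) : Prop where
  integrable : Integrable W P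
  eq : ∀ c u, W (update c i u) = W c

lemma free_one (i : ℕ) : Free i (fun _ => 1) := ⟨integrable_const _, fun _ _ => rfl⟩

lemma measurable_wt : Measurable wt :=
  Measurable.ite measurableSet_Iio continuous_tent.measurable.inv.neg continuous_tent.measurable.inv

lemma abs_tent_mul_wt (u : ℝ) :
    |tent u * wt u| ≤ (Icc (-1 : ℝ) 1).indicator (fun _ => (1 : ℝ)) u := by
  by_cases h : tent u = 0
  · simp [h, indicator_nonneg]
  have h1 := abs_lt_of_tent_ne_zero h
  rw [indicator_of_mem (show u ∈ Icc (-1 : ℝ) 1 from abs_le.1 h1.le), wt]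
  split_ifs <;> simp [h]

lemma integrable_tent_mul_wt : Integrable fun u => tent u * wt u := by
  refine Integrable.mono' ((integrableOn_const (C := (1 : ℝ))
    (isCompact_Icc.measure_lt_top.ne)).integrable_indicator measurableSet_Icc)
    (continuous_tent.measurable.mul measurable_wt).aestronglyMeasurable
    (ae_of_all _ abs_tent_mul_wt)

lemma integral_abs_tent_mul_wt : ∫ u, |tent u * wt u| ≤ 2 := by
  refine (integral_mono integrable_tent_mul_wt.abs ((integrableOn_const (C := (1 : ℝ))
    (isCompact_Icc.measure_lt_top.ne)).integrable_indicator measurableSet_Icc)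
    abs_tent_mul_wt).trans_eq ?_
  rw [integral_indicator measurableSet_Icc, setIntegral_const]
  norm_num

lemma Free.aestronglyMeasurable {i : ℕ} {W : (ℕ → ℝ) → ℝ} (hW : Free i W) {g : ℝ → ℝ}
    (hg : Measurable g) : AEStronglyMeasurable (fun c => W c * g (c i)) P :=
  hW.integrable.1.mul (hg.comp (measurable_pi_apply i)).aestronglyMeasurable

lemma Free.integrable_wt {i : ℕ} {W : (ℕ → ℝ) → ℝ} (hW : Free i W) :
    Integrable (fun c => W c * wt (c i)) P := by
  refine (integrable_split_iff i (hW.aestronglyMeasurable measurable_wt)).2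
    ((hW.integrable.mul_prod integrable_tent_mul_wt).congr (ae_of_all _ fun p => ?_))
  simp only [update_self, hW.eq, smul_eq_mul]
  ring

lemma Free.integral_abs_wt {i : ℕ} {W : (ℕ → ℝ) → ℝ} (hW : Free i W) :
    ∫ c, |W c * wt (c i)| ∂P ≤ 2 * ∫ c, |W c| ∂P := by
  rw [integral_split i hW.integrable_wt.abs.1]
  have e : ∀ p : (ℕ → ℝ) × ℝ, tent p.2 • |W (update p.1 i p.2) * wt (update p.1 i p.2 i)|
      = |W p.1| * |tent p.2 * wt p.2| := fun p => by
    rw [update_self, hW.eq, abs_mul, abs_mul, abs_of_nonneg (tent_nonneg _), smul_eq_mul]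
    ring
  simp_rw [e]
  rw [integral_prod_mul (fun c => |W c|) (fun u => |tent u * wt u|), mul_comm (2 : ℝ)]
  exact mul_le_mul_of_nonneg_left integral_abs_tent_mul_wt
    (integral_nonneg fun _ => abs_nonneg _)

lemma free_wt {i j : ℕ} (hij : j ≠ i) : Free j fun c => wt (c i) := by
  refine ⟨by simpa using (free_one i).integrable_wt, fun c u => ?_⟩
  simp [update_of_ne hij.symm]

lemma Free.mul_wt {i j : ℕ} {W : (ℕ → ℝ) → ℝ} (hi : Free i W) (hj : Free j W) (hij : j ≠ i) :
    Free j fun c => W c * wt (c i) :=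
  ⟨hi.integrable_wt, fun c u => by simp [hj.eq, update_of_ne hij.symm]⟩

variable {X : Type*} [NormedAddCommGroup X] [NormedSpace ℝ X]

/-- The random shift along the directions `e`. -/
noncomputable def Sh (e : ℕ → X) (c : ℕ → ℝ) : X := ∑' i, clip (c i) • e i

/-- The radius of the shifts. -/
noncomputable def rad (e : ℕ → X) : ℝ := ∑' i, ‖e i‖

/-- The directions of the kernel at scale `d`. -/
noncomputable def step (d : ℝ) (e : ℕ → X) (i : ℕ) : X := (d * (1 / 2 : ℝ) ^ i) • e i

/-- The law of `z + Sh e c`. -/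
noncomputable def law [MeasurableSpace X] (e : ℕ → X) (z : X) : Measure X :=
  P.map fun c => z + Sh e c

variable {F : Type*} [NormedAddCommGroup F] [NormedSpace ℝ F]

/-- Weighted average along the directions `e`. -/
noncomputable def WAv (W : (ℕ → ℝ) → ℝ) (e : ℕ → X) (h : X → F) (z : X) : F :=
  ∫ c, W c • h (z + Sh e c) ∂P

/-- The average along the directions `e`. -/
noncomputable def Av (e : ℕ → X) (h : X → F) (z : X) : F := ∫ c, h (z + Sh e c) ∂P

lemma Av_eq_WAv (e : ℕ → X) (h : X → F) : Av e h = WAv (fun _ => 1) e h := by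
  funext z; simp [Av, WAv]

lemma norm_step_le (d : ℝ) (e : ℕ → X) (i : ℕ) : ‖step d e i‖ ≤ |d| * ‖e i‖ := by
  rw [step, norm_smul, Real.norm_eq_abs, abs_mul, abs_of_nonneg (by positivity : (0 : ℝ) ≤ (1/2)^i)]
  exact mul_le_mul_of_nonneg_right
    (mul_le_of_le_one_right (abs_nonneg d) (pow_le_one₀ (by norm_num) (by norm_num))) (norm_nonneg _)

lemma summable_step {e : ℕ → X} (he : Summable fun i => ‖e i‖) (d : ℝ) :
    Summable fun i => ‖step d e i‖ :=
  Summable.of_nonneg_of_le (fun _ => norm_nonneg _) (norm_step_le d e) (he.mul_left _)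

lemma rad_step_le {e : ℕ → X} (he : Summable fun i => ‖e i‖) (d : ℝ) :
    rad (step d e) ≤ |d| * rad e := by
  rw [rad, rad, ← tsum_mul_left]
  exact Summable.tsum_le_tsum (norm_step_le d e) (summable_step he d) (he.mul_left _)

lemma norm_clip_smul_le (u : ℝ) (x : X) : ‖clip u • x‖ ≤ ‖x‖ := by
  rw [norm_smul, Real.norm_eq_abs]
  exact mul_le_of_le_one_left (norm_nonneg _) (abs_clip_le u)

lemma rad_nonneg (e : ℕ → X) : 0 ≤ rad e := tsum_nonneg fun _ => norm_nonneg _

variable [CompleteSpace X]

lemma summable_term {e : ℕ → X} (he : Summable fun i => ‖e i‖) (c : ℕ → ℝ) :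
    Summable fun i => clip (c i) • e i :=
  Summable.of_norm_bounded he fun _ => norm_clip_smul_le _ _

lemma norm_Sh_le {e : ℕ → X} (he : Summable fun i => ‖e i‖) (c : ℕ → ℝ) : ‖Sh e c‖ ≤ rad e :=
  tsum_of_norm_bounded he.hasSum fun _ => norm_clip_smul_le _ _

@[fun_prop]
lemma continuous_Sh {e : ℕ → X} (he : Summable fun i => ‖e i‖) : Continuous (Sh e) :=
  continuous_tsum (fun i => by fun_prop) he fun i c => norm_clip_smul_le _ _

lemma mem_closedBall_Sh {e : ℕ → X} (he : Summable fun i => ‖e i‖) (z : X) (c : ℕ → ℝ) :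
    z + Sh e c ∈ closedBall z (rad e) := by
  simpa [dist_eq_norm] using norm_Sh_le he c

lemma isCompact_range_Sh {e : ℕ → X} (he : Summable fun i => ‖e i‖) :
    IsCompact (range (Sh e)) := by
  have h : range (Sh e) = Sh e '' Set.pi univ fun _ => Icc (-1 : ℝ) 1 := by
    refine Subset.antisymm ?_ (image_subset_range _ _)
    rintro - ⟨c, rfl⟩
    refine ⟨fun i => clip (c i), fun i _ => abs_le.1 (abs_clip_le _), ?_⟩
    exact tsum_congr fun i => by rw [clip_of_abs_le (abs_clip_le _)]
  rw [h]
  exact (isCompact_univ_pi fun _ => isCompact_Icc).image (continuous_Sh he)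

lemma Sh_update {e : ℕ → X} (he : Summable fun i => ‖e i‖) (c : ℕ → ℝ) (i : ℕ) (u : ℝ) :
    Sh e (update c i u) = Sh e (update c i 0) + clip u • e i := by
  rw [Sh, Sh, (summable_term he _).tsum_eq_add_tsum_ite i,
    (summable_term he (update c i 0)).tsum_eq_add_tsum_ite i, update_self, update_self,
    show clip 0 = 0 by rw [clip_of_abs_le (by simp)], zero_smul, zero_add, add_comm]
  congr 1
  refine tsum_congr fun j => ?_
  split_ifs with h
  · rfl
  · rw [update_of_ne h, update_of_ne h]

/-- Linear maps commute with shifts. -/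
lemma Sh_comp {Y : Type*} [NormedAddCommGroup Y] [NormedSpace ℝ Y]
    {e : ℕ → X} (he : Summable fun i => ‖e i‖) (T : X →L[ℝ] Y) (c : ℕ → ℝ) :
    T (Sh e c) = Sh (fun i => T (e i)) c := by
  rw [Sh, T.map_tsum (summable_term he c)]
  exact tsum_congr fun i => map_smul T _ _

lemma summable_map {Y : Type*} [NormedAddCommGroup Y] [NormedSpace ℝ Y]
    {e : ℕ → X} (he : Summable fun i => ‖e i‖) (T : X →L[ℝ] Y) :
    Summable fun i => ‖T (e i)‖ :=
  Summable.of_nonneg_of_le (fun _ => norm_nonneg _) (fun i => T.le_opNorm _) (he.mul_left _)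

section Pair

variable {X' : Type*} [NormedAddCommGroup X'] [NormedSpace ℝ X']

/-- Two families of directions, interleaved in the product space. -/
def pair (e : ℕ → X) (e' : ℕ → X') (n : ℕ) : X × X' :=
  if n % 2 = 0 then (e (n / 2), 0) else (0, e' (n / 2))

omit [CompleteSpace X] [NormedSpace ℝ X] [NormedSpace ℝ X'] in
lemma pair_even (e : ℕ → X) (e' : ℕ → X') (i : ℕ) : pair e e' (2 * i) = (e i, 0) := by
  simp [pair]

omit [CompleteSpace X] [NormedSpace ℝ X] [NormedSpace ℝ X'] in
lemma pair_odd (e : ℕ → X) (e' : ℕ → X') (i : ℕ) : pair e e' (2 * i + 1) = (0, e' i) := by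
  simp [pair, Nat.add_mod, Nat.add_div]

omit [CompleteSpace X] [NormedSpace ℝ X] [NormedSpace ℝ X'] in
lemma summable_pair {e : ℕ → X} {e' : ℕ → X'} (he : Summable fun i => ‖e i‖)
    (he' : Summable fun i => ‖e' i‖) : Summable fun n => ‖pair e e' n‖ := by
  refine Summable.even_add_odd ?_ ?_
  · simpa [pair_even, Prod.norm_def] using he
  · simpa [pair_odd, Prod.norm_def] using he'

lemma Sh_pair [CompleteSpace X'] {e : ℕ → X} {e' : ℕ → X'} (he : Summable fun i => ‖e i‖)
    (he' : Summable fun i => ‖e' i‖) (c : ℕ → ℝ) :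
    Sh (pair e e') c = (Sh e fun i => c (2 * i), Sh e' fun i => c (2 * i + 1)) := by
  refine HasSum.tsum_eq (HasSum.prodMk ?_ ?_)
  · have h := HasSum.even_add_odd (f := fun n => clip (c n) • (pair e e' n).1)
      (m := Sh e fun i => c (2 * i)) (m' := 0)
      (by simpa [pair_even, Sh] using (summable_term he fun i => c (2 * i)).hasSum)
      (by simp [pair_odd, hasSum_zero])
    simpa using h
  · have h := HasSum.even_add_odd (f := fun n => clip (c n) • (pair e e' n).2)
      (m := 0) (m' := Sh e' fun i => c (2 * i + 1))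
      (by simp [pair_even, hasSum_zero])
      (by simpa [pair_odd, Sh] using (summable_term he' fun i => c (2 * i + 1)).hasSum)
    simpa using h

end Pair

/-! ### Integrability and elementary estimates -/

lemma continuous_comp_Sh {e : ℕ → X} (he : Summable fun i => ‖e i‖) {h : X → F} {z : X}
    (hh : ContinuousOn h (closedBall z (rad e))) : Continuous fun c => h (z + Sh e c) :=
  hh.comp_continuous (by fun_prop (disch := assumption)) (mem_closedBall_Sh he z)

lemma exists_bound {e : ℕ → X} (he : Summable fun i => ‖e i‖) {h : X → F} {z : X}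
    (hh : ContinuousOn h (closedBall z (rad e))) : ∃ M, ∀ c, ‖h (z + Sh e c)‖ ≤ M := by
  have hK := (isCompact_range_Sh he).image (continuous_const.add continuous_id (f := fun _ => z))
  obtain ⟨M, hM⟩ := hK.exists_bound_of_continuousOn (f := h) (hh.mono <| by
    rintro - ⟨-, ⟨c, rfl⟩, rfl⟩; exact mem_closedBall_Sh he z c)
  exact ⟨M, fun c => hM _ ⟨Sh e c, mem_range_self c, rfl⟩⟩

lemma integrable_weight {e : ℕ → X} (he : Summable fun i => ‖e i‖) {h : X → F} {z : X}
    (hh : ContinuousOn h (closedBall z (rad e))) {W : (ℕ → ℝ) → ℝ} (hW : Integrable W P) :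
    Integrable (fun c => W c • h (z + Sh e c)) P := by
  obtain ⟨M, hM⟩ := exists_bound he hh
  exact hW.smul_bdd M (continuous_comp_Sh he hh).aestronglyMeasurable (ae_of_all _ hM)

lemma integrable_comp_Sh {e : ℕ → X} (he : Summable fun i => ‖e i‖) {h : X → F} {z : X}
    (hh : ContinuousOn h (closedBall z (rad e))) : Integrable (fun c => h (z + Sh e c)) P := by
  simpa using integrable_weight he hh (integrable_const (1 : ℝ))

lemma norm_WAv_le {e : ℕ → X} (he : Summable fun i => ‖e i‖) {h : X → F} {z : X}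
    {W : (ℕ → ℝ) → ℝ} (hW : Integrable W P) {M : ℝ}
    (hM : ∀ y ∈ closedBall z (rad e), ‖h y‖ ≤ M) :
    ‖WAv W e h z‖ ≤ M * ∫ c, |W c| ∂P := by
  rw [WAv, ← integral_const_mul]
  refine norm_integral_le_of_norm_le (hW.abs.const_mul M) (ae_of_all _ fun c => ?_)
  rw [norm_smul, Real.norm_eq_abs, mul_comm M]
  exact mul_le_mul_of_nonneg_left (hM _ (mem_closedBall_Sh he z c)) (abs_nonneg _)

lemma norm_Av_le {e : ℕ → X} (he : Summable fun i => ‖e i‖) {h : X → F} {z : X} {M : ℝ}
    (hM : ∀ y ∈ closedBall z (rad e), ‖h y‖ ≤ M) : ‖Av e h z‖ ≤ M := by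
  rw [Av_eq_WAv]
  simpa using norm_WAv_le he (integrable_const (1 : ℝ)) hM

omit [CompleteSpace X] in
lemma WAv_congr' {e : ℕ → X} {h h' : X → F} {z : X} {W : (ℕ → ℝ) → ℝ}
    (hh : ∀ c, h (z + Sh e c) = h' (z + Sh e c)) : WAv W e h z = WAv W e h' z := by
  simp only [WAv, hh]

lemma WAv_congr {e : ℕ → X} (he : Summable fun i => ‖e i‖) {h h' : X → F} {z : X}
    {W : (ℕ → ℝ) → ℝ} (hh : EqOn h h' (closedBall z (rad e))) :
    WAv W e h z = WAv W e h' z :=
  WAv_congr' fun c => hh (mem_closedBall_Sh he z c)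

lemma WAv_add {e : ℕ → X} (he : Summable fun i => ‖e i‖) {h h' : X → F} {z : X}
    (hh : ContinuousOn h (closedBall z (rad e))) (hh' : ContinuousOn h' (closedBall z (rad e)))
    {W : (ℕ → ℝ) → ℝ} (hW : Integrable W P) :
    WAv W e (fun y => h y + h' y) z = WAv W e h z + WAv W e h' z := by
  simp only [WAv, smul_add]
  exact integral_add (integrable_weight he hh hW) (integrable_weight he hh' hW)

lemma WAv_sub {e : ℕ → X} (he : Summable fun i => ‖e i‖) {h h' : X → F} {z : X}
    (hh : ContinuousOn h (closedBall z (rad e))) (hh' : ContinuousOn h' (closedBall z (rad e)))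
    {W : (ℕ → ℝ) → ℝ} (hW : Integrable W P) :
    WAv W e (fun y => h y - h' y) z = WAv W e h z - WAv W e h' z := by
  simp only [WAv, smul_sub]
  exact integral_sub (integrable_weight he hh hW) (integrable_weight he hh' hW)

omit [CompleteSpace X] in
lemma WAv_smul {e : ℕ → X} {h : X → F} {z : X} {W : (ℕ → ℝ) → ℝ} (r : ℝ) :
    WAv W e (fun y => r • h y) z = r • WAv W e h z := by
  simp only [WAv, smul_comm _ r, integral_smul]

lemma WAv_comp {F' : Type*} [NormedAddCommGroup F'] [NormedSpace ℝ F'] [CompleteSpace F]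
    [CompleteSpace F'] {e : ℕ → X} (he : Summable fun i => ‖e i‖) {h : X → F} {z : X}
    (hh : ContinuousOn h (closedBall z (rad e))) {W : (ℕ → ℝ) → ℝ} (hW : Integrable W P)
    (T : F →L[ℝ] F') : T (WAv W e h z) = WAv W e (fun y => T (h y)) z := by
  rw [WAv, ← T.integral_comp_comm (integrable_weight he hh hW)]
  simp [WAv]

/-- A weighted average of a Lipschitz function is Lipschitz. -/
lemma lipschitzOn_WAv {e : ℕ → X} (he : Summable fun i => ‖e i‖) {h : X → F} {S T : Set X}
    (hST : ∀ y ∈ S, closedBall y (rad e) ⊆ T) {K : ℝ≥0} (hh : LipschitzOnWith K h T)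
    {W : (ℕ → ℝ) → ℝ} (hW : Integrable W P) :
    LipschitzOnWith (K * (∫ c, |W c| ∂P).toNNReal) (WAv W e h) S := by
  refine LipschitzOnWith.of_dist_le' (K := K * ∫ c, |W c| ∂P) (fun x hx y hy => ?_) |>.weaken ?_
  · rw [dist_eq_norm, WAv, WAv, ← integral_sub
      (integrable_weight he (hh.continuousOn.mono (hST x hx)) hW)
      (integrable_weight he (hh.continuousOn.mono (hST y hy)) hW),
      mul_right_comm, ← integral_const_mul]
    refine norm_integral_le_of_norm_le (hW.abs.const_mul _) (ae_of_all _ fun c => ?_)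
    have := hh.dist_le_mul _ (hST x hx (mem_closedBall_Sh he x c)) _
      (hST y hy (mem_closedBall_Sh he y c))
    rw [dist_eq_norm, dist_eq_norm, add_sub_add_right_eq_sub] at this
    rw [← smul_sub, norm_smul, Real.norm_eq_abs, mul_comm _ |W c|, dist_eq_norm]
    exact mul_le_mul_of_nonneg_left this (abs_nonneg _)
  · rw [Real.toNNReal_mul K.coe_nonneg, Real.toNNReal_coe]

end Vale.Agent.P084.Full.Average
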