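import Vale.Agent.P084.Full.AverageBase

/-!
P084 (Tingley's problem), library for the general case: the derivative of an average along one
of its directions, integration by parts, symmetry of second derivatives.
-/

namespace Vale.Agent.P084.Full.Average

open MeasureTheory Filter Topology Set Function Metric
open scoped NNReal ENNReal

variable {X : Type*} [NormedAddCommGroup X] [NormedSpace ℝ X] [CompleteSpace X]
  {F : Type*} [NormedAddCommGroup F] [NormedSpace ℝ F]
  {e : ℕ → X}

lemma hasDerivAt_tent_shift {s : ℝ} (h0 : s ≠ 0) (h1 : |s| ≠ 1) :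
    HasDerivAt (fun t => tent (s - t)) (tent s * wt s) 0 := by
  have hc : Tendsto (fun t : ℝ => s - t) (𝓝 0) (𝓝 s) := by
    simpa using (tendsto_const_nhds (x := s)).sub (tendsto_id (x := 𝓝 (0 : ℝ)))
  rcases lt_or_gt_of_ne h1 with h | h
  · have ht : tent s ≠ 0 := by
      rw [tent, max_eq_right (by linarith)]; linarith
    rcases lt_or_gt_of_ne h0 with hs | hs
    · have hd : tent s * wt s = -1 := by rw [wt, if_pos hs, mul_neg, mul_inv_cancel₀ ht]
      rw [hd]
      refine HasDerivAt.congr_of_eventuallyEq (f := fun t : ℝ => 1 + s - t)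
        ((hasDerivAt_id (0 : ℝ)).const_sub (1 + s)) ?_
      filter_upwards [hc.eventually (Ioo_mem_nhds (by linarith [abs_lt.1 h] : (-1 : ℝ) < s) hs)]
        with t ht
      rw [tent, abs_of_neg ht.2, max_eq_right (by linarith [ht.1])]
      ring
    · have hd : tent s * wt s = 1 := by rw [wt, if_neg (by linarith), mul_inv_cancel₀ ht]
      rw [hd]
      refine HasDerivAt.congr_of_eventuallyEq (f := fun t : ℝ => 1 - s + t)
        ((hasDerivAt_id (0 : ℝ)).const_add (1 - s)) ?_
      filter_upwards [hc.eventually (Ioo_mem_nhds hs (abs_lt.1 h).2)] with t ht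
      rw [tent, abs_of_pos ht.1, max_eq_right (by linarith [ht.2])]
      ring
  · rw [tent_eq_zero h.le, zero_mul]
    refine HasDerivAt.congr_of_eventuallyEq (f := fun _ : ℝ => (0 : ℝ))
      (hasDerivAt_const _ _) ?_
    filter_upwards [((continuous_abs.tendsto s).comp hc).eventually (lt_mem_nhds h)] with t ht
    exact tent_eq_zero ht.le

lemma norm_Sh_update_add_le (he : Summable fun i => ‖e i‖) (c : ℕ → ℝ) (i : ℕ) {u η : ℝ}
    (hη : 0 ≤ η) (hu : |u| ≤ 1 + η) :
    ‖Sh e (update c i 0) + u • e i‖ ≤ rad e + η * ‖e i‖ := by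
  have h2 : Sh e (update c i 0) + u • e i = Sh e (update c i u) + (u - clip u) • e i := by
    rw [Sh_update he c i u]; module
  rw [h2]
  refine (norm_add_le _ _).trans (add_le_add (norm_Sh_le he _) ?_)
  rw [norm_smul, Real.norm_eq_abs]
  refine mul_le_mul_of_nonneg_right ?_ (norm_nonneg _)
  rw [abs_le] at hu ⊢
  rcases le_or_gt u (-1) with h | h
  · rw [clip, min_eq_right (by linarith), max_eq_left h]; constructor <;> linarith
  rcases le_or_gt 1 u with h' | h'
  · rw [clip, min_eq_left h', max_eq_right (by norm_num)]; constructor <;> linarith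
  · rw [clip_of_abs_le (abs_le.2 ⟨h.le, h'.le⟩)]; constructor <;> linarith

lemma closedBall_shift_subset (he : Summable fun i => ‖e i‖) {z : X} {r t : ℝ} {i : ℕ}
    (ht : rad e + |t| * ‖e i‖ ≤ r) : closedBall (z + t • e i) (rad e) ⊆ closedBall z r := by
  have _ := he
  refine closedBall_subset_closedBall' ?_
  rw [dist_eq_norm, add_sub_cancel_left, norm_smul, Real.norm_eq_abs]
  linarith

/-- Room for small motions along one direction. -/
lemma exists_room (i : ℕ) {r : ℝ} (hr : rad e < r) :
    ∃ η : ℝ, 0 < η ∧ ∀ t : ℝ, |t| ≤ η → rad e + |t| * ‖e i‖ ≤ r := by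
  refine ⟨(r - rad e) / (‖e i‖ + 1), by have := sub_pos.2 hr; positivity, fun t ht => ?_⟩
  have h1 : |t| * ‖e i‖ ≤ (r - rad e) / (‖e i‖ + 1) * (‖e i‖ + 1) :=
    mul_le_mul ht (by linarith [norm_nonneg (e i)]) (norm_nonneg _)
      (le_trans (abs_nonneg t) ht)
  rw [div_mul_cancel₀ _ (by positivity)] at h1
  linarith

/-- **Derivative of an average** along one of its directions. -/
theorem hasDerivAt_WAv (he : Summable fun i => ‖e i‖) {i : ℕ} {W : (ℕ → ℝ) → ℝ} (hW : Free i W)
    {h : X → F} {z : X} {r : ℝ} (hr : rad e < r) (hh : ContinuousOn h (closedBall z r)) :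
    HasDerivAt (fun t : ℝ => WAv W e h (z + t • e i))
      (WAv (fun c => W c * wt (c i)) e h z) 0 := by
  classical
  obtain ⟨η₁, hη₁, hroom⟩ := exists_room (e := e) i hr
  set η := min η₁ 1 with hη
  have hη0 : 0 < η := lt_min hη₁ one_pos
  set Φ : (ℕ → ℝ) × ℝ → X := fun p => z + (Sh e (update p.1 i 0) + p.2 • e i) with hΦ
  set A : Set ((ℕ → ℝ) × ℝ) := {p | |p.2| ≤ 1 + η} with hA
  have hAm : MeasurableSet A := measurableSet_le (by fun_prop) measurable_const
  have hΦc : Continuous Φ := by
    have := continuous_Sh he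
    rw [hΦ]; fun_prop
  have hΦA : MapsTo Φ A (closedBall z r) := fun p hp => by
    rw [mem_closedBall, dist_eq_norm, hΦ, add_sub_cancel_left]
    have h2 := hroom η (by rw [abs_of_pos hη0]; exact min_le_left _ _)
    rw [abs_of_pos hη0] at h2
    exact (norm_Sh_update_add_le he p.1 i hη0.le hp).trans h2
  obtain ⟨M, hM⟩ : ∃ M, ∀ p ∈ A, ‖h (Φ p)‖ ≤ M := by
    set B : Set ((ℕ → ℝ) × ℝ) :=
      (Set.pi univ fun _ => Icc (-1 : ℝ) 1) ×ˢ Icc (-(1 + η)) (1 + η) with hB
    have hBc : IsCompact B := (isCompact_univ_pi fun _ => isCompact_Icc).prod isCompact_Icc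
    have hBA : B ⊆ A := fun p hp => abs_le.2 hp.2
    obtain ⟨M, hM⟩ := (hBc.image hΦc).exists_bound_of_continuousOn (f := h)
      (hh.mono (image_subset_iff.2 fun p hp => hΦA (hBA hp)))
    refine ⟨M, fun p hp => ?_⟩
    have e1 : Φ p = Φ ((fun j => clip (p.1 j)), p.2) := by
      simp only [hΦ, Sh]
      congr 2
      refine tsum_congr fun j => ?_
      rcases eq_or_ne j i with rfl | hj
      · simp
      · rw [update_of_ne hj, update_of_ne hj, clip_of_abs_le (abs_clip_le _)]
    rw [e1]
    exact hM _ (mem_image_of_mem _ ⟨fun j _ => abs_le.1 (abs_clip_le _), abs_le.1 hp⟩)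
  set H : (ℕ → ℝ) × ℝ → F := A.indicator fun p => W p.1 • h (Φ p) with hH
  have hWm : AEStronglyMeasurable (fun p : (ℕ → ℝ) × ℝ => W p.1) (P.prod volume) :=
    hW.integrable.1.comp_fst
  have hHm : AEStronglyMeasurable H (P.prod volume) :=
    (aestronglyMeasurable_indicator_iff hAm).2
      (hWm.restrict.smul ((hh.comp hΦc.continuousOn hΦA).aestronglyMeasurable hAm))
  set bd : (ℕ → ℝ) × ℝ → ℝ := fun p =>
    (|W p.1| * M) * (Icc (-2 : ℝ) 2).indicator (fun _ => (1 : ℝ)) p.2 with hbd
  have hbdi : Integrable bd (P.prod volume) :=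
    (hW.integrable.abs.mul_const M).mul_prod ((integrableOn_const (C := (1 : ℝ))
      isCompact_Icc.measure_lt_top.ne).integrable_indicator measurableSet_Icc)
  have hHle : ∀ p, ‖H p‖ ≤ bd p := by
    intro p
    rw [hH]
    by_cases hp : p ∈ A
    · have hp2 : p.2 ∈ Icc (-2 : ℝ) 2 := by
        have h1 := abs_le.1 (show |p.2| ≤ 1 + η from hp)
        have h2 : η ≤ 1 := min_le_right _ _
        constructor <;> linarith [h1.1, h1.2]
      rw [indicator_of_mem hp, norm_smul, hbd, Real.norm_eq_abs]
      simp only [indicator_of_mem hp2, mul_one]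
      exact mul_le_mul_of_nonneg_left (hM p hp) (abs_nonneg _)
    · rw [indicator_of_notMem hp, norm_zero]
      refine mul_nonneg (mul_nonneg (abs_nonneg _) ?_) (indicator_nonneg (by simp) _)
      exact (norm_nonneg _).trans (hM (p.1, 0) (by simp only [hA, mem_ofPred_eq, abs_zero]; linarith))
  have hHi : Integrable H (P.prod volume) := hbdi.mono' hHm (ae_of_all _ hHle)
  -- the average is a convolution with the tent
  have key : ∀ t : ℝ, |t| ≤ η →
      WAv W e h (z + t • e i) = ∫ p, tent (p.2 - t) • H p ∂P.prod volume := by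
    intro t ht
    have hsub := closedBall_shift_subset he (z := z) (hroom t (ht.trans (min_le_left _ _)))
    rw [WAv, integral_split i (integrable_weight he (hh.mono hsub) hW.integrable).1]
    have hmp : MeasurePreserving (MeasurableEquiv.prodCongr (MeasurableEquiv.refl (ℕ → ℝ))
        (MeasurableEquiv.addRight t)) (P.prod volume) (P.prod volume) :=
      (MeasurePreserving.id P).prod (measurePreserving_add_right volume t)
    rw [← hmp.integral_comp' (fun p => tent (p.2 - t) • H p)]
    refine integral_congr_ae (ae_of_all _ fun p => ?_)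
    change tent p.2 • _ = tent (p.2 + t - t) • H (p.1, p.2 + t)
    rw [add_sub_cancel_right]
    by_cases h0 : tent p.2 = 0
    · simp [h0]
    have h1 := (abs_lt_of_tent_ne_zero h0).le
    have hmem : (p.1, p.2 + t) ∈ A :=
      show |p.2 + t| ≤ 1 + η from (abs_add_le _ _).trans (by linarith)
    rw [hH, indicator_of_mem hmem, hW.eq, Sh_update he, clip_of_abs_le h1]
    congr 3
    simp only [hΦ]
    module
  have hnull : ∀ᵐ p : (ℕ → ℝ) × ℝ ∂P.prod volume, p.2 ≠ 0 ∧ |p.2| ≠ 1 := by
    refine (Measure.quasiMeasurePreserving_snd (μ := P) (ν := volume)).ae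
      (p := fun s : ℝ => s ≠ 0 ∧ |s| ≠ 1) ?_
    filter_upwards [(Countable.ae_notMem (s := ({0, 1, -1} : Set ℝ)) (by simp) volume)] with s hs
    simp only [mem_insert_iff, mem_singleton_iff, not_or] at hs
    refine ⟨hs.1, fun h1 => ?_⟩
    rcases eq_or_eq_neg_of_abs_eq h1 with h | h
    · exact hs.2.1 h
    · exact hs.2.2 h
  have hmeas : ∀ t : ℝ, AEStronglyMeasurable (fun p => tent (p.2 - t) • H p) (P.prod volume) :=
    fun t => ((by fun_prop : Continuous fun p : (ℕ → ℝ) × ℝ =>
      tent (p.2 - t)).aestronglyMeasurable).smul hHm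
  have hlip : ∀ p, LipschitzOnWith (Real.nnabs (bd p)) (fun t => tent (p.2 - t) • H p) univ := by
    intro p
    refine LipschitzOnWith.of_dist_le_mul fun a _ b _ => ?_
    have hb := (norm_nonneg _).trans (hHle p)
    rw [dist_eq_norm, ← sub_smul, norm_smul, Real.norm_eq_abs, Real.coe_nnabs, abs_of_nonneg hb,
      Real.dist_eq, mul_comm (bd p)]
    refine mul_le_mul ((abs_tent_sub _ _).trans ?_) (hHle p) (norm_nonneg _) (abs_nonneg _)
    rw [show p.2 - a - (p.2 - b) = -(a - b) by ring, abs_neg]
  have hdiff : ∀ᵐ p ∂P.prod volume,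
      HasDerivAt (fun t => tent (p.2 - t) • H p) ((tent p.2 * wt p.2) • H p) 0 := by
    filter_upwards [hnull] with p hp
    exact (hasDerivAt_tent_shift hp.1 hp.2).smul_const (H p)
  have h0i : Integrable (fun p => tent (p.2 - 0) • H p) (P.prod volume) :=
    hHi.bdd_smul 1 (by fun_prop : Continuous fun p : (ℕ → ℝ) × ℝ =>
      tent (p.2 - 0)).aestronglyMeasurable (ae_of_all _ fun p => by
        rw [Real.norm_eq_abs, abs_of_nonneg (tent_nonneg _)]; exact tent_le_one _)
  have h'm : AEStronglyMeasurable (fun p => (tent p.2 * wt p.2) • H p) (P.prod volume) :=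
    (((continuous_tent.measurable.mul measurable_wt).comp
      measurable_snd).aestronglyMeasurable).smul hHm
  obtain ⟨-, hder⟩ := hasDerivAt_integral_of_dominated_loc_of_lip
    (μ := P.prod volume) (s := univ) (x₀ := (0 : ℝ)) (bound := bd)
    (F := fun t p => tent (p.2 - t) • H p) univ_mem (Eventually.of_forall hmeas) h0i h'm
    (ae_of_all _ hlip) hbdi hdiff
  have hend : WAv (fun c => W c * wt (c i)) e h z =
      ∫ p, (tent p.2 * wt p.2) • H p ∂P.prod volume := by
    have hsub : closedBall z (rad e) ⊆ closedBall z r := closedBall_subset_closedBall hr.le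
    rw [WAv, integral_split i (integrable_weight he (hh.mono hsub) hW.integrable_wt).1]
    refine integral_congr_ae (ae_of_all _ fun p => ?_)
    by_cases h0 : tent p.2 = 0
    · simp [h0]
    have h1 := (abs_lt_of_tent_ne_zero h0).le
    have hmem : p ∈ A := h1.trans (by linarith)
    simp only
    rw [hH, indicator_of_mem hmem, hW.eq, update_self, Sh_update he, clip_of_abs_le h1, smul_smul,
      smul_smul]
    simp only [hΦ]
    congr 1
    ring
  rw [hend]
  refine hder.congr_of_eventuallyEq ?_
  filter_upwards [eventually_abs_sub_lt (0 : ℝ) hη0] with t ht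
  exact key t (by simpa using ht.le)

/-- Lipschitz along the direction `i` and differentiable along it at almost every shifted point:
the derivative may be moved under the average. -/
theorem WAv_lineDeriv_of_bound (he : Summable fun i => ‖e i‖) {i : ℕ} {W : (ℕ → ℝ) → ℝ}
    (hW : Free i W) {h : X → F} {z : X} {r : ℝ} (hr : rad e < r)
    (hh : ContinuousOn h (closedBall z r)) {K : ℝ}
    (hK : ∀ y ∈ closedBall z r, ∀ t : ℝ, y + t • e i ∈ closedBall z r →
      ‖h (y + t • e i) - h y‖ ≤ K * |t|)
    {h' : X → F} (hh' : AEStronglyMeasurable (fun c => h' (z + Sh e c)) P)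
    (hd : ∀ᵐ c ∂P, HasLineDerivAt ℝ h (h' (z + Sh e c)) (z + Sh e c) (e i)) :
    WAv W e h' z = WAv (fun c => W c * wt (c i)) e h z := by
  obtain ⟨η, hη, hroom⟩ := exists_room (e := e) i hr
  have hmem : ∀ t : ℝ, |t| ≤ η → ∀ c, z + Sh e c + t • e i ∈ closedBall z r := fun t ht c =>
    closedBall_shift_subset he (hroom t ht) (by
      rw [add_right_comm]; exact mem_closedBall_Sh he _ c)
  have hmem0 : ∀ c, z + Sh e c ∈ closedBall z r := fun c =>
    closedBall_subset_closedBall hr.le (mem_closedBall_Sh he z c)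
  have hmeas : ∀ᶠ t : ℝ in 𝓝 0,
      AEStronglyMeasurable (fun c => W c • h (z + t • e i + Sh e c)) P := by
    filter_upwards [Ioo_mem_nhds (by linarith : -η < (0 : ℝ)) hη] with t ht
    exact (integrable_weight he (hh.mono (closedBall_shift_subset he
      (hroom t (abs_le.2 ⟨ht.1.le, ht.2.le⟩)))) hW.integrable).1
  have h0i : Integrable (fun c => W c • h (z + (0 : ℝ) • e i + Sh e c)) P := by
    simpa using integrable_weight he (hh.mono (closedBall_subset_closedBall hr.le)) hW.integrable
  have hlip : ∀ c, LipschitzOnWith (Real.nnabs (|W c| * |K|))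
      (fun t : ℝ => W c • h (z + t • e i + Sh e c)) (Ioo (-η) η) := by
    intro c
    refine LipschitzOnWith.of_dist_le_mul fun a ha b hb => ?_
    rw [dist_eq_norm, ← smul_sub, norm_smul, Real.coe_nnabs, abs_mul, abs_abs, abs_abs,
      Real.norm_eq_abs, Real.dist_eq, mul_assoc]
    refine mul_le_mul_of_nonneg_left ?_ (abs_nonneg _)
    have hb' := hmem b (abs_le.2 ⟨hb.1.le, hb.2.le⟩) c
    have ha' := hmem a (abs_le.2 ⟨ha.1.le, ha.2.le⟩) c
    have e1 : z + a • e i + Sh e c = z + Sh e c + b • e i + (a - b) • e i := by module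
    rw [e1, add_right_comm z (b • e i)]
    refine (hK _ hb' (a - b) ?_).trans (mul_le_mul_of_nonneg_right (le_abs_self K) (abs_nonneg _))
    convert ha' using 1; module
  have hdiff : ∀ᵐ c ∂P, HasDerivAt (fun t : ℝ => W c • h (z + t • e i + Sh e c))
      (W c • h' (z + Sh e c)) 0 := by
    filter_upwards [hd] with c hc
    have e1 : (fun t : ℝ => W c • h (z + t • e i + Sh e c)) =
        fun t : ℝ => W c • h (z + Sh e c + t • e i) := funext fun t => by rw [add_right_comm]
    rw [e1]
    exact HasDerivAt.const_smul (W c) hc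
  obtain ⟨-, hder⟩ := hasDerivAt_integral_of_dominated_loc_of_lip (μ := P)
    (s := Ioo (-η) η) (x₀ := (0 : ℝ)) (bound := fun c => |W c| * |K|)
    (F := fun t c => W c • h (z + t • e i + Sh e c))
    (Ioo_mem_nhds (by linarith) hη) hmeas h0i (hW.integrable.1.smul hh')
    (ae_of_all _ hlip) (hW.integrable.abs.mul_const _) hdiff
  exact hder.unique (hasDerivAt_WAv he hW hr hh)

/-! ### The kernel at scale `d` -/

/-- Derivative along `e i` of the average at scale `d`. -/
noncomputable def dAv (e : ℕ → X) (d : ℝ) (i : ℕ) (h : X → F) (z : X) : F :=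
  (d * (1 / 2 : ℝ) ^ i)⁻¹ • WAv (fun c => wt (c i)) (step d e) h z

/-- Second derivative along `e i` and `e j` of the average at scale `d`. -/
noncomputable def ddAv (e : ℕ → X) (d : ℝ) (i j : ℕ) (h : X → F) (z : X) : F :=
  ((d * (1 / 2 : ℝ) ^ i)⁻¹ * (d * (1 / 2 : ℝ) ^ j)⁻¹) •
    WAv (fun c => wt (c i) * wt (c j)) (step d e) h z

omit [CompleteSpace X] in
lemma ddAv_comm (e : ℕ → X) (d : ℝ) (i j : ℕ) (h : X → F) (z : X) :
    ddAv e d i j h z = ddAv e d j i h z := by
  simp only [ddAv, mul_comm (wt _) (wt _)]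
  rw [mul_comm]

lemma integrable_wt_apply (i : ℕ) : Integrable (fun c : ℕ → ℝ => wt (c i)) P := by
  simpa using (free_one i).integrable_wt

lemma integrable_wt_mul {i j : ℕ} (hij : i ≠ j) :
    Integrable (fun c : ℕ → ℝ => wt (c i) * wt (c j)) P :=
  (free_wt hij.symm).integrable_wt

lemma integral_abs_wt_le (i : ℕ) : ∫ c, |wt (c i)| ∂P ≤ 2 := by
  simpa using (free_one i).integral_abs_wt

lemma rad_step_lt (he : Summable fun i => ‖e i‖) {d r : ℝ} (hr : |d| * rad e < r) :
    rad (step d e) < r := (rad_step_le he d).trans_lt hr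

lemma closedBall_step_subset (he : Summable fun i => ‖e i‖) {d r : ℝ} (hr : |d| * rad e ≤ r)
    (z : X) : closedBall z (rad (step d e)) ⊆ closedBall z r :=
  closedBall_subset_closedBall ((rad_step_le he d).trans hr)

lemma norm_dAv_le (he : Summable fun i => ‖e i‖) {d : ℝ} {i : ℕ} {h : X → F} {z : X} {M : ℝ}
    (hM0 : 0 ≤ M) (hM : ∀ y ∈ closedBall z (|d| * rad e), ‖h y‖ ≤ M) :
    ‖dAv e d i h z‖ ≤ 2 / (|d| * (1 / 2 : ℝ) ^ i) * M := by
  rw [dAv, norm_smul, norm_inv, Real.norm_eq_abs, abs_mul,
    abs_of_nonneg (by positivity : (0 : ℝ) ≤ (1 / 2) ^ i)]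
  have h1 : ‖WAv (fun c => wt (c i)) (step d e) h z‖ ≤ M * 2 :=
    (norm_WAv_le (summable_step he d) (integrable_wt_apply i)
      fun y hy => hM y (closedBall_step_subset he le_rfl z hy)).trans
      (mul_le_mul_of_nonneg_left (integral_abs_wt_le i) hM0)
  calc (|d| * (1 / 2) ^ i)⁻¹ * ‖WAv (fun c => wt (c i)) (step d e) h z‖
      ≤ (|d| * (1 / 2) ^ i)⁻¹ * (M * 2) := mul_le_mul_of_nonneg_left h1 (by positivity)
    _ = 2 / (|d| * (1 / 2 : ℝ) ^ i) * M := by ring

lemma dAv_congr (he : Summable fun i => ‖e i‖) {d : ℝ} {i : ℕ} {h h' : X → F} {z : X}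
    (hh : EqOn h h' (closedBall z (|d| * rad e))) : dAv e d i h z = dAv e d i h' z := by
  rw [dAv, dAv, WAv_congr (summable_step he d) (hh.mono (closedBall_step_subset he le_rfl z))]

lemma dAv_add (he : Summable fun i => ‖e i‖) {d : ℝ} {i : ℕ} {h h' : X → F} {z : X}
    (hh : ContinuousOn h (closedBall z (|d| * rad e)))
    (hh' : ContinuousOn h' (closedBall z (|d| * rad e))) :
    dAv e d i (fun y => h y + h' y) z = dAv e d i h z + dAv e d i h' z := by
  rw [dAv, dAv, dAv, WAv_add (summable_step he d) (hh.mono (closedBall_step_subset he le_rfl z))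
    (hh'.mono (closedBall_step_subset he le_rfl z)) (integrable_wt_apply i), smul_add]

lemma dAv_sub (he : Summable fun i => ‖e i‖) {d : ℝ} {i : ℕ} {h h' : X → F} {z : X}
    (hh : ContinuousOn h (closedBall z (|d| * rad e)))
    (hh' : ContinuousOn h' (closedBall z (|d| * rad e))) :
    dAv e d i (fun y => h y - h' y) z = dAv e d i h z - dAv e d i h' z := by
  rw [dAv, dAv, dAv, WAv_sub (summable_step he d) (hh.mono (closedBall_step_subset he le_rfl z))
    (hh'.mono (closedBall_step_subset he le_rfl z)) (integrable_wt_apply i), smul_sub]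

omit [CompleteSpace X] in
lemma dAv_smul {d : ℝ} {i : ℕ} {h : X → F} {z : X} (r : ℝ) :
    dAv e d i (fun y => r • h y) z = r • dAv e d i h z := by
  rw [dAv, dAv, WAv_smul, smul_comm]

lemma dAv_comp {F' : Type*} [NormedAddCommGroup F'] [NormedSpace ℝ F'] [CompleteSpace F]
    [CompleteSpace F'] (he : Summable fun i => ‖e i‖) {d : ℝ} {i : ℕ} {h : X → F} {z : X}
    (hh : ContinuousOn h (closedBall z (|d| * rad e))) (T : F →L[ℝ] F') :
    T (dAv e d i h z) = dAv e d i (fun y => T (h y)) z := by
  rw [dAv, map_smul, WAv_comp (summable_step he d) (hh.mono (closedBall_step_subset he le_rfl z))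
    (integrable_wt_apply i) T, dAv]

/-- The average at scale `d` is differentiable along every `e i`. -/
theorem hasDerivAt_Av_step (he : Summable fun i => ‖e i‖) {d : ℝ} (hd : d ≠ 0) (i : ℕ)
    {h : X → F} {z : X} {r : ℝ} (hr : |d| * rad e < r) (hh : ContinuousOn h (closedBall z r)) :
    HasDerivAt (fun t : ℝ => Av (step d e) h (z + t • e i)) (dAv e d i h z) 0 := by
  set κ := d * (1 / 2 : ℝ) ^ i with hκ
  have hκ0 : κ ≠ 0 := mul_ne_zero hd (pow_ne_zero _ (by norm_num))
  have h1 := hasDerivAt_WAv (summable_step he d) (free_one i) (rad_step_lt he hr) hh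
  have h2 := HasDerivAt.scomp (h := fun t : ℝ => t / κ) (h' := 1 / κ) (0 : ℝ)
    (by simpa using h1) ((hasDerivAt_id (0 : ℝ)).div_const κ)
  rw [dAv, ← hκ, ← one_div]
  refine h2.congr_of_eventuallyEq (Eventually.of_forall fun t => ?_)
  simp only [Function.comp_apply, Av_eq_WAv]
  rw [show (t / κ) • step d e i = t • e i by rw [step, ← hκ, smul_smul, div_mul_cancel₀ _ hκ0]]

/-- The first derivative of the average is differentiable along every other direction. -/
theorem hasDerivAt_dAv (he : Summable fun i => ‖e i‖) {d : ℝ} (hd : d ≠ 0) {i j : ℕ} (hij : i ≠ j)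
    {h : X → F} {z : X} {r : ℝ} (hr : |d| * rad e < r) (hh : ContinuousOn h (closedBall z r)) :
    HasDerivAt (fun t : ℝ => dAv e d j h (z + t • e i)) (ddAv e d i j h z) 0 := by
  set κ := d * (1 / 2 : ℝ) ^ i with hκ
  have hκ0 : κ ≠ 0 := mul_ne_zero hd (pow_ne_zero _ (by norm_num))
  have h1 := hasDerivAt_WAv (summable_step he d) (free_wt (i := j) (j := i) hij)
    (rad_step_lt he hr) hh
  have h2 := HasDerivAt.scomp (h := fun t : ℝ => t / κ) (h' := 1 / κ) (0 : ℝ)
    (by simpa using h1) ((hasDerivAt_id (0 : ℝ)).div_const κ)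
  have h3 := h2.const_smul (d * (1 / 2 : ℝ) ^ j)⁻¹
  rw [smul_smul, one_div κ] at h3
  rw [ddAv_comm, ddAv, ← hκ]
  refine h3.congr_of_eventuallyEq
    (Eventually.of_forall fun t => ?_)
  simp only [Function.comp_apply, Pi.smul_apply, dAv]
  rw [show (t / κ) • step d e i = t • e i by rw [step, ← hκ, smul_smul, div_mul_cancel₀ _ hκ0]]

lemma continuousOn_shift {h : X → F} {z a : X} {r ρ : ℝ} (hh : ContinuousOn h (closedBall z r))
    (hρ : ρ + ‖a‖ ≤ r) : ContinuousOn (fun y => h (y + a)) (closedBall z ρ) :=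
  hh.comp (continuous_add_const a).continuousOn fun y hy => by
    rw [mem_closedBall, dist_eq_norm] at hy ⊢
    calc ‖y + a - z‖ = ‖y - z + a‖ := by congr 1; abel
      _ ≤ r := (norm_add_le _ _).trans (by linarith)

omit [CompleteSpace X] in
lemma WAv_shift (W : (ℕ → ℝ) → ℝ) (h : X → F) (z a : X) :
    WAv W e h (z + a) = WAv W e (fun y => h (y + a)) z := by
  simp only [WAv]
  exact integral_congr_ae (ae_of_all _ fun c => by simp only [add_right_comm])

omit [CompleteSpace X] in
lemma Av_shift (h : X → F) (z a : X) : Av e h (z + a) = Av e (fun y => h (y + a)) z := by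
  rw [Av_eq_WAv, Av_eq_WAv, WAv_shift]

lemma eventually_shift_room {d r : ℝ} (i : ℕ) (hr : |d| * rad e < r) :
    ∀ᶠ t : ℝ in 𝓝[≠] 0, |d| * rad e + ‖t • e i‖ ≤ r := by
  refine eventually_nhdsWithin_of_eventually_nhds ?_
  refine (Continuous.tendsto' (f := fun t : ℝ => |d| * rad e + ‖t • e i‖) (by fun_prop) 0
    (|d| * rad e) (by simp)).eventually (eventually_le_nhds hr)

/-- The averaged difference quotient tends to the derivative of the average. -/
theorem tendsto_dAv (he : Summable fun i => ‖e i‖) {d : ℝ} (hd : d ≠ 0) (i : ℕ)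
    {h : X → F} {z : X} {r : ℝ} (hr : |d| * rad e < r) (hh : ContinuousOn h (closedBall z r)) :
    Tendsto (fun t : ℝ => Av (step d e) (fun y => t⁻¹ • (h (y + t • e i) - h y)) z) (𝓝[≠] 0)
      (𝓝 (dAv e d i h z)) := by
  refine (hasDerivAt_Av_step he hd i hr hh).tendsto_slope_zero.congr' ?_
  filter_upwards [eventually_shift_room (e := e) i hr] with t ht
  simp only [zero_add, zero_smul, add_zero]
  have hst := summable_step he d
  have hb := closedBall_step_subset he (le_refl (|d| * rad e)) z
  rw [Av_shift]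
  simp only [Av_eq_WAv]
  rw [WAv_smul, WAv_sub hst ((continuousOn_shift hh ht).mono hb)
    (hh.mono ((closedBall_step_subset he hr.le z))) (integrable_const _)]

/-- The derivative of the average of a difference quotient tends to the second derivative. -/
theorem tendsto_ddAv (he : Summable fun i => ‖e i‖) {d : ℝ} (hd : d ≠ 0) {i j : ℕ} (hij : i ≠ j)
    {h : X → F} {z : X} {r : ℝ} (hr : |d| * rad e < r) (hh : ContinuousOn h (closedBall z r)) :
    Tendsto (fun t : ℝ => dAv e d j (fun y => t⁻¹ • (h (y + t • e i) - h y)) z) (𝓝[≠] 0)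
      (𝓝 (ddAv e d i j h z)) := by
  refine (hasDerivAt_dAv he hd hij hr hh).tendsto_slope_zero.congr' ?_
  filter_upwards [eventually_shift_room (e := e) i hr] with t ht
  simp only [zero_add, zero_smul, add_zero]
  rw [dAv_smul, dAv_sub he (continuousOn_shift hh ht)
    (hh.mono (closedBall_subset_closedBall hr.le))]
  simp only [dAv, WAv_shift]

/-- Exactness on affine functions. -/
theorem dAv_affine [CompleteSpace F] (he : Summable fun i => ‖e i‖) {d : ℝ} (hd : d ≠ 0) (i : ℕ)
    {h : X → F} {z : X} {r : ℝ} (hr : |d| * rad e < r) (a : F) (l : X →L[ℝ] F)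
    (hh : ∀ y ∈ closedBall z r, h y = a + l (y - z)) : dAv e d i h z = l (e i) := by
  have hc : ContinuousOn h (closedBall z r) :=
    (by fun_prop : Continuous fun y => a + l (y - z)).continuousOn.congr fun y hy => hh y hy
  refine tendsto_nhds_unique (tendsto_dAv he hd i hr hc) (tendsto_nhds_of_eventually_eq ?_)
  filter_upwards [eventually_shift_room (e := e) i hr, self_mem_nhdsWithin] with t ht ht0
  have hconst : ∀ c, t⁻¹ • (h (z + Sh (step d e) c + t • e i) - h (z + Sh (step d e) c)) =
      l (e i) := by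
    intro c
    have hs := (norm_Sh_le (summable_step he d) c).trans (rad_step_le he d)
    rw [hh _ (by
        rw [mem_closedBall, dist_eq_norm, show z + Sh (step d e) c + t • e i - z =
          Sh (step d e) c + t • e i by abel]
        exact (norm_add_le _ _).trans (by linarith)),
      hh _ (by rw [mem_closedBall, dist_eq_norm, add_sub_cancel_left]; linarith)]
    rw [add_sub_add_left_eq_sub, ← map_sub, sub_sub_sub_cancel_right, add_sub_cancel_left,
      map_smul, smul_smul, inv_mul_cancel₀ ht0, one_smul]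
  simp [Av, hconst]

/-- A globally Lipschitz function is differentiable along `e i` at almost every shifted point. -/
theorem ae_lineDifferentiableAt (he : Summable fun i => ‖e i‖) {h : X → ℝ} {K : ℝ≥0}
    (hh : LipschitzWith K h) (z : X) (i : ℕ) :
    ∀ᵐ c ∂P, LineDifferentiableAt ℝ h (z + Sh e c) (e i) := by
  borelize X
  have hS := continuous_Sh he
  refine ae_split i ((measurableSet_lineDifferentiableAt hh.continuous).preimage
    (by fun_prop : Continuous fun c => z + Sh e c).measurable) fun c => ?_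
  set b := z + Sh e (update c i 0)
  obtain ⟨K', hK'⟩ : ∃ K', LipschitzWith K' fun u : ℝ => h (b + u • e i) :=
    ⟨_, hh.comp ((LipschitzWith.const b).add
      (ContinuousLinearMap.toSpanSingleton ℝ (e i)).lipschitz)⟩
  filter_upwards [hK'.ae_differentiableAt_real] with u hu hlt
  change DifferentiableAt ℝ (fun t : ℝ => h (z + Sh e (update c i u) + t • e i)) 0
  have e1 : (fun t : ℝ => h (z + Sh e (update c i u) + t • e i)) =
      (fun s : ℝ => h (b + s • e i)) ∘ fun t => u + t := by
    funext t
    rw [Sh_update he, clip_of_abs_le hlt.le, Function.comp_apply]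
    congr 1
    module
  rw [e1]
  exact DifferentiableAt.comp 0 (by simpa using hu) (by fun_prop)

/-- The derivative of an average of a Lipschitz function is the average of the derivative. -/
theorem dAv_eq_lineDeriv (he : Summable fun i => ‖e i‖) {d : ℝ} (hd : d ≠ 0) (i : ℕ)
    {h : X → ℝ} {K : ℝ≥0} (hh : LipschitzWith K h) (z : X) :
    dAv e d i h z = Av (step d e) (fun y => lineDeriv ℝ h y (e i)) z := by
  borelize X
  set κ := d * (1 / 2 : ℝ) ^ i with hκ
  have hκ0 : κ ≠ 0 := mul_ne_zero hd (pow_ne_zero _ (by norm_num))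
  have hst := summable_step he d
  have hS := continuous_Sh hst
  have key := WAv_lineDeriv_of_bound hst (free_one i)
    (lt_add_one (rad (step d e))) (z := z) hh.continuous.continuousOn
    (K := K * ‖step d e i‖) (fun y _ t _ => by
      refine (hh.norm_sub_le _ _).trans_eq ?_
      rw [add_sub_cancel_left, norm_smul, Real.norm_eq_abs]; ring)
    (h' := fun y => lineDeriv ℝ h y (step d e i))
    ((measurable_lineDeriv hh.continuous).comp
      (by fun_prop : Continuous fun c => z + Sh (step d e) c).measurable).aestronglyMeasurable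
    ((ae_lineDifferentiableAt hst hh z i).mono fun c hc => hc.hasLineDerivAt)
  simp only [one_mul] at key
  rw [dAv, ← key, ← hκ, Av_eq_WAv]
  simp only [WAv, step, ← hκ, lineDeriv_smul, smul_eq_mul, one_mul]
  rw [integral_const_mul, ← mul_assoc, inv_mul_cancel₀ hκ0, one_mul]

/-- Symmetry: the derivative along `e i` of the average of a continuous line derivative along
`e j` is the mixed second derivative. -/
theorem dAv_lineDeriv (he : Summable fun i => ‖e i‖) {d : ℝ} (hd : d ≠ 0) {i j : ℕ} (hij : i ≠ j)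
    {h h' : X → F} {z : X} {r : ℝ} (hr : |d| * rad e < r)
    (hder : ∀ y ∈ closedBall z r, HasLineDerivAt ℝ h (h' y) y (e j)) {K : ℝ}
    (hK : ∀ y ∈ closedBall z r, ‖h' y‖ ≤ K) (hh : ContinuousOn h (closedBall z r))
    (hh' : ContinuousOn h' (closedBall z r)) :
    dAv e d i h' z = ddAv e d i j h z := by
  set κ := d * (1 / 2 : ℝ) ^ j with hκ
  have hκ0 : κ ≠ 0 := mul_ne_zero hd (pow_ne_zero _ (by norm_num))
  have hst := summable_step he d
  have hb := closedBall_step_subset he hr.le z
  have hbound : ∀ y ∈ closedBall z r, ∀ t : ℝ, y + t • step d e j ∈ closedBall z r →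
      ‖h (y + t • step d e j) - h y‖ ≤ |κ| * K * |t| := by
    intro y hy t ht
    rw [show t • step d e j = (t * κ) • e j by rw [step, ← hκ, smul_smul]] at ht ⊢
    have hseg : ∀ s ∈ uIcc (0 : ℝ) (t * κ), y + s • e j ∈ closedBall z r := by
      intro s hs
      have hc : Convex ℝ {s : ℝ | y + s • e j ∈ closedBall z r} := fun a ha b hb p q hp hq hpq => by
        have := convex_closedBall z r ha hb hp hq hpq
        simp only [mem_ofPred_eq, smul_eq_mul] at this ⊢
        convert this using 1
        rw [show y + (p * a + q * b) • e j = (p + q) • y + (p * a + q * b) • e j by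
          rw [hpq, one_smul]]
        module
      exact hc.ordConnected.uIcc_subset (by simpa using hy) ht hs
    have hd' : ∀ s ∈ uIcc (0 : ℝ) (t * κ),
        HasDerivWithinAt (fun s : ℝ => h (y + s • e j)) (h' (y + s • e j)) (uIcc 0 (t * κ)) s := by
      intro s hs
      have h1 : HasDerivAt (fun u : ℝ => h (y + s • e j + u • e j)) (h' (y + s • e j)) (s - s) := by
        rw [sub_self]; exact hder _ (hseg s hs)
      refine ((h1.comp_sub_const s s).congr_of_eventuallyEq
        (Eventually.of_forall fun u => ?_)).hasDerivWithinAt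
      change h (y + u • e j) = h (y + s • e j + (u - s) • e j)
      congr 1; module
    have h2 := (convex_uIcc (0 : ℝ) (t * κ)).norm_image_sub_le_of_norm_hasDerivWithin_le hd'
      (fun s hs => hK _ (hseg s hs)) left_mem_uIcc right_mem_uIcc
    simp only [zero_smul, add_zero, sub_zero, Real.norm_eq_abs, abs_mul] at h2
    linarith
  have key := WAv_lineDeriv_of_bound hst (free_wt (i := i) (j := j) hij.symm) (rad_step_lt he hr)
    (z := z) hh hbound (h' := fun y => κ • h' y)
    ((continuous_comp_Sh hst (hh'.mono hb)).const_smul κ).aestronglyMeasurable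
    (ae_of_all _ fun c => (hder _ (hb (mem_closedBall_Sh hst z c))).smul κ)
  rw [dAv, ddAv, ← key, WAv_smul, smul_smul, ← hκ, mul_assoc, inv_mul_cancel₀ hκ0, mul_one]

end Vale.Agent.P084.Full.Average
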