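import Vale.Agent.P084.Full.AverageBase

/-!
P084 (Tingley's problem), library for the general case: a probability law on a separable Banach
space which is quasi-invariant under translations along a summable family of directions,
continuity of translations in L1, and the integrated difference quotient.
-/

namespace Vale.Agent.P084.Full.Average

open MeasureTheory Filter Topology Set Function Metric
open scoped NNReal ENNReal

/-- The Laplace density. -/
noncomputable def lap (u : ℝ) : ℝ := Real.exp (-|u|) / 2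

/-- The Laplace law. -/
noncomputable def lnu : Measure ℝ := volume.withDensity fun u => ENNReal.ofReal (lap u)

/-- Independent Laplace coefficients. -/
noncomputable def Lcoef : Measure (ℕ → ℝ) := Measure.infinitePi fun _ => lnu

@[fun_prop]
lemma continuous_lap : Continuous lap := by unfold lap; fun_prop

lemma lap_nonneg (u : ℝ) : 0 ≤ lap u := div_nonneg (Real.exp_pos _).le (by norm_num)

lemma lap_sub_le (u t : ℝ) : lap (u - t) ≤ Real.exp |t| * lap u := by
  rw [lap, lap, ← mul_div_assoc, ← Real.exp_add]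
  gcongr
  linarith [abs_sub_abs_le_abs_sub u t]

lemma integral_lap : ∫ u, lap u = 1 := by
  simp only [lap]
  rw [integral_div, integral_comp_abs (f := fun x => Real.exp (-x)), integral_exp_neg_Ioi_zero]
  norm_num

lemma integrable_lap : Integrable lap :=
  Integrable.of_integral_ne_zero (by rw [integral_lap]; norm_num)

instance : IsProbabilityMeasure lnu :=
  ⟨by rw [lnu, withDensity_apply _ MeasurableSet.univ, Measure.restrict_univ,
    ← ofReal_integral_eq_lintegral_ofReal integrable_lap (ae_of_all _ lap_nonneg),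
    integral_lap, ENNReal.ofReal_one]⟩

instance : IsProbabilityMeasure Lcoef := by unfold Lcoef; infer_instance

lemma abs_mul_lap_le (u : ℝ) : |u| * lap u ≤ 2 * lap ((1 / 2) * u) := by
  have h1 : |u| / 2 ≤ Real.exp (|u| / 2) := (Real.add_one_le_exp _).trans' (by linarith)
  have h2 : |(1 / 2 : ℝ) * u| = |u| / 2 := by rw [abs_mul, abs_of_pos (by norm_num : (0:ℝ) < 1/2)]; ring
  rw [lap, lap, h2]
  calc |u| * (Real.exp (-|u|) / 2) ≤ 2 * Real.exp (|u| / 2) * (Real.exp (-|u|) / 2) :=
        mul_le_mul_of_nonneg_right (by linarith) (div_nonneg (Real.exp_pos _).le (by norm_num))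
    _ = 2 * ((Real.exp (|u| / 2) * Real.exp (-|u|)) / 2) := by ring
    _ = 2 * (Real.exp (-(|u| / 2)) / 2) := by rw [← Real.exp_add]; congr 3; ring

lemma lintegral_abs_lnu : ∫⁻ u, ENNReal.ofReal |u| ∂lnu ≠ ∞ := by
  rw [lnu, lintegral_withDensity_eq_lintegral_mul _ (by fun_prop) (by fun_prop)]
  have hi : Integrable fun u => 2 * lap ((1 / 2) * u) :=
    (integrable_lap.comp_mul_left' (by norm_num)).const_mul 2
  refine ne_top_of_le_ne_top hi.hasFiniteIntegral.ne (lintegral_mono fun u => ?_)
  rw [Pi.mul_apply, ← ENNReal.ofReal_mul (lap_nonneg u), mul_comm (lap u)]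
  refine (ENNReal.ofReal_le_ofReal (abs_mul_lap_le u)).trans ?_
  rw [Real.enorm_eq_ofReal (mul_nonneg zero_le_two (lap_nonneg _))]

/-- A product law is recovered by redrawing one coordinate. -/
lemma infinitePi_eq_map_prod (ν : Measure ℝ) [IsProbabilityMeasure ν] (i : ℕ) :
    (Measure.infinitePi fun _ : ℕ => ν) =
      ((Measure.infinitePi fun _ : ℕ => ν).prod ν).map fun p => update p.1 i p.2 := by
  refine (Measure.eq_infinitePi (fun _ => ν) fun s t ht => ?_).symm
  classical
  rw [Measure.map_apply (measurable_upd i) (MeasurableSet.pi s.countable_toSet fun j _ => ht j)]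
  by_cases hi : i ∈ s
  · have : (fun p : (ℕ → ℝ) × ℝ => update p.1 i p.2) ⁻¹' (Set.pi s t) =
        (Set.pi (s.erase i) t) ×ˢ t i := by
      ext p
      simp only [mem_preimage, Set.mem_pi, Finset.mem_coe, mem_prod, Finset.mem_erase]
      refine ⟨fun h => ⟨fun j hj => ?_, by simpa using h i hi⟩, fun h j hj => ?_⟩
      · simpa [update_of_ne hj.1] using h j hj.2
      · rcases eq_or_ne j i with rfl | hji
        · simpa using h.2
        · simpa [update_of_ne hji] using h.1 j ⟨hji, hj⟩
    rw [this, Measure.prod_prod, Measure.infinitePi_pi _ fun j _ => ht j,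
      ← Finset.prod_erase_mul _ _ hi]
  · have : (fun p : (ℕ → ℝ) × ℝ => update p.1 i p.2) ⁻¹' (Set.pi s t) =
        (Set.pi s t) ×ˢ univ := by
      ext p
      simp only [mem_preimage, Set.mem_pi, Finset.mem_coe, mem_prod, mem_univ, and_true]
      exact forall₂_congr fun j hj => by rw [update_of_ne (ne_of_mem_of_not_mem hj hi)]
    rw [this, Measure.prod_prod, measure_univ, mul_one, Measure.infinitePi_pi _ fun j _ => ht j]

lemma lnu_map_add_le (t : ℝ) :
    lnu.map (fun u => u + t) ≤ ENNReal.ofReal (Real.exp |t|) • lnu := by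
  refine Measure.le_iff.2 fun s hs => ?_
  rw [Measure.map_apply (by fun_prop) hs, Measure.smul_apply, lnu,
    withDensity_apply _ (hs.preimage (by fun_prop)), withDensity_apply _ hs, smul_eq_mul,
    ← lintegral_indicator (hs.preimage (by fun_prop)), ← lintegral_indicator hs,
    ← lintegral_const_mul _ (Measurable.indicator (by fun_prop) hs)]
  rw [← lintegral_add_right_eq_self (μ := (volume : Measure ℝ)) _ (-t)]
  refine lintegral_mono fun u => ?_
  by_cases hu : u ∈ s
  · have hu' : u + -t ∈ (fun u => u + t) ⁻¹' s := by simpa using hu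
    rw [indicator_of_mem hu, indicator_of_mem hu', ← ENNReal.ofReal_mul (Real.exp_pos _).le]
    exact ENNReal.ofReal_le_ofReal (lap_sub_le u t)
  · have hu' : u + -t ∉ (fun u => u + t) ⁻¹' s := by simpa using hu
    rw [indicator_of_notMem hu']
    exact bot_le

lemma Lcoef_map_add_le (i : ℕ) (t : ℝ) :
    Lcoef.map (fun c => update c i (c i + t)) ≤ ENNReal.ofReal (Real.exp |t|) • Lcoef := by
  have hT : Measurable fun c : ℕ → ℝ => update c i (c i + t) :=
    (measurable_upd i).comp (f := fun c : ℕ → ℝ => (c, c i + t)) (by fun_prop)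
  have h0 := infinitePi_eq_map_prod lnu i
  change Lcoef = (Lcoef.prod lnu).map _ at h0
  conv_lhs => rw [h0]
  rw [Measure.map_map hT (measurable_upd i)]
  have hcomp : (fun c : ℕ → ℝ => update c i (c i + t)) ∘
      (fun p : (ℕ → ℝ) × ℝ => update p.1 i p.2) =
      (fun p : (ℕ → ℝ) × ℝ => update p.1 i p.2) ∘ Prod.map id (fun u => u + t) := by
    funext p
    simp
  rw [hcomp, ← Measure.map_map (measurable_upd i) (by fun_prop),
    ← Measure.map_prod_map _ _ measurable_id (by fun_prop), Measure.map_id]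
  conv_rhs => rw [h0, ← Measure.map_smul]
  refine Measure.map_mono ?_ (measurable_upd i)
  rw [← Measure.prod_smul_right]
  refine Measure.le_iff.2 fun s hs => ?_
  rw [Measure.prod_apply hs, Measure.prod_apply hs]
  exact lintegral_mono fun c => lnu_map_add_le t _

variable {X : Type*} [NormedAddCommGroup X] [NormedSpace ℝ X]

/-- The random series. -/
noncomputable def ser (e : ℕ → X) (c : ℕ → ℝ) : X := ∑' i, c i • e i

/-- The reference law. -/
noncomputable def mu [MeasurableSpace X] (e : ℕ → X) : Measure X := Lcoef.map (ser e)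

variable [CompleteSpace X] {e : ℕ → X}

lemma ae_summable (he : Summable fun i => ‖e i‖) :
    ∀ᵐ c ∂Lcoef, Summable fun i => c i • e i := by
  have hm : ∀ i, Measurable fun c : ℕ → ℝ => ENNReal.ofReal (|c i| * ‖e i‖) := fun i => by fun_prop
  have hfin : ∫⁻ c, ∑' i, ENNReal.ofReal (|c i| * ‖e i‖) ∂Lcoef ≠ ∞ := by
    rw [lintegral_tsum fun i => (hm i).aemeasurable]
    have e1 : ∀ i, ∫⁻ c, ENNReal.ofReal (|c i| * ‖e i‖) ∂Lcoef =
        (∫⁻ u, ENNReal.ofReal |u| ∂lnu) * ENNReal.ofReal ‖e i‖ := by
      intro i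
      rw [← lintegral_mul_const _ (by fun_prop)]
      conv_rhs => rw [← Measure.infinitePi_map_eval (μ := fun _ : ℕ => lnu) i]
      rw [lintegral_map (by fun_prop) (by fun_prop)]
      simp [Lcoef, ENNReal.ofReal_mul]
    simp_rw [e1]
    rw [ENNReal.tsum_mul_left]
    exact ENNReal.mul_ne_top lintegral_abs_lnu (by
      rw [← ENNReal.ofReal_tsum_of_nonneg (fun _ => norm_nonneg _) he]; exact ENNReal.ofReal_ne_top)
  filter_upwards [ae_lt_top (Measurable.tsum hm) hfin] with c hc
  refine Summable.of_norm ?_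
  have := ENNReal.summable_toReal hc.ne
  refine this.congr fun i => ?_
  rw [ENNReal.toReal_ofReal (mul_nonneg (abs_nonneg _) (norm_nonneg _)), norm_smul,
    Real.norm_eq_abs]

variable [MeasurableSpace X] [BorelSpace X] [SecondCountableTopology X]

lemma aemeasurable_ser (he : Summable fun i => ‖e i‖) : AEMeasurable (ser e) Lcoef :=
  aemeasurable_of_tendsto_metrizable_ae atTop
    (f := fun (n : ℕ) (c : ℕ → ℝ) => ∑ i ∈ Finset.range n, c i • e i) (fun n =>
      (continuous_finset_sum _ fun (i : ℕ) _ =>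
        (continuous_apply (A := fun _ : ℕ => ℝ) i).smul continuous_const).measurable.aemeasurable)
    ((ae_summable he).mono fun c hc => hc.hasSum.tendsto_sum_nat)

lemma isProbabilityMeasure_mu (he : Summable fun i => ‖e i‖) : IsProbabilityMeasure (mu e) :=
  Measure.isProbabilityMeasure_map (aemeasurable_ser he)

instance : IsFiniteMeasure (mu e) := by unfold mu; infer_instance

/-- Translation by `v` multiplies the law by at most `exp A`. -/
def Dom (e : ℕ → X) (A : ℝ) (v : X) : Prop :=
  (mu e).map (fun y => y + v) ≤ ENNReal.ofReal (Real.exp A) • mu e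

lemma dom_zero (e : ℕ → X) : Dom e 0 0 := by simp [Dom]

lemma Dom.mono {A B : ℝ} {v : X} (h : Dom e A v) (hAB : A ≤ B) : Dom e B v :=
  le_trans h (Measure.le_iff.2 fun s _ => by
    simp only [Measure.smul_apply, smul_eq_mul]
    gcongr)

lemma Dom.add {A B : ℝ} {v w : X} (h : Dom e A v) (h' : Dom e B w) : Dom e (A + B) (v + w) := by
  unfold Dom at *
  have hc : (fun y => y + (v + w)) = (fun y : X => y + w) ∘ fun y => y + v := by
    funext y; simp [add_assoc]
  rw [hc, ← Measure.map_map (by fun_prop) (by fun_prop), Real.exp_add,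
    ENNReal.ofReal_mul (Real.exp_pos _).le]
  refine le_trans (Measure.map_mono h (by fun_prop)) ?_
  rw [Measure.map_smul, mul_smul]
  exact Measure.le_iff.2 fun s _ => by
    simp only [Measure.smul_apply, smul_eq_mul]
    gcongr
    exact h' _

lemma dom_single (he : Summable fun i => ‖e i‖) (i : ℕ) (t : ℝ) : Dom e |t| (t • e i) := by
  have hT : Measurable fun c : ℕ → ℝ => update c i (c i + t) :=
    (measurable_upd i).comp (f := fun c : ℕ → ℝ => (c, c i + t)) (by fun_prop)
  have hac : Lcoef.map (fun c => update c i (c i + t)) ≪ Lcoef :=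
    (Measure.absolutelyContinuous_of_le (Lcoef_map_add_le i t)).trans
      Measure.smul_absolutelyContinuous
  have hser : (fun c => ser e c + t • e i) =ᵐ[Lcoef] ser e ∘ fun c => update c i (c i + t) := by
    filter_upwards [ae_summable he] with c hc
    have h1 : Summable fun j => (update c i (c i + t) j - c j) • e j :=
      summable_of_ne_finset_zero (s := {i}) fun j hj => by
        simp [update_of_ne (Finset.notMem_singleton.1 hj)]
    have h2 : ∑' j, (update c i (c i + t) j - c j) • e j = t • e i := by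
      rw [tsum_eq_single i fun j hj => by simp [update_of_ne hj]]
      simp
    rw [Function.comp_apply, ser, ser, ← h2, ← hc.tsum_add h1]
    exact tsum_congr fun j => by rw [sub_smul, add_sub_cancel]
  unfold Dom mu
  rw [AEMeasurable.map_map_of_aemeasurable (by fun_prop) (aemeasurable_ser he)]
  rw [show (fun y => y + t • e i) ∘ ser e = fun c => ser e c + t • e i from rfl,
    Measure.map_congr hser,
    ← AEMeasurable.map_map_of_aemeasurable ((aemeasurable_ser he).mono_ac hac) hT.aemeasurable,
    ← Measure.map_smul]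
  exact Measure.le_iff.2 fun s hs => by
    rw [Measure.map_apply_of_aemeasurable ((aemeasurable_ser he).mono_ac hac) hs,
      Measure.map_apply_of_aemeasurable ((aemeasurable_ser he).smul_measure _) hs]
    exact Lcoef_map_add_le i t _

lemma dom_sum (he : Summable fun i => ‖e i‖) (s : Finset ℕ) (a : ℕ → ℝ) :
    Dom e (∑ i ∈ s, |a i|) (∑ i ∈ s, a i • e i) := by
  classical
  induction s using Finset.induction_on with
  | empty => simpa using dom_zero e
  | insert i s hi ih =>
    rw [Finset.sum_insert hi, Finset.sum_insert hi]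
    exact (dom_single he i (a i)).add ih

lemma exists_dom (he : Summable fun i => ‖e i‖) {v : X}
    (hv : v ∈ Submodule.span ℝ (range e)) : ∃ A, Dom e A v := by
  obtain ⟨a, rfl⟩ := Finsupp.mem_span_range_iff_exists_finsupp.1 hv
  exact ⟨_, dom_sum he a.support a⟩

/-- Domination passes to limits. -/
lemma dom_of_tendsto {A : ℝ} {v : ℕ → X} {w : X} (h : ∀ n, Dom e A (v n))
    (hv : Tendsto v atTop (𝓝 w)) : Dom e A w := by
  unfold Dom
  set C := ENNReal.ofReal (Real.exp A)
  have hopen : ∀ O : Set X, IsOpen O → (mu e).map (fun y => y + w) O ≤ C * mu e O := by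
    intro O hO
    rw [Measure.map_apply (by fun_prop) hO.measurableSet]
    set S : ℕ → Set X := fun N => {y | ∀ n, N ≤ n → y + v n ∈ O}
    have hsub : (fun y => y + w) ⁻¹' O ⊆ ⋃ N, S N := fun y hy => by
      obtain ⟨N, hN⟩ := eventually_atTop.1
        (((tendsto_const_nhds (x := y)).add hv).eventually (hO.mem_nhds hy))
      exact mem_iUnion.2 ⟨N, hN⟩
    refine (measure_mono hsub).trans ?_
    rw [Monotone.measure_iUnion (s := S) fun N M hNM y hy n hn => hy n (le_trans hNM hn)]
    refine iSup_le fun N => ?_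
    calc mu e (S N) ≤ mu e ((fun y => y + v N) ⁻¹' O) := measure_mono fun y hy => hy N le_rfl
      _ = (mu e).map (fun y => y + v N) O := (Measure.map_apply (by fun_prop) hO.measurableSet).symm
      _ ≤ C * mu e O := h N O
  refine Measure.le_iff.2 fun s _ => ?_
  rw [Measure.smul_apply, smul_eq_mul, Set.measure_eq_iInf_isOpen (μ := mu e) s,
    ENNReal.mul_iInf_of_ne (ENNReal.ofReal_pos.2 (Real.exp_pos _)).ne' ENNReal.ofReal_ne_top]
  refine le_iInf fun O => ?_
  rw [ENNReal.mul_iInf_of_ne (ENNReal.ofReal_pos.2 (Real.exp_pos _)).ne' ENNReal.ofReal_ne_top]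
  refine le_iInf fun hsO => ?_
  rw [ENNReal.mul_iInf_of_ne (ENNReal.ofReal_pos.2 (Real.exp_pos _)).ne' ENNReal.ofReal_ne_top]
  exact le_iInf fun hO => (measure_mono hsO).trans (hopen O hO)

lemma dom_step (he : Summable fun i => ‖e i‖) (d : ℝ) (c : ℕ → ℝ) :
    Dom e (2 * |d|) (Sh (step d e) c) := by
  refine dom_of_tendsto (v := fun n => ∑ i ∈ Finset.range n, (clip (c i) * (d * (1 / 2) ^ i)) • e i)
    (fun n => (dom_sum he _ _).mono ?_) ?_
  · refine (Finset.sum_le_sum fun i _ => ?_).trans
      ((Finset.mul_sum (Finset.range n) _ _).symm.trans_le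
        ((mul_le_mul_of_nonneg_left (sum_geometric_two_le n) (abs_nonneg d)).trans_eq (mul_comm _ _)))
    rw [abs_mul, abs_mul, abs_of_nonneg (by positivity : (0:ℝ) ≤ (1/2)^i)]
    exact mul_le_of_le_one_left (by positivity) (abs_clip_le _)
  · simpa [Sh, step, smul_smul] using
      (summable_term (summable_step he d) c).hasSum.tendsto_sum_nat

lemma ae_add_of_dom {A : ℝ} {v : X} (h : Dom e A v) {p : X → Prop}
    (hp : ∀ᵐ y ∂mu e, p y) : ∀ᵐ y ∂mu e, p (y + v) :=
  ae_of_ae_map (f := fun y => y + v) (by fun_prop)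
    (((Measure.absolutelyContinuous_of_le h).trans Measure.smul_absolutelyContinuous).ae_le hp)

/-- **Quasi-invariance.** -/
theorem ae_translate (he : Summable fun i => ‖e i‖) {v : X} (hv : v ∈ Submodule.span ℝ (range e))
    {p : X → Prop} (hp : ∀ᵐ y ∂mu e, p y) : ∀ᵐ y ∂mu e, p (y + v) := by
  obtain ⟨A, hA⟩ := exists_dom he hv
  exact ae_add_of_dom hA hp

/-- Null sets are null for every kernel. -/
theorem ae_kernel (he : Summable fun i => ‖e i‖) {p : X → Prop} (hp : ∀ᵐ y ∂mu e, p y) (d : ℝ) :
    ∀ᵐ z ∂mu e, ∀ᵐ c ∂P, p (z + Sh (step d e) c) := by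
  set N := toMeasurable (mu e) {y | ¬ p y}
  have hN : ∀ᵐ y ∂mu e, y ∉ N :=
    measure_eq_zero_iff_ae_notMem.1 (by rw [measure_toMeasurable]; exact ae_iff.1 hp)
  have hm : MeasurableSet {q : X × (ℕ → ℝ) | q.1 + Sh (step d e) q.2 ∉ N} := by
    have := continuous_Sh (summable_step he d)
    exact ((measurableSet_toMeasurable _ _).compl).preimage
      (by fun_prop : Continuous fun q : X × (ℕ → ℝ) => q.1 + Sh (step d e) q.2).measurable
  have h2 : ∀ᵐ z ∂mu e, ∀ᵐ c ∂P, z + Sh (step d e) c ∉ N :=
    (Measure.ae_ae_comm hm).2 (ae_of_all _ fun c => ae_add_of_dom (dom_step he d c) hN)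
  filter_upwards [h2] with z hz
  filter_upwards [hz] with c hc
  by_contra h
  exact hc (subset_toMeasurable _ _ h)

/-- Every nonempty open set is charged. -/
theorem mu_pos (he : Summable fun i => ‖e i‖)
    (hd : Dense (Submodule.span ℝ (range e) : Set X)) {O : Set X} (hO : IsOpen O)
    (hne : O.Nonempty) : 0 < mu e O := by
  refine pos_iff_ne_zero.2 fun h0 => ?_
  set V := Submodule.span ℝ (range e)
  have hcov : ⋃ q : V, (fun y => y + (q : X)) ⁻¹' O = univ := by
    refine eq_univ_of_forall fun y => ?_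
    obtain ⟨q, hqO, hqV⟩ := Dense.inter_open_nonempty hd ((fun q => y + q) ⁻¹' O)
      (hO.preimage (by fun_prop)) ⟨hne.some - y, by simpa using hne.some_mem⟩
    exact mem_iUnion.2 ⟨⟨q, hqV⟩, hqO⟩
  obtain ⟨T, hT, hTu⟩ := TopologicalSpace.isOpen_iUnion_countable
    (fun q : V => (fun y => y + (q : X)) ⁻¹' O) fun q => hO.preimage (by fun_prop)
  have hnull : ∀ q : V, mu e ((fun y => y + (q : X)) ⁻¹' O) = 0 := fun q => by
    have := ae_translate he q.2 (measure_eq_zero_iff_ae_notMem.1 h0)
    exact measure_eq_zero_iff_ae_notMem.2 this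
  have h1 : mu e univ = 0 := by
    rw [← hcov, ← hTu]
    exact (measure_biUnion_null_iff hT).2 fun q _ => hnull q
  haveI := isProbabilityMeasure_mu he
  rw [measure_univ] at h1
  exact one_ne_zero h1

/-! ### Translation in L1 -/

lemma integrable_of_bound {h : X → ℝ} (hm : Measurable h) {M : ℝ} (hM : ∀ y, |h y| ≤ M) :
    Integrable h (mu e) :=
  Integrable.of_bound hm.aestronglyMeasurable M (ae_of_all _ hM)

lemma integral_add_le_of_dom {A : ℝ} {v : X} (hv : Dom e A v) {g : X → ℝ} (hg : Measurable g)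
    (h0 : ∀ y, 0 ≤ g y) (hi : Integrable g (mu e)) :
    ∫ y, g (y + v) ∂mu e ≤ Real.exp A * ∫ y, g y ∂mu e := by
  rw [← integral_map (φ := fun y => y + v) (by fun_prop) hg.aestronglyMeasurable]
  refine (integral_mono_measure hv (ae_of_all _ h0)
    (hi.smul_measure ENNReal.ofReal_ne_top)).trans_eq ?_
  rw [integral_smul_measure, ENNReal.toReal_ofReal (Real.exp_pos _).le, smul_eq_mul]

/-- **Continuity of translations in L1.** -/
theorem translate_L1 {h : X → ℝ} (hm : Measurable h) {M : ℝ}
    (hM : ∀ y, |h y| ≤ M) {A ε : ℝ} (hε : 0 < ε) :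
    ∃ δ > 0, ∀ v, ‖v‖ ≤ δ → Dom e A v → ∫ y, |h (y + v) - h y| ∂mu e ≤ ε := by
  obtain ⟨g, hg, hgi⟩ := (integrable_of_bound (e := e) hm hM).exists_boundedContinuous_integral_sub_le
    (ε := ε / (2 * (Real.exp A + 1))) (by positivity)
  set a := ∫ y, |h y - g y| ∂mu e
  have ha : a ≤ ε / (2 * (Real.exp A + 1)) := by simpa [Real.norm_eq_abs] using hg
  have hcont : ∃ δ > 0, ∀ v, ‖v‖ ≤ δ → ∫ y, |g (y + v) - g y| ∂mu e ≤ ε / 2 := by
    have ht : Tendsto (fun v : X => ∫ y, |g (y + v) - g y| ∂mu e) (𝓝 0) (𝓝 0) := by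
      have := tendsto_integral_filter_of_dominated_convergence (μ := mu e)
        (F := fun (v : X) y => |g (y + v) - g y|) (f := fun _ => (0 : ℝ)) (l := 𝓝 (0 : X))
        (fun _ => 2 * ‖g‖)
        (Eventually.of_forall fun v => (by fun_prop : Continuous fun y =>
          |g (y + v) - g y|).aestronglyMeasurable)
        (Eventually.of_forall fun v => ae_of_all _ fun y => by
          rw [Real.norm_eq_abs, abs_abs, two_mul]
          exact (abs_sub _ _).trans (add_le_add (g.norm_coe_le_norm _) (g.norm_coe_le_norm _)))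
        (integrable_const _)
        (ae_of_all _ fun y => Continuous.tendsto' (by fun_prop) 0 0 (by simp))
      simpa using this
    obtain ⟨δ, hδ, hb⟩ := Metric.eventually_nhds_iff.1 (ht.eventually (eventually_le_nhds
      (by positivity : (0 : ℝ) < ε / 2)))
    exact ⟨δ / 2, by positivity, fun v hv => hb (by rw [dist_zero_right]; linarith)⟩
  obtain ⟨δ, hδ, hb⟩ := hcont
  refine ⟨δ, hδ, fun v hv hdom => ?_⟩
  have i1 : Integrable (fun y => |h y - g y|) (mu e) :=
    ((integrable_of_bound hm hM).sub hgi).abs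
  have i2 : Integrable (fun y => |h (y + v) - g (y + v)|) (mu e) :=
    integrable_of_bound (by fun_prop) (M := M + ‖g‖) fun y => by
      rw [abs_abs]
      exact (abs_sub _ _).trans (add_le_add (hM _) (g.norm_coe_le_norm _))
  have i3 : Integrable (fun y => |g (y + v) - g y|) (mu e) :=
    integrable_of_bound (by fun_prop) (M := ‖g‖ + ‖g‖) fun y => by
      rw [abs_abs]
      exact (abs_sub _ _).trans (add_le_add (g.norm_coe_le_norm _) (g.norm_coe_le_norm _))
  have h1 : ∫ y, |h (y + v) - h y| ∂mu e ≤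
      ∫ y, (|h (y + v) - g (y + v)| + |g (y + v) - g y| + |h y - g y|) ∂mu e := by
    refine integral_mono_of_nonneg (ae_of_all _ fun _ => abs_nonneg _) ((i2.add i3).add i1)
      (ae_of_all _ fun y => ?_)
    have h1 := abs_sub_le (h (y + v)) (g (y + v)) (g y)
    have h2 := abs_sub_le (h (y + v)) (g y) (h y)
    rw [abs_sub_comm (g y) (h y)] at h2
    linarith
  have i23 : Integrable (fun y => |h (y + v) - g (y + v)| + |g (y + v) - g y|) (mu e) := i2.add i3
  rw [integral_add i23 i1, integral_add i2 i3] at h1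
  have h2 := integral_add_le_of_dom hdom (g := fun y => |h y - g y|) (by fun_prop)
    (fun _ => abs_nonneg _) i1
  have h3 : (Real.exp A + 1) * a ≤ ε / 2 := by
    refine (mul_le_mul_of_nonneg_left ha (by positivity)).trans_eq ?_
    field_simp
  linarith [hb v hv]

/-! ### The integrated difference quotient -/

lemma abs_integral_add_sub_le (he : Summable fun i => ‖e i‖) (i : ℕ) {t : ℝ} (ht : |t| ≤ 1)
    {g : X → ℝ} (hg : Measurable g) {B : ℝ} (hB : ∀ y, |g y| ≤ B) :
    |∫ y, g (y + t • e i) ∂mu e - ∫ y, g y ∂mu e| ≤ 4 * |t| * B := by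
  haveI := isProbabilityMeasure_mu he
  set v := t • e i
  have hB0 : 0 ≤ B := (abs_nonneg _).trans (hB 0)
  set G : X → ℝ := fun y => g y + B
  have hG0 : ∀ y, 0 ≤ G y := fun y => by linarith [(abs_le.1 (hB y)).1]
  have hG2 : ∀ y, |G y| ≤ 2 * B := fun y => by
    rw [abs_of_nonneg (hG0 y)]; linarith [(abs_le.1 (hB y)).2]
  have hGm : Measurable G := by fun_prop
  have hGi := integrable_of_bound (e := e) hGm hG2
  have hGv : Integrable (fun y => G (y + v)) (mu e) :=
    integrable_of_bound (by fun_prop) fun y => hG2 _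
  have h1 := integral_add_le_of_dom (dom_single he i t) hGm hG0 hGi
  have h2 := integral_add_le_of_dom (dom_single he i (-t)) (g := fun y => G (y + v)) (by fun_prop)
    (fun y => hG0 _) hGv
  simp only [neg_smul, v, neg_add_cancel_right, abs_neg] at h2
  have h3 := Real.abs_exp_sub_one_le (x := |t|) (by rwa [abs_abs])
  rw [abs_abs, abs_le] at h3
  have e1 : ∫ y, G (y + v) ∂mu e = ∫ y, g (y + v) ∂mu e + B := by
    rw [show (fun y => G (y + v)) = fun y => g (y + v) + B from rfl,
      integral_add (integrable_of_bound (by fun_prop) fun y => hB _) (integrable_const _)]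
    simp
  have e2 : ∫ y, G y ∂mu e = ∫ y, g y ∂mu e + B := by
    rw [show G = fun y => g y + B from rfl,
      integral_add (integrable_of_bound hg hB) (integrable_const _)]
    simp
  have b : ∀ u : ℝ, 0 ≤ u → u ≤ 2 * B → (Real.exp |t| - 1) * u ≤ 4 * |t| * B := fun u hu hu' => by
    refine (mul_le_mul h3.2 hu' hu (by positivity)).trans_eq ?_
    ring
  have u0 : 0 ≤ ∫ y, G y ∂mu e := integral_nonneg hG0
  have v0 : 0 ≤ ∫ y, G (y + v) ∂mu e := integral_nonneg fun y => hG0 _
  have bound : ∀ f : X → ℝ, (∀ y, 0 ≤ f y) → (∀ y, |f y| ≤ 2 * B) → Measurable f →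
      ∫ y, f y ∂mu e ≤ 2 * B := fun f _ hf hfm => by
    refine (integral_mono (integrable_of_bound hfm hf) (integrable_const _)
      fun y => (le_abs_self _).trans (hf y)).trans_eq ?_
    simp
  have b1 := b _ u0 (bound G hG0 hG2 hGm)
  have b2 := b _ v0 (bound _ (fun y => hG0 (y + v)) (fun y => hG2 _) (by fun_prop))
  rw [abs_le]
  constructor <;> linarith

/-- **Integration by parts for difference quotients.** -/
theorem abs_integral_quotient_le (he : Summable fun i => ‖e i‖) (i : ℕ) {U : Set X}
    {θ f : X → ℝ} {A r η : ℝ} {K : ℝ≥0} (hA : ∀ y, |θ y| ≤ A) (hK : LipschitzWith K θ)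
    (hU : ∀ y, θ y ≠ 0 → ball y r ⊆ U) (hf : Measurable f) (hη : 0 ≤ η)
    (hfU : ∀ y ∈ U, |f y| ≤ η) {t : ℝ} (ht0 : t ≠ 0) (ht : |t| ≤ 1) (htr : |t| * ‖e i‖ < r) :
    |∫ y, θ y * ((f (y + t • e i) - f y) / t) ∂mu e| ≤ (4 * A + K * ‖e i‖) * η := by
  haveI := isProbabilityMeasure_mu he
  set v := t • e i with hv
  have hA0 : 0 ≤ A := (abs_nonneg _).trans (hA 0)
  have hvn : ‖v‖ = |t| * ‖e i‖ := by rw [hv, norm_smul, Real.norm_eq_abs]
  have hr0 : 0 < r := lt_of_le_of_lt (by positivity) htr
  have hθm : Measurable θ := hK.continuous.measurable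
  have hin : ∀ y, θ (y - v) ≠ 0 → y ∈ U := fun y hy =>
    hU _ hy (by rw [mem_ball, dist_eq_norm, sub_sub_cancel, hvn]; exact htr)
  have hin0 : ∀ y, θ y ≠ 0 → y ∈ U := fun y hy => hU _ hy (mem_ball_self hr0)
  set g : X → ℝ := fun y => θ (y - v) * f y
  have hg : ∀ y, |g y| ≤ A * η := fun y => by
    rcases eq_or_ne (θ (y - v)) 0 with h | h
    · simp only [g, h, zero_mul, abs_zero]; positivity
    · simp only [g, abs_mul]
      exact mul_le_mul (hA _) (hfU y (hin y h)) (abs_nonneg _) hA0
  set k : X → ℝ := fun y => (θ (y - v) - θ y) * f y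
  have hk : ∀ y, |k y| ≤ K * (|t| * ‖e i‖) * η := fun y => by
    by_cases h : θ (y - v) = 0 ∧ θ y = 0
    · simp only [k, h.1, h.2, sub_zero, zero_mul, abs_zero]; positivity
    · have hy : y ∈ U := by
        rcases not_and_or.1 h with h | h
        · exact hin y h
        · exact hin0 y h
      simp only [k, abs_mul]
      refine mul_le_mul ?_ (hfU y hy) (abs_nonneg _) (by positivity)
      have := hK.norm_sub_le (y - v) y
      simpa [hvn] using this
  have hgm : Measurable g := by fun_prop
  have hkm : Measurable k := by fun_prop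
  have e0 : ∀ y, θ y * ((f (y + v) - f y) / t) = t⁻¹ * ((g (y + v) - g y) + k y) := fun y => by
    simp only [g, k, add_sub_cancel_right]
    ring
  have ig := integrable_of_bound (e := e) hgm hg
  have igv : Integrable (fun y => g (y + v)) (mu e) :=
    integrable_of_bound (by fun_prop) fun y => hg _
  have ik := integrable_of_bound (e := e) hkm hk
  simp_rw [e0]
  have igd : Integrable (fun y => g (y + v) - g y) (mu e) := igv.sub ig
  rw [integral_const_mul, integral_add igd ik, integral_sub igv ig, abs_mul, abs_inv]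
  have h1 := abs_integral_add_sub_le he i ht hgm hg
  have h2 : |∫ y, k y ∂mu e| ≤ K * (|t| * ‖e i‖) * η := by
    refine (abs_integral_le_integral_abs).trans ((integral_mono ik.abs (integrable_const _)
      hk).trans_eq ?_)
    simp
  calc |t|⁻¹ * |∫ y, g (y + v) ∂mu e - ∫ y, g y ∂mu e + ∫ y, k y ∂mu e|
      ≤ |t|⁻¹ * (4 * |t| * (A * η) + K * (|t| * ‖e i‖) * η) := by
        refine mul_le_mul_of_nonneg_left ?_ (by positivity)
        exact (abs_add_le _ _).trans (add_le_add h1 h2)
    _ = (4 * A + K * ‖e i‖) * η := by field_simp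

end Vale.Agent.P084.Full.Average
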