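import Vale.Agent.P084.Full.AverageDeriv

/-!
P084 (Tingley's problem), library for the general case: derivatives of averages along finite
combinations of the directions, and their bounds by one-sided difference quotients.
-/

namespace Vale.Agent.P084.Full.Average

open MeasureTheory Filter Topology Set Metric
open scoped NNReal

variable {X : Type*} [NormedAddCommGroup X] [NormedSpace ℝ X] [CompleteSpace X] {e : ℕ → X}

omit [NormedSpace ℝ X] [CompleteSpace X] in
lemma add_mem_closedBall' {z y w : X} {a r : ℝ} (hy : y ∈ closedBall z a) (hw : ‖w‖ + a ≤ r) :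
    y + w ∈ closedBall z r := by
  rw [mem_closedBall_iff_norm] at hy ⊢
  rw [show y + w - z = (y - z) + w by abel]
  linarith [norm_add_le (y - z) w]

lemma Av_add (he : Summable fun i => ‖e i‖) {d : ℝ} {h h' : X → ℝ} {z : X}
    (hh : ContinuousOn h (closedBall z (|d| * rad e)))
    (hh' : ContinuousOn h' (closedBall z (|d| * rad e))) :
    Av (step d e) (fun y => h y + h' y) z = Av (step d e) h z + Av (step d e) h' z := by
  rw [Av_eq_WAv, Av_eq_WAv, Av_eq_WAv, WAv_add (summable_step he d)
    (hh.mono (closedBall_step_subset he le_rfl z)) (hh'.mono (closedBall_step_subset he le_rfl z))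
    (integrable_const _)]

/-- The average of the difference quotient along a finite combination of the directions tends to
the combination of the derivatives of the average. -/
theorem tendsto_combo (he : Summable fun i => ‖e i‖) {d : ℝ} (hd : d ≠ 0) {h : X → ℝ} {z : X}
    {r : ℝ} {K : ℝ≥0} (hh : LipschitzOnWith K h (closedBall z r)) (hr : |d| * rad e < r)
    (c : ℕ → ℝ) (S : Finset ℕ) :
    Tendsto (fun t : ℝ => Av (step d e)
      (fun y => t⁻¹ * (h (y + t • ∑ i ∈ S, c i • e i) - h y)) z) (𝓝[≠] 0)
      (𝓝 (∑ i ∈ S, c i * dAv e d i h z)) := by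
  classical
  induction S using Finset.induction_on with
  | empty => simp [Av]
  | @insert j S hj ih =>
    set v := ∑ i ∈ S, c i • e i with hv
    have hcont := hh.continuousOn
    have hroom : 0 < r - |d| * rad e := by linarith
    set g : X → ℝ := Av (step d e) h with hg
    have hD : Tendsto (fun t : ℝ => t⁻¹ * (g (z + (t * c j) • e j) - g z)) (𝓝[≠] 0)
        (𝓝 (c j * dAv e d j h z)) := by
      have hA : HasDerivAt (fun t : ℝ => g (z + t • e j)) (dAv e d j h z) 0 :=
        hasDerivAt_Av_step he hd j hr hcont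
      have hlin : HasDerivAt (fun t : ℝ => t * c j) (c j) 0 := by
        simpa using (hasDerivAt_id (0 : ℝ)).mul_const (c j)
      have h1 := hA.comp_of_eq 0 hlin (by simp)
      rw [mul_comm] at h1
      refine h1.tendsto_slope_zero.congr fun t => ?_
      simp
    -- the mixed second difference is quadratically small
    set M : ℝ := 2 / (|d| * (1 / 2 : ℝ) ^ j) * (K * ‖v‖) with hM
    have hsmall : ∀ᶠ t : ℝ in 𝓝[≠] 0,
        |t| * (‖v‖ + |c j| * ‖e j‖) + |d| * rad e < r := by
      refine nhdsWithin_le_nhds ((Continuous.tendsto' (f := fun t : ℝ =>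
        |t| * (‖v‖ + |c j| * ‖e j‖) + |d| * rad e) (by fun_prop) 0 (|d| * rad e) (by simp)).eventually
        (eventually_lt_nhds hr))
    have hmix : ∀ᶠ t : ℝ in 𝓝[≠] 0,
        ‖t⁻¹ * ((g (z + t • v + (t * c j) • e j) - g (z + t • v)) -
          (g (z + (t * c j) • e j) - g z))‖ ≤ M * |c j| * |t| := by
      filter_upwards [hsmall, self_mem_nhdsWithin] with t ht (ht0 : t ≠ 0)
      have hbv : ‖t • v‖ = |t| * ‖v‖ := by rw [norm_smul, Real.norm_eq_abs]
      have hder : ∀ s ∈ uIcc (0 : ℝ) (t * c j), HasDerivWithinAt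
          (fun s : ℝ => g (z + t • v + s • e j) - g (z + s • e j))
          (dAv e d j h (z + t • v + s • e j) - dAv e d j h (z + s • e j))
          (uIcc 0 (t * c j)) s ∧
          ‖dAv e d j h (z + t • v + s • e j) - dAv e d j h (z + s • e j)‖ ≤ M * |t| := by
        intro s hs
        have hsn : ‖s • e j‖ ≤ |t| * (|c j| * ‖e j‖) := by
          have hs1 : |s| ≤ |t * c j| := by
            have := Set.abs_sub_left_of_mem_uIcc hs
            simpa using this
          rw [abs_mul] at hs1
          rw [norm_smul, Real.norm_eq_abs, ← mul_assoc]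
          exact mul_le_mul_of_nonneg_right hs1 (norm_nonneg _)
        have hpt : ∀ w : X, ‖w‖ + |d| * rad e < r → ∀ u, HasDerivAt
            (fun s' : ℝ => g (z + w + (s' - u) • e j)) (dAv e d j h (z + w)) u := by
          intro w hw u
          have hc' : ContinuousOn h (closedBall (z + w) (r - ‖w‖)) :=
            hcont.mono (closedBall_subset_closedBall' (by simp))
          have h1 := hasDerivAt_Av_step he hd j (z := z + w) (r := r - ‖w‖) (by linarith) hc'
          have h2 := HasDerivAt.comp_sub_const u u (f := fun s : ℝ => g (z + w + s • e j))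
            (by rw [sub_self]; exact h1)
          exact h2
        have hn0 : 0 ≤ |t| * ‖v‖ := by positivity
        have hw2 : ‖s • e j‖ + |d| * rad e < r := by linarith
        have hw1 : ‖t • v + s • e j‖ + |d| * rad e < r := by
          linarith [norm_add_le (t • v) (s • e j)]
        have a := (hpt _ hw1 s).sub (hpt _ hw2 s)
        rw [show z + (t • v + s • e j) = z + t • v + s • e j by abel] at a
        refine ⟨(a.congr_of_eventuallyEq (Eventually.of_forall fun s' => ?_)).hasDerivWithinAt, ?_⟩
        · show g (z + t • v + s' • e j) - g (z + s' • e j) =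
            g (z + t • v + s • e j + (s' - s) • e j) - g (z + s • e j + (s' - s) • e j)
          congr 2 <;> module
        set w := z + s • e j with hw
        have hb1 : closedBall w (|d| * rad e) ⊆ closedBall z r :=
          closedBall_subset_closedBall' (by simp [hw]; linarith)
        have hb2 : ∀ y ∈ closedBall w (|d| * rad e), y + t • v ∈ closedBall z r := fun y hy => by
          have h1 := add_mem_closedBall' (w := t • v) hy le_rfl
          refine closedBall_subset_closedBall' ?_ h1
          simp [hw, hbv]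
          linarith
        have e1 : dAv e d j h (z + t • v + s • e j) = dAv e d j (fun y => h (y + t • v)) w := by
          rw [show z + t • v + s • e j = w + t • v by rw [hw]; abel, dAv, dAv, WAv_shift]
        have hc2 : ContinuousOn (fun y => h (y + t • v)) (closedBall w (|d| * rad e)) :=
          hcont.comp (continuous_add_const _).continuousOn hb2
        rw [e1, ← dAv_sub he hc2 (hcont.mono hb1)]
        refine (norm_dAv_le he (M := K * (|t| * ‖v‖)) (by positivity) fun y hy => ?_).trans_eq
          (by rw [hM]; ring)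
        have := hh.dist_le_mul _ (hb2 y hy) _ (hb1 hy)
        rwa [dist_eq_norm, dist_eq_norm, add_sub_cancel_left, hbv] at this
      have h3 := (convex_uIcc (0 : ℝ) (t * c j)).norm_image_sub_le_of_norm_hasDerivWithin_le
        (fun s hs => (hder s hs).1) (fun s hs => (hder s hs).2) left_mem_uIcc right_mem_uIcc
      simp only [zero_smul, add_zero, sub_zero, Real.norm_eq_abs, abs_mul] at h3
      rw [Real.norm_eq_abs, abs_mul, abs_inv, inv_mul_le_iff₀ (abs_pos.2 ht0)]
      refine le_of_eq_of_le ?_ (h3.trans_eq (by ring))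
      congr 1
      ring
    have hmix0 : Tendsto (fun t : ℝ => t⁻¹ * ((g (z + t • v + (t * c j) • e j) - g (z + t • v)) -
        (g (z + (t * c j) • e j) - g z))) (𝓝[≠] 0) (𝓝 0) :=
      squeeze_zero_norm' hmix ((Continuous.tendsto' (f := fun t : ℝ => M * |c j| * |t|)
        (by fun_prop) 0 0 (by simp)).mono_left nhdsWithin_le_nhds)
    have hall := (ih.add (hD.add hmix0))
    rw [add_zero, add_comm (∑ i ∈ S, _)] at hall
    rw [Finset.sum_insert hj, Finset.sum_insert hj]
    refine hall.congr' ?_
    filter_upwards [hsmall] with t ht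
    have hbv : ‖t • v‖ = |t| * ‖v‖ := by rw [norm_smul, Real.norm_eq_abs]
    have hbj : ‖(t * c j) • e j‖ = |t| * (|c j| * ‖e j‖) := by
      rw [norm_smul, Real.norm_eq_abs, abs_mul, mul_assoc]
    have hn0 : 0 ≤ |t| * ‖v‖ := by positivity
    have hn1 : 0 ≤ |t| * (|c j| * ‖e j‖) := by positivity
    have c1 : ContinuousOn (fun y => h (y + t • v)) (closedBall z (|d| * rad e)) :=
      continuousOn_shift hcont (by linarith)
    have c2 : ContinuousOn (fun y => h (y + (t • v + (t * c j) • e j)))
        (closedBall z (|d| * rad e)) :=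
      continuousOn_shift hcont (by linarith [norm_add_le (t • v) ((t * c j) • e j)])
    have c0 : ContinuousOn h (closedBall z (|d| * rad e)) :=
      hcont.mono (closedBall_subset_closedBall hr.le)
    have hquot : ∀ (w : X), ContinuousOn (fun y => h (y + w)) (closedBall z (|d| * rad e)) →
        Av (step d e) (fun y => t⁻¹ * (h (y + w) - h y)) z = t⁻¹ * (g (z + w) - g z) := by
      intro w cw
      rw [hg, Av_shift]
      simp only [Av_eq_WAv, ← smul_eq_mul]
      rw [WAv_smul, WAv_sub (summable_step he d) (cw.mono (closedBall_step_subset he le_rfl z))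
        (c0.mono (closedBall_step_subset he le_rfl z)) (integrable_const _)]
    rw [← hv, smul_add, smul_smul, add_comm ((t * c j) • e j) (t • v), hquot _ c1, hquot _ c2]
    simp only [add_assoc]
    ring

/-- A one-sided bound of the difference quotients bounds the derivative of the average. -/
theorem combo_le (he : Summable fun i => ‖e i‖) {d : ℝ} (hd : d ≠ 0) {h : X → ℝ} {z : X} {r : ℝ}
    {K : ℝ≥0} (hh : LipschitzOnWith K h (closedBall z r)) (hr : |d| * rad e < r) (c : ℕ → ℝ)
    (S : Finset ℕ) {B : (ℕ → ℝ) → ℝ} (hB : Integrable B P)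
    (hq : ∀ᵐ w ∂P, ∀ ε : ℝ, 0 < ε → ∀ᶠ t in 𝓝[>] (0 : ℝ),
      h (z + Sh (step d e) w + t • ∑ i ∈ S, c i • e i) - h (z + Sh (step d e) w) ≤
        t * (B w + ε)) :
    ∑ i ∈ S, c i * dAv e d i h z ≤ ∫ w, B w ∂P := by
  set v := ∑ i ∈ S, c i • e i with hv
  have hst := summable_step he d
  have hlim := (tendsto_combo he hd hh hr c S).mono_left
    (nhdsWithin_mono _ (show Ioi (0 : ℝ) ⊆ {0}ᶜ from fun t ht => ne_of_gt ht))
  set F : ℝ → (ℕ → ℝ) → ℝ := fun t w =>
    t⁻¹ * (h (z + Sh (step d e) w + t • v) - h (z + Sh (step d e) w)) with hF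
  have hsmall : ∀ᶠ t : ℝ in 𝓝[>] 0, |t| * ‖v‖ + |d| * rad e < r :=
    nhdsWithin_le_nhds ((Continuous.tendsto' (f := fun t : ℝ => |t| * ‖v‖ + |d| * rad e)
      (by fun_prop) 0 (|d| * rad e) (by simp)).eventually (eventually_lt_nhds hr))
  have hmem : ∀ w, z + Sh (step d e) w ∈ closedBall z r := fun w =>
    closedBall_step_subset he hr.le z (mem_closedBall_Sh hst z w)
  have hFb : ∀ᶠ t in 𝓝[>] (0 : ℝ), Integrable (F t) P ∧ ∀ w, |F t w| ≤ K * ‖v‖ := by
    filter_upwards [hsmall, self_mem_nhdsWithin] with t ht (ht0 : 0 < t)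
    have hm2 : ∀ w, z + Sh (step d e) w + t • v ∈ closedBall z r := fun w =>
      add_mem_closedBall' (closedBall_step_subset he le_rfl z (mem_closedBall_Sh hst z w))
        (by rw [norm_smul, Real.norm_eq_abs]; linarith)
    have hb : ∀ w, |F t w| ≤ K * ‖v‖ := fun w => by
      have := hh.dist_le_mul _ (hm2 w) _ (hmem w)
      rw [Real.dist_eq, dist_eq_norm, add_sub_cancel_left, norm_smul, Real.norm_of_nonneg ht0.le]
        at this
      rw [hF, abs_mul, abs_inv, abs_of_pos ht0, inv_mul_le_iff₀ ht0]
      linarith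
    refine ⟨Integrable.of_bound ?_ (K * ‖v‖) (ae_of_all _ hb), hb⟩
    have hS := continuous_Sh hst
    exact (continuous_const.mul
      ((hh.continuousOn.comp_continuous (by fun_prop) hm2).sub
        (hh.continuousOn.comp_continuous (by fun_prop) hmem))).aestronglyMeasurable
  set G : ℝ → (ℕ → ℝ) → ℝ := fun t w => max (F t w - B w) 0 with hG
  have hG0 : Tendsto (fun t => ∫ w, G t w ∂P) (𝓝[>] 0) (𝓝 (∫ _w, (0 : ℝ) ∂P)) := by
    refine tendsto_integral_filter_of_dominated_convergence (fun w => K * ‖v‖ + |B w|) ?_ ?_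
      ((integrable_const _).add hB.abs) ?_
    · filter_upwards [hFb] with t ht
      exact ((ht.1.sub hB).pos_part).aestronglyMeasurable
    · filter_upwards [hFb] with t ht
      filter_upwards with w
      rw [hG, Real.norm_of_nonneg (le_max_right _ _)]
      refine max_le ?_ (by positivity)
      linarith [(abs_le.1 (ht.2 w)).2, neg_abs_le (B w)]
    · filter_upwards [hq] with w hw
      refine tendsto_order.2 ⟨fun a ha => Eventually.of_forall fun t =>
        lt_of_lt_of_le ha (le_max_right _ _), fun a ha => ?_⟩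
      filter_upwards [hw (a / 2) (half_pos ha), self_mem_nhdsWithin] with t ht (ht0 : 0 < t)
      refine max_lt ?_ ha
      rw [hF]
      have := (inv_mul_le_iff₀ ht0).2 ht
      linarith
  rw [integral_zero] at hG0
  have hle : ∀ᶠ t in 𝓝[>] (0 : ℝ),
      Av (step d e) (fun y => t⁻¹ * (h (y + t • v) - h y)) z ≤
        (∫ w, B w ∂P) + ∫ w, G t w ∂P := by
    filter_upwards [hFb] with t ht
    have hGi : Integrable (G t) P := (ht.1.sub hB).pos_part
    rw [← integral_add hB hGi]
    refine integral_mono ht.1 (hB.add hGi) fun w => ?_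
    show F t w ≤ B w + max (F t w - B w) 0
    linarith [le_max_left (F t w - B w) 0]
  simpa using le_of_tendsto_of_tendsto hlim (hG0.const_add (∫ w, B w ∂P)) hle

/-- A two-sided bound of the difference quotients. -/
theorem abs_combo_le (he : Summable fun i => ‖e i‖) {d : ℝ} (hd : d ≠ 0) {h : X → ℝ} {z : X}
    {r : ℝ} {K : ℝ≥0} (hh : LipschitzOnWith K h (closedBall z r)) (hr : |d| * rad e < r)
    (c : ℕ → ℝ) (S : Finset ℕ) :
    |∑ i ∈ S, c i * dAv e d i h z| ≤ K * ‖∑ i ∈ S, c i • e i‖ := by
  set v := ∑ i ∈ S, c i • e i with hv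
  refine le_of_tendsto (tendsto_combo he hd hh hr c S).abs ?_
  filter_upwards [nhdsWithin_le_nhds ((Continuous.tendsto'
    (f := fun t : ℝ => |t| * ‖v‖ + |d| * rad e) (by fun_prop) 0 (|d| * rad e) (by simp)).eventually
    (eventually_lt_nhds hr)), self_mem_nhdsWithin] with t ht (ht0 : t ≠ 0)
  rw [← Real.norm_eq_abs]
  refine norm_Av_le (summable_step he d) fun y hy => ?_
  have hy' := closedBall_step_subset he le_rfl z hy
  have := hh.dist_le_mul _ (add_mem_closedBall' (w := t • v) hy'
    (by rw [norm_smul, Real.norm_eq_abs]; linarith)) _ (closedBall_step_subset he hr.le z hy)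
  rw [dist_eq_norm, dist_eq_norm, add_sub_cancel_left, norm_smul] at this
  rw [norm_mul, norm_inv, inv_mul_le_iff₀ (norm_pos_iff.2 ht0)]
  linarith

/-- If the line derivative along `e i` exists at almost every point of the shifts, the derivative
of the average is the average of the derivative. -/
theorem dAv_eq_integral (he : Summable fun i => ‖e i‖) {d : ℝ} (hd : d ≠ 0) {h : X → ℝ} {z : X}
    {r : ℝ} {K : ℝ≥0} (hh : LipschitzOnWith K h (closedBall z r)) (hr : |d| * rad e < r) (i : ℕ)
    {g : (ℕ → ℝ) → ℝ} (hg : Integrable g P)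
    (hder : ∀ᵐ w ∂P, HasLineDerivAt ℝ h (g w) (z + Sh (step d e) w) (e i)) :
    dAv e d i h z = ∫ w, g w ∂P := by
  have key : ∀ σ : ℝ, σ * dAv e d i h z ≤ ∫ w, σ * g w ∂P := by
    intro σ
    have := combo_le he hd hh hr (fun _ => σ) {i} (hg.const_mul σ) ?_
    · simpa using this
    filter_upwards [hder] with w hw ε hε
    set y := z + Sh (step d e) w
    have hd' : HasDerivAt (fun t : ℝ => h (y + (σ * t) • e i)) (σ * g w) 0 := by
      have h1 : HasDerivAt (fun t : ℝ => σ * t) σ 0 := by
        simpa using (hasDerivAt_id (0 : ℝ)).const_mul σ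
      rw [mul_comm σ]
      exact HasDerivAt.comp_of_eq (h₂ := fun t : ℝ => h (y + t • e i)) 0 hw h1 (by simp)
    have hsl := (hasDerivAt_iff_tendsto_slope.1 hd').mono_left
      (nhdsWithin_mono _ (show Ioi (0 : ℝ) ⊆ {0}ᶜ from fun t ht => ne_of_gt ht))
    filter_upwards [hsl.eventually (eventually_le_nhds (lt_add_of_pos_right _ hε)),
      self_mem_nhdsWithin] with t ht (ht0 : 0 < t)
    rw [slope_def_field, sub_zero, mul_zero, zero_smul, add_zero, div_le_iff₀ ht0] at ht
    simp only [Finset.sum_singleton, smul_smul]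
    rw [mul_comm t σ]
    linarith
  have h1 := key 1
  have h2 := key (-1)
  simp only [one_mul, neg_mul, neg_le_neg_iff, integral_neg] at h1 h2
  linarith

end Vale.Agent.P084.Full.Average
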