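import Vale.Agent.P084.Full.Approx
import Mathlib.Analysis.Normed.Operator.Extend

/-!
P084 (Tingley's problem), general case: the limit of the averaged second derivatives at one
point forms second order data on the tangent hyperplane.
-/

noncomputable section

set_option linter.unusedSectionVars false

namespace Vale.Agent.P084.Full

open Filter Topology Orbit

variable {X Y : Type*} [NormedAddCommGroup X] [NormedSpace ℝ X] [NormedAddCommGroup Y]
  [NormedSpace ℝ Y] {f : PIso X Y} {e : ℕ → X} {z : X} {Q : X →L[ℝ] X →L[ℝ] ℝ}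

/-- The ultrafilter along which limits are taken. -/
abbrev limF : Filter ℕ := ((Filter.hyperfilter ℕ : Ultrafilter ℕ) : Filter ℕ)

namespace Approx

variable (A : Approx f e z Q)



/-- A bound for the approximations. -/
def K : ℝ := max A.bound.choose 0

lemma K_nonneg : 0 ≤ A.K := le_max_right _ _

lemma bound_K (c : ℕ →₀ ℝ) (b : X) (φ : Y →L[ℝ] ℝ) {ε : ℝ} (hε : 0 < ε) : ∀ᶠ n in atTop,
    |∑ i ∈ c.support, c i * A.T n i b φ| ≤
      A.K * ‖∑ i ∈ c.support, c i • e i‖ * ‖b‖ * ‖φ‖ + ε :=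
  (A.bound.choose_spec c b φ ε hε).mono fun n hn => hn.trans (by
    gcongr; exact le_max_left _ _)

/-- The limit along the chosen ultrafilter. -/
def lim (i : ℕ) (b : X) (φ : Y →L[ℝ] ℝ) : ℝ := limUnder limF fun n => A.T n i b φ

lemma tendsto_lim (i : ℕ) (b : X) (φ : Y →L[ℝ] ℝ) :
    Tendsto (fun n => A.T n i b φ) limF (𝓝 (A.lim i b φ)) := by
  classical
  refine tendsto_nhds_limUnder ?_
  set C := A.K * ‖e i‖ * ‖b‖ * ‖φ‖ + 1
  have h : ∀ᶠ n in limF, A.T n i b φ ∈ Set.Icc (-C) C := by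
    refine Eventually.filter_mono Nat.hyperfilter_le_atTop
      ((A.bound_K (Finsupp.single i 1) b φ one_pos).mono fun n hn => ?_)
    simp only [Finsupp.support_single i (one_ne_zero (α := ℝ)), Finset.sum_singleton,
      Finsupp.single_eq_same, one_mul, one_smul] at hn
    exact abs_le.1 hn
  obtain ⟨l, -, hl⟩ := isCompact_Icc.ultrafilter_le_nhds
    (Ultrafilter.map (fun n => A.T n i b φ) (Filter.hyperfilter ℕ)) (le_principal_iff.2 h)
  exact ⟨l, hl⟩

lemma lim_eq {i : ℕ} {b : X} {φ : Y →L[ℝ] ℝ} {l : ℝ}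
    (h : Tendsto (fun n => A.T n i b φ) atTop (𝓝 l)) : A.lim i b φ = l :=
  tendsto_nhds_unique (A.tendsto_lim i b φ) (h.mono_left Nat.hyperfilter_le_atTop)

/-- The limit on finite combinations of the directions. -/
def lam (b : X) (φ : Y →L[ℝ] ℝ) : (ℕ →₀ ℝ) →ₗ[ℝ] ℝ :=
  Finsupp.linearCombination ℝ fun i => A.lim i b φ

lemma lam_apply (b : X) (φ : Y →L[ℝ] ℝ) (c : ℕ →₀ ℝ) :
    A.lam b φ c = ∑ i ∈ c.support, c i * A.lim i b φ := by
  simp [lam, Finsupp.linearCombination_apply, Finsupp.sum]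

lemma lam_single (b : X) (φ : Y →L[ℝ] ℝ) (i : ℕ) :
    A.lam b φ (Finsupp.single i 1) = A.lim i b φ := by
  simp [lam]

lemma tendsto_lam (c : ℕ →₀ ℝ) (b : X) (φ : Y →L[ℝ] ℝ) :
    Tendsto (fun n => ∑ i ∈ c.support, c i * A.T n i b φ) limF (𝓝 (A.lam b φ c)) := by
  rw [lam_apply]
  exact tendsto_finsetSum _ fun i _ => (A.tendsto_lim i b φ).const_mul _

/-- Finite combinations of the directions. -/
def ev (e : ℕ → X) : (ℕ →₀ ℝ) →ₗ[ℝ] X := Finsupp.linearCombination ℝ e

omit [NormedAddCommGroup Y] [NormedSpace ℝ Y] in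
lemma ev_apply (c : ℕ →₀ ℝ) : ev e c = ∑ i ∈ c.support, c i • e i := by
  simp [ev, Finsupp.linearCombination_apply, Finsupp.sum]

omit [NormedAddCommGroup Y] [NormedSpace ℝ Y] in
lemma denseRange_ev (hd : Dense (Submodule.span ℝ (Set.range e) : Set X)) :
    DenseRange (ev e) := by
  rw [DenseRange, ← LinearMap.coe_range, ev, Finsupp.range_linearCombination]
  exact hd

omit [NormedAddCommGroup Y] [NormedSpace ℝ Y] in
/-- Continuous functions agreeing on the combinations agree. -/
lemma eq_of_ev (hd : Dense (Submodule.span ℝ (Set.range e) : Set X)) {F G : X → ℝ}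
    (hF : Continuous F) (hG : Continuous G) (h : ∀ c, F (ev e c) = G (ev e c)) (a : X) :
    F a = G a :=
  congrFun ((denseRange_ev hd).equalizer hF hG (funext h)) a

lemma abs_lam_le (c : ℕ →₀ ℝ) (b : X) (φ : Y →L[ℝ] ℝ) :
    ‖A.lam b φ c‖ ≤ A.K * ‖b‖ * ‖φ‖ * ‖ev e c‖ := by
  rw [Real.norm_eq_abs]
  refine le_of_forall_pos_le_add fun ε hε => ?_
  refine le_of_tendsto (A.tendsto_lam c b φ).abs
    (Eventually.filter_mono Nat.hyperfilter_le_atTop ((A.bound_K c b φ hε).mono fun n hn => ?_))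
  rw [ev_apply]
  linarith

/-- The limit as a functional of the first direction. -/
def form (b : X) (φ : Y →L[ℝ] ℝ) : X →L[ℝ] ℝ := (A.lam b φ).extendOfNorm (ev e)

variable (hd : Dense (Submodule.span ℝ (Set.range e) : Set X))

include hd

lemma form_ev (b : X) (φ : Y →L[ℝ] ℝ) (c : ℕ →₀ ℝ) : A.form b φ (ev e c) = A.lam b φ c :=
  LinearMap.extendOfNorm_eq (denseRange_ev hd) ⟨_, fun x => A.abs_lam_le x b φ⟩ c

lemma form_e (b : X) (φ : Y →L[ℝ] ℝ) (i : ℕ) : A.form b φ (e i) = A.lim i b φ := by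
  have h := A.form_ev hd b φ (Finsupp.single i 1)
  rwa [ev, Finsupp.linearCombination_single, one_smul, lam_single] at h

lemma abs_form_le (a b : X) (φ : Y →L[ℝ] ℝ) : |A.form b φ a| ≤ A.K * ‖a‖ * ‖b‖ * ‖φ‖ := by
  have h : ‖(A.lam b φ).extendOfNorm (ev e) a‖ ≤ A.K * ‖b‖ * ‖φ‖ * ‖a‖ :=
    LinearMap.norm_extendOfNorm_apply_le (denseRange_ev hd) _ (fun x => A.abs_lam_le x b φ) a
  rw [Real.norm_eq_abs] at h
  exact h.trans_eq (by ring)

omit hd in
lemma lim_lin_b (i : ℕ) (φ : Y →L[ℝ] ℝ) (a b : X) (r : ℝ) :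
    A.lim i (a + r • b) φ = A.lim i a φ + r * A.lim i b φ := by
  have h := tendsto_nhds_unique (((A.tendsto_lim i (a + r • b) φ).sub (A.tendsto_lim i a φ)).sub
    ((A.tendsto_lim i b φ).const_mul r)) ((A.lin_b i φ a b r).mono_left Nat.hyperfilter_le_atTop)
  linarith

omit hd in
lemma lim_lin_φ (i : ℕ) (b : X) (φ ψ : Y →L[ℝ] ℝ) (r : ℝ) :
    A.lim i b (φ + r • ψ) = A.lim i b φ + r * A.lim i b ψ := by
  have h := tendsto_nhds_unique (((A.tendsto_lim i b (φ + r • ψ)).sub (A.tendsto_lim i b φ)).sub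
    ((A.tendsto_lim i b ψ).const_mul r)) ((A.lin_φ i b φ ψ r).mono_left Nat.hyperfilter_le_atTop)
  linarith

lemma form_lin_b (φ : Y →L[ℝ] ℝ) (a b x : X) (r : ℝ) :
    A.form (a + r • b) φ x = A.form a φ x + r * A.form b φ x := by
  refine eq_of_ev hd (F := fun y => A.form (a + r • b) φ y)
    (G := fun y => A.form a φ y + r * A.form b φ y) (by fun_prop) (by fun_prop) (fun c => ?_) x
  simp only [A.form_ev hd, lam_apply, lim_lin_b, mul_add, Finset.sum_add_distrib, Finset.mul_sum]
  congr 1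
  exact Finset.sum_congr rfl fun i _ => by ring

lemma form_lin_φ (b x : X) (φ ψ : Y →L[ℝ] ℝ) (r : ℝ) :
    A.form b (φ + r • ψ) x = A.form b φ x + r * A.form b ψ x := by
  refine eq_of_ev hd (F := fun y => A.form b (φ + r • ψ) y)
    (G := fun y => A.form b φ y + r * A.form b ψ y) (by fun_prop) (by fun_prop) (fun c => ?_) x
  simp only [A.form_ev hd, lam_apply, lim_lin_φ, mul_add, Finset.sum_add_distrib, Finset.mul_sum]
  congr 1
  exact Finset.sum_congr rfl fun i _ => by ring

/-- The limit as a bounded linear functional of the second direction. -/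
def formB (x : X) (φ : Y →L[ℝ] ℝ) : X →L[ℝ] ℝ :=
  LinearMap.mkContinuous
    (IsLinearMap.mk' (fun b => A.form b φ x)
      { map_add := fun a b => by simpa using A.form_lin_b hd φ a b x 1
        map_smul := fun r b => by
          have h0 : A.form (0 : X) φ x = 0 := by
            have := A.abs_form_le hd x 0 φ
            simpa using this
          simpa [h0] using A.form_lin_b hd φ 0 b x r })
    (A.K * ‖x‖ * ‖φ‖)
    fun b => by
      simpa [Real.norm_eq_abs, mul_comm, mul_left_comm, mul_assoc] using A.abs_form_le hd x b φ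

lemma formB_apply (x b : X) (φ : Y →L[ℝ] ℝ) : A.formB hd x φ b = A.form b φ x := rfl

lemma form_symm_e (x : X) (j : ℕ) (φ : Y →L[ℝ] ℝ) : A.form (e j) φ x = A.form x φ (e j) := by
  rw [← A.formB_apply hd (e j) x φ]
  refine eq_of_ev hd (by fun_prop) (by fun_prop) (fun c => ?_) x
  rw [A.form_ev hd, lam_apply, ev_apply, map_sum]
  refine Finset.sum_congr rfl fun i _ => ?_
  rw [map_smul, smul_eq_mul, formB_apply, A.form_e hd]
  congr 1
  have h := tendsto_nhds_unique ((A.tendsto_lim i (e j) φ).sub (A.tendsto_lim j (e i) φ))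
    ((A.symm i j φ).mono_left Nat.hyperfilter_le_atTop)
  linarith

lemma form_symm (a b : X) (φ : Y →L[ℝ] ℝ) : A.form b φ a = A.form a φ b := by
  rw [← A.formB_apply hd a b φ]
  refine eq_of_ev hd (by fun_prop) (by fun_prop) (fun c => ?_) b
  rw [ev_apply, map_sum, map_sum]
  refine Finset.sum_congr rfl fun i _ => ?_
  rw [map_smul, map_smul, formB_apply, A.form_symm_e hd]

lemma form_radial (a : X) (φ : Y →L[ℝ] ℝ) : A.form z φ a = 0 := by
  refine eq_of_ev hd (F := fun x => A.form z φ x) (G := fun _ => (0 : ℝ)) (by fun_prop)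
    continuous_const (fun c => ?_) a
  rw [A.form_ev hd, lam_apply]
  exact Finset.sum_eq_zero fun i _ => by rw [A.lim_eq (A.radial i φ), mul_zero]

lemma form_t3 (a b : X) : A.form b (dNorm (f.G z)) a = 0 := by
  refine eq_of_ev hd (F := fun x => A.form b (dNorm (f.G z)) x) (G := fun _ => (0 : ℝ))
    (by fun_prop) continuous_const (fun c => ?_) a
  rw [A.form_ev hd, lam_apply]
  exact Finset.sum_eq_zero fun i _ => by rw [A.lim_eq (A.t3 i b), mul_zero]

omit hd in
lemma formFun_add (a a' : X) : formFun f z Q (a + a') = formFun f z Q a + formFun f z Q a' := by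
  ext w; simp [formFun]

omit hd in
lemma formFun_smul (r : ℝ) (a : X) : formFun f z Q (r • a) = r • formFun f z Q a := by
  ext w; simp [formFun]

omit hd in
lemma norm_formFun_le (a : X) :
    ‖formFun f z Q a‖ ≤ ‖Q‖ * ‖fderiv ℝ f.Gi (f.G z)‖ * ‖a‖ :=
  (ContinuousLinearMap.opNorm_comp_le _ _).trans
    ((mul_le_mul_of_nonneg_right (Q.le_opNorm a) (norm_nonneg _)).trans_eq (by ring))

/-- The limit against the functionals of the second form, as a functional of that direction. -/
def formQ (b c : X) : X →L[ℝ] ℝ :=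
  LinearMap.mkContinuous
    (IsLinearMap.mk' (fun a => A.form c (formFun f z Q a) b)
      { map_add := fun a a' => by
          simpa [formFun_add] using A.form_lin_φ hd c b (formFun f z Q a) (formFun f z Q a') 1
        map_smul := fun r a => by
          have h0 : A.form c (0 : Y →L[ℝ] ℝ) b = 0 := by
            have := A.abs_form_le hd b c (0 : Y →L[ℝ] ℝ)
            simpa using this
          simpa [formFun_smul, h0] using A.form_lin_φ hd c b 0 (formFun f z Q a) r })
    (A.K * ‖b‖ * ‖c‖ * (‖Q‖ * ‖fderiv ℝ f.Gi (f.G z)‖))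
    fun a => by
      refine (A.abs_form_le hd b c (formFun f z Q a)).trans ?_
      rw [mul_assoc (A.K * ‖b‖ * ‖c‖)]
      exact mul_le_mul_of_nonneg_left (norm_formFun_le a)
        (by have := A.K_nonneg; positivity)

lemma formQ_apply (a b c : X) : A.formQ hd b c a = A.form c (formFun f z Q a) b := rfl

lemma form_total_e (a c : X) (j : ℕ) :
    A.form c (formFun f z Q a) (e j) = A.form c (formFun f z Q (e j)) a := by
  rw [← A.formQ_apply hd a (e j) c]
  refine eq_of_ev hd (by fun_prop) (by fun_prop) (fun x => ?_) a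
  rw [A.form_ev hd, lam_apply, ev_apply, map_sum]
  refine Finset.sum_congr rfl fun i _ => ?_
  rw [map_smul, smul_eq_mul, formQ_apply, A.form_e hd]
  congr 1
  have h := tendsto_nhds_unique ((A.tendsto_lim j c (formFun f z Q (e i))).sub
    (A.tendsto_lim i c (formFun f z Q (e j)))) ((A.total i j c).mono_left Nat.hyperfilter_le_atTop)
  linarith

lemma form_total (a b c : X) :
    A.form c (formFun f z Q a) b = A.form c (formFun f z Q b) a := by
  rw [← A.formQ_apply hd b a c]
  refine eq_of_ev hd (by fun_prop) (by fun_prop) (fun x => ?_) b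
  rw [ev_apply, map_sum, map_sum]
  refine Finset.sum_congr rfl fun i _ => ?_
  rw [map_smul, map_smul, formQ_apply, A.form_total_e hd]

lemma form_ident_le {ξ : X} (hξ : dNorm z ξ = 0) {β : Y →L[ℝ] ℝ} (hβ : ‖β‖ ≤ 1)
    (hn : β (dG f z ξ) = ‖ξ‖) (a : X) : A.form ξ β a ≤ 2 * |Q a ξ| := by
  have hc : IsClosed {x : X | A.form ξ β x ≤ 2 * |Q x ξ|} :=
    isClosed_le (by fun_prop) (by fun_prop)
  refine hc.closure_subset ((denseRange_ev hd).mono ?_ a)
  rintro _ ⟨c, rfl⟩
  show A.form ξ β (ev e c) ≤ 2 * |Q (ev e c) ξ|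
  rw [A.form_ev hd]
  refine le_of_forall_pos_le_add fun ε hε => ?_
  refine le_of_tendsto (A.tendsto_lam c ξ β) (Eventually.filter_mono Nat.hyperfilter_le_atTop ?_)
  rw [ev_apply]
  exact A.ident ξ β hξ hβ hn c ε hε

lemma abs_form_ident {ξ : X} (hξ : dNorm z ξ = 0) {β : Y →L[ℝ] ℝ} (hβ : ‖β‖ ≤ 1)
    (hn : β (dG f z ξ) = ‖ξ‖) (a : X) : |A.form ξ β a| ≤ 2 * |Q a ξ| := by
  refine abs_le.2 ⟨?_, A.form_ident_le hd hξ hβ hn a⟩
  have h := A.form_ident_le hd hξ hβ hn (-a)
  rw [map_neg, map_neg, neg_apply, abs_neg] at h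
  linarith

end Approx

section Data

variable [CompleteSpace X] [CompleteSpace Y] (hz : Smooth z)

/-- The projection to the tangent hyperplane along `z`. -/
def projz (z : X) : X →L[ℝ] X :=
  ContinuousLinearMap.id ℝ X - (dNorm z).smulRight (‖z‖⁻¹ • z)

omit [CompleteSpace X] in
lemma projz_apply (x : X) : projz z x = x - (dNorm z x * ‖z‖⁻¹) • z := by
  simp [projz, smul_smul]

omit [CompleteSpace X] in
include hz in
lemma dNorm_projz (x : X) : dNorm z (projz z x) = 0 := by
  rw [projz_apply, map_sub, map_smul, hz.dNorm_self, smul_eq_mul, mul_assoc,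
    inv_mul_cancel₀ hz.norm_pos.ne', mul_one, sub_self]

/-- The projection of the inverse derivative to the tangent hyperplane. -/
def liftMap (f : PIso X Y) (hz : Smooth z) : Y →L[ℝ] (dNorm z).ker :=
  ((projz z).comp (fderiv ℝ f.Gi (f.G z))).codRestrict (dNorm z).ker
    fun w => dNorm_projz hz _

lemma coe_liftMap (w : Y) :
    (liftMap f hz w : X) = projz z (fderiv ℝ f.Gi (f.G z) w) := rfl

include hz in
lemma dG_lift (w : Y) :
    dG f z (projz z (fderiv ℝ f.Gi (f.G z) w)) =
      w - (dNorm (f.G z) w * ‖z‖⁻¹) • f.G z := by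
  obtain ⟨-, h2⟩ := dG_symm f hz
  have h3 : dG f z (fderiv ℝ f.Gi (f.G z) w) = w := h2 w
  have h4 := dNorm_dG f hz (fderiv ℝ f.Gi (f.G z) w)
  rw [h3] at h4
  rw [projz_apply, map_sub, map_smul, h3, dG_self f hz, ← h4]

variable (A : Approx f e z Q) (hd : Dense (Submodule.span ℝ (Set.range e) : Set X))

include hd in
lemma form_lift (a b : X) (φ : Y →L[ℝ] ℝ) :
    A.form b ((φ.comp ((dG f z).comp (dNorm z).ker.subtypeL)).comp (liftMap f hz)) a =
      A.form b φ a := by
  have e1 : (φ.comp ((dG f z).comp (dNorm z).ker.subtypeL)).comp (liftMap f hz) =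
      φ + (-(φ (f.G z) * ‖z‖⁻¹)) • dNorm (f.G z) := by
    ext w
    simp only [ContinuousLinearMap.comp_apply, Submodule.subtypeL_apply, coe_liftMap, dG_lift hz,
      map_sub, map_smul, add_apply, smul_apply, smul_eq_mul]
    ring
  rw [e1, A.form_lin_φ hd, A.form_t3 hd, mul_zero, add_zero]

/-- **Second order data at one point.** -/
def Approx.preData (hQ : GatDiff z Q) (hs : ∀ a b, Q a b = Q b a) : PreData (dNorm z).ker where
  Q := Q.bilinearComp (dNorm z).ker.subtypeL (dNorm z).ker.subtypeL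
  B a b := LinearMap.mkContinuous
    (IsLinearMap.mk' (fun p => A.form (b : X) (p.comp (liftMap f hz)) (a : X))
      { map_add := fun p q => by
          simpa [ContinuousLinearMap.add_comp] using
            A.form_lin_φ hd (b : X) (a : X) (p.comp (liftMap f hz)) (q.comp (liftMap f hz)) 1
        map_smul := fun r p => by
          have h0 : A.form (b : X) (0 : Y →L[ℝ] ℝ) (a : X) = 0 := by
            have := A.abs_form_le hd (a : X) (b : X) (0 : Y →L[ℝ] ℝ)
            simpa using this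
          simpa [ContinuousLinearMap.smul_comp, h0] using
            A.form_lin_φ hd (b : X) (a : X) 0 (p.comp (liftMap f hz)) r })
    (A.K * ‖a‖ * ‖b‖ * ‖liftMap f hz‖)
    fun p => by
      refine (A.abs_form_le hd (a : X) (b : X) (p.comp (liftMap f hz))).trans ?_
      rw [mul_assoc (A.K * ‖a‖ * ‖b‖), mul_comm ‖liftMap f hz‖]
      exact mul_le_mul_of_nonneg_left (ContinuousLinearMap.opNorm_comp_le _ _)
        (by have := A.K_nonneg; positivity)
  add a a' b := by
    ext p
    show A.form (b : X) _ ((a : X) + (a' : X)) = _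
    rw [map_add]; rfl
  smul t a b := by
    ext p
    show A.form (b : X) _ (t • (a : X)) = _
    rw [map_smul]; rfl
  bound := ⟨A.K * ‖liftMap f hz‖, fun a b p => by
    refine (A.abs_form_le hd (a : X) (b : X) (p.comp (liftMap f hz))).trans ?_
    calc A.K * ‖(a : X)‖ * ‖(b : X)‖ * ‖p.comp (liftMap f hz)‖
        ≤ A.K * ‖(a : X)‖ * ‖(b : X)‖ * (‖p‖ * ‖liftMap f hz‖) :=
          mul_le_mul_of_nonneg_left (ContinuousLinearMap.opNorm_comp_le _ _)
            (by have := A.K_nonneg; positivity)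
      _ = _ := by simp only [Submodule.coe_norm]; ring⟩
  Qsymm a b := hs _ _
  Qnonneg a := hQ.nonneg hz _
  symm a b := by
    ext p
    exact A.form_symm hd (a : X) (b : X) _
  total a b c := by
    have key : ∀ v : (dNorm z).ker,
        ((Q.bilinearComp (dNorm z).ker.subtypeL (dNorm z).ker.subtypeL) v).comp (liftMap f hz) =
          formFun f z Q (v : X) := fun v => by
      ext w
      show Q (v : X) (projz z (fderiv ℝ f.Gi (f.G z) w)) = Q (v : X) (fderiv ℝ f.Gi (f.G z) w)
      rw [projz_apply, map_sub, map_smul, hs (v : X) z, hQ.apply_self hz, smul_zero, sub_zero]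
    show A.form (c : X) _ (b : X) = A.form (c : X) _ (a : X)
    rw [key, key]
    exact A.form_total hd _ _ _
  ident η ξ p hp hξ := by
    set R : Submodule ℝ Y := (dNorm (f.G z)).ker
    have hR : ∀ w : R, ‖liftMap f hz (w : Y)‖ = ‖(w : Y)‖ := fun w => by
      have h1 := norm_dG f hz (a := projz z (fderiv ℝ f.Gi (f.G z) (w : Y))) (dNorm_projz hz _)
      rw [dG_lift hz, show dNorm (f.G z) (w : Y) = 0 from w.2, zero_mul, zero_smul, sub_zero] at h1
      exact h1.symm
    obtain ⟨β, hβ, hβn⟩ := exists_extension_norm_eq R ((p.comp (liftMap f hz)).comp R.subtypeL)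
    have hβ1 : ‖β‖ ≤ 1 := by
      rw [hβn]
      refine ContinuousLinearMap.opNorm_le_bound _ zero_le_one fun w => ?_
      refine (p.le_opNorm _).trans ?_
      show ‖p‖ * ‖liftMap f hz (w : Y)‖ ≤ 1 * ‖(w : Y)‖
      rw [hR]
      exact mul_le_mul_of_nonneg_right hp (norm_nonneg _)
    have hmem : ∀ v : (dNorm z).ker, dG f z (v : X) ∈ R := fun v => by
      show dNorm (f.G z) (dG f z (v : X)) = 0
      rw [dNorm_dG f hz]; exact v.2
    have hv : ∀ v : (dNorm z).ker, β (dG f z (v : X)) = p v := fun v => by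
      have h := hβ ⟨_, hmem v⟩
      refine h.trans (congrArg p (Subtype.ext ?_))
      show projz z (fderiv ℝ f.Gi (f.G z) (dG f z (v : X))) = (v : X)
      rw [show fderiv ℝ f.Gi (f.G z) (dG f z (v : X)) = (v : X) from (dG_symm f hz).1 _,
        projz_apply, show dNorm z (v : X) = 0 from v.2, zero_mul, zero_smul, sub_zero]
    have e1 : p = β.comp ((dG f z).comp (dNorm z).ker.subtypeL) :=
      ContinuousLinearMap.ext fun v => (hv v).symm
    show |A.form (ξ : X) (p.comp (liftMap f hz)) (η : X)| ≤ 2 * |Q (η : X) (ξ : X)|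
    rw [e1, form_lift hz A hd]
    exact A.abs_form_ident hd ξ.2 hβ1 ((hv ξ).trans hξ) _

/-- Rigidity of the limit, given rigidity of the second order data. -/
theorem Approx.rigid_of (A : Approx f e z Q)
    (hd : Dense (Submodule.span ℝ (Set.range e) : Set X)) (hz : Smooth z)
    (hQ : GatDiff z Q) (hs : ∀ a b, Q a b = Q b a)
    (hrig : ∀ (D : PreData (dNorm z).ker) (ψ : (dNorm z).ker →L[ℝ] ℝ),
      ∃ c : ℝ, |c| ≤ 2 * ‖ψ‖ ∧ ∀ a b, D.B a b ψ = c * D.Q a b)
    (φ : Y →L[ℝ] ℝ) (l : ℕ → ℕ → ℝ)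
    (hl : ∀ i j, Tendsto (fun n => A.T n i (e j) φ) atTop (𝓝 (l i j))) :
    ∃ c : ℝ, |c| ≤ 2 * ‖φ‖ ∧ ∀ i j, l i j = c * Q (e i) (e j) := by
  set ψ := φ.comp ((dG f z).comp (dNorm z).ker.subtypeL) with hψ
  obtain ⟨c, hc, hB⟩ := hrig (Approx.preData hz A hd hQ hs) ψ
  have hψn : ‖ψ‖ ≤ ‖φ‖ := by
    refine ContinuousLinearMap.opNorm_le_bound _ (norm_nonneg φ) fun v => ?_
    refine (φ.le_opNorm _).trans_eq ?_
    show ‖φ‖ * ‖dG f z (v : X)‖ = ‖φ‖ * ‖(v : X)‖
    rw [norm_dG f hz v.2]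
  refine ⟨c, hc.trans (by linarith), fun i j => ?_⟩
  rw [← A.lim_eq (hl i j), ← A.form_e hd]
  let a : (dNorm z).ker := ⟨projz z (e i), dNorm_projz hz _⟩
  let b : (dNorm z).ker := ⟨projz z (e j), dNorm_projz hz _⟩
  have hBab : A.form (b : X) (ψ.comp (liftMap f hz)) (a : X) = c * Q (a : X) (b : X) := hB a b
  rw [hψ, form_lift hz A hd] at hBab
  have e1 : A.form (b : X) φ (a : X) = A.form (e j) φ (e i) := by
    show A.form (projz z (e j)) φ (projz z (e i)) = _
    rw [projz_apply (e j), sub_eq_add_neg, ← neg_smul, A.form_lin_b hd, A.form_radial hd,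
      mul_zero, add_zero, projz_apply (e i), map_sub, map_smul, A.form_symm hd z (e j) φ,
      A.form_radial hd, smul_zero, sub_zero]
  have e2 : Q (a : X) (b : X) = Q (e i) (e j) := by
    show Q (projz z (e i)) (projz z (e j)) = _
    rw [projz_apply (e j), map_sub, map_smul, hs _ z, hQ.apply_self hz, smul_zero, sub_zero,
      projz_apply (e i), map_sub, map_smul, sub_apply, smul_apply, hQ.apply_self hz, smul_zero,
      sub_zero]
  rw [← e1, ← e2]
  exact hBab

end Data

end Vale.Agent.P084.Full
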