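import Vale.Agent.P084.Full.Exit
import Vale.Agent.P084.Full.AverageAe

/-!
P084 (Tingley's problem), general case: second order information on arbitrarily small translates
of every finite-dimensional slice, from the almost everywhere statements.
-/

namespace Vale.Agent.P084.Full

open Filter Topology Metric MeasureTheory Orbit

variable {X Y : Type*} [NormedAddCommGroup X] [NormedSpace ℝ X] [NormedAddCommGroup Y]
  [NormedSpace ℝ Y]

/-- A summable sequence with dense span starting with given vectors. -/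
theorem exists_seq_extend [TopologicalSpace.SeparableSpace X] {n : ℕ} (g : Fin n → X) :
    ∃ e : ℕ → X, Summable (fun i => ‖e i‖) ∧
      Dense (Submodule.span ℝ (Set.range e) : Set X) ∧ ∀ i : Fin n, e i = g i := by
  let d : ℕ → X := TopologicalSpace.denseSeq X
  let e : ℕ → X := fun i =>
    if h : i < n then g ⟨i, h⟩ else ((1 / 2 : ℝ) ^ (i - n) / (1 + ‖d (i - n)‖)) • d (i - n)
  have he : ∀ j, e (j + n) = ((1 / 2 : ℝ) ^ j / (1 + ‖d j‖)) • d j := fun j => by
    simp [e]
  refine ⟨e, ?_, (TopologicalSpace.denseRange_denseSeq X).mono ?_, fun i => by simp [e]⟩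
  · refine (summable_nat_add_iff n).1 (Summable.of_nonneg_of_le (fun j => norm_nonneg _)
      (fun j => ?_) summable_geometric_two)
    rw [he, norm_smul, Real.norm_of_nonneg (by positivity), div_mul_eq_mul_div,
      div_le_iff₀ (by positivity)]
    exact mul_le_mul_of_nonneg_left (by linarith) (by positivity)
  · rintro _ ⟨j, rfl⟩
    have hne : (1 / 2 : ℝ) ^ j / (1 + ‖d j‖) ≠ 0 := by positivity
    show d j ∈ _
    rw [SetLike.mem_coe, ← inv_smul_smul₀ hne (d j), ← he]
    exact Submodule.smul_mem _ _ (Submodule.subset_span ⟨j + n, rfl⟩)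

/-- Cauchy-Schwarz for a nonnegative symmetric form. -/
theorem form_sq_le {Q : X →L[ℝ] X →L[ℝ] ℝ} (hs : ∀ a b, Q a b = Q b a) (hp : ∀ a, 0 ≤ Q a a)
    (a b : X) : Q a b ^ 2 ≤ Q a a * Q b b := by
  have h : ∀ x : ℝ, 0 ≤ Q b b * (x * x) + 2 * Q a b * x + Q a a := fun x => by
    have := hp (a + x • b)
    simp only [map_add, map_smul, add_apply, smul_apply, smul_eq_mul, hs b a] at this
    linarith
  have := discrim_le_zero h
  rw [discrim] at this
  linarith

/-- Slice data from second order information along the directions of any summable dense sequence on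
almost every translate. -/
theorem sliceData_of [TopologicalSpace.SeparableSpace X] {f : PIso X Y}
    (h : ∀ (φ : Y →L[ℝ] ℝ) (e : ℕ → X), Summable (fun i => ‖e i‖) →
      Dense (Submodule.span ℝ (Set.range e) : Set X) →
      ∀ (k : ℕ) (v : Fin k → X), (∀ j, v j ∈ Submodule.span ℝ (Set.range e)) →
      ∀ (a : X) (ε : ℝ), 0 < ε → ∃ c : X, ‖c - a‖ < ε ∧
        ∀ᵐ u : Fin k → ℝ, Smooth (c + ∑ i, u i • v i) →
          (∃ (Q : X →L[ℝ] X →L[ℝ] ℝ) (cc : ℝ), (∀ x y, Q x y = Q y x) ∧ (∀ x, 0 ≤ Q x x) ∧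
            |cc| ≤ 2 * ‖φ‖ ∧ ∀ i j,
              HasLineDerivAt ℝ (fun y => dNorm y (e j)) (Q (e i) (e j))
                (c + ∑ i, u i • v i) (e i) ∧
              HasLineDerivAt ℝ (fun y => φ (dG f y (e j))) (cc * Q (e i) (e j))
                (c + ∑ i, u i • v i) (e i)) ∧
          ∀ i j, HasLineDerivAt ℝ
            (fun y => dNorm (f.G (c + ∑ i, u i • v i)) (dG f y (e j))) 0
            (c + ∑ i, u i • v i) (e i)) : SliceData f := by
  intro k m v w φ a ε hε
  obtain ⟨e, hs, hd, he⟩ := exists_seq_extend (Fin.append v w)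
  have hv : ∀ j, v j ∈ Submodule.span ℝ (Set.range e) := fun j =>
    Submodule.subset_span ⟨(Fin.castAdd m j : Fin (k + m)), by rw [he, Fin.append_left]⟩
  have hw : ∀ i, e (Fin.natAdd k i : Fin (k + m)) = w i := fun i => by rw [he, Fin.append_right]
  obtain ⟨c, hc, hae⟩ := h φ e hs hd k v hv a ε hε
  refine ⟨c, hc, hae.mono fun u hu hsm => ?_⟩
  obtain ⟨⟨Q, cc, hsym, hpos, hcc, hl⟩, ht⟩ := hu hsm
  refine ⟨fun i j => Q (w i) (w j), cc, hcc, fun i j => hsym _ _,
    fun i j => form_sq_le hsym hpos _ _, fun i => hpos _, fun i j => ?_⟩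
  have h1 := hl (Fin.natAdd k i : Fin (k + m)) (Fin.natAdd k j : Fin (k + m))
  have h2 := ht (Fin.natAdd k i : Fin (k + m)) (Fin.natAdd k j : Fin (k + m))
  rw [hw, hw] at h1 h2
  exact ⟨h1.1, h1.2, h2⟩

/-- Slice data from almost everywhere statements for the reference laws. -/
theorem sliceData_of_ae [CompleteSpace X] [MeasurableSpace X] [BorelSpace X]
    [SecondCountableTopology X] {f : PIso X Y}
    (hso : ∀ (e : ℕ → X), Summable (fun i => ‖e i‖) →
      Dense (Submodule.span ℝ (Set.range e) : Set X) → ∀ φ : Y →L[ℝ] ℝ,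
      ∀ᵐ y ∂Average.mu e, Smooth y →
        ∃ (Q : X →L[ℝ] X →L[ℝ] ℝ) (cc : ℝ), (∀ a b, Q a b = Q b a) ∧ (∀ a, 0 ≤ Q a a) ∧
          |cc| ≤ 2 * ‖φ‖ ∧ ∀ i j,
            HasLineDerivAt ℝ (fun u => dNorm u (e j)) (Q (e i) (e j)) y (e i) ∧
            HasLineDerivAt ℝ (fun u => φ (dG f u (e j))) (cc * Q (e i) (e j)) y (e i))
    (ht3 : ∀ (e : ℕ → X), Summable (fun i => ‖e i‖) →
      Dense (Submodule.span ℝ (Set.range e) : Set X) →
      ∀ᵐ y ∂Average.mu e, Smooth y → ∀ i j,
        HasLineDerivAt ℝ (fun u => dNorm (f.G y) (dG f u (e j))) 0 y (e i)) : SliceData f :=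
  sliceData_of fun φ e he hd k v hv a ε hε =>
    Average.exists_translate he hd hv
      (p := fun y => Smooth y →
        (∃ (Q : X →L[ℝ] X →L[ℝ] ℝ) (cc : ℝ), (∀ a b, Q a b = Q b a) ∧ (∀ a, 0 ≤ Q a a) ∧
          |cc| ≤ 2 * ‖φ‖ ∧ ∀ i j,
            HasLineDerivAt ℝ (fun u => dNorm u (e j)) (Q (e i) (e j)) y (e i) ∧
            HasLineDerivAt ℝ (fun u => φ (dG f u (e j))) (cc * Q (e i) (e j)) y (e i)) ∧
        ∀ i j, HasLineDerivAt ℝ (fun u => dNorm (f.G y) (dG f u (e j))) 0 y (e i))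
      (by filter_upwards [hso e he hd φ, ht3 e he hd] with y h1 h2 hy using ⟨h1 hy, h2 hy⟩)
      a hε

end Vale.Agent.P084.Full
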