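import Vale.Agent.P084.Full.Assemble
import Vale.Agent.P084.Full.Slice

/-!
P084 (Tingley's problem), general case: the main theorem from the two almost everywhere
second order statements.
-/

namespace Vale.Agent.P084.Full

open Filter Topology Metric TopologicalSpace Orbit MeasureTheory

universe u v

variable {X : Type u} {Y : Type v} [NormedAddCommGroup X] [NormedSpace ℝ X] [CompleteSpace X]
  [NormedAddCommGroup Y] [NormedSpace ℝ Y] [CompleteSpace Y]

theorem tingley_of
    (hso : ∀ (X : Type u) (Y : Type v) [NormedAddCommGroup X] [NormedSpace ℝ X] [CompleteSpace X]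
      [MeasurableSpace X] [BorelSpace X] [SecondCountableTopology X]
      [NormedAddCommGroup Y] [NormedSpace ℝ Y] [CompleteSpace Y] (f : PIso X Y)
      (e : ℕ → X), Summable (fun i => ‖e i‖) →
      Dense (Submodule.span ℝ (Set.range e) : Set X) → ∀ φ : Y →L[ℝ] ℝ,
      ∀ᵐ y ∂Average.mu e, Smooth y →
        ∃ (Q : X →L[ℝ] X →L[ℝ] ℝ) (cc : ℝ), (∀ a b, Q a b = Q b a) ∧ (∀ a, 0 ≤ Q a a) ∧
          |cc| ≤ 2 * ‖φ‖ ∧ ∀ i j,
            HasLineDerivAt ℝ (fun u => dNorm u (e j)) (Q (e i) (e j)) y (e i) ∧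
            HasLineDerivAt ℝ (fun u => φ (dG f u (e j))) (cc * Q (e i) (e j)) y (e i))
    (ht3 : ∀ (X : Type u) (Y : Type v) [NormedAddCommGroup X] [NormedSpace ℝ X] [CompleteSpace X]
      [MeasurableSpace X] [BorelSpace X] [SecondCountableTopology X]
      [NormedAddCommGroup Y] [NormedSpace ℝ Y] [CompleteSpace Y] (f : PIso X Y)
      (e : ℕ → X), Summable (fun i => ‖e i‖) →
      Dense (Submodule.span ℝ (Set.range e) : Set X) →
      ∀ᵐ y ∂Average.mu e, Smooth y → ∀ i j,
        HasLineDerivAt ℝ (fun u => dNorm (f.G y) (dG f u (e j))) 0 y (e i))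
    {f : sphere (0 : X) 1 → sphere (0 : Y) 1} (hf : Isometry f) (hsurj : Function.Surjective f) :
    ∃ T : X ≃ₗᵢ[ℝ] Y, ∀ x : sphere (0 : X) 1, T (x : X) = (f x : Y) :=
  extends_of_sliceData (fun X' Y' => fun g _ => by
    borelize X'
    have : SecondCountableTopology X' := UniformSpace.secondCountable_of_separable X'
    exact sliceData_of_ae (hso X' Y' g) (ht3 X' Y' g)) hf hsurj

end Vale.Agent.P084.Full
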