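import Mathlib

/-!
P084 (Tingley's problem), library for the general case: derivatives of Lipschitz functions along
curves are line derivatives in the tangent direction.
-/

namespace Vale.Agent.P084.Full

open Filter Topology Asymptotics

variable {E : Type*} [NormedAddCommGroup E] [NormedSpace ℝ E]

/-- `h` is Lipschitz on some neighbourhood of `p`. -/
def LipNear (h : E → ℝ) (p : E) : Prop :=
  ∃ C : ℝ, ∀ᶠ w in 𝓝 p ×ˢ 𝓝 p, |h w.1 - h w.2| ≤ C * ‖w.1 - w.2‖

omit [NormedSpace ℝ E] in
lemma LipNear.continuousAt {h : E → ℝ} {p : E} (hh : LipNear h p) : ContinuousAt h p := by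
  obtain ⟨C, hC⟩ := hh
  have hlim : Tendsto (fun w : E => C * ‖w - p‖) (𝓝 p) (𝓝 0) := by
    have : Continuous fun w : E => C * ‖w - p‖ := by fun_prop
    simpa using this.tendsto p
  refine tendsto_iff_norm_sub_tendsto_zero.2 (squeeze_zero' (Eventually.of_forall fun w => norm_nonneg _) ?_ hlim)
  have hd : Tendsto (fun w : E => (w, p)) (𝓝 p) (𝓝 p ×ˢ 𝓝 p) :=
    tendsto_id.prodMk tendsto_const_nhds
  exact hd.eventually hC

/-- Along a curve with velocity `d`, a Lipschitz function moves as along the line in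
direction `d`. -/
lemma hasDerivAt_sub_line {h : E → ℝ} {p : E} (hh : LipNear h p) {c : ℝ → E} {d : E}
    (hc : HasDerivAt c d 0) (h0 : c 0 = p) :
    HasDerivAt (fun t => h (c t) - h (p + t • d)) 0 0 := by
  obtain ⟨C, hC⟩ := hh
  have hl : Tendsto (fun t : ℝ => p + t • d) (𝓝 0) (𝓝 p) := by
    have : Continuous fun t : ℝ => p + t • d := by fun_prop
    simpa using this.tendsto 0
  have hcl : Tendsto c (𝓝 0) (𝓝 p) := h0 ▸ hc.continuousAt.tendsto
  have ho : (fun t => c t - (p + t • d)) =o[𝓝 0] fun t => t := by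
    have := hasDerivAt_iff_isLittleO_nhds_zero.1 hc
    simpa [h0, sub_add_eq_sub_sub] using this
  rw [hasDerivAt_iff_isLittleO_nhds_zero]
  simp only [zero_add, zero_smul, add_zero, h0, sub_self, smul_zero, sub_zero]
  refine IsBigO.trans_isLittleO (IsBigO.of_bound C ?_) ho
  filter_upwards [(hcl.prodMk hl).eventually hC] with t ht
  rw [Real.norm_eq_abs]
  exact ht

lemma comp_curve {h : E → ℝ} {p d : E} {l : ℝ} (hl : HasLineDerivAt ℝ h l p d)
    (hh : LipNear h p) {c : ℝ → E} (hc : HasDerivAt c d 0) (h0 : c 0 = p) :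
    HasDerivAt (fun t => h (c t)) l 0 := by
  have := (hasDerivAt_sub_line hh hc h0).add hl
  rw [zero_add] at this
  exact this.congr_of_eventuallyEq (Eventually.of_forall fun t => (sub_add_cancel _ _).symm)

lemma hasLineDerivAt_of_comp_curve {h : E → ℝ} {p d : E} {l : ℝ} (hh : LipNear h p) {c : ℝ → E}
    (hc : HasDerivAt c d 0) (h0 : c 0 = p) (hl : HasDerivAt (fun t => h (c t)) l 0) :
    HasLineDerivAt ℝ h l p d := by
  have := hl.sub (hasDerivAt_sub_line hh hc h0)
  rw [sub_zero] at this
  exact this.congr_of_eventuallyEq (Eventually.of_forall fun t => (sub_sub_cancel _ _).symm)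

/-- A product with a factor vanishing to first order and a factor continuous and vanishing. -/
lemma hasDerivAt_mul_zero {q g : ℝ → ℝ} {l : ℝ} (hq : HasDerivAt q l 0) (hq0 : q 0 = 0)
    (hg : ContinuousAt g 0) (hg0 : g 0 = 0) : HasDerivAt (fun t => q t * g t) 0 0 := by
  rw [hasDerivAt_iff_isLittleO_nhds_zero]
  simp only [zero_add, hq0, zero_mul, sub_zero, smul_zero]
  have h1 : q =O[𝓝 0] fun t => t := by
    have := hq.isBigO_sub
    simpa [hq0] using this
  have h2 : g =o[𝓝 0] fun _ => (1 : ℝ) :=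
    (isLittleO_one_iff ℝ).2 (by simpa [hg0] using hg.tendsto)
  simpa using h1.mul_isLittleO h2

end Vale.Agent.P084.Full
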