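import Vale.Agent.P084.Orbit.Deriv

/-!
P084 (Tingley's problem), library for the general case: smooth points and the algebraic data
formed by the second derivatives of the norm and of the homogeneous extension.
-/

namespace Vale.Agent.P084.Full

open scoped RealInnerProductSpace
open Orbit

/-- The norm is locally uniformly quadratically smooth at `z`. -/
def Smooth {X : Type*} [NormedAddCommGroup X] [NormedSpace ℝ X] (z : X) : Prop :=
  z ≠ 0 ∧ ∃ r C : ℝ, 0 < r ∧ ∀ w, ‖w - z‖ < r → ∀ a, ‖a‖ < r → sd w a ≤ C * ‖a‖ ^ 2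

/-- Second order data with values in the bidual. -/
structure PreData (V : Type*) [NormedAddCommGroup V] [NormedSpace ℝ V] where
  Q : V →L[ℝ] V →L[ℝ] ℝ
  B : V → V → ((V →L[ℝ] ℝ) →L[ℝ] ℝ)
  add : ∀ a a' b, B (a + a') b = B a b + B a' b
  smul : ∀ (t : ℝ) a b, B (t • a) b = t • B a b
  bound : ∃ C : ℝ, ∀ a b p, |B a b p| ≤ C * ‖a‖ * ‖b‖ * ‖p‖
  Qsymm : ∀ a b, Q a b = Q b a
  Qnonneg : ∀ a, 0 ≤ Q a a
  symm : ∀ a b, B a b = B b a
  total : ∀ a b c, B b c (Q a) = B a c (Q b)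
  ident : ∀ (η ξ : V) (p : V →L[ℝ] ℝ), ‖p‖ ≤ 1 → p ξ = ‖ξ‖ → |B η ξ p| ≤ 2 * |Q η ξ|

/-- Exact second order data. -/
structure AlgData (W H : Type*) [NormedAddCommGroup W] [NormedSpace ℝ W] [NormedAddCommGroup H]
    [InnerProductSpace ℝ H] where
  I : W →L[ℝ] H
  B : W →L[ℝ] W →L[ℝ] W
  dense : DenseRange I
  symm : ∀ a b, B a b = B b a
  total : ∀ a b c, ⟪I a, I (B b c)⟫ = ⟪I b, I (B a c)⟫
  ident : ∀ (η u : W) (Φ : W →L[ℝ] ℝ), ‖Φ‖ ≤ 1 → Φ u = ‖u‖ →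
    |Φ (B η u)| ≤ 2 * |⟪I η, I u⟫|

end Vale.Agent.P084.Full
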