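import Mathlib

/-!
P084 (Tingley's problem), library: finite dimensional lemmas for the dual lemma: a mean value
inequality for Lipschitz maps whose derivative is small off a set of small measure, null images,
determinant of a nearly singular positive operator, rigidity of maps preserving every direction.
-/

namespace Vale.Agent.P084.Full.Dual

open MeasureTheory Set Metric Filter Topology Module
open scoped NNReal ENNReal RealInnerProductSpace

/-- Mean value inequality on `[0, 1]` with an exceptional set. -/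
lemma abs_sub_le_of_deriv {f : ℝ → ℝ} {L : ℝ≥0} (hf : LipschitzOnWith L f (Icc 0 1))
    {A : Set ℝ} (hA : MeasurableSet A) {η K : ℝ} (hη : 0 ≤ η) (hK : 0 ≤ K)
    (h : ∀ t ∈ Ioo (0 : ℝ) 1, DifferentiableAt ℝ f t → t ∉ A → |deriv f t| ≤ η)
    (h' : ∀ t ∈ Ioo (0 : ℝ) 1, DifferentiableAt ℝ f t → |deriv f t| ≤ K) :
    |f 1 - f 0| ≤ η + K * (volume (A ∩ Icc 0 1)).toReal := by
  have hac : AbsolutelyContinuousOnInterval f 0 1 :=
    LipschitzOnWith.absolutelyContinuousOnInterval (K := L) (by rwa [uIcc_of_le zero_le_one])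
  rw [← hac.integral_deriv_eq_sub, intervalIntegral.integral_of_le zero_le_one,
    ← Real.norm_eq_abs]
  have hfin : volume (A ∩ Ioc 0 1) ≠ ∞ :=
    ((measure_mono inter_subset_right).trans_lt (by simp)).ne
  have hi : Integrable (fun t => η + A.indicator (fun _ => K) t) (volume.restrict (Ioc 0 1)) :=
    (integrable_const η).add ((integrable_const K).indicator hA)
  have hae : ∀ᵐ t ∂volume.restrict (Ioc (0 : ℝ) 1),
      ‖deriv f t‖ ≤ η + A.indicator (fun _ => K) t := by
    rw [← restrict_Ioo_eq_restrict_Ioc]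
    refine ae_restrict_of_forall_mem measurableSet_Ioo fun t ht => ?_
    rw [Real.norm_eq_abs]
    by_cases hd : DifferentiableAt ℝ f t
    · by_cases hm : t ∈ A
      · rw [indicator_of_mem hm]; linarith [h' t ht hd]
      · rw [indicator_of_notMem hm]; linarith [h t ht hd hm]
    · rw [deriv_zero_of_not_differentiableAt hd, abs_zero]
      exact add_nonneg hη (indicator_nonneg (fun _ _ => hK) t)
  refine (norm_integral_le_of_norm_le hi hae).trans ?_
  rw [integral_add (integrable_const η) ((integrable_const K).indicator hA), integral_const,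
    integral_indicator hA, setIntegral_const]
  simp only [measureReal_def, Measure.restrict_apply MeasurableSet.univ, univ_inter,
    Measure.restrict_apply hA, smul_eq_mul, Real.volume_Ioc]
  have := measure_mono (μ := (volume : Measure ℝ)) (s := A ∩ Ioc 0 1) (t := A ∩ Icc 0 1)
    (inter_subset_inter_right _ Ioc_subset_Icc_self)
  have h2 : volume (A ∩ Icc (0 : ℝ) 1) ≠ ∞ :=
    ((measure_mono inter_subset_right).trans_lt (by simp)).ne
  have h3 := mul_le_mul_of_nonneg_left (ENNReal.toReal_mono h2 this) hK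
  norm_num
  linarith

variable {E : Type*} [NormedAddCommGroup E] [InnerProductSpace ℝ E] [FiniteDimensional ℝ E]
  [MeasurableSpace E] [BorelSpace E]

/-- A Lipschitz image of a null set is null. -/
lemma image_null (μ : Measure E) [μ.IsAddHaarMeasure] {L : ℝ≥0} {F : E → E} {s : Set E}
    (hF : LipschitzOnWith L F s) (hs : μ s = 0) : μ (F '' s) = 0 := by
  have h1 : (μH[finrank ℝ E] : Measure E) s = 0 :=
    Measure.absolutelyContinuous_isAddHaarMeasure (μH[finrank ℝ E] : Measure E) μ hs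
  have h2 : (μH[finrank ℝ E] : Measure E) (F '' s) = 0 := by
    refine le_antisymm ((hF.hausdorffMeasure_image_le (by positivity)).trans ?_) zero_le
    simp [h1]
  exact Measure.absolutelyContinuous_isAddHaarMeasure μ (μH[finrank ℝ E] : Measure E) h2

/-- Mean value inequality for a Lipschitz map on a convex open set, along a vector, with an
exceptional set of small measure. -/
lemma line_bound (μ : Measure E) [μ.IsAddHaarMeasure] {B : Set E} (hB : IsOpen B)
    (hBc : Convex ℝ B) {Φ : E → E} {L : ℝ≥0} (hL : LipschitzOnWith L Φ B)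
    {A : Set E} (hA : MeasurableSet A) {a d : E} {η θ : ℝ} (hη : 0 ≤ η)
    (hθ : 0 ≤ θ) (hμA : μ A ≤ ENNReal.ofReal θ)
    (h : ∀ᵐ q ∂μ, q ∈ B → q ∉ A → |⟪a, fderiv ℝ Φ q d⟫| ≤ η)
    {p : E} {δ : ℝ} (hδ : 0 < δ) (hp : ball p δ ⊆ B) (hpd : ball (p + d) δ ⊆ B) :
    |⟪a, Φ (p + d) - Φ p⟫| ≤ η + L * ‖d‖ * ‖a‖ * (θ / (μ (ball p δ)).toReal) + 2 * (L * δ * ‖a‖) := by
  obtain ⟨Z, hZsub, hZm, hZ0⟩ : ∃ Z : Set E, {q | ¬ (q ∈ B → DifferentiableAt ℝ Φ q ∧
      (q ∉ A → |⟪a, fderiv ℝ Φ q d⟫| ≤ η))} ⊆ Z ∧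
      MeasurableSet Z ∧ μ Z = 0 := by
    refine exists_measurable_superset_of_null (μ := μ) (ae_iff.1 ?_)
    filter_upwards [h, hL.ae_differentiableWithinAt_of_mem (μ := μ)] with q h1 h3 hq
    exact ⟨(h3 hq).differentiableAt (hB.mem_nhds hq), h1 hq⟩
  -- choose a good line parallel to `d`
  set S := A ∪ Z with hS
  have hSm : MeasurableSet S := hA.union hZm
  have hline : Measurable fun z : E × ℝ => z.1 + z.2 • d := by fun_prop
  set T : Set (E × ℝ) := (fun z => z.1 + z.2 • d) ⁻¹' S with hT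
  set TZ : Set (E × ℝ) := (fun z => z.1 + z.2 • d) ⁻¹' Z with hTZ
  have hfib : ∀ {Q : Set E}, MeasurableSet Q → ∫⁻ q in ball p δ,
      (volume.restrict (Icc (0 : ℝ) 1)) {t | q + t • d ∈ Q} ∂μ ≤ μ Q := by
    intro Q hQ
    have hm : MeasurableSet ((fun z : E × ℝ => z.1 + z.2 • d) ⁻¹' Q) := hline hQ
    calc ∫⁻ q in ball p δ, (volume.restrict (Icc (0 : ℝ) 1)) {t | q + t • d ∈ Q} ∂μ
        ≤ ∫⁻ q, (volume.restrict (Icc (0 : ℝ) 1)) {t | q + t • d ∈ Q} ∂μ :=
          setLIntegral_le_lintegral _ _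
      _ = (μ.prod (volume.restrict (Icc (0 : ℝ) 1))) ((fun z => z.1 + z.2 • d) ⁻¹' Q) :=
          (Measure.prod_apply hm).symm
      _ = ∫⁻ t, μ ((fun q => q + t • d) ⁻¹' Q) ∂(volume.restrict (Icc (0 : ℝ) 1)) :=
          Measure.prod_apply_symm hm
      _ = μ Q := by simp [measure_preimage_add_right]
  have hball0 : μ (ball p δ) ≠ 0 := (measure_ball_pos μ p hδ).ne'
  have hballT : μ (ball p δ) ≠ ∞ := measure_ball_lt_top.ne
  have hmeas : ∀ {Q : Set E}, MeasurableSet Q →
      Measurable fun q => (volume.restrict (Icc (0 : ℝ) 1)) {t | q + t • d ∈ Q} :=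
    fun hQ => measurable_measure_prodMk_left (hline hQ)
  obtain ⟨q, hq, hqA⟩ : ∃ q ∈ ball p δ,
      (volume.restrict (Icc (0 : ℝ) 1)) {t | q + t • d ∈ S} ≤
        ⨍⁻ q in ball p δ, (volume.restrict (Icc (0 : ℝ) 1)) {t | q + t • d ∈ S} ∂μ :=
    exists_le_setLAverage hball0 hballT ((hmeas hSm).aemeasurable)
  have hθq : ((volume.restrict (Icc (0 : ℝ) 1)) {t | q + t • d ∈ S}).toReal ≤
      θ / (μ (ball p δ)).toReal := by
    have h1 := hqA.trans_eq (setLAverage_eq _ _ _)
    have hSθ : μ S ≤ ENNReal.ofReal θ := by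
      refine (measure_union_le _ _).trans ?_
      rw [hZ0, add_zero]; exact hμA
    have h2 := h1.trans (ENNReal.div_le_div_right ((hfib hSm).trans hSθ) _)
    refine (ENNReal.toReal_mono (ENNReal.div_ne_top ENNReal.ofReal_ne_top hball0) h2).trans ?_
    rw [ENNReal.toReal_div, ENNReal.toReal_ofReal hθ]
  have hqd : q + d ∈ B := hpd (by simpa [mem_ball, dist_eq_norm] using hq)
  have hseg : ∀ t ∈ Icc (0 : ℝ) 1, q + t • d ∈ B := fun t ht =>
    hBc.add_smul_mem (hp hq) hqd ht
  set f : ℝ → ℝ := fun t => ⟪a, Φ (q + t • d)⟫ with hf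
  have hfL : LipschitzOnWith (‖a‖₊ * (L * ‖d‖₊)) f (Icc 0 1) := by
    refine LipschitzOnWith.of_dist_le_mul fun s hs t ht => ?_
    rw [Real.dist_eq, hf]
    simp only [← inner_sub_right]
    refine (abs_real_inner_le_norm _ _).trans ?_
    have h1 := hL.norm_sub_le (hseg s hs) (hseg t ht)
    rw [show q + s • d - (q + t • d) = (s - t) • d by rw [sub_smul]; abel, norm_smul,
      Real.norm_eq_abs] at h1
    push_cast
    have h2 := mul_le_mul_of_nonneg_left h1 (norm_nonneg a)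
    rw [Real.dist_eq]
    linarith
  have hd : ∀ t ∈ Icc (0 : ℝ) 1, q + t • d ∉ Z → q + t • d ∉ A → |deriv f t| ≤ η := by
    intro t ht htZ htA
    obtain ⟨h1, h2⟩ : DifferentiableAt ℝ Φ (q + t • d) ∧
        (q + t • d ∉ A → |⟪a, fderiv ℝ Φ (q + t • d) d⟫| ≤ η) := by
      by_contra hc; exact htZ (hZsub fun hh => hc (hh (hseg t ht)))
    have h4 : HasDerivAt (fun t : ℝ => q + t • d) d t := by
      simpa using ((hasDerivAt_id t).smul_const d).const_add q
    have h5 := ((innerSL ℝ a).hasFDerivAt.comp (q + t • d) h1.hasFDerivAt).comp_hasDerivAt t h4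
    rw [HasDerivAt.deriv (f' := ⟪a, fderiv ℝ Φ (q + t • d) d⟫)
      (by simpa [hf, Function.comp_def] using h5)]
    exact h2 htA
  have h1d := abs_sub_le_of_deriv hfL (A := {t | q + t • d ∈ S})
    ((hline.comp (measurable_const.prodMk measurable_id)) hSm) hη
    (K := ((‖a‖₊ * (L * ‖d‖₊) : ℝ≥0) : ℝ)) (NNReal.coe_nonneg _)
    (fun t ht _ htS => hd t (Ioo_subset_Icc_self ht) (fun hh => htS (Or.inr hh))
      (fun hh => htS (Or.inl hh)))
    (fun t ht _ => by
      rw [← Real.norm_eq_abs]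
      exact norm_deriv_le_of_lipschitzOn (Icc_mem_nhds ht.1 ht.2) hfL)
  have hSq : MeasurableSet {t : ℝ | q + t • d ∈ S} :=
    (hline.comp (measurable_const.prodMk measurable_id)) hSm
  rw [Measure.restrict_apply hSq] at hθq
  have hpq : |⟪a, Φ (p + d) - Φ p⟫ - (f 1 - f 0)| ≤ 2 * (L * δ * ‖a‖) := by
    have hq' : ‖p - q‖ ≤ δ := by
      rw [← dist_eq_norm, dist_comm]; exact (mem_ball.1 hq).le
    have h1 := hL.norm_sub_le (hpd (mem_ball_self hδ)) hqd
    rw [show p + d - (q + d) = p - q by abel] at h1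
    have h2 := hL.norm_sub_le (hp (mem_ball_self hδ)) (hp hq)
    have e : ⟪a, Φ (p + d) - Φ p⟫ - (f 1 - f 0) =
        ⟪a, Φ (p + d) - Φ (q + d)⟫ - ⟪a, Φ p - Φ q⟫ := by
      simp only [hf, one_smul, zero_smul, add_zero, inner_sub_right]; ring
    rw [e]
    have h3 := abs_real_inner_le_norm a (Φ (p + d) - Φ (q + d))
    have h4 := abs_real_inner_le_norm a (Φ p - Φ q)
    have h5 : (L : ℝ) * ‖p - q‖ ≤ L * δ := mul_le_mul_of_nonneg_left hq' L.coe_nonneg
    have h6 := mul_le_mul_of_nonneg_left (h1.trans h5) (norm_nonneg a)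
    have h7 := mul_le_mul_of_nonneg_left (h2.trans h5) (norm_nonneg a)
    refine (abs_sub _ _).trans ?_
    linarith
  push_cast at h1d
  have h8 := mul_le_mul_of_nonneg_left hθq
    (show (0 : ℝ) ≤ L * ‖d‖ * ‖a‖ by positivity)
  have h9 := abs_sub_abs_le_abs_sub ⟪a, Φ (p + d) - Φ p⟫ (f 1 - f 0)
  linarith

omit [MeasurableSpace E] [BorelSpace E] in
/-- The determinant of a positive operator with a direction of small quadratic form. -/
lemma det_le_of_small {T : E →L[ℝ] E} (hT : (T : E →ₗ[ℝ] E).IsSymmetric)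
    (hpos : ∀ v, 0 ≤ ⟪T v, v⟫) {s D : ℝ} (hD : ‖T‖ ≤ D) {v : E}
    (hv : ⟪T v, v⟫ < s * ‖v‖ ^ 2) :
    |T.det| ≤ s * D ^ (finrank ℝ E - 1) := by
  set b := hT.eigenvectorBasis rfl
  set l := hT.eigenvalues rfl
  have hb : ∀ i, T (b i) = l i • b i := fun i => hT.apply_eigenvectorBasis rfl i
  have hl : ∀ i, 0 ≤ l i ∧ l i ≤ D := by
    intro i
    have h1 := hpos (b i)
    rw [hb i, real_inner_smul_left, real_inner_self_eq_norm_sq, b.norm_eq_one] at h1
    have h2 := T.le_opNorm (b i)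
    rw [hb i, norm_smul, b.norm_eq_one, Real.norm_eq_abs] at h2
    constructor
    · linarith
    · linarith [le_abs_self (l i)]
  have hexp : ⟪T v, v⟫ = ∑ i, l i * (b.repr v i) ^ 2 := by
    rw [← b.sum_inner_mul_inner (T v) v]
    refine Finset.sum_congr rfl fun i _ => ?_
    rw [show ⟪T v, b i⟫ = ⟪v, T (b i)⟫ from hT v (b i), hb i, real_inner_smul_right,
      b.repr_apply_apply, real_inner_comm v (b i)]
    ring
  obtain ⟨i, hi⟩ : ∃ i, l i < s := by
    by_contra hc
    push Not at hc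
    have h1 : s * ‖v‖ ^ 2 ≤ ⟪T v, v⟫ := by
      rw [hexp, ← b.sum_sq_norm_inner_right v, Finset.mul_sum]
      refine Finset.sum_le_sum fun i _ => ?_
      rw [b.repr_apply_apply, Real.norm_eq_abs, sq_abs]
      exact mul_le_mul_of_nonneg_right (hc i) (sq_nonneg _)
    linarith
  have hdet : T.det = ∏ i, l i := hT.det_eq_prod_eigenvalues rfl
  rw [hdet, abs_of_nonneg (Finset.prod_nonneg fun i _ => (hl i).1),
    ← Finset.mul_prod_erase _ _ (Finset.mem_univ i)]
  refine mul_le_mul hi.le ?_ (Finset.prod_nonneg fun i _ => (hl i).1) ((hl i).1.trans hi.le)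
  refine (Finset.prod_le_prod (fun j _ => (hl j).1) fun j _ => (hl j).2).trans ?_
  simp [Finset.card_erase_of_mem]

omit [MeasurableSpace E] [BorelSpace E] in
/-- A map of a ball which moves every point along the segment to any other point is affine with
scalar linear part. -/
lemma affine_of_parallel (hdim : 2 ≤ finrank ℝ E) {q0 : E} {ρ : ℝ} (hρ : 0 < ρ) {Φ : E → E}
    (h : ∀ p ∈ ball q0 ρ, ∀ q ∈ ball q0 ρ, ∀ a : E, ⟪a, q - p⟫ = 0 → ⟪a, Φ q - Φ p⟫ = 0) :
    ∃ c : ℝ, ∀ q ∈ ball q0 ρ, Φ q = Φ q0 + c • (q - q0) := by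
  have hpar : ∀ p ∈ ball q0 ρ, ∀ q ∈ ball q0 ρ, ∃ r : ℝ, Φ q - Φ p = r • (q - p) := by
    intro p hp q hq
    rcases eq_or_ne q p with rfl | hne
    · exact ⟨0, by simp⟩
    set d := q - p with hd
    set D := Φ q - Φ p with hD
    have hdd : ⟪d, d⟫ ≠ 0 := by simpa [inner_self_eq_zero] using sub_ne_zero.2 hne
    refine ⟨⟪d, D⟫ / ⟪d, d⟫, ?_⟩
    set a := D - (⟪d, D⟫ / ⟪d, d⟫) • d with ha
    have h1 : ⟪a, d⟫ = 0 := by
      rw [ha, inner_sub_left, real_inner_smul_left, div_mul_cancel₀ _ hdd, real_inner_comm, sub_self]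
    have h2 : ⟪a, D⟫ = 0 := h p hp q hq a h1
    have h3 : ⟪a, a⟫ = 0 := by
      nth_rw 2 [ha]
      rw [inner_sub_right, real_inner_smul_right, h1, h2, mul_zero, sub_zero]
    exact sub_eq_zero.1 (inner_self_eq_zero.1 h3)
  set b := stdOrthonormalBasis ℝ E
  set x : E := (ρ / 2) • b ⟨0, by omega⟩ with hx
  set y : E := (ρ / 2) • b ⟨1, by omega⟩ with hy
  have hxy : ⟪x, y⟫ = 0 := by
    rw [hx, hy, real_inner_smul_left, real_inner_smul_right, b.orthonormal.2 (by simp)]
    ring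
  have hnx : ‖x‖ = ρ / 2 := by
    rw [hx, norm_smul, b.norm_eq_one, Real.norm_of_nonneg (by linarith), mul_one]
  have hny : ‖y‖ = ρ / 2 := by
    rw [hy, norm_smul, b.norm_eq_one, Real.norm_of_nonneg (by linarith), mul_one]
  have hx0 : x ≠ 0 := by intro h0; rw [h0, norm_zero] at hnx; linarith
  have hy0 : y ≠ 0 := by intro h0; rw [h0, norm_zero] at hny; linarith
  have hxm : q0 + x ∈ ball q0 ρ := by simp [mem_ball, dist_eq_norm, hnx, hρ]
  have hym : q0 + y ∈ ball q0 ρ := by simp [mem_ball, dist_eq_norm, hny, hρ]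
  have h0m : q0 ∈ ball q0 ρ := mem_ball_self hρ
  -- the ratio is the same for two independent displacements
  have key : ∀ u v : E, q0 + u ∈ ball q0 ρ → q0 + v ∈ ball q0 ρ →
      (∀ α β : ℝ, α • u = β • v → α = 0 ∧ β = 0) → ∀ r r' : ℝ,
      Φ (q0 + u) - Φ q0 = r • u → Φ (q0 + v) - Φ q0 = r' • v → r = r' := by
    intro u v hu hv hind r r' hr hr'
    obtain ⟨t, ht⟩ := hpar _ hv _ hu
    have e : (r - t) • u = (r' - t) • v := by
      have e1 : Φ (q0 + u) - Φ (q0 + v) = r • u - r' • v := by rw [← hr, ← hr']; abel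
      rw [e1, add_sub_add_left_eq_sub, smul_sub] at ht
      rw [sub_smul, sub_smul]
      calc r • u - t • u = (r • u - r' • v) - (t • u - t • v) + (r' • v - t • v) := by abel
        _ = r' • v - t • v := by rw [ht]; abel
    obtain ⟨h1, h2⟩ := hind _ _ e
    linarith
  obtain ⟨c, hc⟩ := hpar _ h0m _ hxm
  obtain ⟨c', hc'⟩ := hpar _ h0m _ hym
  rw [add_sub_cancel_left] at hc hc'
  have hxyi : ∀ α β : ℝ, α • x = β • y → α = 0 ∧ β = 0 := by
    intro α β e
    have h1 : α * ⟪x, x⟫ = 0 := by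
      rw [← real_inner_smul_right, e, real_inner_smul_right, hxy, mul_zero]
    have h2 : α = 0 := by simpa [inner_self_eq_zero, hx0] using h1
    rw [h2, zero_smul, eq_comm] at e
    exact ⟨h2, by simpa [hy0] using e⟩
  have hcc : c = c' := key x y hxm hym hxyi c c' hc hc'
  refine ⟨c, fun q hq => ?_⟩
  obtain ⟨r, hr⟩ := hpar _ h0m _ hq
  obtain ⟨u, rfl⟩ : ∃ u, q = q0 + u := ⟨q - q0, by abel⟩
  rw [add_sub_cancel_left] at hr ⊢
  rcases eq_or_ne u 0 with rfl | hu
  · simp
  suffices r = c by rw [← this, ← hr]; abel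
  by_cases hux : ∀ α β : ℝ, α • u = β • x → α = 0 ∧ β = 0
  · exact key u x hq hxm hux r c hr hc
  · refine (key u y hq hym (fun α β e => ?_) r c' hr hc').trans hcc.symm
    push Not at hux
    obtain ⟨α', β', e', hne⟩ := hux
    have hα' : α' ≠ 0 := by
      intro h0
      rw [h0, zero_smul, eq_comm, smul_eq_zero] at e'
      exact hne h0 (e'.resolve_right hx0)
    have huy : ⟪u, y⟫ = 0 := by
      have h1 : ⟪α' • u, y⟫ = 0 := by rw [e', real_inner_smul_left, hxy, mul_zero]
      rw [real_inner_smul_left] at h1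
      exact (mul_eq_zero.1 h1).resolve_left hα'
    have h1 : α * ⟪u, u⟫ = 0 := by
      rw [← real_inner_smul_right, e, real_inner_smul_right, huy, mul_zero]
    have h2 : α = 0 := by simpa [inner_self_eq_zero, hu] using h1
    rw [h2, zero_smul, eq_comm] at e
    exact ⟨h2, by simpa [hy0] using e⟩

end Vale.Agent.P084.Full.Dual
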