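import Vale.Agent.P084.Full.Smooth

/-!
P084 (Tingley's problem), library for the general case: constancy of the derivative along segments
of the sphere on which the derivative of the norm is constant, and the exit from the smooth set.
-/

namespace Vale.Agent.P084.Full

open Filter Topology Metric Orbit MeasureTheory
open Orbit.PIso (C0 C0_pos defect symm_G)
open scoped NNReal

variable {X Y : Type*} [NormedAddCommGroup X] [NormedSpace ℝ X] [NormedAddCommGroup Y]
  [NormedSpace ℝ Y]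

/-- Second order information on arbitrarily small translates of every finite-dimensional slice. -/
def SliceData (f : PIso X Y) : Prop :=
  ∀ (k m : ℕ) (v : Fin k → X) (w : Fin m → X) (φ : Y →L[ℝ] ℝ) (a : X) (ε : ℝ), 0 < ε →
    ∃ c : X, ‖c - a‖ < ε ∧ ∀ᵐ u : Fin k → ℝ, Smooth (c + ∑ i, u i • v i) →
      ∃ (Q : Fin m → Fin m → ℝ) (cc : ℝ), |cc| ≤ 2 * ‖φ‖ ∧ (∀ i j, Q i j = Q j i) ∧
        (∀ i j, Q i j ^ 2 ≤ Q i i * Q j j) ∧ (∀ i, 0 ≤ Q i i) ∧ ∀ i j,
          HasLineDerivAt ℝ (fun y => dNorm y (w j)) (Q i j) (c + ∑ i, u i • v i) (w i) ∧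
          HasLineDerivAt ℝ (fun y => φ (dG f y (w j))) (cc * Q i j) (c + ∑ i, u i • v i) (w i) ∧
          HasLineDerivAt ℝ (fun y => dNorm (f.G (c + ∑ i, u i • v i)) (dG f y (w j))) 0
            (c + ∑ i, u i • v i) (w i)

/-- A Lipschitz function with almost everywhere nonnegative derivative increases. -/
lemma le_of_ae_deriv_le {g h : ℝ → ℝ} {Kg Kh : ℝ≥0} (hg : LipschitzOnWith Kg g (Set.Icc 0 1))
    (hh : LipschitzOnWith Kh h (Set.Icc 0 1))
    (hd : ∀ᵐ r : ℝ, r ∈ Set.Ioo (0 : ℝ) 1 →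
      ∃ g' h', HasDerivAt g g' r ∧ HasDerivAt h h' r ∧ g' ≤ h') :
    g 1 - g 0 ≤ h 1 - h 0 := by
  rw [← Set.uIcc_of_le (zero_le_one (α := ℝ))] at hg hh
  have hg' := hg.absolutelyContinuousOnInterval
  have hh' := hh.absolutelyContinuousOnInterval
  rw [← hg'.integral_deriv_eq_sub, ← hh'.integral_deriv_eq_sub]
  refine intervalIntegral.integral_mono_ae_restrict zero_le_one hg'.intervalIntegrable_deriv
    hh'.intervalIntegrable_deriv ?_
  rw [EventuallyLE, ae_restrict_iff' measurableSet_Icc]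
  have h0 : ∀ᵐ r : ℝ, r ≠ 0 ∧ r ≠ 1 := by
    filter_upwards [Measure.ae_ne volume (0 : ℝ), Measure.ae_ne volume (1 : ℝ)] with r h h'
    exact ⟨h, h'⟩
  filter_upwards [hd, h0] with r hr hr' hr01
  obtain ⟨g', h', h1, h2, h3⟩ :=
    hr ⟨lt_of_le_of_ne hr01.1 (Ne.symm hr'.1), lt_of_le_of_ne hr01.2 hr'.2⟩
  rw [h1.deriv, h2.deriv]
  exact h3

/-- The derivative of the norm is locally Lipschitz at smooth points. -/
lemma locallyLipschitzOn_dNorm : LocallyLipschitzOn {z : X | Smooth z} (dNorm : X → X →L[ℝ] ℝ) := by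
  intro z hz
  obtain ⟨r, C, hr, hC, hu⟩ := hz.norm_uniform
  refine ⟨⟨C, hC⟩, ball z r, mem_nhdsWithin_of_mem_nhds (ball_mem_nhds z hr),
    LipschitzOnWith.of_dist_le_mul fun a ha b hb => ?_⟩
  rw [mem_ball, dist_eq_norm] at ha hb
  rw [dist_eq_norm, dist_eq_norm]
  exact (hu b hb).2.2 a ha

variable (f : PIso X Y) [CompleteSpace X] [CompleteSpace Y]

/-- The derivative of the extension is locally Lipschitz at smooth points. -/
lemma locallyLipschitzOn_dG : LocallyLipschitzOn {z : X | Smooth z} (dG f) := by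
  intro z hz
  obtain ⟨r, C, hr, hC, hu⟩ := dG_uniform f hz
  refine ⟨⟨C, hC⟩, ball z r, mem_nhdsWithin_of_mem_nhds (ball_mem_nhds z hr),
    LipschitzOnWith.of_dist_le_mul fun a ha b hb => ?_⟩
  rw [mem_ball, dist_eq_norm] at ha hb
  rw [dist_eq_norm, dist_eq_norm]
  exact (hu b hb).2.2 a ha

omit [CompleteSpace X] [CompleteSpace Y] in
/-- Restriction of a Lipschitz operator-valued map to a line and a vector. -/
lemma lipschitz_line {Z : Type*} [NormedAddCommGroup Z] [NormedSpace ℝ Z] {F : X → X →L[ℝ] Z}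
    {K : ℝ≥0} {S : Set X} (hF : LipschitzOnWith K F S) (φ : Z →L[ℝ] ℝ) (c t h : X) {I : Set ℝ}
    (hI : ∀ r ∈ I, c + r • t ∈ S) :
    LipschitzOnWith (‖φ‖₊ * K * ‖t‖₊ * ‖h‖₊) (fun r => φ (F (c + r • t) h)) I := by
  refine LipschitzOnWith.of_dist_le_mul fun r hr s hs => ?_
  rw [dist_eq_norm, dist_eq_norm, ← map_sub]
  refine (φ.le_opNorm _).trans ?_
  have h1 := hF.norm_sub_le (hI r hr) (hI s hs)
  rw [add_sub_add_left_eq_sub, ← sub_smul, norm_smul] at h1
  have h2 := ((F (c + r • t) - F (c + s • t)).le_opNorm h).trans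
    (mul_le_mul_of_nonneg_right h1 (norm_nonneg h))
  rw [sub_apply] at h2
  push_cast
  calc ‖φ‖ * ‖F (c + r • t) h - F (c + s • t) h‖
      ≤ ‖φ‖ * (K * (‖r - s‖ * ‖t‖) * ‖h‖) := mul_le_mul_of_nonneg_left h2 (norm_nonneg _)
    _ = _ := by ring

/-- **Segments.** Along a segment of smooth points with constant derivative of the norm the
derivative of the extension is constant. -/
theorem dG_eq_of_segment (hS : SliceData f) {z t : X}
    (hseg : ∀ s ∈ Set.Icc (0 : ℝ) 1, Smooth (z + s • t))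
    (hπ : dNorm (z + t) t = dNorm z t) : dG f (z + t) = dG f z := by
  refine ContinuousLinearMap.ext fun h => (SeparatingDual.eq_iff_forall_dual_eq (R := ℝ)).2 fun φ => ?_
  have hK0 : IsCompact ((fun s : ℝ => z + s • t) '' Set.Icc 0 1) :=
    isCompact_Icc.image (by fun_prop)
  obtain ⟨δ, hδ, hδS⟩ := hK0.exists_thickening_subset_open isOpen_smooth
    (by rintro _ ⟨s, hs, rfl⟩; exact hseg s hs)
  have hd : ∀ n : ℕ, 0 < δ / 2 / (n + 1) := fun n => by positivity
  choose c hc hae using fun n : ℕ =>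
    hS 1 2 ![t] ![t, h] φ z (δ / 2 / (n + 1)) (hd n)
  have hct : Tendsto c atTop (𝓝 z) := by
    refine tendsto_iff_norm_sub_tendsto_zero.2 (squeeze_zero (fun n => norm_nonneg _)
      (fun n => (hc n).le) ?_)
    simpa [div_eq_mul_inv] using tendsto_one_div_add_atTop_nhds_zero_nat.const_mul (δ / 2)
  set η := δ / 2 / (‖h‖ + 1) with hη
  have hη0 : 0 < η := by positivity
  set K : Set X := (fun p : X × ℝ × ℝ => p.1 + p.2.1 • t + p.2.2 • h) ''
    ((insert z (Set.range c)) ×ˢ (Set.Icc (0 : ℝ) 1 ×ˢ Set.Icc (-η) η)) with hKdef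
  have hKc : IsCompact K :=
    (hct.isCompact_insert_range.prod (isCompact_Icc.prod isCompact_Icc)).image (by fun_prop)
  have hKS : K ⊆ {y | Smooth y} := by
    rintro _ ⟨⟨b, r, s⟩, ⟨hb, hr, hs⟩, rfl⟩
    refine hδS (mem_thickening_iff.2 ⟨z + r • t, ⟨r, hr, rfl⟩, ?_⟩)
    rw [dist_eq_norm, show b + r • t + s • h - (z + r • t) = (b - z) + s • h by abel]
    have hbz : ‖b - z‖ ≤ δ / 2 := by
      rcases hb with rfl | ⟨n, rfl⟩
      · simp only [sub_self, norm_zero]; linarith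
      · refine (hc n).le.trans (div_le_self (by linarith) ?_)
        linarith [n.cast_nonneg (α := ℝ)]
    have hsh : ‖s • h‖ < δ / 2 := by
      rw [norm_smul, Real.norm_eq_abs]
      calc |s| * ‖h‖ ≤ η * ‖h‖ := mul_le_mul_of_nonneg_right (abs_le.2 hs) (norm_nonneg h)
        _ < η * (‖h‖ + 1) := by linarith
        _ = δ / 2 := by rw [hη]; field_simp
    linarith [norm_add_le (b - z) (s • h)]
  obtain ⟨A, hA⟩ := (LocallyLipschitzOn.mono (locallyLipschitzOn_dNorm (X := X))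
    hKS).exists_lipschitzOnWith_of_compact hKc
  obtain ⟨B, hB⟩ := (LocallyLipschitzOn.mono (locallyLipschitzOn_dG f)
    hKS).exists_lipschitzOnWith_of_compact hKc
  set C := (A : ℝ) * ‖h‖ ^ 2 with hC
  have hmem : ∀ n, ∀ r ∈ Set.Icc (0 : ℝ) 1, c n + r • t ∈ K := fun n r hr =>
    ⟨⟨c n, r, 0⟩, ⟨Or.inr ⟨n, rfl⟩, hr, by linarith, hη0.le⟩, by simp⟩
  have key : ∀ n, ∀ lam : ℝ, 0 < lam →
      |φ (dG f (c n + t) h) - φ (dG f (c n) h)| ≤
        ‖φ‖ * (lam * C + (dNorm (c n + t) t - dNorm (c n) t) / lam) := by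
    intro n lam hlam
    have La := lipschitz_line hB φ (c n) t h (hmem n)
    have Lp := lipschitz_line hA (ContinuousLinearMap.id ℝ ℝ) (c n) t t (hmem n)
    simp only [ContinuousLinearMap.id_apply] at Lp
    set a : ℝ → ℝ := fun r => φ (dG f (c n + r • t) h) with ha
    set p : ℝ → ℝ := fun r => dNorm (c n + r • t) t with hp
    set g : ℝ → ℝ := fun r => ‖φ‖ * (lam * C * r + p r / lam) with hg
    have hI : ‖ContinuousLinearMap.id ℝ ℝ‖ ≤ 1 := ContinuousLinearMap.norm_id_le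
    have Lg : LipschitzOnWith (Real.toNNReal (‖φ‖ * (lam * C + A * ‖t‖ * ‖t‖ / lam))) g
        (Set.Icc 0 1) := by
      refine LipschitzOnWith.of_dist_le' fun r hr s hs => ?_
      have h1 := Lp.norm_sub_le hr hs
      push_cast at h1
      rw [Real.norm_eq_abs, Real.norm_eq_abs] at h1
      have h2 : |p r - p s| ≤ A * ‖t‖ * ‖t‖ * |r - s| := h1.trans (by
        refine mul_le_mul_of_nonneg_right ?_ (abs_nonneg _)
        calc ‖ContinuousLinearMap.id ℝ ℝ‖ * A * ‖t‖ * ‖t‖ ≤ 1 * A * ‖t‖ * ‖t‖ := by gcongr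
          _ = _ := by rw [one_mul])
      rw [Real.dist_eq, Real.dist_eq, hg]
      simp only
      rw [show ‖φ‖ * (lam * C * r + p r / lam) - ‖φ‖ * (lam * C * s + p s / lam) =
        ‖φ‖ * (lam * C * (r - s) + (p r - p s) / lam) by ring, abs_mul, abs_norm, mul_assoc ‖φ‖]
      refine mul_le_mul_of_nonneg_left ?_ (norm_nonneg φ)
      refine (abs_add_le _ _).trans ?_
      rw [abs_mul, abs_div, abs_of_pos hlam, abs_of_nonneg (by positivity : 0 ≤ lam * C), add_mul]
      refine add_le_add le_rfl ?_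
      rw [div_mul_eq_mul_div]
      exact div_le_div_of_nonneg_right h2 hlam.le
    have hder : ∀ᵐ r : ℝ, r ∈ Set.Ioo (0 : ℝ) 1 →
        ∃ a' g', HasDerivAt a a' r ∧ HasDerivAt g g' r ∧ |a'| ≤ g' := by
      have hr := (volume_preserving_funUnique (Fin 1) ℝ).symm.quasiMeasurePreserving.ae (hae n)
      filter_upwards [hr] with r hr hr01
      simp only [MeasurableEquiv.funUnique_symm_apply, uniqueElim_const,
        Finset.univ_unique, Finset.sum_singleton, Fin.default_eq_zero,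
        Matrix.cons_val_zero] at hr
      set y := c n + r • t with hy
      obtain ⟨Q, cc, hcc, hsym, hcs, hpos, hl⟩ := hr (hKS (hmem n r ⟨hr01.1.le, hr01.2.le⟩))
      obtain ⟨-, hl01, -⟩ := hl 0 1
      obtain ⟨hl00, -, -⟩ := hl 0 0
      obtain ⟨hl11, -, -⟩ := hl 1 1
      simp only [Matrix.cons_val_zero, Matrix.cons_val_one, Matrix.cons_val_fin_one]
        at hl01 hl00 hl11
      have shift : ∀ {F : X → ℝ} {F' : ℝ}, HasLineDerivAt ℝ F F' y t →
          HasDerivAt (fun s : ℝ => F (c n + s • t)) F' r := by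
        intro F F' hF
        have h1 : HasDerivAt (fun s : ℝ => F (y + s • t)) F' (r - r) := by rw [sub_self]; exact hF
        have h2 := h1.comp_sub_const r r
        refine h2.congr_of_eventuallyEq (Eventually.of_forall fun s => ?_)
        simp only [hy]
        congr 1
        module
      refine ⟨cc * Q 0 1, ‖φ‖ * (lam * C + Q 0 0 / lam), shift hl01, ?_, ?_⟩
      · have h1 := (((hasDerivAt_id r).const_mul (lam * C)).add
          ((shift hl00).div_const lam)).const_mul ‖φ‖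
        rw [mul_one] at h1
        exact h1
      · have hQC : Q 1 1 ≤ C := by
          rcases eq_or_ne h 0 with hh0 | hh0
          · have h1 : HasLineDerivAt ℝ (fun u : X => dNorm u h) 0 y h := by
              rw [hh0]; simp [HasLineDerivAt]; exact hasDerivAt_const _ _
            rw [HasLineDerivAt.unique hl11 h1]; positivity
          refine (le_abs_self _).trans ?_
          have h1 : HasDerivAt (fun s : ℝ => dNorm (y + s • h) h) (Q 1 1) 0 := hl11
          have h2 := lipschitz_line hA (ContinuousLinearMap.id ℝ ℝ) y h h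
            (I := Set.Icc (-η) η) fun s hs =>
              ⟨⟨c n, r, s⟩, ⟨Or.inr ⟨n, rfl⟩, ⟨hr01.1.le, hr01.2.le⟩, hs⟩, rfl⟩
          simp only [ContinuousLinearMap.id_apply] at h2
          have h3 := h1.le_of_lipschitzOn (Icc_mem_nhds (by linarith) hη0) h2
          push_cast at h3
          rw [Real.norm_eq_abs] at h3
          refine h3.trans ?_
          have h4 : ‖ContinuousLinearMap.id ℝ ℝ‖ ≤ 1 := ContinuousLinearMap.norm_id_le
          calc ‖ContinuousLinearMap.id ℝ ℝ‖ * A * ‖h‖ * ‖h‖ ≤ 1 * A * ‖h‖ * ‖h‖ := by gcongr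
            _ = C := by rw [hC]; ring
        have hamgm : 2 * |Q 0 1| ≤ lam * C + Q 0 0 / lam := by
          have hp := hpos 0
          have hCQ : Q 0 1 ^ 2 ≤ (lam * C) * (Q 0 0 / lam) := by
            rw [show (lam * C) * (Q 0 0 / lam) = Q 0 0 * C by field_simp]
            exact (hcs 0 1).trans (mul_le_mul_of_nonneg_left hQC hp)
          have h5 : (2 * |Q 0 1|) ^ 2 ≤ (lam * C + Q 0 0 / lam) ^ 2 := by
            have := sq_nonneg (lam * C - Q 0 0 / lam)
            rw [mul_pow, sq_abs]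
            linarith
          exact (sq_le_sq₀ (by positivity) (by positivity)).1 h5
        rw [abs_mul]
        calc |cc| * |Q 0 1| ≤ 2 * ‖φ‖ * |Q 0 1| :=
              mul_le_mul_of_nonneg_right hcc (abs_nonneg _)
          _ = ‖φ‖ * (2 * |Q 0 1|) := by ring
          _ ≤ _ := mul_le_mul_of_nonneg_left hamgm (norm_nonneg _)
    have h1 := le_of_ae_deriv_le La Lg (hder.mono fun r hr hr01 => by
      obtain ⟨a', g', h1, h2, h3⟩ := hr hr01
      exact ⟨a', g', h1, h2, (le_abs_self _).trans h3⟩)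
    have h2 := le_of_ae_deriv_le La.neg Lg (hder.mono fun r hr hr01 => by
      obtain ⟨a', g', h1, h2, h3⟩ := hr hr01
      exact ⟨-a', g', h1.neg, h2, (neg_le_abs _).trans h3⟩)
    have eg : g 1 - g 0 = ‖φ‖ * (lam * C + (dNorm (c n + t) t - dNorm (c n) t) / lam) := by
      simp only [hg, hp, one_smul, zero_smul, add_zero]; ring
    rw [eg] at h1 h2
    simp only [ha, one_smul, zero_smul, add_zero, Pi.neg_apply] at h1 h2
    rw [abs_le]; constructor <;> linarith
  have hzc := hseg 0 ⟨le_rfl, zero_le_one⟩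
  have hzt := hseg 1 ⟨zero_le_one, le_rfl⟩
  rw [zero_smul, add_zero] at hzc
  rw [one_smul] at hzt
  have hlim : ∀ lam : ℝ, 0 < lam → |φ (dG f (z + t) h) - φ (dG f z h)| ≤ ‖φ‖ * (lam * C) := by
    intro lam hlam
    have cG : ∀ {y : X}, Smooth y → ContinuousAt (fun u => φ (dG f u h)) y := fun {y} hy =>
      φ.continuous.continuousAt.comp
        ((ContinuousLinearMap.apply ℝ Y h).continuous.continuousAt.comp
          ((locallyLipschitzOn_dG f).continuousOn.continuousAt (isOpen_smooth.mem_nhds hy)))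
    have cN : ∀ {y : X}, Smooth y → ContinuousAt (fun u => dNorm u t) y := fun {y} hy =>
      (ContinuousLinearMap.apply ℝ ℝ t).continuous.continuousAt.comp
        ((locallyLipschitzOn_dNorm (X := X)).continuousOn.continuousAt (isOpen_smooth.mem_nhds hy))
    have hct' : Tendsto (fun n => c n + t) atTop (𝓝 (z + t)) := hct.add_const t
    have e1 := (((cG hzt).tendsto.comp hct').sub ((cG hzc).tendsto.comp hct)).abs
    have e2 := ((((cN hzt).tendsto.comp hct').sub ((cN hzc).tendsto.comp hct)).div_const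
      lam).const_add (lam * C) |>.const_mul ‖φ‖
    rw [hπ, sub_self, zero_div, add_zero] at e2
    exact le_of_tendsto_of_tendsto' e1 e2 fun n => key n lam hlam
  refine sub_eq_zero.1 (abs_nonpos_iff.1 (ge_of_tendsto (x := 𝓝[>] (0 : ℝ))
    (f := fun lam => ‖φ‖ * (lam * C)) ?_ (eventually_mem_nhdsWithin.mono fun lam hlam =>
      hlim lam hlam)))
  exact ((continuous_const.mul (continuous_id.mul continuous_const)).tendsto' 0 0
    (by simp)).mono_left nhdsWithin_le_nhds

/-- The derivative at a smooth point is the one-sided derivative at its normalisation. -/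
lemma dG_eq_Ld {z : X} (h : Smooth z) (a : X) : dG f z a = f.Ld (‖z‖⁻¹ • z) a := by
  obtain ⟨e, -, hLe, -, -, -, -, -, hLd, -⟩ := exists_dG f h
  rw [hLd, hLe]; rfl

/-- The derivative is homogeneous of degree zero. -/
lemma dG_smul {z : X} (h : Smooth z) {c : ℝ} (hc : 0 < c) : dG f (c • z) = dG f z := by
  refine ContinuousLinearMap.ext fun a => ?_
  rw [dG_eq_Ld f (h.smul hc), dG_eq_Ld f h, norm_smul, Real.norm_of_nonneg hc.le, smul_smul]
  congr 2
  field_simp [h.norm_pos.ne']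

/-- A smooth point with a derivative that is not isometric. -/
def NonIso (z : X) : Prop := Smooth z ∧ ∃ a, ‖dG f z a‖ ≠ ‖a‖

lemma NonIso.smul {z : X} (h : NonIso f z) {c : ℝ} (hc : 0 < c) : NonIso f (c • z) :=
  ⟨h.1.smul hc, by rw [dG_smul f h.1 hc]; exact h.2⟩

/-- Non-isometric smooth points form an open set. -/
lemma isOpen_nonIso : IsOpen {z : X | NonIso f z} := by
  refine isOpen_iff_eventually.2 fun z hz => ?_
  obtain ⟨hz, a, ha⟩ := hz
  have hc : ContinuousAt (fun u => ‖dG f u a‖) z :=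
    (continuous_norm.comp (ContinuousLinearMap.apply ℝ Y a).continuous).continuousAt.comp
      ((locallyLipschitzOn_dG f).continuousOn.continuousAt (isOpen_smooth.mem_nhds hz))
  filter_upwards [hz.eventually, hc.eventually_ne ha] with u hu hua
  exact ⟨hu, a, hua⟩

omit [CompleteSpace X] in
lemma norm_segment {z u : X} (hz : Smooth z) (hn : ‖u‖ = ‖z‖) (hu : dNorm z u = ‖z‖) {s : ℝ}
    (hs : s ∈ Set.Icc (0 : ℝ) 1) :
    ‖z + s • (u - z)‖ = ‖z‖ ∧ dNorm z (z + s • (u - z)) = ‖z‖ := by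
  have h2 : dNorm z (z + s • (u - z)) = ‖z‖ := by
    rw [map_add, map_smul, map_sub, hz.dNorm_self, hu, sub_self, smul_zero, add_zero]
  refine ⟨le_antisymm ?_ (h2.symm.le.trans (hz.supp.le _)), h2⟩
  rw [show z + s • (u - z) = (1 - s) • z + s • u by module]
  refine (norm_add_le _ _).trans_eq ?_
  rw [norm_smul, norm_smul, Real.norm_of_nonneg hs.1, Real.norm_of_nonneg (by linarith [hs.2]), hn]
  ring

omit [CompleteSpace X] in
/-- A smooth point of a face has the same derivative of the norm. -/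
lemma dNorm_eq_of_face {z u : X} (hz : Smooth z) (hu : Smooth u) (hn : ‖u‖ = ‖z‖)
    (h : dNorm z u = ‖z‖) : dNorm u = dNorm z :=
  (supp_eq hu.hasFDerivAt_norm ⟨hz.supp.le, h.trans hn.symm⟩).symm

/-- Points of one face have the same derivatives as long as the joining segment is smooth. -/
lemma dG_eq_of_face (hS : SliceData f) {z u : X} (hz : Smooth z) (hn : ‖u‖ = ‖z‖)
    (hu : dNorm z u = ‖z‖) {s : ℝ} (hs : s ∈ Set.Icc (0 : ℝ) 1)
    (hseg : ∀ r ∈ Set.Icc (0 : ℝ) s, Smooth (z + r • (u - z))) :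
    dG f (z + s • (u - z)) = dG f z := by
  refine dG_eq_of_segment f hS (fun r hr => ?_) ?_
  · rw [smul_smul]
    exact hseg _ ⟨mul_nonneg hr.1 hs.1, mul_le_of_le_one_left hs.1 hr.2⟩
  · obtain ⟨h1, h2⟩ := norm_segment hz hn hu hs
    rw [dNorm_eq_of_face hz (hseg s ⟨hs.1, le_rfl⟩) h1 h2]

/-- **Exit.** Along a segment of smooth points of a face ending at a point which is not smooth the
derivative is isometric. -/
lemma iso_of_exit
    (hbad : ∀ s : X, ‖s‖ = 1 → ¬ Smooth s → ∃ T : X ≃ₗᵢ[ℝ] Y, ∀ a, f.Ld s a = T a)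
    {z s₀ : X} (hz : Smooth z) (hn : ‖z‖ = 1) (hs1 : ‖s₀‖ = 1) (hs₀ : ¬ Smooth s₀)
    (hseg : ∀ t ∈ Set.Ioc (0 : ℝ) 1, Smooth (s₀ + t • (z - s₀)) ∧ ‖s₀ + t • (z - s₀)‖ = 1 ∧
      dNorm (s₀ + t • (z - s₀)) = dNorm z ∧ dG f (s₀ + t • (z - s₀)) = dG f z) :
    ∀ a, ‖dG f z a‖ = ‖a‖ := by
  obtain ⟨T, hT⟩ := hbad s₀ hs1 hs₀
  set e := z - s₀ with he
  set L := dG f z with hL
  set π := dNorm z with hπ
  obtain ⟨r, C, hr, hC, hu⟩ := hz.norm_uniform
  have hline : ∀ t ∈ Set.Ioc (0 : ℝ) 1, f.G (s₀ + t • e) = f.G s₀ + t • L e := by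
    intro t ht
    set F : ℝ → Y := fun t => f.G (s₀ + t • e) - t • L e with hF
    have hFc : Continuous F :=
      (f.continuous_G.comp (by fun_prop)).sub (continuous_id.smul continuous_const)
    have hconst : ∀ a ∈ Set.Ioc (0 : ℝ) t, F t = F a := fun a ha => by
      refine constant_of_has_deriv_right_zero hFc.continuousOn (fun x hx => ?_) t
        (Set.right_mem_Icc.2 ha.2)
      obtain ⟨hxs, -, -, hxL⟩ := hseg x ⟨ha.1.trans_le hx.1, hx.2.le.trans ht.2⟩
      have h0 : HasDerivAt (fun u : ℝ => s₀ + u • e) e x := by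
        simpa using ((hasDerivAt_id x).smul_const e).const_add s₀
      have h1 := (hasFDerivAt_G f hxs).comp_hasDerivAt x h0
      rw [hxL] at h1
      have h2 := h1.sub ((hasDerivAt_id x).smul_const (L e))
      rw [one_smul, sub_self] at h2
      exact h2.hasDerivWithinAt
    have h0 : F t = F 0 := by
      refine tendsto_nhds_unique (l := 𝓝[>] (0 : ℝ)) tendsto_const_nhds
        ((hFc.tendsto 0).mono_left nhdsWithin_le_nhds |>.congr' ?_)
      filter_upwards [Ioc_mem_nhdsGT ht.1] with a ha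
      exact (hconst a ha).symm
    simp only [hF, zero_smul, add_zero, sub_zero] at h0
    rw [← h0]; abel
  have key : ∀ τ : X, ‖τ‖ ≤ 1 / 65536 → ‖τ‖ < r →
      ‖T (e + τ) - L e - L τ‖ ≤ C0 * C * ‖τ‖ ^ 2 := by
    intro τ hτ hτr
    have hlim : Tendsto (fun n : ℕ => ‖PIso.dq f s₀ (e + τ) n - L e - L τ‖) atTop
        (𝓝 ‖T (e + τ) - L e - L τ‖) := by
      rw [← hT]
      exact (((f.tendsto_Ld hs1 (e + τ)).sub_const _).sub_const _).norm
    have h4 : Tendsto (fun n : ℕ => C0 * C * ‖τ‖ ^ 2 + C0 * 4 * ‖τ‖ ^ 2 * ((2 : ℝ) ^ n)⁻¹) atTop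
        (𝓝 (C0 * C * ‖τ‖ ^ 2)) := by
      simpa using ((tendsto_inv_atTop_zero.comp
        (tendsto_pow_atTop_atTop_of_one_lt one_lt_two)).const_mul
        (C0 * 4 * ‖τ‖ ^ 2)).const_add (C0 * C * ‖τ‖ ^ 2)
    refine le_of_tendsto_of_tendsto' hlim h4 fun n => ?_
    set t := ((2 : ℝ) ^ n)⁻¹ with ht
    have ht0 : 0 < t := by positivity
    have ht1 : t ≤ 1 := inv_le_one_of_one_le₀ (one_le_pow₀ one_le_two)
    obtain ⟨hps, hp1, hpπ, hpL⟩ := hseg t ⟨ht0, ht1⟩
    obtain ⟨e', -, hLe', -, -, -, -, -, -, hest⟩ := exists_dG f hps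
    have h1 := hest (t • τ) (by
      rw [norm_smul, Real.norm_of_nonneg ht0.le, hp1]
      exact (mul_le_of_le_one_left (norm_nonneg τ) ht1).trans hτ)
    have hee : e' (t • τ) = L (t • τ) := by
      rw [← hpL, hLe']; rfl
    rw [hee, hp1, hpπ, hline t ⟨ht0, ht1⟩, map_smul, map_smul, smul_eq_mul] at h1
    have e1 : PIso.dq f s₀ (e + τ) n - L e - L τ =
        t⁻¹ • (f.G (s₀ + t • e + t • τ) - (f.G s₀ + t • L e) - t • L τ) := by
      simp only [PIso.dq, ← ht]
      rw [show ((2 : ℝ) ^ n) = t⁻¹ by rw [ht, inv_inv], smul_add t e τ, ← add_assoc]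
      match_scalars <;> field_simp
    rw [e1, norm_smul, norm_inv, Real.norm_of_nonneg ht0.le, inv_mul_le_iff₀ ht0]
    refine h1.trans ?_
    have hcv : ‖s₀ + t • e + t • τ‖ - 1 ≤ t * (‖z + τ‖ - 1) := by
      rw [show s₀ + t • e + t • τ = (1 - t) • s₀ + t • (z + τ) by rw [he]; module]
      have := norm_add_le ((1 - t) • s₀) (t • (z + τ))
      rw [norm_smul, norm_smul, Real.norm_of_nonneg ht0.le,
        Real.norm_of_nonneg (by linarith : 0 ≤ 1 - t), hs1] at this
      linarith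
    have hq := (le_abs_self _).trans ((hu z (by simpa using hr)).2.1 τ hτr).2
    rw [hn] at hq
    rw [norm_smul, Real.norm_of_nonneg ht0.le, div_one]
    have h5 : t * (‖z + τ‖ - 1 - π τ) ≤ t * (C * ‖τ‖ ^ 2) := mul_le_mul_of_nonneg_left hq ht0.le
    have h6 : C0 * (‖s₀ + t • e + t • τ‖ - 1 - t * π τ + 4 * (t * ‖τ‖) ^ 2) ≤
        C0 * (t * (C * ‖τ‖ ^ 2) + 4 * (t * ‖τ‖) ^ 2) :=
      mul_le_mul_of_nonneg_left (by linarith) C0_pos.le
    linarith
  have hTe : T e = L e := by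
    have := key 0 (by simp) (by simpa using hr)
    simpa [sub_eq_zero] using this
  intro a
  suffices hTa : T a = L a by rw [← hTa]; exact T.norm_map a
  refine sub_eq_zero.1 (norm_eq_zero.1 (le_antisymm ?_ (norm_nonneg _)))
  refine ge_of_tendsto (x := 𝓝[>] (0 : ℝ)) (f := fun c : ℝ => C0 * C * ‖a‖ ^ 2 * c)
    (((continuous_const.mul continuous_id).tendsto' 0 0 (by simp)).mono_left
      nhdsWithin_le_nhds) ?_
  have hsm : ∀ᶠ c in 𝓝[>] (0 : ℝ), c * ‖a‖ < min r (1 / 65536) :=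
    (((continuous_id.mul continuous_const).tendsto' 0 0 (by simp)).mono_left
      nhdsWithin_le_nhds).eventually (gt_mem_nhds (lt_min hr (by norm_num)))
  filter_upwards [hsm, self_mem_nhdsWithin] with c hc hc0
  have hc0' : (0 : ℝ) < c := hc0
  have hcn : ‖c • a‖ = c * ‖a‖ := by rw [norm_smul, Real.norm_of_nonneg hc0'.le]
  have h := key (c • a) (by linarith [min_le_right r (1 / 65536)])
    (by linarith [min_le_left r (1 / 65536 : ℝ)])
  rw [map_add, hTe, add_sub_cancel_left, map_smul, map_smul, ← smul_sub, norm_smul,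
    Real.norm_of_nonneg hc0'.le, hcn] at h
  refine le_of_mul_le_mul_left ?_ hc0'
  linarith

/-- **Faces.** The face through a point with a non-isometric derivative consists of such points
with the same derivatives. -/
theorem nonIso_of_face (hS : SliceData f)
    (hbad : ∀ s : X, ‖s‖ = 1 → ¬ Smooth s → ∃ T : X ≃ₗᵢ[ℝ] Y, ∀ a, f.Ld s a = T a)
    {z u : X} (hz : NonIso f z) (hn : ‖u‖ = ‖z‖) (hu : dNorm z u = ‖z‖) :
    NonIso f u ∧ dNorm u = dNorm z ∧ dG f u = dG f z := by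
  set γ : ℝ → X := fun s => z + s • (u - z) with hγ
  have hγc : Continuous γ := by fun_prop
  have hall : ∀ s ∈ Set.Icc (0 : ℝ) 1, Smooth (γ s) := by
    by_contra hcon
    push Not at hcon
    set B := Set.Icc (0 : ℝ) 1 ∩ γ ⁻¹' {y | Smooth y}ᶜ with hB
    have hBc : IsCompact B :=
      isCompact_Icc.inter_right ((isOpen_smooth.isClosed_compl).preimage hγc)
    obtain ⟨w, hw, hw'⟩ := hcon
    obtain ⟨b, ⟨hb01, hb⟩, hmin⟩ := hBc.exists_isLeast ⟨w, hw, hw'⟩
    have hbefore : ∀ r ∈ Set.Ico (0 : ℝ) b, Smooth (γ r) := fun r hr => by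
      by_contra hns
      exact absurd (hmin ⟨⟨hr.1, hr.2.le.trans hb01.2⟩, hns⟩) (not_le.2 hr.2)
    have hz0 := hz.1.norm_pos
    set n := ‖z‖ with hndef
    set z₁ := n⁻¹ • z with hz₁
    set s₁ := n⁻¹ • γ b with hs₁
    have hn' : (0 : ℝ) < n⁻¹ := inv_pos.2 hz0
    have hnz : ‖z₁‖ = 1 := norm_smul_inv_norm hz.1.ne
    have hs1 : ‖s₁‖ = 1 := by
      rw [hs₁, norm_smul, Real.norm_of_nonneg hn'.le, (norm_segment hz.1 hn hu hb01).1,
        inv_mul_cancel₀ hz0.ne']
    have hs0 : ¬ Smooth s₁ := fun h => hb ((smooth_smul_iff hn').1 h)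
    obtain ⟨a, ha⟩ := (hz.smul f hn').2
    refine ha (iso_of_exit f hbad (hz.1.smul hn') hnz hs1 hs0 (fun t ht => ?_) a)
    have hr : b * (1 - t) ∈ Set.Ico (0 : ℝ) b := by
      have hb0 : 0 < b := lt_of_le_of_ne hb01.1 fun e => hb (by simpa [hγ, ← e] using hz.1)
      exact ⟨mul_nonneg hb0.le (by linarith [ht.2]), mul_lt_of_lt_one_right hb0 (by linarith [ht.1])⟩
    have hr1 : b * (1 - t) ∈ Set.Icc (0 : ℝ) 1 := ⟨hr.1, hr.2.le.trans hb01.2⟩
    have ept : s₁ + t • (z₁ - s₁) = n⁻¹ • γ (b * (1 - t)) := by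
      simp only [hs₁, hz₁, hγ]; module
    have hsm := hbefore _ hr
    rw [ept]
    refine ⟨hsm.smul hn', ?_, ?_, ?_⟩
    · rw [norm_smul, Real.norm_of_nonneg hn'.le, (norm_segment hz.1 hn hu hr1).1,
        inv_mul_cancel₀ hz0.ne']
    · obtain ⟨h1, h2⟩ := norm_segment hz.1 hn hu hr1
      rw [dNorm_smul hsm hn', dNorm_smul hz.1 hn', dNorm_eq_of_face hz.1 hsm h1 h2]
    · rw [dG_smul f hsm hn', dG_smul f hz.1 hn']
      exact dG_eq_of_face f hS hz.1 hn hu hr1 fun r hr' =>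
        hbefore r ⟨hr'.1, hr'.2.trans_lt hr.2⟩
  have hsu : Smooth u := by simpa [hγ] using hall 1 ⟨zero_le_one, le_rfl⟩
  have hL := dG_eq_of_face f hS hz.1 hn hu ⟨zero_le_one, le_rfl⟩ hall
  rw [one_smul, add_sub_cancel] at hL
  exact ⟨⟨hsu, by rw [hL]; exact hz.2⟩, dNorm_eq_of_face hz.1 hsu hn hu, hL⟩

end Vale.Agent.P084.Full
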