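import Vale.Agent.P084.Full.NearPair
import Mathlib.Analysis.Normed.Module.Dual

/-!
P084 (Tingley's problem), library for the general case: norming pairs near elements
of the bidual (Helly, Bishop–Phelps–Bollobás).
-/

namespace Vale.Agent.P084.Full

open Filter Topology

section Functionals

variable {E : Type*} [NormedAddCommGroup E] [NormedSpace ℝ E]

/-- Norm attaining pairs are close to almost norm attaining ones (Bishop–Phelps–Bollobás). -/
lemma exists_pair_near [CompleteSpace E] (p : E →L[ℝ] ℝ) (hp : ‖p‖ ≤ 1) (x : E) {ε : ℝ}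
    (hε : 0 < ε) (h : ‖x‖ - p x ≤ ε ^ 2) :
    ∃ x' : E, ∃ q : E →L[ℝ] ℝ, ‖x' - x‖ ≤ ε ∧ ‖q - p‖ ≤ ε ∧ ‖q‖ ≤ 1 ∧ q x' = ‖x'‖ := by
  rcases le_or_gt ‖x‖ ε with hx | hx
  · exact ⟨0, p, by simpa using hx, by simpa using hε.le, hp, by simp⟩
  have hlt : ε ^ 2 < ε * ‖x‖ := by rw [sq]; gcongr
  obtain ⟨v, q, h1, h2, h3, h4⟩ :=
    exists_norming_near hp hε (by linarith : ‖x‖ - ε ^ 2 ≤ p x) hlt
  refine ⟨v, q, le_of_mul_le_mul_left (by rwa [← sq]) hε, ?_, h1, h2⟩
  refine ContinuousLinearMap.opNorm_le_bound _ hε.le fun k => ?_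
  rw [sub_apply, Real.norm_eq_abs, abs_sub_comm]
  exact h4 k

/-- Finitely many values of an element of the bidual are almost attained (Goldstine, Helly). -/
lemma exists_approx {ι : Type*} [Fintype ι] (f : ι → E →L[ℝ] ℝ) (u : (E →L[ℝ] ℝ) →L[ℝ] ℝ)
    {ε : ℝ} (hε : 0 < ε) :
    ∃ ξ : E, ‖ξ‖ ≤ ‖u‖ ∧ ∀ i, |f i ξ - u (f i)| ≤ ε := by
  classical
  set T : E →L[ℝ] (ι → ℝ) := ContinuousLinearMap.pi f with hT
  set t := closure (T '' Metric.closedBall 0 ‖u‖) with ht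
  set c : ι → ℝ := fun i => u (f i) with hc
  suffices hmem : c ∈ t by
    obtain ⟨_, ⟨ξ, hξ, rfl⟩, hd⟩ := Metric.mem_closure_iff.1 hmem ε hε
    refine ⟨ξ, mem_closedBall_zero_iff.1 hξ, fun i => ?_⟩
    have := (dist_le_pi_dist c (T ξ) i).trans hd.le
    rwa [Real.dist_eq, abs_sub_comm] at this
  by_contra hmem
  obtain ⟨L, s, hLt, hLc⟩ := geometric_hahn_banach_closed_point
    (((convex_closedBall (0 : E) ‖u‖).linear_image (T : E →ₗ[ℝ] ι → ℝ)).closure) isClosed_closure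
    hmem
  set F : E →L[ℝ] ℝ := L.comp T with hF
  have hexp : ∀ v : ι → ℝ, L v = ∑ i, v i * L (Pi.single i 1) := fun v => by
    conv_lhs => rw [pi_eq_sum_univ' v]
    simp only [map_sum, map_smul, smul_eq_mul]
  have hFe : F = ∑ i, L (Pi.single i 1) • f i := by
    ext v
    rw [hF, ContinuousLinearMap.comp_apply, hexp, sum_apply]
    refine Finset.sum_congr rfl fun i _ => ?_
    simp [hT, mul_comm]
  have huF : u F = L c := by
    rw [hexp c, hFe, map_sum]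
    exact Finset.sum_congr rfl fun i _ => by simp [hc, mul_comm]
  have hball : ∀ ξ : E, ‖ξ‖ ≤ ‖u‖ → F ξ < s := fun ξ hξ =>
    hLt _ (subset_closure ⟨ξ, mem_closedBall_zero_iff.2 hξ, rfl⟩)
  have hs : 0 < s := by simpa using hball 0 (norm_zero.trans_le (norm_nonneg u))
  rcases eq_or_ne u 0 with rfl | hu
  · simp at huF
    linarith
  have hun : 0 < ‖u‖ := lt_of_le_of_ne u.opNorm_nonneg fun h => hu (u.opNorm_zero_iff.1 h.symm)
  have hFn : ‖F‖ ≤ s / ‖u‖ := by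
    refine ContinuousLinearMap.opNorm_le_bound _ (by positivity) fun v => ?_
    rcases eq_or_ne v 0 with rfl | hv
    · simp
    have hvn : 0 < ‖v‖ := norm_pos_iff.2 hv
    have hn : ‖(‖u‖ / ‖v‖) • v‖ ≤ ‖u‖ := by
      rw [norm_smul, norm_div, norm_norm u, norm_norm v, div_mul_cancel₀ _ hvn.ne']
    have h1 := hball _ hn
    have h2 := hball (-((‖u‖ / ‖v‖) • v)) (by rwa [norm_neg])
    rw [map_smul, smul_eq_mul] at h1
    rw [map_neg, map_smul, smul_eq_mul] at h2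
    rw [Real.norm_eq_abs, div_mul_eq_mul_div, le_div_iff₀ hun]
    have hk : |‖u‖ / ‖v‖ * F v| ≤ s := abs_le.2 ⟨by linarith, h1.le⟩
    rw [abs_mul, abs_div, abs_norm v, abs_of_pos hun, div_mul_eq_mul_div, div_le_iff₀ hvn] at hk
    linarith
  have h3 := (Real.le_norm_self _).trans (u.le_opNorm F)
  have h4 : ‖u‖ * ‖F‖ ≤ s := by
    rw [le_div_iff₀ hun] at hFn
    linarith
  linarith

/-- A norm attaining pair near an element of the bidual and a functional it attains. -/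
lemma exists_pair_approx [CompleteSpace E] {ι : Type*} [Fintype ι] (f : ι → E →L[ℝ] ℝ)
    {u : (E →L[ℝ] ℝ) →L[ℝ] ℝ} {ψ : E →L[ℝ] ℝ} (hψ : ‖ψ‖ ≤ 1) (hu : u ψ = ‖u‖) {δ : ℝ}
    (hδ : 0 < δ) (hδ1 : δ ≤ 1) :
    ∃ ξ : E, ∃ p : E →L[ℝ] ℝ, ‖p‖ ≤ 1 ∧ p ξ = ‖ξ‖ ∧ ‖p - ψ‖ ≤ δ ∧ ‖ξ‖ ≤ ‖u‖ + 1 ∧
      ∀ i, |f i ξ - u (f i)| ≤ δ := by
  set M := ∑ i, ‖f i‖ with hM
  have hM0 : 0 ≤ M := Finset.sum_nonneg fun i _ => norm_nonneg _
  set r := δ / (2 * (M + 1)) with hr
  have hr0 : 0 < r := by positivity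
  have hrδ : r ≤ δ := div_le_self hδ.le (by linarith)
  obtain ⟨ξ₀, hξ₀, hap⟩ := exists_approx (Option.elim · ψ f) u
    (lt_min (half_pos hδ) (by positivity : 0 < r ^ 2) : 0 < min (δ / 2) (r ^ 2))
  have hsmall : ‖ξ₀‖ - ψ ξ₀ ≤ r ^ 2 := by
    have h1 := (abs_le.1 (hap none)).1
    simp only [Option.elim_none, hu] at h1
    linarith [min_le_right (δ / 2) (r ^ 2)]
  obtain ⟨ξ, p, h1, h2, h3, h4⟩ := exists_pair_near ψ hψ ξ₀ hr0 hsmall
  refine ⟨ξ, p, h3, h4, h2.trans hrδ, ?_, fun i => ?_⟩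
  · have := norm_sub_norm_le ξ ξ₀
    linarith
  · have h5 := hap (some i)
    simp only [Option.elim_some] at h5
    have hfi : ‖f i‖ ≤ M := Finset.single_le_sum (fun j _ => norm_nonneg (f j)) (Finset.mem_univ i)
    have h6 : |f i ξ - f i ξ₀| ≤ δ / 2 := by
      rw [← map_sub]
      refine ((f i).le_opNorm _).trans ?_
      refine (mul_le_mul (hfi.trans (le_add_of_nonneg_right zero_le_one)) h1 (norm_nonneg _)
        (by linarith)).trans_eq ?_
      rw [hr]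
      field_simp
    have := abs_sub_le (f i ξ) (f i ξ₀) (u (f i))
    linarith [min_le_left (δ / 2) (r ^ 2)]

/-- A functional dominated by another one stays dominated in the bidual. -/
lemma abs_bidual_le {g k : E →L[ℝ] ℝ} (h : ∀ b, |g b| ≤ 2 * |k b|)
    (η : (E →L[ℝ] ℝ) →L[ℝ] ℝ) : |η g| ≤ 2 * |η k| := by
  rcases em (∀ b, k b = 0) with hk | hk
  · have : g = 0 := ContinuousLinearMap.ext fun b => by
      have := h b
      rw [hk b, abs_zero, mul_zero] at this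
      simpa using this
    simp [this]
  push Not at hk
  obtain ⟨b₀, hb₀⟩ := hk
  set c := g b₀ / k b₀ with hc
  have hc2 : |c| ≤ 2 := by rw [hc, abs_div, div_le_iff₀ (abs_pos.2 hb₀)]; exact h b₀
  have e : g = c • k := ContinuousLinearMap.ext fun b => by
    have h1 := h (b - (k b / k b₀) • b₀)
    rw [map_sub, map_sub, map_smul, map_smul, smul_eq_mul, smul_eq_mul,
      div_mul_cancel₀ _ hb₀, sub_self, abs_zero, mul_zero, abs_nonpos_iff, sub_eq_zero] at h1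
    rw [h1, smul_apply, smul_eq_mul, hc]
    ring
  rw [e, map_smul, smul_eq_mul, abs_mul]
  exact mul_le_mul_of_nonneg_right hc2 (abs_nonneg _)

/-- An error proportional to an arbitrarily small parameter may be dropped. -/
lemma le_of_forall_small {a b C : ℝ} (h : ∀ δ, 0 < δ → δ ≤ 1 → a ≤ b + C * δ) : a ≤ b := by
  refine le_of_forall_pos_le_add fun e he => ?_
  have hC : 0 < |C| + 1 := by positivity
  set δ := min 1 (e / (|C| + 1)) with hδ
  have hδ0 : 0 < δ := lt_min one_pos (by positivity)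
  have h1 := h δ hδ0 (min_le_left _ _)
  have h2 : C * δ ≤ (|C| + 1) * (e / (|C| + 1)) :=
    mul_le_mul ((le_abs_self C).trans (by linarith)) (min_le_right _ _) hδ0.le hC.le
  rw [mul_div_cancel₀ e hC.ne'] at h2
  linarith

end Functionals

end Vale.Agent.P084.Full
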