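import Vale.Agent.P084.Full.Defs
import Vale.Agent.P084.Full.Functionals
import Vale.Agent.P084.Full.AlgRigid
import Mathlib.Analysis.InnerProductSpace.Completion

/-!
P084 (Tingley's problem), library for the general case: second order data on a Banach space
extend to exact second order data on the bidual, with values in a Hilbert space.
-/

namespace Vale.Agent.P084.Full

open scoped RealInnerProductSpace
open Filter Topology

set_option maxSynthPendingDepth 3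

namespace PreData

universe v

variable {V : Type v} [NormedAddCommGroup V] [NormedSpace ℝ V] (D : PreData V)

/-- The space with the semi-inner product of the data. -/
def QSp (_D : PreData V) : Type v := V

instance : AddCommGroup D.QSp := inferInstanceAs (AddCommGroup V)

noncomputable instance : Module ℝ D.QSp := inferInstanceAs (Module ℝ V)

/-- Identify the space with the space with semi-inner product. -/
def toQ : V →ₗ[ℝ] D.QSp where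
  toFun x := x
  map_add' _ _ := rfl
  map_smul' _ _ := rfl

/-- The semi-inner product of the data. -/
@[instance_reducible]
noncomputable def qCore : PreInnerProductSpace.Core ℝ D.QSp where
  inner x y := D.Q x y
  conj_inner_symm x y := by simpa using D.Qsymm y x
  re_inner_nonneg x := by simpa using D.Qnonneg x
  add_left x y z := DFunLike.congr_fun (D.Q.map_add x y) z
  smul_left x y r := by
    exact (DFunLike.congr_fun (D.Q.map_smul r x) y).trans (smul_eq_mul _ _)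

noncomputable instance : SeminormedAddCommGroup D.QSp :=
  @InnerProductSpace.Core.toSeminormedAddCommGroup ℝ _ _ _ _ D.qCore

noncomputable instance : InnerProductSpace ℝ D.QSp := InnerProductSpace.ofCore D.qCore

/-- The Hilbert space of the data. -/
abbrev Hilb : Type v := UniformSpace.Completion D.QSp

lemma inner_toQ (x y : V) : ⟪(D.toQ x : D.Hilb), (D.toQ y : D.Hilb)⟫ = D.Q x y := by
  rw [UniformSpace.Completion.inner_coe]
  rfl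

/-- The canonical map to the Hilbert space of the data. -/
noncomputable def I₀ : V →L[ℝ] D.Hilb :=
  LinearMap.mkContinuous
    ((UniformSpace.Completion.toComplL : D.QSp →L[ℝ] D.Hilb).toLinearMap.comp D.toQ)
    √‖D.Q‖ fun x => by
      show ‖(D.toQ x : D.Hilb)‖ ≤ √‖D.Q‖ * ‖x‖
      rw [norm_eq_sqrt_real_inner, D.inner_toQ, ← Real.sqrt_sq (norm_nonneg x),
        ← Real.sqrt_mul (ContinuousLinearMap.opNorm_nonneg D.Q)]
      refine Real.sqrt_le_sqrt ((Real.le_norm_self _).trans ((D.Q.le_opNorm₂ x x).trans_eq ?_))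
      ring

lemma inner_I₀ (x y : V) : ⟪D.I₀ x, D.I₀ y⟫ = D.Q x y := D.inner_toQ x y

lemma denseRange_I₀ : DenseRange D.I₀ := by
  have h : DenseRange fun z : D.QSp => (z : D.Hilb) := UniformSpace.Completion.denseRange_coe
  exact h

/-- The adjoint of the canonical map. -/
noncomputable def Is : D.Hilb →L[ℝ] (V →L[ℝ] ℝ) :=
  ((ContinuousLinearMap.compL ℝ V D.Hilb ℝ).flip D.I₀).comp (innerSL ℝ : D.Hilb →L[ℝ] D.Hilb →L[ℝ] ℝ)

lemma Is_apply (h : D.Hilb) (x : V) : D.Is h x = ⟪h, D.I₀ x⟫ := rfl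

lemma Is_I₀ (a : V) : D.Is (D.I₀ a) = D.Q a :=
  ContinuousLinearMap.ext fun x => by rw [D.Is_apply, D.inner_I₀]

/-- The extension of the canonical map to the bidual. -/
noncomputable def I₁ : ((V →L[ℝ] ℝ) →L[ℝ] ℝ) →L[ℝ] D.Hilb :=
  LinearMap.mkContinuous
    { toFun := fun u : (V →L[ℝ] ℝ) →L[ℝ] ℝ =>
        (InnerProductSpace.toDual ℝ D.Hilb).symm (u.comp D.Is)
      map_add' := fun u w => by rw [ContinuousLinearMap.add_comp, map_add]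
      map_smul' := fun t u => by simp [ContinuousLinearMap.smul_comp] }
    ‖D.Is‖ fun u => by
      simp only [LinearMap.coe_mk, AddHom.coe_mk, LinearIsometryEquiv.norm_map]
      rw [mul_comm]
      exact u.opNorm_comp_le D.Is

lemma inner_I₁ (u : (V →L[ℝ] ℝ) →L[ℝ] ℝ) (h : D.Hilb) : ⟪D.I₁ u, h⟫ = u (D.Is h) :=
  InnerProductSpace.toDual_symm_apply

lemma inner_I₁' (u : (V →L[ℝ] ℝ) →L[ℝ] ℝ) (h : D.Hilb) : ⟪h, D.I₁ u⟫ = u (D.Is h) := by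
  rw [real_inner_comm, D.inner_I₁]

lemma Is_I₁ (u : (V →L[ℝ] ℝ) →L[ℝ] ℝ) : D.Is (D.I₁ u) = u.comp D.Q :=
  ContinuousLinearMap.ext fun x => by
    rw [D.Is_apply, D.inner_I₁, D.Is_I₀, ContinuousLinearMap.comp_apply]

lemma I₁_incl (a : V) :
    D.I₁ (NormedSpace.inclusionInDoubleDual ℝ V a) = D.I₀ a := by
  refine ext_inner_right ℝ fun h => ?_
  rw [D.inner_I₁, NormedSpace.dual_def, D.Is_apply, real_inner_comm]

lemma denseRange_I₁ : DenseRange D.I₁ := by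
  refine D.denseRange_I₀.mono ?_
  rintro _ ⟨a, rfl⟩
  exact ⟨_, D.I₁_incl a⟩

/-- The second order form as a continuous bilinear map. -/
noncomputable def Bc : V →L[ℝ] V →L[ℝ] ((V →L[ℝ] ℝ) →L[ℝ] ℝ) :=
  LinearMap.mkContinuous₂
    (LinearMap.mk₂ ℝ D.B D.add D.smul
      (fun a b b' => by rw [D.symm a, D.add, D.symm b, D.symm b'])
      (fun t a b => by rw [D.symm a, D.smul, D.symm b]))
    (max D.bound.choose 0) fun a b => by
      refine ContinuousLinearMap.opNorm_le_bound _ (by positivity) fun p => ?_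
      refine (D.bound.choose_spec a b p).trans ?_
      gcongr
      exact le_max_left _ _

lemma Bc_apply (a b : V) : D.Bc a b = D.B a b := rfl

/-- The transposed form. -/
noncomputable def Tr : V →L[ℝ] (V →L[ℝ] ℝ) →L[ℝ] (V →L[ℝ] ℝ) :=
  (ContinuousLinearMap.flipₗᵢ ℝ V (V →L[ℝ] ℝ) ℝ).toContinuousLinearEquiv.toContinuousLinearMap.comp
    D.Bc

lemma Tr_apply (b : V) (ψ : V →L[ℝ] ℝ) (a : V) : D.Tr b ψ a = D.B b a ψ := rfl

/-- The transposed form with an element of the bidual inserted. -/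
noncomputable def Gb :
    ((V →L[ℝ] ℝ) →L[ℝ] ℝ) →L[ℝ] (V →L[ℝ] ℝ) →L[ℝ] (V →L[ℝ] ℝ) :=
  ((ContinuousLinearMap.compL ℝ (V →L[ℝ] ℝ) (V →L[ℝ] (V →L[ℝ] ℝ)) (V →L[ℝ] ℝ)).flip D.Tr.flip).comp
    (ContinuousLinearMap.compL ℝ V (V →L[ℝ] ℝ) ℝ)

lemma Gb_apply (u : (V →L[ℝ] ℝ) →L[ℝ] ℝ) (ψ : V →L[ℝ] ℝ) (b : V) :
    D.Gb u ψ b = u (D.Tr b ψ) := rfl

/-- The Arens extension of the form. -/
noncomputable def Ar : ((V →L[ℝ] ℝ) →L[ℝ] ℝ) →L[ℝ] ((V →L[ℝ] ℝ) →L[ℝ] ℝ) →L[ℝ]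
    ((V →L[ℝ] ℝ) →L[ℝ] ℝ) :=
  ((ContinuousLinearMap.compL ℝ ((V →L[ℝ] ℝ) →L[ℝ] ℝ)
      ((V →L[ℝ] ℝ) →L[ℝ] (V →L[ℝ] ℝ)) ((V →L[ℝ] ℝ) →L[ℝ] ℝ)).flip D.Gb).comp
    (ContinuousLinearMap.compL ℝ (V →L[ℝ] ℝ) (V →L[ℝ] ℝ) ℝ)

lemma Ar_apply (a u : (V →L[ℝ] ℝ) →L[ℝ] ℝ) (ψ : V →L[ℝ] ℝ) : D.Ar a u ψ = a (D.Gb u ψ) := rfl

/-- The symmetrised extension. -/
noncomputable def Bs : ((V →L[ℝ] ℝ) →L[ℝ] ℝ) →L[ℝ] ((V →L[ℝ] ℝ) →L[ℝ] ℝ) →L[ℝ]
    ((V →L[ℝ] ℝ) →L[ℝ] ℝ) :=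
  (1 / 2 : ℝ) • (D.Ar + D.Ar.flip)

lemma Bs_apply (a u : (V →L[ℝ] ℝ) →L[ℝ] ℝ) (ψ : V →L[ℝ] ℝ) :
    D.Bs a u ψ = (1 / 2 : ℝ) * (D.Ar a u ψ + D.Ar u a ψ) := rfl

lemma Bs_comm (a u : (V →L[ℝ] ℝ) →L[ℝ] ℝ) : D.Bs a u = D.Bs u a :=
  ContinuousLinearMap.ext fun ψ => by rw [D.Bs_apply, D.Bs_apply, add_comm]

lemma total' (a β γ : V) : D.B β γ (D.Q a) = D.B a γ (D.Q β) := D.total a β γ

/-- The extension at a functional from the Hilbert space, first form. -/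
lemma Ar_Q (a : V) (b c : (V →L[ℝ] ℝ) →L[ℝ] ℝ) :
    D.Ar b c (D.Q a) = ⟪D.I₁ b, D.I₁ (c.comp (D.Tr a))⟫ := by
  rw [D.Ar_apply, D.inner_I₁]
  congr 1
  refine ContinuousLinearMap.ext fun β => ?_
  rw [D.Gb_apply, D.Is_apply, D.inner_I₁, D.Is_I₀, ContinuousLinearMap.comp_apply]
  congr 1
  exact ContinuousLinearMap.ext fun γ => by rw [D.Tr_apply, D.Tr_apply, D.total']

lemma Gb_Q (a : V) (c : (V →L[ℝ] ℝ) →L[ℝ] ℝ) : D.Gb c (D.Q a) = D.Tr a (D.Is (D.I₁ c)) := by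
  refine ContinuousLinearMap.ext fun β => ?_
  rw [D.Gb_apply, D.Tr_apply, ← D.inner_I₁, ← D.Bc_apply]
  rw [real_inner_comm, D.inner_I₁]
  congr 1
  refine ContinuousLinearMap.ext fun γ => ?_
  rw [D.Is_apply, D.inner_I₁, D.Is_I₀, D.Tr_apply, D.Bc_apply]
  calc D.B β γ (D.Q a) = D.B γ β (D.Q a) := by rw [D.symm]
    _ = D.B a β (D.Q γ) := D.total' a γ β

/-- Arens extension is symmetric at functionals from the Hilbert space. -/
lemma Ar_comm_Q (a : V) (b c : (V →L[ℝ] ℝ) →L[ℝ] ℝ) :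
    D.Ar b c (D.Q a) = D.Ar c b (D.Q a) := by
  rw [D.Ar_Q a c b, D.Ar_apply, D.Gb_Q]
  rw [D.inner_I₁', ContinuousLinearMap.comp_apply]

lemma Ar_comm_Is (h : D.Hilb) (b c : (V →L[ℝ] ℝ) →L[ℝ] ℝ) :
    D.Ar b c (D.Is h) = D.Ar c b (D.Is h) := by
  revert h
  refine fun h => congrFun (D.denseRange_I₀.equalizer
    (g := fun h => D.Ar b c (D.Is h)) (h := fun h => D.Ar c b (D.Is h))
    (by fun_prop) (by fun_prop) (funext fun a => ?_)) h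
  simp only [Function.comp_apply, D.Is_I₀]
  exact D.Ar_comm_Q a b c

lemma total_Bs (a b c : (V →L[ℝ] ℝ) →L[ℝ] ℝ) :
    ⟪D.I₁ a, D.I₁ (D.Bs b c)⟫ = ⟪D.I₁ b, D.I₁ (D.Bs a c)⟫ := by
  have hB : ∀ a b c : (V →L[ℝ] ℝ) →L[ℝ] ℝ,
      ⟪D.I₁ a, D.I₁ (D.Bs b c)⟫ = D.Ar b c (D.Is (D.I₁ a)) := fun a b c => by
    rw [D.inner_I₁', D.Bs_apply, D.Ar_comm_Is _ c b]
    ring
  rw [hB b a c, D.Ar_apply a c]
  have e : D.Gb c (D.Is (D.I₁ b)) = D.Is (D.I₁ (D.Ar b c)) := by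
    refine ContinuousLinearMap.ext fun γ => ?_
    rw [D.Gb_apply, D.Is_apply, D.inner_I₁, D.Is_I₀, D.Ar_Q, D.inner_I₁']
    rfl
  rw [e, ← D.inner_I₁, hB a b c, ← D.inner_I₁']

variable [CompleteSpace V]

/-- The bound of the data at pairs, in the bidual and the dual. -/
lemma Bs_pair (η u : (V →L[ℝ] ℝ) →L[ℝ] ℝ) (ψ : V →L[ℝ] ℝ) (hψ : ‖ψ‖ ≤ 1) (hu : u ψ = ‖u‖) :
    |D.Bs η u ψ| ≤ 2 * |⟪D.I₁ η, D.I₁ u⟫| := by
  have hJ : ∀ a b : (V →L[ℝ] ℝ) →L[ℝ] ℝ, a (b.comp D.Q) = ⟪D.I₁ a, D.I₁ b⟫ := fun a b => by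
    rw [D.inner_I₁, D.Is_I₁]
  have hB : ∀ (a ξ : V) (p : V →L[ℝ] ℝ), ‖p‖ ≤ 1 → p ξ = ‖ξ‖ →
      |D.Tr ξ p a| ≤ 2 * |D.Q ξ a| := fun a ξ p hp hpξ => by
    rw [D.Tr_apply, D.symm, D.Qsymm]
    exact D.ident a ξ p hp hpξ
  have herr : ∀ (ξ : V) (p : V →L[ℝ] ℝ) (δ : ℝ), ‖ξ‖ ≤ ‖u‖ + 1 → ‖p - ψ‖ ≤ δ →
      ‖D.Tr ξ ψ - D.Tr ξ p‖ ≤ ‖D.Tr‖ * (‖u‖ + 1) * δ := fun ξ p δ hξ hpδ => by
    rw [← map_sub, norm_sub_rev] at *
    refine ((D.Tr ξ).le_opNorm _).trans ?_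
    exact mul_le_mul ((D.Tr.le_opNorm ξ).trans (mul_le_mul_of_nonneg_left hξ (norm_nonneg _)))
      hpδ (norm_nonneg _) (by positivity)
  -- the first term
  have h1 : |D.Ar η u ψ| ≤ 2 * |η (u.comp D.Q)| := by
    refine abs_bidual_le (fun b => ?_) η
    show |u (D.Tr b ψ)| ≤ 2 * |u (D.Q b)|
    refine le_of_forall_small (C := 1 + 2 + ‖D.Tr‖ * (‖u‖ + 1) * ‖b‖) fun δ hδ hδ1 => ?_
    obtain ⟨ξ, p, hp, hpξ, hpψ, hξ, hf⟩ :=
      exists_pair_approx ![D.Tr b ψ, D.Q b] hψ hu hδ hδ1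
    have e1 := hf 0
    have e2 := hf 1
    simp only [Matrix.cons_val_zero, Matrix.cons_val_one] at e1 e2
    have e3 := hB b ξ p hp hpξ
    have e4 : |D.Tr ξ ψ b - D.Tr ξ p b| ≤ ‖D.Tr‖ * (‖u‖ + 1) * ‖b‖ * δ := by
      rw [← sub_apply, mul_right_comm _ ‖b‖ δ]
      exact ((D.Tr ξ ψ - D.Tr ξ p).le_opNorm b).trans
        (mul_le_mul_of_nonneg_right (herr ξ p δ hξ hpψ) (norm_nonneg b))
    have e5 : D.Tr b ψ ξ = D.Tr ξ ψ b := by rw [D.Tr_apply, D.Tr_apply, D.symm]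
    rw [D.Qsymm ξ b] at e3
    rw [e5, abs_sub_comm] at e1
    have t1 := abs_sub_abs_le_abs_sub (u (D.Tr b ψ)) (D.Tr ξ ψ b)
    have t2 := abs_sub_abs_le_abs_sub (D.Tr ξ ψ b) (D.Tr ξ p b)
    have t3 := abs_sub_abs_le_abs_sub (D.Q b ξ) (u (D.Q b))
    linarith
  -- the second term
  have h2 : |D.Ar u η ψ| ≤ 2 * |u (η.comp D.Q)| := by
    rw [D.Ar_apply]
    refine le_of_forall_small (C := 1 + 2 + ‖η‖ * (‖D.Tr‖ * (‖u‖ + 1))) fun δ hδ hδ1 => ?_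
    obtain ⟨ξ, p, hp, hpξ, hpψ, hξ, hf⟩ :=
      exists_pair_approx ![D.Gb η ψ, η.comp D.Q] hψ hu hδ hδ1
    have e1 := hf 0
    have e2 := hf 1
    simp only [Matrix.cons_val_zero, Matrix.cons_val_one, D.Gb_apply,
      ContinuousLinearMap.comp_apply] at e1 e2
    have e3 := abs_bidual_le (fun a => hB a ξ p hp hpξ) η
    have e4 : |η (D.Tr ξ ψ) - η (D.Tr ξ p)| ≤ ‖η‖ * (‖D.Tr‖ * (‖u‖ + 1)) * δ := by
      rw [← map_sub, mul_assoc]
      exact (η.le_opNorm _).trans (mul_le_mul_of_nonneg_left (herr ξ p δ hξ hpψ) (norm_nonneg η))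
    rw [abs_sub_comm] at e1
    have t1 := abs_sub_abs_le_abs_sub (u (D.Gb η ψ)) (η (D.Tr ξ ψ))
    have t2 := abs_sub_abs_le_abs_sub (η (D.Tr ξ ψ)) (η (D.Tr ξ p))
    have t3 := abs_sub_abs_le_abs_sub (η (D.Q ξ)) (u (η.comp D.Q))
    linarith
  rw [hJ] at h1 h2
  rw [real_inner_comm] at h2
  rw [D.Bs_apply, abs_mul, abs_of_pos (by norm_num : (0 : ℝ) < 1 / 2)]
  have := abs_add_le (D.Ar η u ψ) (D.Ar u η ψ)
  linarith

/-- The bound of the data at all pairs of the bidual. -/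
lemma Bs_ident (η u : (V →L[ℝ] ℝ) →L[ℝ] ℝ) (Φ : ((V →L[ℝ] ℝ) →L[ℝ] ℝ) →L[ℝ] ℝ) (hΦ : ‖Φ‖ ≤ 1)
    (hu : Φ u = ‖u‖) : |Φ (D.Bs η u)| ≤ 2 * |⟪D.I₁ η, D.I₁ u⟫| := by
  rcases eq_or_ne u 0 with rfl | hu0
  · simp
  have hn : 0 < ‖u‖ := norm_pos_iff.2 hu0
  set X := D.Bs η u with hX
  set K := ‖D.Bs‖ * ‖η‖ * ‖u‖ with hK
  set K' := ‖D.I₁‖ * ‖η‖ * (‖D.I₁‖ * ‖u‖) with hK'
  refine le_of_forall_small (C := 1 + 4 * K + 2 * K') fun δ hδ hδ1 => ?_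
  set r := δ / 4 with hr
  have hr0 : 0 < r := by positivity
  obtain ⟨ψ, hψn, hψ⟩ := exists_approx ![u, X] Φ
    (lt_min hδ (by positivity : 0 < ‖u‖ * r ^ 2) : 0 < min δ (‖u‖ * r ^ 2))
  have e1 := hψ 0
  have e2 := hψ 1
  simp only [Matrix.cons_val_zero, Matrix.cons_val_one, hu] at e1 e2
  have hp1 : ‖(‖u‖⁻¹ • u)‖ ≤ 1 := (norm_smul_inv_norm hu0).le
  have hψ1 : ‖ψ‖ ≤ 1 := hψn.trans hΦ
  have hlow : 1 - r ^ 2 ≤ (‖u‖⁻¹ • u) ψ := by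
    rw [smul_apply, smul_eq_mul, le_inv_mul_iff₀ hn]
    linarith [(abs_le.1 e1).1, min_le_right δ (‖u‖ * r ^ 2)]
  obtain ⟨ψ', q, h1, h2, h3, h4⟩ :=
    exists_pair_near (‖u‖⁻¹ • u) hp1 ψ hr0 (by linarith)
  have hψlow : 1 - r ^ 2 ≤ ‖ψ‖ :=
    hlow.trans ((Real.le_norm_self _).trans (((‖u‖⁻¹ • u).le_of_opNorm_le hp1 ψ).trans_eq
      (one_mul _)))
  have hnψ' : |‖ψ'‖ - 1| ≤ 2 * r := by
    have := abs_le.1 (abs_norm_sub_norm_le ψ' ψ)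
    have hr1 : r ≤ 1 / 4 := by rw [hr]; linarith
    have : r ^ 2 ≤ r := by rw [sq]; exact mul_le_of_le_one_left hr0.le (by linarith)
    rw [abs_le]
    constructor <;> linarith
  have hψ'0 : 0 < ‖ψ'‖ := by
    have := (abs_le.1 hnψ').1
    have : r ≤ 1 / 4 := by rw [hr]; linarith
    linarith
  set χ := ‖ψ'‖⁻¹ • ψ' with hχ
  have hχn : ‖χ‖ = 1 := norm_smul_inv_norm (norm_pos_iff.1 hψ'0)
  have hqχ : q χ = 1 := by
    rw [hχ, map_smul, smul_eq_mul, h4, inv_mul_cancel₀ hψ'0.ne']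
  have hqn : ‖q‖ = 1 := by
    refine le_antisymm h3 ?_
    have := q.le_opNorm χ
    rw [hqχ, hχn, norm_one, mul_one] at this
    exact this
  set u' := ‖u‖ • q with hu'
  have hu'n : u' χ = ‖u'‖ := by
    rw [hu', smul_apply, smul_eq_mul, hqχ, norm_smul, norm_norm, hqn]
  have hu'd : ‖u' - u‖ ≤ ‖u‖ * r := by
    have e : u' - u = ‖u‖ • (q - ‖u‖⁻¹ • u) := by
      rw [hu', smul_sub, smul_smul, mul_inv_cancel₀ hn.ne', one_smul]
    rw [e, norm_smul, norm_norm]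
    exact mul_le_mul_of_nonneg_left h2 hn.le
  have hχd : ‖χ - ψ‖ ≤ 3 * r := by
    have e : χ - ψ' = (‖ψ'‖⁻¹ - 1) • ψ' := by rw [hχ, sub_smul, one_smul]
    have : ‖χ - ψ'‖ ≤ 2 * r := by
      rw [e, norm_smul, Real.norm_eq_abs, ← abs_of_pos hψ'0, ← abs_mul, abs_of_pos hψ'0, sub_mul,
        inv_mul_cancel₀ hψ'0.ne', one_mul, abs_sub_comm]
      exact hnψ'
    have := norm_sub_le_norm_sub_add_norm_sub χ ψ' ψ
    linarith
  have main := D.Bs_pair η u' χ hχn.le hu'n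
  have d1 : |D.Bs η u' χ - X ψ| ≤ 4 * K * r := by
    have a1 : |(D.Bs η (u' - u)) χ| ≤ K * r := by
      refine ((D.Bs η (u' - u)).le_opNorm χ).trans ?_
      rw [hχn, mul_one, hK, mul_assoc _ ‖u‖ r]
      exact ((D.Bs η).le_opNorm _).trans
        (mul_le_mul (D.Bs.le_opNorm η) hu'd (norm_nonneg _) (by positivity))
    have a2 : |X (χ - ψ)| ≤ K * (3 * r) :=
      (X.le_opNorm _).trans (mul_le_mul (D.Bs.le_opNorm₂ η u) hχd (norm_nonneg _) (by positivity))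
    have e : D.Bs η u' χ - X ψ = (D.Bs η (u' - u)) χ + X (χ - ψ) := by
      rw [map_sub, sub_apply, map_sub, hX]
      ring
    rw [e]
    have := abs_add_le ((D.Bs η (u' - u)) χ) (X (χ - ψ))
    linarith
  have d2 : |⟪D.I₁ η, D.I₁ u'⟫ - ⟪D.I₁ η, D.I₁ u⟫| ≤ K' * r := by
    rw [← inner_sub_right, ← map_sub]
    refine (abs_real_inner_le_norm _ _).trans ?_
    rw [hK', mul_assoc _ _ r, mul_assoc ‖D.I₁‖ ‖u‖ r]
    exact mul_le_mul (D.I₁.le_opNorm η)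
      ((D.I₁.le_opNorm _).trans (mul_le_mul_of_nonneg_left hu'd (norm_nonneg _))) (norm_nonneg _)
      (by positivity)
  have hK0 : 0 ≤ K := by positivity
  have hK'0 : 0 ≤ K' := by positivity
  have hKr : 4 * K * r ≤ 4 * K * δ := by gcongr; rw [hr]; linarith
  have hK'r : K' * r ≤ K' * δ := by gcongr; rw [hr]; linarith
  rw [abs_sub_comm] at e2
  have t1 := abs_sub_abs_le_abs_sub (Φ X) (X ψ)
  have t2 := abs_sub_abs_le_abs_sub (X ψ) (D.Bs η u' χ)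
  rw [abs_sub_comm (X ψ)] at t2
  have t3 := abs_sub_abs_le_abs_sub ⟪D.I₁ η, D.I₁ u'⟫ ⟪D.I₁ η, D.I₁ u⟫
  linarith [min_le_left δ (‖u‖ * r ^ 2)]

/-- The exact data on the bidual. -/
noncomputable def toAlg : AlgData ((V →L[ℝ] ℝ) →L[ℝ] ℝ) D.Hilb where
  I := D.I₁
  B := D.Bs
  dense := D.denseRange_I₁
  symm := D.Bs_comm
  total := D.total_Bs
  ident := D.Bs_ident

omit [CompleteSpace V] in
lemma Bs_incl (a b : V) (ψ : V →L[ℝ] ℝ) :
    D.Bs (NormedSpace.inclusionInDoubleDual ℝ V a) (NormedSpace.inclusionInDoubleDual ℝ V b) ψ =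
      D.B a b ψ := by
  simp only [Bs_apply, Ar_apply, NormedSpace.dual_def, Gb_apply, Tr_apply]
  rw [D.symm b a]
  ring

/-- Second order data are rigid: at every functional the form is a multiple of `Q`. -/
theorem rigid (ψ : V →L[ℝ] ℝ) :
    ∃ c : ℝ, |c| ≤ 2 * ‖ψ‖ ∧ ∀ a b, D.B a b ψ = c * D.Q a b := by
  obtain ⟨d, hd, hB⟩ := D.toAlg.rigid
  refine ⟨d ψ, ?_, fun a b => ?_⟩
  · exact (d.le_opNorm ψ).trans (mul_le_mul_of_nonneg_right hd (norm_nonneg ψ))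
  · have h : D.Bs (NormedSpace.inclusionInDoubleDual ℝ V a)
        (NormedSpace.inclusionInDoubleDual ℝ V b) =
        ⟪D.I₁ (NormedSpace.inclusionInDoubleDual ℝ V a),
          D.I₁ (NormedSpace.inclusionInDoubleDual ℝ V b)⟫ • d := hB _ _
    rw [← D.Bs_incl a b ψ, h, D.I₁_incl, D.I₁_incl, D.inner_I₀, smul_apply, smul_eq_mul,
      mul_comm]

end PreData

end Vale.Agent.P084.Full
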