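import Vale.Agent.P084.Full.Props
import Vale.Agent.P084.Full.Average

/-!
P084 (Tingley's problem), library for the general case: at almost every smooth point the derivative
of the norm is Gateaux differentiable with a symmetric derivative, and the mirror identity holds.
-/

namespace Vale.Agent.P084.Full

open MeasureTheory Filter Topology Metric Set Orbit Average
open scoped NNReal

variable {X Y : Type*} [NormedAddCommGroup X] [NormedSpace ℝ X] [NormedAddCommGroup Y]
  [NormedSpace ℝ Y] [CompleteSpace X] [CompleteSpace Y] [MeasurableSpace X] [BorelSpace X]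
  [SecondCountableTopology X] {e : ℕ → X}

namespace LocalReg

variable {f : PIso X Y} {z₀ : X} {R C : ℝ}

omit [CompleteSpace X] [CompleteSpace Y] [MeasurableSpace X] [BorelSpace X]
  [SecondCountableTopology X] in
/-- Gateaux differentiability of the derivative of the norm, tested on a spanning family, gives
Gateaux differentiability. -/
theorem exists_gat (L : LocalReg f z₀ R C) {z : X} (hz : z ∈ ball z₀ R)
    (hd : Dense (Submodule.span ℝ (range e) : Set X))
    (h : ∀ j, ∃ l : X →L[ℝ] ℝ, ∀ a, HasLineDerivAt ℝ (fun y => dNorm y (e j)) (l a) z a) :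
    ∃ Q : X →L[ℝ] X →L[ℝ] ℝ, GatDiff z Q := by
  have hC := L.nonneg
  let V : Submodule ℝ X :=
    { carrier := {c | ∃ l : X →L[ℝ] ℝ, ∀ a, HasLineDerivAt ℝ (fun y => dNorm y c) (l a) z a}
      zero_mem' := ⟨0, fun a => by
        show HasDerivAt (fun t : ℝ => dNorm (z + t • a) 0) ((0 : X →L[ℝ] ℝ) a) 0
        simpa using hasDerivAt_const (0 : ℝ) (0 : ℝ)⟩
      add_mem' := by
        rintro c c' ⟨l, hl⟩ ⟨l', hl'⟩
        refine ⟨l + l', fun a => ?_⟩
        show HasDerivAt (fun t : ℝ => dNorm (z + t • a) (c + c')) ((l + l') a) 0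
        simp only [map_add, add_apply]; exact (hl a).add (hl' a)
      smul_mem' := by
        rintro k c ⟨l, hl⟩
        refine ⟨k • l, fun a => ?_⟩
        show HasDerivAt (fun t : ℝ => dNorm (z + t • a) (k • c)) ((k • l) a) 0
        simpa only [map_smul, smul_apply, smul_eq_mul] using HasDerivAt.const_mul k (hl a) }
  obtain ⟨ρ, hρ, hρb⟩ := Metric.isOpen_iff.1 isOpen_ball z hz
  have hslope : ∀ a : X, ∀ᶠ t : ℝ in 𝓝[≠] 0, ∀ c,
      |t⁻¹ * (dNorm (z + t • a) c - dNorm z c)| ≤ C * ‖a‖ * ‖c‖ := by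
    intro a
    have ht : Tendsto (fun t : ℝ => z + t • a) (𝓝 0) (𝓝 z) :=
      Continuous.tendsto' (by fun_prop) 0 z (by simp)
    filter_upwards [nhdsWithin_le_nhds (ht.eventually (isOpen_ball.mem_nhds hz)),
      self_mem_nhdsWithin] with t hin (ht0 : t ≠ 0)
    intro c
    have h1 := (dNorm (z + t • a) - dNorm z).le_opNorm c
    rw [sub_apply, Real.norm_eq_abs] at h1
    have h2 := L.lipN z hz (z + t • a) hin
    rw [add_sub_cancel_left, norm_smul, Real.norm_eq_abs] at h2
    rw [abs_mul, abs_inv, inv_mul_le_iff₀ (abs_pos.2 ht0)]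
    exact h1.trans ((mul_le_mul_of_nonneg_right h2 (norm_nonneg c)).trans_eq (by ring))
  have hbound : ∀ c (l : X →L[ℝ] ℝ),
      (∀ a, HasLineDerivAt ℝ (fun y => dNorm y c) (l a) z a) → ‖l‖ ≤ C * ‖c‖ := by
    intro c l hl
    refine l.opNorm_le_bound (by positivity) fun a => ?_
    rw [Real.norm_eq_abs]
    refine le_of_tendsto (hl a).tendsto_slope_zero.abs ?_
    filter_upwards [hslope a] with t ht
    refine le_trans (le_of_eq ?_) ((ht c).trans_eq (by ring : C * ‖a‖ * ‖c‖ = C * ‖c‖ * ‖a‖))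
    simp
  have hsubset : (Submodule.span ℝ (range e) : Set X) ⊆ V := by
    refine Submodule.span_le.2 ?_
    rintro - ⟨j, rfl⟩
    exact h j
  have hall : ∀ c, ∃ l : X →L[ℝ] ℝ, ∀ a, HasLineDerivAt ℝ (fun y => dNorm y c) (l a) z a := by
    intro c
    obtain ⟨cs, hcs, hlim⟩ := mem_closure_iff_seq_limit.1 (hd c)
    choose ls hls using fun n => hsubset (hcs n)
    have hcau : CauchySeq ls := by
      refine Metric.cauchySeq_iff.2 fun ε hε => ?_
      obtain ⟨N, hN⟩ := Metric.cauchySeq_iff.1 hlim.cauchySeq (ε / (C + 1)) (by positivity)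
      refine ⟨N, fun m hm n hn => ?_⟩
      have h1 : ‖ls m - ls n‖ ≤ C * ‖cs m - cs n‖ := hbound _ _ fun a => by
        show HasDerivAt (fun t : ℝ => dNorm (z + t • a) (cs m - cs n)) ((ls m - ls n) a) 0
        simp only [map_sub, sub_apply]; exact (hls m a).sub (hls n a)
      rw [dist_eq_norm]
      have h2 := hN m hm n hn
      rw [dist_eq_norm, lt_div_iff₀ (by positivity)] at h2
      nlinarith [norm_nonneg (cs m - cs n)]
    obtain ⟨l, hl⟩ := cauchySeq_tendsto_of_complete hcau
    refine ⟨l, fun a => ?_⟩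
    show HasDerivAt (fun t : ℝ => dNorm (z + t • a) c) (l a) 0
    rw [hasDerivAt_iff_tendsto_slope_zero, Metric.tendsto_nhds]
    intro ε hε
    have e1 : Tendsto (fun n => C * ‖a‖ * ‖c - cs n‖ + |ls n a - l a|) atTop (𝓝 0) := by
      have a1 := (tendsto_iff_norm_sub_tendsto_zero.1 hlim)
      have a2 : Tendsto (fun n => ls n a) atTop (𝓝 (l a)) :=
        ((ContinuousLinearMap.apply ℝ ℝ a).continuous.tendsto l).comp hl
      simpa [norm_sub_rev c] using
        (a1.const_mul (C * ‖a‖)).add ((tendsto_iff_norm_sub_tendsto_zero.1 a2))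
    obtain ⟨n, hn⟩ := (e1.eventually (eventually_lt_nhds (half_pos hε))).exists
    have ht := (hasDerivAt_iff_tendsto_slope_zero.1 (hls n a))
    rw [Metric.tendsto_nhds] at ht
    filter_upwards [hslope a, ht (ε / 2) (half_pos hε)] with t hs hn'
    simp only [zero_add, zero_smul, add_zero, smul_eq_mul, Real.dist_eq] at hn' ⊢
    have h1 := hs (c - cs n)
    rw [map_sub, map_sub] at h1
    have h2 : t⁻¹ * (dNorm (z + t • a) c - dNorm z c) - l a =
        t⁻¹ * (dNorm (z + t • a) c - dNorm (z + t • a) (cs n) - (dNorm z c - dNorm z (cs n))) +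
        (t⁻¹ * (dNorm (z + t • a) (cs n) - dNorm z (cs n)) - ls n a) + (ls n a - l a) := by ring
    rw [h2]
    refine lt_of_le_of_lt (abs_add_three _ _ _) ?_
    linarith
  choose F hF using hall
  have hlin : IsLinearMap ℝ F := by
    constructor
    · intro c c'
      refine ContinuousLinearMap.ext fun a => (hF (c + c') a).unique ?_
      show HasDerivAt (fun t : ℝ => dNorm (z + t • a) (c + c')) ((F c + F c') a) 0
      simp only [map_add, add_apply]; exact (hF c a).add (hF c' a)
    · intro k c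
      refine ContinuousLinearMap.ext fun a => (hF (k • c) a).unique ?_
      show HasDerivAt (fun t : ℝ => dNorm (z + t • a) (k • c)) ((k • F c) a) 0
      simpa only [map_smul, smul_apply, smul_eq_mul] using HasDerivAt.const_mul k (hF c a)
  exact ⟨((IsLinearMap.mk' F hlin).mkContinuous C fun c => hbound c _ (hF c)).flip,
    fun a c => hF c a⟩

omit [CompleteSpace Y] in
lemma ae_gat (L : LocalReg f z₀ R C) (he : Summable fun i => ‖e i‖)
    (hd : Dense (Submodule.span ℝ (range e) : Set X)) :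
    ∀ᵐ z ∂mu e, z ∈ ball z₀ R → ∃ Q : X →L[ℝ] X →L[ℝ] ℝ, GatDiff z Q := by
  filter_upwards [ae_all_iff.2 fun j => ae_gateaux he hd isOpen_ball (L.lip_dNorm (e j))] with z hz hzB
  exact L.exists_gat hzB hd fun j => hz j hzB

omit [CompleteSpace X] [CompleteSpace Y] [MeasurableSpace X] [BorelSpace X] [SecondCountableTopology X] in
lemma qm_eq_of_gat (L : LocalReg f z₀ R C) {y : X} (hy : y ∈ ball z₀ R)
    {Q : X →L[ℝ] X →L[ℝ] ℝ} (hQ : GatDiff y Q) (a b : X) :
    qm (C * ‖a‖ * ‖b‖) a b y = Q a b :=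
  qm_eq hQ (L.gat_abs_le hy hQ a b)

omit [CompleteSpace Y] [SecondCountableTopology X] in
/-- The average of the derivative of the norm differentiated along `e i` is the average of the
second derivative. -/
lemma dAv_dNorm_eq (L : LocalReg f z₀ R C) (he : Summable fun i => ‖e i‖) {d : ℝ} (hd0 : d ≠ 0)
    {z : X} {r : ℝ} (hr : |d| * rad e < r) (hb : closedBall z r ⊆ ball z₀ R)
    (hg : ∀ᵐ w ∂Average.P, ∃ Q : X →L[ℝ] X →L[ℝ] ℝ, GatDiff (z + Sh (step d e) w) Q) (i : ℕ)
    (b : X) :
    dAv e d i (fun y => dNorm y b) z = Av (step d e) (qm (C * ‖e i‖ * ‖b‖) (e i) b) z := by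
  have hC := L.nonneg
  have hS := continuous_Sh (summable_step he d)
  refine dAv_eq_integral he hd0 ((L.lip_dNorm b).mono hb) hr i ?_ ?_
  · refine Integrable.of_bound ((measurable_qm _ _ _).comp (by fun_prop : Continuous fun w =>
      z + Sh (step d e) w).measurable).aestronglyMeasurable (C * ‖e i‖ * ‖b‖)
      (ae_of_all _ fun w => ?_)
    rw [Real.norm_eq_abs]
    exact abs_qm_le (by positivity) _ _ _
  · filter_upwards [hg] with w ⟨Q, hQ⟩
    rw [L.qm_eq_of_gat (mem_ball_shift he hr hb w) hQ]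
    exact hQ (e i) b

omit [CompleteSpace Y] in
lemma ae_goodPt (L : LocalReg f z₀ R C) (he : Summable fun i => ‖e i‖)
    (hd : Dense (Submodule.span ℝ (range e) : Set X)) :
    ∀ᵐ z ∂mu e, z ∈ ball z₀ R → GoodPt z := by
  have hC := L.nonneg
  set h : ℕ → X → ℝ := fun m => qm (C * ‖e m.unpair.1‖ * ‖e m.unpair.2‖) (e m.unpair.1)
    (e m.unpair.2) with hh
  have hbd : ∀ m y, |h m y| ≤ C * ‖e m.unpair.1‖ * ‖e m.unpair.2‖ := fun m y =>
    abs_qm_le (by positivity) _ _ _
  obtain ⟨d, hd1, hd0, hosc⟩ := exists_scales he (h := h) (fun m => measurable_qm _ _ _)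
    (fun m => ⟨_, hbd m⟩) (θ := fun _ => (1 : ℝ)) fun _ => one_pos
  have hg := L.ae_gat he hd
  filter_upwards [hosc, hg, ae_all_iff.2 fun k => ae_kernel he hg (d k)] with z hz hgz hker hzB
  obtain ⟨Q, hQ⟩ := hgz hzB
  refine ⟨Q, hQ, ?_⟩
  obtain ⟨r, hr, hb⟩ := Metric.nhds_basis_closedBall.mem_iff.1 (isOpen_ball.mem_nhds hzB)
  have hsmall : ∀ᶠ k in atTop, |d k| * rad e < r := by
    have : Tendsto (fun k => |d k| * rad e) atTop (𝓝 0) := by simpa using hd0.abs.mul_const (rad e)
    exact this.eventually (eventually_lt_nhds hr)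
  have hlim : ∀ i j, Tendsto (fun k => dAv e (d k) i (fun y => dNorm y (e j)) z) atTop
      (𝓝 (Q (e i) (e j))) := by
    intro i j
    have h1 := tendsto_Av_of_osc he (measurable_qm _ _ _) (hbd (Nat.pair i j)) (hz (Nat.pair i j))
    simp only [Nat.unpair_pair] at h1
    rw [L.qm_eq_of_gat hzB hQ] at h1
    refine h1.congr' ?_
    filter_upwards [hsmall] with k hk
    refine (L.dAv_dNorm_eq he (hd1 k).1.ne' hk hb ?_ i (e j)).symm
    filter_upwards [hker k] with w hw
    exact hw (mem_ball_shift he hk hb w)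
  have hsymm : ∀ i j, Q (e i) (e j) = Q (e j) (e i) := fun i j => by
    refine tendsto_nhds_unique (hlim i j) ((hlim j i).congr' ?_)
    filter_upwards [hsmall] with k hk
    exact L.symm_dNorm he (hd1 k).1.ne' hk hb j i
  have e1 : Q = Q.flip := by
    refine ContinuousLinearMap.ext_on hd ?_
    rintro - ⟨i, rfl⟩
    refine ContinuousLinearMap.ext_on hd ?_
    rintro - ⟨j, rfl⟩
    exact hsymm i j
  intro a b
  conv_lhs => rw [e1]
  rfl

end LocalReg

omit [CompleteSpace X] [BorelSpace X] in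
/-- A property holding almost surely near every smooth point holds almost surely at all smooth
points. -/
lemma ae_smooth_of_local {p : X → Prop}
    (h : ∀ z₀, Smooth z₀ → ∃ r > 0, ∀ᵐ y ∂mu e, y ∈ ball z₀ r → p y) :
    ∀ᵐ y ∂mu e, Smooth y → p y := by
  choose r hr hp using fun z : {z : X // Smooth z} => h z.1 z.2
  obtain ⟨T, hT, hTu⟩ := TopologicalSpace.isOpen_iUnion_countable
    (fun z : {z : X // Smooth z} => ball z.1 (r z)) fun z => isOpen_ball
  filter_upwards [(ae_ball_iff hT).2 fun z _ => hp z] with y hy hys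
  obtain ⟨z, hz, hyz⟩ : ∃ z ∈ T, y ∈ ball z.1 (r z) := by
    have hmem : y ∈ ⋃ z ∈ T, ball (z : X) (r z) := by
      rw [hTu]
      exact mem_iUnion.2 ⟨⟨y, hys⟩, mem_ball_self (hr _)⟩
    simpa using hmem
  exact hy z hz hyz

/-- **Symmetric Gateaux second derivatives** at almost every smooth point. -/
theorem ae_goodPt (f : PIso X Y) (he : Summable fun i => ‖e i‖)
    (hd : Dense (Submodule.span ℝ (range e) : Set X)) :
    ∀ᵐ y ∂mu e, Smooth y → GoodPt y := by
  refine ae_smooth_of_local fun z₀ hz₀ => ?_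
  obtain ⟨R, C, hR, L⟩ := exists_localReg f hz₀
  exact ⟨R, hR, L.ae_goodPt he hd⟩

/-- **The mirror identity** at almost every smooth point. -/
theorem t3_ae (f : PIso X Y) (he : Summable fun i => ‖e i‖)
    (hd : Dense (Submodule.span ℝ (range e) : Set X)) :
    ∀ᵐ y ∂mu e, Smooth y → ∀ i j,
      HasLineDerivAt ℝ (fun u => dNorm (f.G y) (dG f u (e j))) 0 y (e i) := by
  filter_upwards [ae_goodPt f he hd] with y hy hys i j
  obtain ⟨Q, hQ, hs⟩ := hy hys
  exact t3_smooth f hys hQ hs (e i) (e j)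

end Vale.Agent.P084.Full
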