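import Vale.Agent.P084.Full.Selection
import Vale.Agent.P084.Full.Builder

/-!
P084 (Tingley's problem), library for the general case: the second order statement at almost every
smooth point, from total symmetry along selected scales and the rigidity of second order data.
-/

namespace Vale.Agent.P084.Full

open MeasureTheory Filter Topology Metric Set Orbit Average
open scoped NNReal

variable {X Y : Type*} [NormedAddCommGroup X] [NormedSpace ℝ X] [NormedAddCommGroup Y]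
  [NormedSpace ℝ Y] [CompleteSpace X] [CompleteSpace Y] [MeasurableSpace X] [BorelSpace X]
  [SecondCountableTopology X] {e : ℕ → X}

/-- Second order identities on one ball. -/
theorem second_order_local (f : PIso X Y) (he : Summable fun i => ‖e i‖)
    (hd : Dense (Submodule.span ℝ (range e) : Set X))
    (hrig : ∀ z : X, Smooth z → ∀ (D : PreData (dNorm z).ker) (ψ : (dNorm z).ker →L[ℝ] ℝ),
      ∃ c : ℝ, |c| ≤ 2 * ‖ψ‖ ∧ ∀ a b, D.B a b ψ = c * D.Q a b)
    (φ : Y →L[ℝ] ℝ) {z₀ : X} {R C : ℝ} (L : LocalReg f z₀ R C) {r : ℝ}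
    (htot : ∀ d : ℕ → ℝ, (∀ k, 0 < d k) → Tendsto d atTop (𝓝 0) →
      ∃ s : ℕ → Finset ℕ, (∀ n, (s n).Nonempty ∧ ∀ k ∈ s n, n ≤ k) ∧
        ∀ᵐ z ∂mu e, ‖z - z₀‖ < r → ∀ Q, GatDiff z Q → (∀ a b, Q a b = Q b a) →
          ∀ i j (c : X), Tendsto (fun n => avg (s n) fun k =>
            dAv e (d k) j (fun y => formFun f z Q (e i) (dG f y c)) z -
              dAv e (d k) i (fun y => formFun f z Q (e j) (dG f y c)) z) atTop (𝓝 0)) :
    ∀ᵐ y ∂mu e, y ∈ ball z₀ (min r R) →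
      ∃ (Q : X →L[ℝ] X →L[ℝ] ℝ) (c : ℝ), (∀ a b, Q a b = Q b a) ∧ (∀ a, 0 ≤ Q a a) ∧
        |c| ≤ 2 * ‖φ‖ ∧ ∀ i j,
          HasLineDerivAt ℝ (fun u => dNorm u (e j)) (Q (e i) (e j)) y (e i) ∧
          HasLineDerivAt ℝ (fun u => φ (dG f u (e j))) (c * Q (e i) (e j)) y (e i) := by
  have hC := L.nonneg
  let _ : MeasurableSpace Y := borel Y
  have : BorelSpace Y := ⟨rfl⟩
  set g : ℕ → X → ℝ := fun j y => φ (dG f y (e j)) with hg
  have hgm : ∀ j, Measurable (g j) := fun j =>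
    φ.continuous.measurable.comp (measurable_fderiv_apply_const ℝ f.G (e j))
  set h : ℕ → X → ℝ := fun m =>
    if m.unpair.1 = 0 then
      qm (C * ‖e m.unpair.2.unpair.1‖ * ‖e m.unpair.2.unpair.2‖) (e m.unpair.2.unpair.1)
        (e m.unpair.2.unpair.2)
    else
      sm (g m.unpair.2.unpair.2) (C * ‖φ‖ * ‖e m.unpair.2.unpair.2‖ * ‖e m.unpair.2.unpair.1‖)
        (e m.unpair.2.unpair.1) with hh
  have hhm : ∀ m, Measurable (h m) := fun m => by
    simp only [hh]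
    split_ifs
    · exact measurable_qm _ _ _
    · exact measurable_sm (hgm _) _ _
  have hhb : ∀ m, ∃ M, ∀ y, |h m y| ≤ M := fun m => by
    simp only [hh]
    split_ifs
    · exact ⟨_, fun y => abs_qm_le (by positivity) _ _ _⟩
    · exact ⟨_, fun y => abs_sm_le (by positivity) _ _ _⟩
  obtain ⟨d, hd1, hd0, hosc⟩ := exists_scales he hhm hhb (θ := fun _ => (1 : ℝ)) fun _ => one_pos
  obtain ⟨s, hs, htot⟩ := htot d (fun k => (hd1 k).1) hd0
  have hgood := ae_goodPt f he hd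
  have hdiff : ∀ᵐ y ∂mu e, ∀ j, y ∈ ball z₀ R →
      ∃ l : X →L[ℝ] ℝ, ∀ a, HasLineDerivAt ℝ (g j) (l a) y a :=
    ae_all_iff.2 fun j => ae_gateaux he hd isOpen_ball (L.lip_test φ (e j))
  filter_upwards [hosc, htot, hgood, ae_all_iff.2 fun k => ae_kernel he hgood (d k), hdiff,
    ae_all_iff.2 fun k => ae_kernel he hdiff (d k)] with z hzo hzt hzg hzk hzd hzdk hzB
  rw [mem_ball, lt_min_iff] at hzB
  have hzR : z ∈ ball z₀ R := hzB.2
  have hzs := L.smooth z hzR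
  obtain ⟨Q, hQ, hQs⟩ := hzg hzs
  have hosc1 : ∀ i j, Tendsto (fun k => Av (step (d k) e)
      (fun y => |qm (C * ‖e i‖ * ‖e j‖) (e i) (e j) y -
        qm (C * ‖e i‖ * ‖e j‖) (e i) (e j) z|) z) atTop (𝓝 0) := fun i j => by
    simpa [hh] using hzo (Nat.pair 0 (Nat.pair i j))
  obtain ⟨A, hA⟩ := L.exists_approx he hd (fun k => (hd1 k).1) hd0 hs hzR hQ (fun k => hzk k)
    hosc1 (fun i j c => hzt (by rw [← dist_eq_norm]; exact hzB.1) Q hQ hQs i j c)
  choose l hl using fun j => hzd j hzR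
  have hT : ∀ i j, Tendsto (fun n => A.T n i (e j) φ) atTop (𝓝 (l j (e i))) := fun i j => by
    rw [hA]
    refine L.tendsto_avgT he (fun k => (hd1 k).1) hd0 hs hzR φ i (e j) (hgm j) (hl j (e i))
      (fun k => ?_) ?_
    · filter_upwards [hzdk k] with w hw hwB
      obtain ⟨l', hl'⟩ := hw j hwB
      exact (hl' (e i)).lineDifferentiableAt
    · simpa [hh, hg] using hzo (Nat.pair 1 (Nat.pair i j))
  obtain ⟨c, hc, hlc⟩ := A.rigid_of hd hzs hQ hQs (hrig z hzs) φ (fun i j => l j (e i)) hT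
  refine ⟨Q, c, hQs, hQ.nonneg hzs, hc, fun i j => ⟨hQ (e i) (e j), ?_⟩⟩
  rw [← hlc i j]
  exact hl j (e i)

/-- **The second order identities** at almost every smooth point, from total symmetry and
rigidity. -/
theorem second_order_of (f : PIso X Y) (he : Summable fun i => ‖e i‖)
    (hd : Dense (Submodule.span ℝ (range e) : Set X))
    (hrig : ∀ z : X, Smooth z → ∀ (D : PreData (dNorm z).ker) (ψ : (dNorm z).ker →L[ℝ] ℝ),
      ∃ c : ℝ, |c| ≤ 2 * ‖ψ‖ ∧ ∀ a b, D.B a b ψ = c * D.Q a b)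
    (htot : ∀ z₀ : X, Smooth z₀ → ∃ r > 0, ∀ d : ℕ → ℝ, (∀ k, 0 < d k) → Tendsto d atTop (𝓝 0) →
      ∃ s : ℕ → Finset ℕ, (∀ n, (s n).Nonempty ∧ ∀ k ∈ s n, n ≤ k) ∧
        ∀ᵐ z ∂mu e, ‖z - z₀‖ < r → ∀ Q, GatDiff z Q → (∀ a b, Q a b = Q b a) →
          ∀ i j (c : X), Tendsto (fun n => avg (s n) fun k =>
            dAv e (d k) j (fun y => formFun f z Q (e i) (dG f y c)) z -
              dAv e (d k) i (fun y => formFun f z Q (e j) (dG f y c)) z) atTop (𝓝 0))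
    (φ : Y →L[ℝ] ℝ) :
    ∀ᵐ y ∂mu e, Smooth y →
      ∃ (Q : X →L[ℝ] X →L[ℝ] ℝ) (c : ℝ), (∀ a b, Q a b = Q b a) ∧ (∀ a, 0 ≤ Q a a) ∧
        |c| ≤ 2 * ‖φ‖ ∧ ∀ i j,
          HasLineDerivAt ℝ (fun u => dNorm u (e j)) (Q (e i) (e j)) y (e i) ∧
          HasLineDerivAt ℝ (fun u => φ (dG f u (e j))) (c * Q (e i) (e j)) y (e i) := by
  refine ae_smooth_of_local fun z₀ hz₀ => ?_
  obtain ⟨R, C, hR, L⟩ := exists_localReg f hz₀
  obtain ⟨r, hr, ht⟩ := htot z₀ hz₀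
  exact ⟨min r R, lt_min hr hR, second_order_local f he hd hrig φ L ht⟩

end Vale.Agent.P084.Full
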