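import Vale.Agent.P084.Full.TotalBase
import Vale.Agent.P084.Full.GatAe
import Vale.Agent.P084.Full.AverageWeak
import Vale.Agent.P084.Full.AverageAe

/-!
P084 (Tingley's problem), library for the general case: uniform averages over scales of the
antisymmetric part of the second derivative paired with the form of the norm tend to zero.
-/

namespace Vale.Agent.P084.Full.Total

open MeasureTheory Filter Topology Set Metric Orbit
open scoped NNReal

variable {X Y : Type*} [NormedAddCommGroup X] [NormedSpace ℝ X] [NormedAddCommGroup Y]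
  [NormedSpace ℝ Y] [CompleteSpace X] [CompleteSpace Y]

/-- A bounded truncation. -/
noncomputable def trunc (M u : ℝ) : ℝ := max (-M) (min M u)

lemma abs_trunc_le {M : ℝ} (hM : 0 ≤ M) (u : ℝ) : |trunc M u| ≤ M :=
  abs_le.2 ⟨le_max_left _ _, max_le (by linarith) (min_le_left _ _)⟩

lemma trunc_eq {M u : ℝ} (h : |u| ≤ M) : trunc M u = u := by
  rw [trunc, min_eq_right (abs_le.1 h).2, max_eq_right (abs_le.1 h).1]

variable {f : PIso X Y} {z0 : X} {R C : ℝ} {e : ℕ → X}

omit [CompleteSpace X] [CompleteSpace Y] in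
lemma Near.continuousOn_dG (hN : Near f z0 R C) (c : X) :
    ContinuousOn (fun y => dG f y c) (ball z0 R) := by
  refine (LipschitzOnWith.of_dist_le' (K := C * ‖c‖) fun y hy y' hy' => ?_).continuousOn
  rw [mem_ball, dist_eq_norm] at hy hy'
  rw [dist_eq_norm, dist_eq_norm]
  have h1 := (dG f y - dG f y').le_opNorm c
  rw [sub_apply] at h1
  exact h1.trans ((mul_le_mul_of_nonneg_right (hN.lipG y' y hy' hy) (norm_nonneg _)).trans_eq
    (by ring))

omit [CompleteSpace X] [CompleteSpace Y] in
lemma Near.continuousOn_formFun (hN : Near f z0 R C) {d : ℝ} {z : X}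
    (hz : ‖z - z0‖ + |d| * Average.rad e < R) (Q : X →L[ℝ] X →L[ℝ] ℝ) (a c : X) :
    ContinuousOn (fun y => formFun f z Q a (dG f y c))
      (closedBall z (|d| * Average.rad e)) :=
  (formFun f z Q a).continuous.comp_continuousOn
    ((hN.continuousOn_dG c).mono (closedBall_room hz))

/-- The averaged form paired with the moving derivative is bounded. -/
lemma Near.abs_dAv_formFun_le (hN : Near f z0 R C) (he : Summable fun i => ‖e i‖) {d : ℝ}
    (hd : d ≠ 0) (b : ℕ) {z : X} (hz : ‖z - z0‖ + |d| * Average.rad e < R)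
    {Q : X →L[ℝ] X →L[ℝ] ℝ} (hQ : GatDiff z Q) (a u : X) :
    |Average.dAv e d b (fun y => formFun f z Q a (dG f y u)) z| ≤
      6 * C ^ 2 * (2 : ℝ) ^ b * Average.rad e * ‖a‖ * ‖u‖ := by
  have hC := hN.nonneg
  have hr := mul_nonneg (abs_nonneg d) (Average.rad_nonneg e)
  have hzR : ‖z - z0‖ < R := by linarith
  obtain ⟨ρ, hρ, hρR⟩ : ∃ ρ, |d| * Average.rad e < ρ ∧ ‖z - z0‖ + ρ < R :=
    ⟨(|d| * Average.rad e + (R - ‖z - z0‖)) / 2, by linarith, by linarith⟩
  have hQa : ∀ v, |Q a v| ≤ C * ‖a‖ * ‖v‖ := fun v =>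
    hQ.abs_le (r := R - ‖z - z0‖) (by linarith) (fun u hu => hN.lipN z u hzR
      (by linarith [norm_sub_le_norm_sub_add_norm_sub u z z0])) a v
  have h0 : Average.dAv e d b (fun _ => formFun f z Q a (dG f z u)) z = 0 := by
    rw [Average.dAv_affine he hd b hρ (formFun f z Q a (dG f z u)) 0 (by simp)]
    simp
  rw [← sub_zero (Average.dAv e d b _ z), ← h0,
    ← Average.dAv_sub he (hN.continuousOn_formFun hz Q a u) continuousOn_const,
    ← Real.norm_eq_abs]
  refine (Average.norm_dAv_le he (M := C * ‖a‖ * (3 * (C * (|d| * Average.rad e) * ‖u‖)))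
    (by positivity) fun y hy => ?_).trans_eq ?_
  · have hy' : ‖y - z0‖ < R := by simpa [dist_eq_norm] using closedBall_room hz hy
    rw [mem_closedBall, dist_eq_norm] at hy
    rw [Real.norm_eq_abs, ← map_sub]
    refine (hQa (inv f z (dG f y u - dG f z u))).trans (mul_le_mul_of_nonneg_left
      ((norm_dG_symm_le f (hN.smooth z hzR) _).trans ?_) (by positivity))
    have h1 := (dG f y - dG f z).le_opNorm u
    rw [sub_apply] at h1
    refine mul_le_mul_of_nonneg_left (h1.trans (mul_le_mul_of_nonneg_right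
      ((hN.lipG z y hzR hy').trans (by gcongr)) (norm_nonneg _))) (by norm_num)
  · have : |d| ≠ 0 := abs_ne_zero.2 hd
    rw [div_pow, one_pow]
    field_simp
    ring

section Law

variable [MeasurableSpace X] [BorelSpace X] [SecondCountableTopology X]

omit [CompleteSpace Y] in
/-- Integration by parts for line derivatives of a function which is almost surely small on `U`. -/
lemma abs_integral_lineDeriv_le (he : Summable fun i => ‖e i‖)
    (hd : Dense (Submodule.span ℝ (range e) : Set X)) (i : ℕ) {U : Set X} {θ g : X → ℝ}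
    {A r η : ℝ} {K L : ℝ≥0} (hA : ∀ y, |θ y| ≤ A) (hK : LipschitzWith K θ) (hr : 0 < r)
    (hU : ∀ y, θ y ≠ 0 → ball y r ⊆ U) (hg : LipschitzWith L g) (hη : 0 ≤ η)
    (hgU : ∀ᵐ y ∂Average.mu e, y ∈ U → |g y| ≤ η) :
    |∫ y, θ y * lineDeriv ℝ g y (e i) ∂Average.mu e| ≤ (4 * A + K * ‖e i‖) * η := by
  have := Average.isProbabilityMeasure_mu he
  have hgm := hg.continuous.measurable
  have hθm := hK.continuous.measurable
  have hlim : Tendsto (fun t : ℝ => ∫ y, θ y * (t⁻¹ * (g (y + t • e i) - g y)) ∂Average.mu e)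
      (𝓝[≠] 0) (𝓝 (∫ y, θ y * lineDeriv ℝ g y (e i) ∂Average.mu e)) := by
    refine tendsto_integral_filter_of_dominated_convergence (fun _ => A * (L * ‖e i‖))
      (Eventually.of_forall fun t => (by fun_prop : Measurable _).aestronglyMeasurable)
      (Eventually.of_forall fun t => ae_of_all _ fun y => ?_) (integrable_const _) ?_
    · rw [Real.norm_eq_abs, abs_mul]
      refine mul_le_mul (hA y) ?_ (abs_nonneg _) ((abs_nonneg _).trans (hA y))
      rw [abs_mul, abs_inv]
      have h1 := hg.norm_sub_le (y + t • e i) y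
      rw [Real.norm_eq_abs, add_sub_cancel_left, norm_smul, Real.norm_eq_abs] at h1
      rcases eq_or_ne t 0 with rfl | ht
      · simp only [abs_zero, inv_zero, zero_mul]; positivity
      · rw [inv_mul_le_iff₀ (abs_pos.2 ht)]
        exact h1.trans_eq (by ring)
    · filter_upwards [Average.ae_gateaux_of_lipschitzWith he hd hg] with y hy
      obtain ⟨l, hl⟩ := hy
      rw [(hl (e i)).lineDeriv]
      refine Tendsto.const_mul _ ?_
      simpa [smul_eq_mul] using (hasDerivAt_iff_tendsto_slope_zero.1 (hl (e i)))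
  refine le_of_tendsto hlim.abs ?_
  have h1 : ∀ᶠ t : ℝ in 𝓝[≠] 0, |t| ≤ 1 ∧ |t| * ‖e i‖ < r := nhdsWithin_le_nhds
    (((Continuous.tendsto' (f := fun t : ℝ => |t|) (by fun_prop) 0 0 (by simp)).eventually
      (eventually_le_nhds one_pos)).and
      ((Continuous.tendsto' (f := fun t : ℝ => |t| * ‖e i‖) (by fun_prop) 0 0 (by simp)).eventually
      (eventually_lt_nhds hr)))
  filter_upwards [h1, self_mem_nhdsWithin] with t ht (ht0 : t ≠ 0)
  set h : X → ℝ := fun y => trunc η (g y) with hh
  have hhm : Measurable h := by unfold h trunc; fun_prop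
  refine le_of_eq_of_le ?_ (Average.abs_integral_quotient_le he i hA hK hU hhm hη
    (fun y _ => abs_trunc_le hη _) ht0 ht.1 ht.2)
  refine congrArg _ (integral_congr_ae ?_)
  filter_upwards [hgU, Average.ae_translate he
    (Submodule.smul_mem _ t (Submodule.subset_span (mem_range_self i))) hgU] with y hy hy'
  rcases eq_or_ne (θ y) 0 with h0 | h0
  · simp [h0]
  · have hyv : y + t • e i ∈ U := hU y h0 (by
      rw [mem_ball, dist_eq_norm, add_sub_cancel_left, norm_smul, Real.norm_eq_abs]
      exact ht.2)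
    simp only [hh, trunc_eq (hy (hU y h0 (mem_ball_self hr))), trunc_eq (hy' hyv)]
    rw [inv_mul_eq_div]

/-- The averaged derivative of the paired norm derivative is almost surely small. -/
lemma Near.ae_Fb_small (hN : Near f z0 R C) (he : Summable fun i => ‖e i‖)
    (hgat : ∀ᵐ y ∂Average.mu e, Smooth y → GoodPt y) {d : ℝ} (hd : d ≠ 0) (b : ℕ) (w : Y) :
    ∀ᵐ z ∂Average.mu e, ‖z - z0‖ + |d| * Average.rad e < R →
      |Fb f e d b w z| ≤ 9 * C ^ 2 * (|d| * Average.rad e) * ‖e b‖ * ‖w‖ := by
  filter_upwards [Average.ae_kernel he hgat d] with z hz hzR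
  exact hN.Fb_small he hd b w hzR
    (hz.mono fun c hc => hc (hN.smooth _ (hN.norm_Sh_room he hzR c)))

/-- **Averaged total symmetry.** Uniform averages over later and later scales of the antisymmetric
part of the averaged second derivative, paired with the form of the norm, tend to zero. -/
theorem total_avg (f : PIso X Y) (e : ℕ → X) (he : Summable fun i => ‖e i‖)
    (hd : Dense (Submodule.span ℝ (range e) : Set X)) {z0 : X} (h0 : Smooth z0) :
    ∃ r > 0, ∀ d : ℕ → ℝ, (∀ k, 0 < d k) → Tendsto d atTop (𝓝 0) →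
      ∃ s : ℕ → Finset ℕ, (∀ n, (s n).Nonempty ∧ ∀ k ∈ s n, n ≤ k) ∧
        ∀ᵐ z ∂Average.mu e, ‖z - z0‖ < r → ∀ Q : X →L[ℝ] X →L[ℝ] ℝ, GatDiff z Q →
          (∀ a b, Q a b = Q b a) → ∀ (i j : ℕ) (c : X),
            Tendsto (fun n => Average.avg (s n) fun k =>
              Average.dAv e (d k) j (fun y => formFun f z Q (e i) (dG f y c)) z -
                Average.dAv e (d k) i (fun y => formFun f z Q (e j) (dG f y c)) z)
              atTop (𝓝 0) := by
  classical
  have hgat := ae_goodPt f he hd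
  obtain ⟨R, C, hN⟩ := exists_near f h0
  have := Average.isProbabilityMeasure_mu he
  have hR := hN.pos
  have hC := hN.nonneg
  refine ⟨R / 4, by linarith, fun d hdp hdlim => ?_⟩
  set U := ball z0 (R / 4)
  have hdne : ∀ k, d k ≠ 0 := fun k => (hdp k).ne'
  have hok : ∀ᶠ k in atTop, |d k| * Average.rad e < R / 4 := by
    have := hdlim.abs.mul_const (Average.rad e)
    rw [abs_zero, zero_mul] at this
    exact this.eventually (eventually_lt_nhds (by linarith))
  set w : ℕ → Y := fun n => dG f z0 (TopologicalSpace.denseSeq X n)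
  have hw : DenseRange w := by
    have hsurj : Function.Surjective (dG f z0) := fun v => ⟨_, (dG_symm f h0).2 v⟩
    exact hsurj.denseRange.comp (TopologicalSpace.denseRange_denseSeq X) (dG f z0).continuous
  -- Lipschitz extensions of `Fb`
  have hg : ∀ b n k, ∃ g : X → ℝ, (∃ L, LipschitzWith L g) ∧
      (|d k| * Average.rad e < R / 4 → EqOn g (Fb f e (d k) b (w n)) (ball z0 (R / 2))) := by
    intro b n k
    by_cases hk : |d k| * Average.rad e < R / 4
    · obtain ⟨g, hg1, hg2⟩ := (LipschitzOnWith.of_dist_le'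
        (K := 2 / (|d k| * (1 / 2 : ℝ) ^ b) * (12 * C * ‖w n‖))
        (f := Fb f e (d k) b (w n)) (s := ball z0 (R / 2)) fun y hy y' hy' => by
          rw [mem_ball, dist_eq_norm] at hy hy'
          rw [Real.dist_eq, dist_eq_norm]
          exact hN.Fb_lip he (hdne k) b (w n) (by linarith) (by linarith)).extend_real
      exact ⟨g, ⟨_, hg1⟩, fun _ => hg2.symm⟩
    · exact ⟨fun _ => 0, ⟨0, LipschitzWith.const' 0⟩, fun h => absurd h hk⟩
  choose g hgL hgE using hg
  choose L hgL using hgL
  set M : ℕ → ℕ → ℕ → ℝ := fun i j n =>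
    18 * C ^ 2 * (2 : ℝ) ^ j * Average.rad e * ‖e i‖ * ‖w n‖ +
      18 * C ^ 2 * (2 : ℝ) ^ i * Average.rad e * ‖e j‖ * ‖w n‖
  have hM0 : ∀ i j n, 0 ≤ M i j n := fun i j n => by
    have := Average.rad_nonneg e
    positivity
  set D : ℕ → ℕ → ℕ → ℕ → X → ℝ := fun i j n k z =>
    lineDeriv ℝ (g j n k) z (e i) - lineDeriv ℝ (g i n k) z (e j)
  set F : ℕ → ℕ → ℕ → ℕ → X → ℝ := fun i j n k z => trunc (M i j n) (D i j n k z)
  have hDm : ∀ i j n k, Measurable (D i j n k) := fun i j n k =>
    (measurable_lineDeriv (hgL j n k).continuous).sub (measurable_lineDeriv (hgL i n k).continuous)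
  have hFm : ∀ i j n k, Measurable (F i j n k) := fun i j n k =>
    measurable_const.max (measurable_const.min (hDm i j n k))
  -- values at points with a form
  have hval : ∀ z ∈ U, ∀ Q : X →L[ℝ] X →L[ℝ] ℝ, GatDiff z Q → ∀ i j n k,
      |d k| * Average.rad e < R / 4 →
      D i j n k z = Average.dAv e (d k) j (fun y => Q (e i) (inv f y (w n))) z -
          Average.dAv e (d k) i (fun y => Q (e j) (inv f y (w n))) z ∧
        |D i j n k z| ≤ M i j n := by
    intro z hz Q hQ i j n k hk
    have hz' : ‖z - z0‖ < R / 4 := by simpa [U, dist_eq_norm] using hz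
    have hroom : ‖z - z0‖ + |d k| * Average.rad e < R := by linarith
    have key : D i j n k z = Average.dAv e (d k) j (fun y => Q (e i) (inv f y (w n))) z -
        Average.dAv e (d k) i (fun y => Q (e j) (inv f y (w n))) z := by
      rcases eq_or_ne i j with rfl | hij
      · simp [D]
      · have hnear : ∀ b, g b n k =ᶠ[𝓝 z] Fb f e (d k) b (w n) := fun b =>
          (hgE b n k hk).eventuallyEq_of_mem (isOpen_ball.mem_nhds (by
            rw [mem_ball, dist_eq_norm]; linarith))
        have h1 := ((hN.hasLineDerivAt_Fb he (hdne k) hij (w n) hroom hQ).congr_of_eventuallyEq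
          (hnear j)).lineDeriv
        have h2 := ((hN.hasLineDerivAt_Fb he (hdne k) hij.symm (w n) hroom hQ).congr_of_eventuallyEq
          (hnear i)).lineDeriv
        simp only [D, h1, h2, Average.ddAv_comm e (d k) j i]
        ring
    refine ⟨key, ?_⟩
    rw [key]
    exact (abs_sub _ _).trans (add_le_add (hN.abs_dAv_form_le he (hdne k) j (w n) hroom hQ (e i))
      (hN.abs_dAv_form_le he (hdne k) i (w n) hroom hQ (e j)))
  -- smallness of `Fb`
  have hsmall : ∀ b n k, |d k| * Average.rad e < R / 4 → ∀ᵐ y ∂Average.mu e, y ∈ U →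
      |g b n k y| ≤ 9 * C ^ 2 * (|d k| * Average.rad e) * ‖e b‖ * ‖w n‖ := by
    intro b n k hk
    filter_upwards [hN.ae_Fb_small he hgat (hdne k) b (w n)] with y hy hyU
    have hy' : ‖y - z0‖ < R / 4 := by simpa [U, dist_eq_norm] using hyU
    rw [hgE b n k hk (by rw [mem_ball, dist_eq_norm]; linarith)]
    exact hy (by linarith)
  -- weak nullity
  have htest : ∀ i j n, ∀ φ : X → ℝ, Measurable φ → (∃ B, ∀ x, |φ x| ≤ B) →
      Tendsto (fun k => ∫ x, φ x * U.indicator (F i j n k) x ∂Average.mu e) atTop (𝓝 0) := by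
    rintro i j n φ hφ ⟨B, hB⟩
    have e1 : ∀ k, ∫ x, φ x * U.indicator (F i j n k) x ∂Average.mu e =
        ∫ x in U, φ x * F i j n k x ∂Average.mu e := fun k => by
      rw [← integral_indicator measurableSet_ball]
      exact integral_congr_ae (ae_of_all _ fun x =>
        (indicator_mul_right U φ (F i j n k) (i := x)).symm)
    simp only [e1]
    refine Average.tendsto_integral_of_test isOpen_ball (hFm i j n) (M := M i j n)
      (fun k y _ => abs_trunc_le (hM0 i j n) _) ?_ hφ hB
    rintro θ r K hr hθ ⟨A, hA⟩ hθU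
    set E : ℕ → ℕ → ℕ → ℝ := fun a b k =>
      (4 * A + K * ‖e a‖) * (9 * C ^ 2 * (|d k| * Average.rad e) * ‖e b‖ * ‖w n‖)
    have hE : ∀ a b, Tendsto (E a b) atTop (𝓝 0) := fun a b => by
      have h1 := ((((hdlim.abs.mul_const (Average.rad e)).const_mul (9 * C ^ 2)).mul_const
        ‖e b‖).mul_const ‖w n‖).const_mul (4 * A + K * ‖e a‖)
      simpa [E] using h1
    refine squeeze_zero_norm' (a := fun k => E i j k + E j i k) ?_
      (by simpa using (hE i j).add (hE j i))
    filter_upwards [hok] with k hk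
    have h1 : ∀ a b : ℕ, |∫ y, θ y * lineDeriv ℝ (g b n k) y (e a) ∂Average.mu e| ≤ E a b k :=
      fun a b => abs_integral_lineDeriv_le he hd a hA hθ hr hθU (hgL b n k)
        (by have := Average.rad_nonneg e; positivity) (hsmall b n k hk)
    have hi : ∀ a b : ℕ, Integrable (fun y => θ y * lineDeriv ℝ (g b n k) y (e a))
        (Average.mu e) := fun a b => by
      refine Integrable.of_bound (hθ.continuous.measurable.mul
        (measurable_lineDeriv (hgL b n k).continuous)).aestronglyMeasurable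
        (A * (L b n k * ‖e a‖)) (ae_of_all _ fun y => ?_)
      rw [norm_mul, Real.norm_eq_abs]
      exact mul_le_mul (hA y) (norm_lineDeriv_le_of_lipschitz ℝ (hgL b n k)) (norm_nonneg _)
        ((abs_nonneg _).trans (hA y))
    have e2 : ∫ y, θ y * F i j n k y ∂Average.mu e =
        ∫ y, θ y * lineDeriv ℝ (g j n k) y (e i) ∂Average.mu e -
          ∫ y, θ y * lineDeriv ℝ (g i n k) y (e j) ∂Average.mu e := by
      rw [← integral_sub (hi i j) (hi j i)]
      refine integral_congr_ae ?_
      filter_upwards [hgat] with y hy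
      rcases eq_or_ne (θ y) 0 with h | h
      · simp [h]
      · have hyU : y ∈ U := hθU y h (mem_ball_self hr)
        obtain ⟨Q, hQ, -⟩ := hy (hN.smooth y (by
          have : ‖y - z0‖ < R / 4 := by simpa [U, dist_eq_norm] using hyU
          linarith))
        simp only [F, trunc_eq (hval y hyU Q hQ i j n k hk).2, D, mul_sub]
    rw [Real.norm_eq_abs, e2]
    exact (abs_sub _ _).trans (add_le_add (h1 i j) (h1 j i))
  -- the averaging sets
  obtain ⟨s, hs, hsae⟩ := Average.exists_avg (ν := Average.mu e)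
    (F := fun p k => U.indicator (F p.unpair.1 p.unpair.2.unpair.1 p.unpair.2.unpair.2 k))
    (fun p k => (hFm _ _ _ k).indicator measurableSet_ball)
    (M := fun p => M p.unpair.1 p.unpair.2.unpair.1 p.unpair.2.unpair.2)
    (fun p k => ae_of_all _ fun x => by
      by_cases hx : x ∈ U <;> simp [hx, F, abs_trunc_le, hM0])
    (fun p => htest _ _ _)
  refine ⟨s, hs, ?_⟩
  filter_upwards [hsae] with z hz hzr Q hQ _ i j c
  have hzU : z ∈ U := by simpa [U, dist_eq_norm] using hzr
  have hzR : ‖z - z0‖ < R := by linarith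
  set T : X → ℕ → ℝ := fun c k =>
    Average.dAv e (d k) j (fun y => formFun f z Q (e i) (dG f y c)) z -
      Average.dAv e (d k) i (fun y => formFun f z Q (e j) (dG f y c)) z
  have hroom : ∀ k, |d k| * Average.rad e < R / 4 → ‖z - z0‖ + |d k| * Average.rad e < R :=
    fun k hk => by linarith
  have hT : ∀ n, Tendsto (fun m => Average.avg (s m) (T (inv f z (w n)))) atTop (𝓝 0) := by
    intro n
    have h1 := hz (Nat.pair i (Nat.pair j n))
    simp only [Nat.unpair_pair, indicator_of_mem hzU] at h1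
    have h2 : Tendsto (fun k => T (inv f z (w n)) k + F i j n k z) atTop (𝓝 0) := by
      refine squeeze_zero_norm' (a := fun k =>
        54 * C ^ 3 * (2 : ℝ) ^ j * Average.rad e ^ 2 * ‖e i‖ * ‖w n‖ * |d k| +
          54 * C ^ 3 * (2 : ℝ) ^ i * Average.rad e ^ 2 * ‖e j‖ * ‖w n‖ * |d k|) ?_ ?_
      · filter_upwards [hok] with k hk
        obtain ⟨hD, hDb⟩ := hval z hzU Q hQ i j n k hk
        have a1 := hN.abs_dAv_form_add_le he (hdne k) j (w n) (hroom k hk) hQ (e i)
        have a2 := hN.abs_dAv_form_add_le he (hdne k) i (w n) (hroom k hk) hQ (e j)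
        simp only [F, trunc_eq hDb, hD, T, Real.norm_eq_abs]
        rw [abs_le] at a1 a2 ⊢
        constructor <;> linarith
      · simpa using ((hdlim.abs.const_mul
          (54 * C ^ 3 * (2 : ℝ) ^ j * Average.rad e ^ 2 * ‖e i‖ * ‖w n‖)).add (hdlim.abs.const_mul
          (54 * C ^ 3 * (2 : ℝ) ^ i * Average.rad e ^ 2 * ‖e j‖ * ‖w n‖)))
    have h3 := (Average.avg_tendsto hs h2).sub h1
    rw [sub_zero] at h3
    refine h3.congr fun m => ?_
    rw [← Average.avg_sub]
    simp
  set B := 6 * C ^ 2 * (2 : ℝ) ^ j * Average.rad e * ‖e i‖ +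
    6 * C ^ 2 * (2 : ℝ) ^ i * Average.rad e * ‖e j‖ with hB
  have hB0 : 0 ≤ B := by have := Average.rad_nonneg e; positivity
  rw [Metric.tendsto_atTop]
  intro ε hε
  have hdz : DenseRange fun n => inv f z (w n) := by
    have hsurj : Function.Surjective (inv f z) := fun v =>
      ⟨_, (dG_symm f (hN.smooth z hzR)).1 v⟩
    exact hsurj.denseRange.comp hw (inv f z).continuous
  obtain ⟨n, hn⟩ := hdz.exists_dist_lt c (show 0 < ε / (2 * (B + 1)) by positivity)
  obtain ⟨N₁, hN₁⟩ := Metric.tendsto_atTop.1 (hT n) (ε / 2) (half_pos hε)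
  obtain ⟨N₂, hN₂⟩ := eventually_atTop.1 hok
  refine ⟨max N₁ N₂, fun m hm => ?_⟩
  have h1 := hN₁ m (le_of_max_le_left hm)
  rw [Real.dist_eq, sub_zero] at h1 ⊢
  have h2 : |Average.avg (s m) (T c) - Average.avg (s m) (T (inv f z (w n)))| ≤
      B * dist c (inv f z (w n)) := by
    rw [← Average.avg_sub, ← Real.norm_eq_abs]
    refine Average.norm_avg_le (hs m).1 fun k hk => ?_
    have hk' := hN₂ k ((le_of_max_le_right hm).trans ((hs m).2 k hk))
    have hr := hroom k hk'
    set u := c - inv f z (w n)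
    have e3 : ∀ a b, Average.dAv e (d k) b (fun y => formFun f z Q a (dG f y c)) z -
        Average.dAv e (d k) b (fun y => formFun f z Q a (dG f y (inv f z (w n)))) z =
        Average.dAv e (d k) b (fun y => formFun f z Q a (dG f y u)) z := fun a b => by
      rw [← Average.dAv_sub he (hN.continuousOn_formFun hr Q a c)
        (hN.continuousOn_formFun hr Q a _)]
      simp only [u, map_sub]
    have a1 := hN.abs_dAv_formFun_le he (hdne k) j hr hQ (e i) u
    have a2 := hN.abs_dAv_formFun_le he (hdne k) i hr hQ (e j) u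
    rw [← e3] at a1 a2
    rw [Real.norm_eq_abs, dist_eq_norm, hB, add_mul]
    rw [abs_le] at a1 a2 ⊢
    simp only [T]
    constructor <;> linarith
  have h3 : B * dist c (inv f z (w n)) ≤ ε / 2 := by
    refine (mul_le_mul_of_nonneg_left hn.le hB0).trans ?_
    rw [mul_div_assoc', div_le_iff₀ (by positivity)]
    nlinarith
  calc |Average.avg (s m) (T c)|
      ≤ |Average.avg (s m) (T (inv f z (w n)))| +
        |Average.avg (s m) (T c) - Average.avg (s m) (T (inv f z (w n)))| := by
        linarith [abs_sub_abs_le_abs_sub (Average.avg (s m) (T c))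
          (Average.avg (s m) (T (inv f z (w n))))]
    _ < ε := by linarith

end Law

end Vale.Agent.P084.Full.Total
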