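import Vale.Agent.P084.Full.Closing
import Vale.Agent.P084.Full.SecondOrderOf
import Vale.Agent.P084.Full.GatAe
import Vale.Agent.P084.Full.Total
import Vale.Agent.P084.Full.Extend

/-!
P084 (Tingley's problem): the general theorem. Every surjective isometry between the unit spheres
of real Banach spaces extends to a linear isometry.
-/

namespace Vale.Agent.P084.Full

open Filter Topology Metric Orbit MeasureTheory

universe u v

/-- **Tingley's problem.** Every surjective isometry between the unit spheres of real Banach
spaces is the restriction of a linear isometry. -/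
theorem tingley {X : Type u} {Y : Type v} [NormedAddCommGroup X] [NormedSpace ℝ X]
    [CompleteSpace X] [NormedAddCommGroup Y] [NormedSpace ℝ Y] [CompleteSpace Y]
    (f : sphere (0 : X) 1 → sphere (0 : Y) 1) (hf : Isometry f) (hsurj : Function.Surjective f) :
    ∃ T : X ≃ₗᵢ[ℝ] Y, ∀ x : sphere (0 : X) 1, T (x : X) = (f x : Y) :=
  tingley_of
    (fun _ _ => fun g e he hd φ => second_order_of g he hd
      (fun z _ D ψ => D.rigid ψ) (fun _ h0 => Total.total_avg g e he hd h0) φ)
    (fun _ _ => fun g _ he hd => t3_ae g he hd) hf hsurj

end Vale.Agent.P084.Full
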