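import Vale.Agent.P084.Full.Drop

/-!
P084 (Tingley's problem), library for the general case: an almost norming pair is close to a
norming pair (the Bishop–Phelps–Bollobás theorem, proved from Ekeland's principle).
-/

namespace Vale.Agent.P084.Full

variable {V : Type*} [NormedAddCommGroup V] [NormedSpace ℝ V] [CompleteSpace V]

/-- An almost norming pair is near a norming pair. -/
theorem exists_norming_near {x : V} {p : V →L[ℝ] ℝ} (hp : ‖p‖ ≤ 1) {ε θ : ℝ} (hθ : 0 < θ)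
    (hε : ‖x‖ - ε ≤ p x) (hx : ε < θ * ‖x‖) :
    ∃ (v : V) (q : V →L[ℝ] ℝ), ‖q‖ ≤ 1 ∧ q v = ‖v‖ ∧ θ * ‖v - x‖ ≤ ε ∧
      ∀ h, |p h - q h| ≤ θ * ‖h‖ := by
  have hple : ∀ u, p u ≤ ‖u‖ := fun u =>
    (Real.le_norm_self _).trans ((p.le_of_opNorm_le hp u).trans_eq (one_mul _))
  obtain ⟨v, hv1, hv2⟩ := ekeland (g := fun u => ‖u‖ - p u) (by fun_prop) (b := 0)
    (fun u => by linarith [hple u]) hθ x
  rw [dist_eq_norm] at hv1
  have hvd : θ * ‖v - x‖ ≤ ε := by linarith [hple v]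
  have hv0 : v ≠ 0 := fun h => by
    rw [h, zero_sub, norm_neg] at hvd
    linarith
  have hmin : ∀ h, p h + ‖v‖ ≤ ‖v + h‖ + θ * ‖h‖ := fun h => by
    rcases eq_or_ne h 0 with rfl | h0
    · simp
    have := hv2 (v + h) (by simpa using h0)
    rw [dist_eq_norm, add_sub_cancel_left, map_add] at this
    linarith
  have hdom : ∀ (c : ℝ) (h : V), p h + c * ‖v‖ ≤ ‖h + c • v‖ + θ * ‖h‖ := fun c h => by
    rcases le_or_gt c 0 with hc | hc
    · have h1 := norm_sub_le (h + c • v) (c • v)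
      rw [add_sub_cancel_right, norm_smul, Real.norm_eq_abs, abs_of_nonpos hc] at h1
      have := mul_nonneg hθ.le (norm_nonneg h)
      linarith [hple h]
    · have h1 := mul_le_mul_of_nonneg_left (hmin (c⁻¹ • h)) hc.le
      have e : ‖h + c • v‖ = c * ‖v + c⁻¹ • h‖ := by
        have h2 : h + c • v = c • (v + c⁻¹ • h) := by
          rw [smul_add, smul_inv_smul₀ hc.ne', add_comm]
        rw [h2, norm_smul, Real.norm_of_nonneg hc.le]
      rw [map_smul, smul_eq_mul, norm_smul, norm_inv, Real.norm_of_nonneg hc.le] at h1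
      have e1 : c * (c⁻¹ * p h + ‖v‖) = p h + c * ‖v‖ := by field_simp
      have e2 : c * (‖v + c⁻¹ • h‖ + θ * (c⁻¹ * ‖h‖)) =
          c * ‖v + c⁻¹ • h‖ + θ * ‖h‖ := by field_simp
      linarith
  let ψ : ℝ × V →ₗ[ℝ] V × V :=
    ((LinearMap.toSpanSingleton ℝ V v).comp (LinearMap.fst ℝ ℝ V) + LinearMap.snd ℝ ℝ V).prod
      (LinearMap.snd ℝ ℝ V)
  let φ : ℝ × V →ₗ[ℝ] ℝ :=
    (LinearMap.toSpanSingleton ℝ ℝ ‖v‖).comp (LinearMap.fst ℝ ℝ V) +
      (p : V →ₗ[ℝ] ℝ).comp (LinearMap.snd ℝ ℝ V)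
  have hker : LinearMap.ker ψ ≤ LinearMap.ker φ := by
    rintro ⟨c, h⟩ hc
    rw [LinearMap.mem_ker] at hc ⊢
    obtain ⟨h1, rfl⟩ : c • v + h = 0 ∧ h = 0 := by simpa [ψ] using hc
    simp [hv0] at h1
    simp [φ, h1]
  let g : (V × V) →ₗ.[ℝ] ℝ :=
    ⟨LinearMap.range ψ, (LinearMap.ker ψ).liftQ φ hker ∘ₗ ψ.quotKerEquivRange.symm.toLinearMap⟩
  have hg : ∀ u, g ⟨ψ u, LinearMap.mem_range_self ψ u⟩ = φ u := fun u => by
    show (LinearMap.ker ψ).liftQ φ hker (ψ.quotKerEquivRange.symm ⟨ψ u, _⟩) = φ u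
    rw [LinearMap.quotKerEquivRange_symm_apply_image]
    rfl
  obtain ⟨F, hF1, hF2⟩ := exists_extension_of_le_sublinear g (fun z => ‖z.1‖ + θ * ‖z.2‖)
    (fun c hc z => by
      simp only [Prod.smul_fst, Prod.smul_snd, norm_smul, Real.norm_of_nonneg hc.le]; ring)
    (fun z w => by
      simp only [Prod.fst_add, Prod.snd_add]
      have := mul_le_mul_of_nonneg_left (norm_add_le z.2 w.2) hθ.le
      linarith [norm_add_le z.1 w.1]) (by
      rintro ⟨_, ⟨c, h⟩, rfl⟩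
      refine (hg (c, h)).trans_le ?_
      simpa [ψ, φ, add_comm] using hdom c h)
  have hqle : ∀ u, F (u, 0) ≤ ‖u‖ := fun u => by simpa using hF2 (u, 0)
  have hqb : ∀ u, ‖(F.comp (LinearMap.inl ℝ V V)) u‖ ≤ 1 * ‖u‖ := fun u => by
    rw [one_mul, Real.norm_eq_abs, abs_le]
    refine ⟨?_, hqle u⟩
    have := hqle (-u)
    rw [norm_neg, show ((-u, 0) : V × V) = -(u, 0) by simp, map_neg] at this
    show -‖u‖ ≤ F (u, 0)
    linarith
  have hval : ∀ u, F (ψ u) = φ u := fun u =>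
    (hF1 ⟨ψ u, LinearMap.mem_range_self ψ u⟩).trans (hg u)
  refine ⟨v, (F.comp (LinearMap.inl ℝ V V)).mkContinuous 1 hqb,
    LinearMap.mkContinuous_norm_le _ zero_le_one _, ?_, hvd, fun h => ?_⟩
  · have := hval (1, 0)
    simpa [ψ, φ] using this
  · have h1 := hval (0, h)
    have e : F (h, h) = F (h, 0) + F (0, h) := by rw [← map_add]; simp
    have h2 := hF2 (0, h)
    have h3 := hF2 (0, -h)
    rw [show ((0, -h) : V × V) = -(0, h) by simp, map_neg] at h3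
    simp only [Prod.fst_neg, Prod.snd_neg, norm_zero, norm_neg, zero_add] at h2 h3
    simp [ψ, φ] at h1
    show |p h - F (h, 0)| ≤ θ * ‖h‖
    rw [abs_le]
    constructor <;> linarith

end Vale.Agent.P084.Full
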