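import Vale.Agent.P084.Full.MirrorSmooth
import Vale.Agent.P084.Full.NearPair

/-!
P084 (Tingley's problem), library for the general case: the one-sided pointwise bound for the
derivative of the extension tested at a functional norming an image of a tangent vector.
-/

namespace Vale.Agent.P084.Full

open Filter Topology Orbit

variable {X Y : Type*} [NormedAddCommGroup X] [NormedSpace ℝ X] [NormedAddCommGroup Y]
  [NormedSpace ℝ Y] [CompleteSpace X] [CompleteSpace Y]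

lemma norm_dG_le (f : PIso X Y) {z : X} (h : Smooth z) (a : X) : ‖dG f z a‖ ≤ 3 * ‖a‖ := by
  obtain ⟨e, -, hLe, he, -⟩ := exists_dG f h
  rw [hLe]
  exact he a

lemma norm_dG_symm_le (f : PIso X Y) {z : X} (h : Smooth z) (b : Y) :
    ‖dG f.symm (f.G z) b‖ ≤ 3 * ‖b‖ := norm_dG_le f.symm (smooth_G f h) b

/-- A norming functional exceeds the value of the extension's derivative by at most twice the
derivative of the norm. -/
lemma dG_le_of_norming (f : PIso X Y) {u ξ : X} (h : Smooth u) {β : Y →L[ℝ] ℝ}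
    (hβ : ∀ v, β v ≤ ‖v‖) : β (dG f u ξ) ≤ ‖ξ‖ + 2 * |dNorm u ξ| := by
  have hn := h.norm_pos
  set c := dNorm u ξ / ‖u‖ with hc
  have hS : dNorm u (ξ - c • u) = 0 := by
    rw [map_sub, map_smul, h.dNorm_self, smul_eq_mul, hc, div_mul_cancel₀ _ hn.ne', sub_self]
  have hcu : |c| * ‖u‖ = |dNorm u ξ| := by
    rw [hc, abs_div, abs_of_pos hn, div_mul_cancel₀ _ hn.ne']
  have e : dG f u ξ = dG f u (ξ - c • u) + c • f.G u := by
    rw [← dG_self f h, ← map_smul, ← map_add, sub_add_cancel]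
  have h1 := hβ (dG f u (ξ - c • u))
  rw [norm_dG f h hS] at h1
  have h2 := hβ (c • f.G u)
  rw [norm_smul, f.norm_G, Real.norm_eq_abs, hcu] at h2
  have h3 := norm_sub_le ξ (c • u)
  rw [norm_smul, Real.norm_eq_abs, hcu] at h3
  rw [e, map_add]
  linarith

set_option maxHeartbeats 400000 in
/-- **IDENT, pointwise.** Near a smooth point, the one-sided difference quotient of the extension's
derivative at a norming pair is bounded by twice the form, up to a small error. -/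
theorem ident_pointwise (f : PIso X Y) {z : X} (hz : Smooth z) {ξ : X} (hξ : dNorm z ξ = 0)
    {β : Y →L[ℝ] ℝ} (hβ1 : ‖β‖ ≤ 1) (hβ : β (dG f z ξ) = ‖ξ‖) :
    ∃ r K : ℝ, 0 < r ∧ 0 ≤ K ∧ ∀ y, ‖y - z‖ < r → ∀ Q : X →L[ℝ] X →L[ℝ] ℝ, GatDiff y Q →
      (∀ a b, Q a b = Q b a) → ∀ (η : X) (ε : ℝ), 0 < ε → ∀ᶠ t in 𝓝[>] (0 : ℝ),
        β (dG f (y + t • η) ξ - dG f y ξ) ≤
          t * (2 * |Q η ξ| + K * Real.sqrt ‖y - z‖ * ‖η‖ + ε) := by
  rcases eq_or_ne ξ 0 with rfl | hξ0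
  · refine ⟨1, 0, one_pos, le_rfl, fun y _ Q _ _ η ε hε => ?_⟩
    filter_upwards [self_mem_nhdsWithin] with t (ht : 0 < t)
    simp only [map_zero, sub_self, abs_zero, mul_zero, zero_mul, zero_add]
    positivity
  have hξn : 0 < ‖ξ‖ := norm_pos_iff.2 hξ0
  obtain ⟨r₁, C₁, hr₁, hC₁, hu₁⟩ := hz.norm_uniform
  obtain ⟨r₂, C₂, hr₂, hC₂, hu₂⟩ := dG_uniform f hz
  set C := C₁ + C₂ + 1 with hC
  have hC1 : 1 ≤ C := by linarith
  set r := min (min r₁ r₂) (1 / (100 * C ^ 2)) with hr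
  have hr0 : 0 < r := lt_min (lt_min hr₁ hr₂) (by positivity)
  have hrr₁ : r ≤ r₁ := (min_le_left _ _).trans (min_le_left _ _)
  have hrr₂ : r ≤ r₂ := (min_le_left _ _).trans (min_le_right _ _)
  refine ⟨r, 60 * C ^ 2 * ‖ξ‖, hr0, by positivity, fun y hy Q hQ hQs η ε hε => ?_⟩
  obtain ⟨hys, -, hπy⟩ := hu₁ y (hy.trans_le hrr₁)
  obtain ⟨-, -, hLy⟩ := hu₂ y (hy.trans_le hrr₂)
  set δ := ‖y - z‖ with hδ
  set s0 := Real.sqrt δ with hs0
  have hs00 : 0 ≤ s0 := Real.sqrt_nonneg _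
  have hδ0 : 0 ≤ δ := norm_nonneg _
  have hss : s0 * s0 = δ := Real.mul_self_sqrt hδ0
  have hs01 : 10 * C * s0 ≤ 1 := by
    have h1 : δ ≤ 1 / (100 * C ^ 2) := hy.le.trans (min_le_right _ _)
    rw [le_div_iff₀ (by positivity)] at h1
    have h2 : (10 * C * s0) ^ 2 ≤ 1 ^ 2 := by
      rw [mul_pow, one_pow, pow_two s0, hss]; linarith
    exact (abs_le_of_sq_le_sq' h2 zero_le_one).2
  have hs02 : s0 ≤ 1 / 10 := by
    have := mul_le_mul_of_nonneg_right hC1 hs00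
    linarith
  have hπd : |dNorm y ξ| ≤ C * δ * ‖ξ‖ := by
    have h1 := (dNorm y - dNorm z).le_opNorm ξ
    rw [sub_apply, hξ, sub_zero, Real.norm_eq_abs] at h1
    refine h1.trans (mul_le_mul_of_nonneg_right ?_ (norm_nonneg ξ))
    refine ((hu₁ z (by simpa using hr₁)).2.2 y (hy.trans_le hrr₁)).trans ?_
    exact mul_le_mul_of_nonneg_right (by linarith) hδ0
  have hLd : ‖dG f y ξ - dG f z ξ‖ ≤ C * δ * ‖ξ‖ := by
    have h1 := (dG f y - dG f z).le_opNorm ξ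
    rw [sub_apply] at h1
    refine h1.trans (mul_le_mul_of_nonneg_right ?_ (norm_nonneg ξ))
    refine ((hu₂ z (by simpa using hr₂)).2.2 y (hy.trans_le hrr₂)).trans ?_
    exact mul_le_mul_of_nonneg_right (by linarith) hδ0
  -- the tangent pair at `y`
  have hn := hys.norm_pos
  set ξ₁ := ξ - (dNorm y ξ / ‖y‖) • y with hξ₁
  have hξ₁π : dNorm y ξ₁ = 0 := by
    rw [hξ₁, map_sub, map_smul, hys.dNorm_self, smul_eq_mul, div_mul_cancel₀ _ hn.ne', sub_self]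
  have hξ₁d : ‖ξ₁ - ξ‖ ≤ C * δ * ‖ξ‖ := by
    rw [hξ₁, sub_sub_cancel_left, norm_neg, norm_smul, Real.norm_eq_abs, abs_div, abs_of_pos hn,
      div_mul_cancel₀ _ hn.ne']
    exact hπd
  set V := LinearMap.ker ((dNorm (f.G y)) : Y →ₗ[ℝ] ℝ) with hV
  have : CompleteSpace V := (dNorm (f.G y)).isClosed_ker.completeSpace_coe
  set x : V := ⟨dG f y ξ₁, show dNorm (f.G y) (dG f y ξ₁) = 0 by rw [dNorm_dG f hys, hξ₁π]⟩
    with hx
  set p : V →L[ℝ] ℝ := β.comp V.subtypeL with hp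
  have hp1 : ‖p‖ ≤ 1 := ContinuousLinearMap.opNorm_le_bound _ zero_le_one fun v =>
    β.le_of_opNorm_le hβ1 (v : Y)
  have hβle : ∀ v, β v ≤ ‖v‖ := fun v =>
    (Real.le_norm_self _).trans ((β.le_of_opNorm_le hβ1 v).trans_eq (one_mul _))
  have hxn : ‖x‖ = ‖ξ₁‖ := norm_dG f hys hξ₁π
  have hξ₁n : ‖ξ₁‖ ≤ ‖ξ‖ + C * δ * ‖ξ‖ := by
    linarith [norm_le_norm_add_norm_sub' ξ₁ ξ]
  have hξ₁l : ‖ξ‖ - C * δ * ‖ξ‖ ≤ ‖ξ₁‖ := by
    linarith [norm_sub_norm_le ξ ξ₁, norm_sub_rev ξ ξ₁]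
  have hp2 : ‖x‖ - 5 * C * δ * ‖ξ‖ ≤ p x := by
    show ‖x‖ - _ ≤ β (dG f y ξ₁)
    have h1 := hβle (dG f z ξ - dG f y ξ)
    have h2 := hβle (dG f y (ξ - ξ₁))
    rw [map_sub, hβ, norm_sub_rev] at h1
    rw [map_sub, map_sub] at h2
    have h3 := norm_dG_le f hys (ξ - ξ₁)
    rw [map_sub, norm_sub_rev ξ] at h3
    linarith
  set τ := min (1 / 10) (ε / (4 * (60 * C ^ 2 * ‖ξ‖ * ‖η‖ + 1))) with hτ
  have hτ0 : 0 < τ := lt_min (by norm_num) (by positivity)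
  have hτε : τ * (60 * C ^ 2 * ‖ξ‖ * ‖η‖) ≤ ε / 4 := by
    have h1 : τ * (4 * (60 * C ^ 2 * ‖ξ‖ * ‖η‖ + 1)) ≤ ε :=
      (le_div_iff₀ (by positivity)).1 (min_le_right _ _)
    linarith
  set θ := s0 + τ with hθ
  have hθx : 5 * C * δ * ‖ξ‖ < θ * ‖x‖ := by
    have h1 : ‖ξ‖ * (1 - C * δ) ≤ ‖x‖ := by rw [hxn]; linarith
    have h2 : C * δ ≤ 1 / 100 := by
      rw [← hss]
      calc C * (s0 * s0) = (10 * C * s0) * s0 / 10 := by ring
        _ ≤ 1 * (1 / 10) / 10 := by gcongr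
        _ = 1 / 100 := by norm_num
    have h3 : 0 < τ * ‖x‖ := mul_pos hτ0 (lt_of_lt_of_le (mul_pos hξn (by linarith)) h1)
    have h4 : ‖ξ‖ * (5 * C * δ) ≤ s0 * ‖x‖ := by
      refine le_trans ?_ (mul_le_mul_of_nonneg_left h1 hs00)
      have h5 : 5 * C * s0 ≤ 1 - C * δ := by linarith
      calc ‖ξ‖ * (5 * C * δ) = s0 * (‖ξ‖ * (5 * C * s0)) := by rw [← hss]; ring
        _ ≤ s0 * (‖ξ‖ * (1 - C * δ)) := by gcongr
    rw [hθ, add_mul]; linarith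
  obtain ⟨v, q, hq1, hqv, hvx, hpq⟩ :=
    exists_norming_near hp1 (add_pos_of_nonneg_of_pos hs00 hτ0) hp2 hθx
  obtain ⟨β', hβ'e, hβ'n⟩ := exists_extension_norm_eq V q
  have hβ'le : ∀ w, β' w ≤ ‖w‖ := fun w =>
    (Real.le_norm_self _).trans ((β'.le_of_opNorm_le (hβ'n.trans_le hq1) w).trans_eq (one_mul _))
  set ξ₂ := dG f.symm (f.G y) (v : Y) with hξ₂
  have hL2 : dG f y ξ₂ = (v : Y) := (dG_symm f hys).2 _
  have hξ₂π : dNorm y ξ₂ = 0 := by rw [← dNorm_dG f hys, hL2]; exact v.2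
  have hξ₂n : ‖ξ₂‖ = ‖v‖ := by
    rw [← norm_dG f hys hξ₂π, hL2]; rfl
  have hvx' : ‖v - x‖ ≤ 5 * C * s0 * ‖ξ‖ := by
    have h1 : s0 * ‖v - x‖ ≤ θ * ‖v - x‖ :=
      mul_le_mul_of_nonneg_right (by linarith) (norm_nonneg _)
    rcases eq_or_lt_of_le hs00 with h | h
    · have : θ * ‖v - x‖ ≤ 0 := by
        have e0 : 5 * C * δ * ‖ξ‖ = 0 := by rw [← hss, ← h]; ring
        linarith
      have h0 : ‖v - x‖ ≤ 0 :=
        nonpos_of_mul_nonpos_right this (add_pos_of_nonneg_of_pos hs00 hτ0)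
      rw [← h]; simpa using h0
    · refine le_of_mul_le_mul_left ?_ h
      refine (h1.trans hvx).trans_eq ?_
      rw [← hss]; ring
  have hξ₂d : ‖ξ₂ - ξ‖ ≤ 6 * C * s0 * ‖ξ‖ := by
    have h1 : ‖ξ₂ - ξ₁‖ = ‖v - x‖ := by
      rw [← norm_dG f hys (show dNorm y (ξ₂ - ξ₁) = 0 by rw [map_sub, hξ₂π, hξ₁π, sub_self]),
        map_sub, hL2]
      rfl
    have h2 : C * δ * ‖ξ‖ ≤ C * s0 * ‖ξ‖ := by
      gcongr
      rw [← hss]
      exact mul_le_of_le_one_left hs00 (by linarith)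
    linarith [norm_sub_le_norm_sub_add_norm_sub ξ₂ ξ₁ ξ]
  have hξ₂3 : ‖ξ₂‖ ≤ 2 * ‖ξ‖ := by
    have h1 := norm_le_norm_add_norm_sub' ξ₂ ξ
    have h2 : 6 * C * s0 * ‖ξ‖ ≤ 1 * ‖ξ‖ := mul_le_mul_of_nonneg_right (by linarith) (norm_nonneg ξ)
    linarith
  -- along the line
  have hl : Tendsto (fun t : ℝ => y + t • η) (𝓝 0) (𝓝 y) := by
    have : Continuous fun t : ℝ => y + t • η := by fun_prop
    simpa using this.tendsto 0
  have hpos' : ∀ᶠ t in 𝓝[>] (0 : ℝ), 0 < t := self_mem_nhdsWithin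
  have hin : ∀ᶠ t in 𝓝[>] (0 : ℝ), ‖y + t • η - z‖ < r := by
    refine nhdsWithin_le_nhds ?_
    exact (((show Continuous fun u : X => ‖u - z‖ by fun_prop).tendsto y).comp hl).eventually
      (eventually_lt_nhds hy)
  have hε8 : 0 < ε / 16 := by linarith
  have hQe : ∀ᶠ t in 𝓝[>] (0 : ℝ), |dNorm (y + t • η) ξ₂| ≤ t * (|Q η ξ₂| + ε / 16) := by
    have h1 := (hasDerivAt_iff_tendsto_slope.1 (hQ η ξ₂)).abs
    filter_upwards [(h1.mono_left (nhdsWithin_mono _ (show Set.Ioi (0 : ℝ) ⊆ {0}ᶜ from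
      fun t ht => ne_of_gt ht))).eventually (eventually_le_nhds (lt_add_of_pos_right _ hε8)),
      hpos'] with t ht htp
    rw [slope_def_field, sub_zero, zero_smul, add_zero, hξ₂π, sub_zero, abs_div, abs_of_pos htp,
      div_le_iff₀ htp] at ht
    linarith
  have hκ : ∀ᶠ t in 𝓝[>] (0 : ℝ),
      |dNorm (f.G y) (dG f (y + t • η) ξ₂ - dG f y ξ₂)| ≤ t * (ε / 16) := by
    have h1 := (hasDerivAt_iff_tendsto_slope.1 (t3_smooth f hys hQ hQs η ξ₂)).abs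
    rw [abs_zero] at h1
    filter_upwards [(h1.mono_left (nhdsWithin_mono _ (show Set.Ioi (0 : ℝ) ⊆ {0}ᶜ from
      fun t ht => ne_of_gt ht))).eventually (eventually_le_nhds hε8), hpos'] with t ht htp
    rw [slope_def_field, sub_zero, zero_smul, add_zero, abs_div, abs_of_pos htp,
      div_le_iff₀ htp, ← map_sub] at ht
    linarith
  filter_upwards [hin, hQe, hκ, hpos'] with t htin htQ htκ htp
  obtain ⟨hts, -, -⟩ := hu₁ _ (htin.trans_le hrr₁)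
  set Δ := dG f (y + t • η) ξ₂ - dG f y ξ₂ with hΔ
  have hΔn : ∀ w : X, ‖dG f (y + t • η) w - dG f y w‖ ≤ C * t * ‖η‖ * ‖w‖ := fun w => by
    have h1 := (dG f (y + t • η) - dG f y).le_opNorm w
    rw [sub_apply] at h1
    refine h1.trans (mul_le_mul_of_nonneg_right ?_ (norm_nonneg w))
    refine (hLy _ (htin.trans_le hrr₂)).trans ?_
    rw [add_sub_cancel_left, norm_smul, Real.norm_of_nonneg htp.le, ← mul_assoc]
    gcongr
    linarith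
  have hGn : ‖f.G y‖ = ‖y‖ := f.norm_G y
  set c := dNorm (f.G y) Δ / ‖y‖ with hc
  have hΔV : dNorm (f.G y) (Δ - c • f.G y) = 0 := by
    rw [map_sub, map_smul, (smooth_G f hys).dNorm_self, hGn, smul_eq_mul, hc,
      div_mul_cancel₀ _ hn.ne', sub_self]
  have hcy : ‖c • f.G y‖ = |dNorm (f.G y) Δ| := by
    rw [norm_smul, hGn, Real.norm_eq_abs, hc, abs_div, abs_of_pos hn,
      div_mul_cancel₀ _ hn.ne']
  -- the three parts
  have hA : β' Δ ≤ 2 * |dNorm (y + t • η) ξ₂| := by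
    have h1 := dG_le_of_norming f (ξ := ξ₂) hts hβ'le
    rw [hΔ, map_sub, hL2, hβ'e, hqv]
    linarith
  have hB : β Δ - β' Δ ≤ θ * (2 * (C * t * ‖η‖ * ‖ξ₂‖)) + 2 * |dNorm (f.G y) Δ| := by
    have h1 := hpq ⟨Δ - c • f.G y, hΔV⟩
    rw [← hβ'e] at h1
    change |β (Δ - c • f.G y) - β' (Δ - c • f.G y)| ≤ θ * ‖Δ - c • f.G y‖ at h1
    have h2 := hβle (c • f.G y)
    have h3 := hβ'le (-(c • f.G y))
    rw [hcy] at h2
    rw [norm_neg, hcy, map_neg] at h3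
    have h4 : ‖Δ - c • f.G y‖ ≤ 2 * (C * t * ‖η‖ * ‖ξ₂‖) := by
      refine (norm_sub_le _ _).trans ?_
      rw [hcy]
      have := hΔn ξ₂
      have h5 : |dNorm (f.G y) Δ| ≤ ‖Δ‖ :=
        abs_le.2 ⟨(smooth_G f hys).supp.ge Δ, (smooth_G f hys).supp.le Δ⟩
      linarith
    have h6 := mul_le_mul_of_nonneg_left h4 (add_nonneg hs00 hτ0.le)
    rw [map_sub β Δ (c • f.G y), map_sub β' Δ (c • f.G y)] at h1
    rw [hθ] at h1 ⊢
    linarith [(abs_le.1 h1).2]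
  have hD : β (dG f (y + t • η) ξ - dG f y ξ) - β Δ ≤ C * t * ‖η‖ * ‖ξ₂ - ξ‖ := by
    rw [← map_sub, hΔ]
    refine (hβle _).trans ?_
    rw [norm_sub_rev ξ₂, show dG f (y + t • η) ξ - dG f y ξ - (dG f (y + t • η) ξ₂ - dG f y ξ₂) =
      dG f (y + t • η) (ξ - ξ₂) - dG f y (ξ - ξ₂) by rw [map_sub, map_sub]; abel]
    exact hΔn _
  have hQd : |Q η ξ₂| ≤ |Q η ξ| + C * ‖η‖ * ‖ξ₂ - ξ‖ := by
    have h1 : |Q η (ξ₂ - ξ)| ≤ C * ‖η‖ * ‖ξ₂ - ξ‖ :=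
      hQ.abs_le (r := r - δ) (by linarith) (fun w hw => by
        have hwz : ‖w - z‖ < r := by linarith [norm_sub_le_norm_sub_add_norm_sub w y z]
        refine (hπy w (hwz.trans_le hrr₁)).trans ?_
        exact mul_le_mul_of_nonneg_right (by linarith) (norm_nonneg _)) η _
    rw [map_sub] at h1
    linarith [abs_sub_abs_le_abs_sub (Q η ξ₂) (Q η ξ)]
  have hηn : 0 ≤ C * t * ‖η‖ := by positivity
  have e1 : θ * (2 * (C * t * ‖η‖ * ‖ξ₂‖)) ≤ (s0 + τ) * (4 * (C * t * ‖η‖) * ‖ξ‖) := by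
    rw [hθ]
    refine mul_le_mul_of_nonneg_left ?_ (add_nonneg hs00 hτ0.le)
    have := mul_le_mul_of_nonneg_left hξ₂3 hηn
    linarith
  have e2 := mul_le_mul_of_nonneg_left hξ₂d hηn
  have e3 := mul_le_mul_of_nonneg_left hξ₂d (show 0 ≤ C * ‖η‖ by positivity)
  have e4 : C * t * ‖η‖ * ‖ξ‖ * s0 ≤ C ^ 2 * t * ‖η‖ * ‖ξ‖ * s0 := by
    gcongr; exact le_self_pow₀ hC1 two_ne_zero
  have e5 : C * τ * ‖η‖ * ‖ξ‖ * t ≤ C ^ 2 * τ * ‖η‖ * ‖ξ‖ * t := by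
    gcongr; exact le_self_pow₀ hC1 two_ne_zero
  have e6 := mul_le_mul_of_nonneg_left hτε htp.le
  have e7 := mul_le_mul_of_nonneg_left (hQd.trans (add_le_add le_rfl e3)) htp.le
  have p1 : 0 ≤ C ^ 2 * t * ‖η‖ * ‖ξ‖ * s0 := by positivity
  have p2 : 0 ≤ C ^ 2 * τ * ‖η‖ * ‖ξ‖ * t := by positivity
  have p3 := mul_pos htp hε
  linarith

end Vale.Agent.P084.Full
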