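import Mathlib

/-!
P084 (Tingley's problem), library for the general case: an isometry which is symmetric and
nonnegative for a nonnegative form acts trivially modulo the kernel of the form.
-/

namespace Vale.Agent.P084.Full

variable {V : Type*} [NormedAddCommGroup V] [NormedSpace ℝ V]

lemma form_sq_le (Q : V →L[ℝ] V →L[ℝ] ℝ) (hs : ∀ a b, Q a b = Q b a) (hp : ∀ a, 0 ≤ Q a a)
    (a b : V) : Q a b ^ 2 ≤ Q a a * Q b b := by
  have h : ∀ t : ℝ, 0 ≤ Q b b * (t * t) + 2 * Q a b * t + Q a a := fun t => by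
    have := hp (a + t • b)
    simp only [map_add, map_smul, add_apply, smul_apply, smul_eq_mul, hs b a] at this
    linarith
  have := discrim_le_zero h
  rw [discrim] at this
  linarith

lemma form_apply_iterate_le (Q : V →L[ℝ] V →L[ℝ] ℝ) (hs : ∀ a b, Q a b = Q b a)
    (hp : ∀ a, 0 ≤ Q a a) (U : V ≃ₗᵢ[ℝ] V) (hU : ∀ a c, Q (U a) c = Q a (U c)) (a : V) :
    Q (U a) (U a) ≤ Q a a := by
  set x : ℕ → V := fun n => U^[n] a with hx
  have hx1 : ∀ n, x (n + 1) = U (x n) := fun n => Function.iterate_succ_apply' U n a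
  set g : ℕ → ℝ := fun n => Real.sqrt (Q (x n) (x n)) with hg
  have hconv : ∀ n, g (n + 1) ≤ (g n + g (n + 2)) / 2 := by
    intro n
    have e : Q (x (n + 1)) (x (n + 1)) = Q (x n) (x (n + 2)) := by
      rw [hx1 (n + 1), hx1 n, hU]
    have h1 : Q (x (n + 1)) (x (n + 1)) ≤ g n * g (n + 2) := by
      rw [e, hg, ← Real.sqrt_mul (hp _)]
      exact Real.le_sqrt_of_sq_le (form_sq_le Q hs hp _ _)
    have h2 : g (n + 1) ^ 2 ≤ g n * g (n + 2) := by
      rw [hg]; simp only; rw [Real.sq_sqrt (hp _)]; exact h1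
    have h3 : 0 ≤ g n := Real.sqrt_nonneg _
    have h4 : 0 ≤ g (n + 2) := Real.sqrt_nonneg _
    have h5 : g n * g (n + 2) ≤ ((g n + g (n + 2)) / 2) ^ 2 := by
      linarith [sq_nonneg (g n - g (n + 2))]
    exact (abs_le_of_sq_le_sq' (h2.trans h5) (by linarith)).2
  have hbd : ∀ n, g n ≤ Real.sqrt (‖Q‖ * ‖a‖ * ‖a‖) := fun n => by
    have hn : ‖x n‖ = ‖a‖ := by
      induction n with
      | zero => rfl
      | succ k ih => rw [hx1, U.norm_map, ih]
    refine Real.sqrt_le_sqrt ?_
    refine (Real.le_norm_self _).trans ((Q.le_opNorm₂ _ _).trans_eq ?_)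
    rw [hn]
  by_contra hcon
  have hd : g 0 < g 1 := Real.sqrt_lt_sqrt (hp _) (not_le.1 hcon)
  have hinc : ∀ n, g 1 - g 0 ≤ g (n + 1) - g n := fun n => by
    induction n with
    | zero => exact le_rfl
    | succ k ih => linarith [hconv k]
  have hlin : ∀ n : ℕ, g 0 + n * (g 1 - g 0) ≤ g n := fun n => by
    induction n with
    | zero => simp
    | succ k ih => push_cast; linarith [hinc k]
  obtain ⟨n, hn⟩ := exists_nat_gt ((Real.sqrt (‖Q‖ * ‖a‖ * ‖a‖) - g 0) / (g 1 - g 0))
  rw [div_lt_iff₀ (by linarith)] at hn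
  linarith [hlin n, hbd n]

/-- An isometry which is symmetric and nonnegative for the form is trivial for it. -/
theorem form_involution (Q : V →L[ℝ] V →L[ℝ] ℝ) (hs : ∀ a b, Q a b = Q b a)
    (hp : ∀ a, 0 ≤ Q a a) (U : V ≃ₗᵢ[ℝ] V) (hU : ∀ a c, Q (U a) c = Q a (U c))
    (hpos : ∀ a, 0 ≤ Q (U a) a) : ∀ a c, Q (U a) c = Q a c := by
  have hUs : ∀ a c, Q (U.symm a) c = Q a (U.symm c) := fun a c => by
    have := hU (U.symm a) (U.symm c)
    simpa using this.symm
  have iso : ∀ a, Q (U a) (U a) = Q a a := fun a => by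
    refine le_antisymm (form_apply_iterate_le Q hs hp U hU a) ?_
    have := form_apply_iterate_le Q hs hp U.symm hUs (U a)
    simpa using this
  intro a c
  have null : ∀ w, Q w w = 0 → ∀ b, Q w b = 0 := fun w hw b => by
    have := form_sq_le Q hs hp w b
    rw [hw, zero_mul] at this
    exact pow_eq_zero_iff two_ne_zero |>.1 (le_antisymm this (sq_nonneg _))
  have sq : ∀ b, Q (U (U a)) b = Q a b := fun b => by
    have hw : Q (U (U a) - a) (U (U a) - a) = 0 := by
      have h1 : Q (U (U a)) a = Q a a := by rw [hU, iso]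
      simp only [map_sub, sub_apply]
      rw [iso (U a), iso a, hs a (U (U a)), h1]
      ring
    have := null _ hw b
    simpa [sub_eq_zero] using this
  set w := U a - a with hw
  have hww : Q w w = 0 := by
    refine le_antisymm ?_ (hp w)
    have h1 : Q (U w) w = -Q w w := by
      simp only [hw, map_sub, sub_apply, sq]
      ring
    linarith [hpos w]
  have := null w hww c
  rw [hw] at this
  simpa [sub_eq_zero] using this

end Vale.Agent.P084.Full
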