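import Vale.Agent.P084.Full.Defs
import Vale.Agent.P084.Bad.Main
import Vale.Agent.P084.Bad.Facet
import Vale.Agent.P084.Inf.Quad

/-!
P084 (Tingley's problem), library for the general case: smooth points, the first derivatives of
the norm and of the homogeneous extension near them, and their transfer to the target.
-/

namespace Vale.Agent.P084.Full

open Filter Topology Metric Orbit
open Orbit.PIso (C0 C0_pos supp_of_hasFDerivAt symm_G)

variable {X Y : Type*} [NormedAddCommGroup X] [NormedSpace ℝ X] [NormedAddCommGroup Y]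
  [NormedSpace ℝ Y]

/-- The derivative of the norm. -/
noncomputable abbrev dNorm (z : X) : X →L[ℝ] ℝ := fderiv ℝ (fun w : X => ‖w‖) z

/-- The derivative of the extension. -/
noncomputable abbrev dG (f : PIso X Y) (z : X) : X →L[ℝ] Y := fderiv ℝ f.G z

lemma Smooth.ne {z : X} (h : Smooth z) : z ≠ 0 := h.1

lemma Smooth.norm_pos {z : X} (h : Smooth z) : 0 < ‖z‖ := _root_.norm_pos_iff.2 h.1

/-- Smooth points form an open set. -/
lemma Smooth.eventually {z : X} (h : Smooth z) : ∀ᶠ w in 𝓝 z, Smooth w := by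
  obtain ⟨hz, r, C, hr, hb⟩ := h
  filter_upwards [eventually_ne_nhds hz, Metric.ball_mem_nhds z (half_pos hr)] with w hw hwz
  rw [mem_ball, dist_eq_norm] at hwz
  refine ⟨hw, r / 2, C, half_pos hr, fun w' hw' a ha => hb w' ?_ a (by linarith)⟩
  linarith [norm_sub_le_norm_sub_add_norm_sub w' w z]

lemma isOpen_smooth : IsOpen {z : X | Smooth z} :=
  isOpen_iff_eventually.2 fun _ hz => hz.eventually

lemma sd_neg_left (z a : X) : sd (-z) a = sd z a := by
  have h1 : ‖-z + a‖ = ‖z - a‖ := by rw [← norm_neg, neg_add, neg_neg, ← sub_eq_add_neg]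
  have h2 : ‖-z - a‖ = ‖z + a‖ := by rw [← norm_neg, neg_sub, sub_neg_eq_add, add_comm]
  simp only [sd, norm_neg]
  rw [h1, h2]
  ring

lemma sd_smul {t : ℝ} (ht : 0 < t) (z a : X) : sd (t • z) a = t * sd z (t⁻¹ • a) := by
  have e : ∀ b : X, ‖t • z + b‖ = t * ‖z + t⁻¹ • b‖ := fun b => by
    rw [← Real.norm_of_nonneg ht.le, ← norm_smul, smul_add, smul_smul, Real.norm_of_nonneg ht.le,
      mul_inv_cancel₀ ht.ne', one_smul]
  have e' : ‖t • z - a‖ = t * ‖z - t⁻¹ • a‖ := by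
    rw [sub_eq_add_neg, e, smul_neg, ← sub_eq_add_neg]
  simp only [sd, norm_smul, Real.norm_of_nonneg ht.le]
  rw [e, e']
  ring

lemma Smooth.neg {z : X} (h : Smooth z) : Smooth (-z) := by
  obtain ⟨hz, r, C, hr, hb⟩ := h
  refine ⟨neg_ne_zero.2 hz, r, C, hr, fun w hw a ha => ?_⟩
  rw [← neg_neg w, sd_neg_left]
  exact hb (-w) (by rwa [← neg_add', norm_neg, ← sub_neg_eq_add]) a ha

lemma Smooth.smul {z : X} (h : Smooth z) {t : ℝ} (ht : 0 < t) : Smooth (t • z) := by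
  obtain ⟨hz, r, C, hr, hb⟩ := h
  refine ⟨smul_ne_zero ht.ne' hz, t * r, C / t, mul_pos ht hr, fun w hw a ha => ?_⟩
  have hsc : ∀ b : X, ‖b‖ < t * r → ‖t⁻¹ • b‖ < r := fun b hb => by
    rwa [norm_smul, norm_inv, Real.norm_of_nonneg ht.le, inv_mul_lt_iff₀ ht]
  have h1 := hb (t⁻¹ • w) (by
    rw [show t⁻¹ • w - z = t⁻¹ • (w - t • z) by rw [smul_sub, inv_smul_smul₀ ht.ne']]
    exact hsc _ hw) (t⁻¹ • a) (hsc _ ha)
  rw [← smul_inv_smul₀ ht.ne' w, sd_smul ht]
  refine (mul_le_mul_of_nonneg_left h1 ht.le).trans_eq ?_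
  rw [norm_smul, norm_inv, Real.norm_of_nonneg ht.le]
  field_simp

lemma smooth_smul_iff {z : X} {t : ℝ} (ht : 0 < t) : Smooth (t • z) ↔ Smooth z := by
  refine ⟨fun h => ?_, fun h => h.smul ht⟩
  simpa [inv_smul_smul₀ ht.ne'] using h.smul (inv_pos.2 ht)

/-- The norm is differentiable at a smooth point. -/
lemma Smooth.hasFDerivAt_norm {z : X} (h : Smooth z) :
    HasFDerivAt (fun w : X => ‖w‖) (dNorm z) z := by
  obtain ⟨-, r, C, hr, hb⟩ := h
  obtain ⟨φ, hφ⟩ := exists_supp z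
  suffices hd : HasFDerivAt (fun w : X => ‖w‖) φ z by
    exact hd.differentiableAt.hasFDerivAt
  refine hasFDerivAt_iff_isLittleO_nhds_zero.2
    ((Asymptotics.IsBigO.of_bound C ?_).trans_isLittleO
      (Asymptotics.isLittleO_norm_pow_id (E' := X) one_lt_two))
  filter_upwards [Metric.ball_mem_nhds (0 : X) hr] with a ha
  rw [mem_ball_zero_iff] at ha
  have h1 := hφ.le (z + a)
  have h2 := norm_add_le_sd hφ a
  rw [map_add, hφ.2] at h1
  rw [Real.norm_of_nonneg (by linarith), norm_pow, norm_norm]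
  linarith [hb z (by simpa using hr) a ha]

lemma Smooth.supp {z : X} (h : Smooth z) : Supp z (dNorm z) :=
  supp_of_hasFDerivAt h.1 h.hasFDerivAt_norm

lemma Smooth.dNorm_self {z : X} (h : Smooth z) : dNorm z z = ‖z‖ := h.supp.2

lemma Smooth.dirN_eq {z : X} (h : Smooth z) (a : X) : dirN z a = dNorm z a := by
  refine tendsto_nhds_unique (tendsto_nq z a) ?_
  have hl : HasDerivAt (fun t : ℝ => ‖z + t • a‖) (dNorm z a) 0 := by
    have h0 : HasDerivAt (fun t : ℝ => z + t • a) a 0 := by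
      simpa using ((hasDerivAt_id (0 : ℝ)).smul_const a).const_add z
    exact h.hasFDerivAt_norm.comp_hasDerivAt_of_eq 0 h0 (by simp)
  have ht : Tendsto (fun n : ℕ => ((2 : ℝ) ^ n)⁻¹) atTop (𝓝[≠] 0) :=
    tendsto_nhdsWithin_iff.2 ⟨tendsto_inv_atTop_zero.comp
      (tendsto_pow_atTop_atTop_of_one_lt one_lt_two), Eventually.of_forall fun n => by simp⟩
  refine (hl.tendsto_slope_zero.comp ht).congr fun n => ?_
  simp [nq]

/-- Uniform first order facts about the norm near a smooth point. -/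
lemma Smooth.norm_uniform {z : X} (h : Smooth z) :
    ∃ r C : ℝ, 0 < r ∧ 0 ≤ C ∧ ∀ w, ‖w - z‖ < r → Smooth w ∧
      (∀ a, ‖a‖ < r → sd w a ≤ C * ‖a‖ ^ 2 ∧
        |‖w + a‖ - ‖w‖ - dNorm w a| ≤ C * ‖a‖ ^ 2) ∧
      ∀ w', ‖w' - z‖ < r → ‖dNorm w' - dNorm w‖ ≤ C * ‖w' - w‖ := by
  obtain ⟨hz, r, C, hr, hb⟩ := id h
  obtain ⟨r₁, hr₁, hS⟩ := Metric.eventually_nhds_iff.1 h.eventually
  set ρ := min r r₁ with hρ
  have hρ0 : 0 < ρ := lt_min hr hr₁
  have hsm : ∀ w, ‖w - z‖ < ρ → Smooth w := fun w hw =>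
    hS (by rw [dist_eq_norm]; exact hw.trans_le (min_le_right _ _))
  have hsd : ∀ w, ‖w - z‖ < ρ → ∀ a, ‖a‖ < ρ → sd w a ≤ max C 0 * ‖a‖ ^ 2 := fun w hw a ha =>
    (hb w (hw.trans_le (min_le_left _ _)) a (ha.trans_le (min_le_left _ _))).trans
      (mul_le_mul_of_nonneg_right (le_max_left _ _) (sq_nonneg _))
  have hq : ∀ w, ‖w - z‖ < ρ → DifferentiableAt ℝ (fun x : X => ‖x‖) w ∧
      ∀ η, ‖η‖ < ρ → ‖w + η‖ - ‖w‖ - Vale.Agent.P084.dN w η ≤ max C 0 * ‖η‖ ^ 2 := fun w hw =>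
    ⟨(hsm w hw).hasFDerivAt_norm.differentiableAt, fun η hη => by
      have h1 := norm_add_le_sd (hsm w hw).supp η
      have h2 := hsd w hw η hη
      show ‖w + η‖ - ‖w‖ - dNorm w η ≤ _
      linarith⟩
  refine ⟨ρ / 4, 4 * max C 0, by linarith, by positivity, fun w hw => ?_⟩
  have hw' : ‖w - z‖ < ρ := by linarith
  have hpos : ∀ a : X, 0 ≤ max C 0 * ‖a‖ ^ 2 := fun a =>
    mul_nonneg (le_max_right _ _) (sq_nonneg _)
  refine ⟨hsm w hw', fun a ha => ⟨?_, ?_⟩,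
    fun w' hw'' => norm_dN_sub_le (le_max_right _ _) hq hw hw''⟩
  · linarith [hsd w hw' a (by linarith), hpos a]
  · have h1 := norm_lower_bound (hq w hw').1 a
    have h2 := (hq w hw').2 a (by linarith)
    rw [abs_of_nonneg h1]
    linarith [hpos a]

lemma dNorm_smul {z : X} (h : Smooth z) {t : ℝ} (ht : 0 < t) : dNorm (t • z) = dNorm z := by
  refine (supp_eq h.hasFDerivAt_norm ⟨(h.smul ht).supp.le, ?_⟩)
  have := (h.smul ht).dNorm_self
  rw [map_smul, smul_eq_mul, norm_smul, Real.norm_of_nonneg ht.le] at this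
  exact mul_left_cancel₀ ht.ne' this

lemma dNorm_neg {z : X} (h : Smooth z) : dNorm (-z) = -dNorm z := by
  refine (supp_eq h.neg.hasFDerivAt_norm ⟨fun v => ?_, by
    rw [neg_apply, map_neg, neg_neg, h.dNorm_self, norm_neg]⟩).symm
  rw [neg_apply]
  linarith [h.supp.ge v]

variable (f : PIso X Y) [CompleteSpace X] [CompleteSpace Y]

/-- The derivative of the extension at a smooth point. -/
lemma exists_dG {z : X} (h : Smooth z) :
    ∃ e : X ≃L[ℝ] Y, HasFDerivAt f.G (e : X →L[ℝ] Y) z ∧ dG f z = (e : X →L[ℝ] Y) ∧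
      (∀ a, ‖e a‖ ≤ 3 * ‖a‖) ∧ (∀ b, ‖e.symm b‖ ≤ 3 * ‖b‖) ∧ e z = f.G z ∧
      HasFDerivAt (fun w : Y => ‖w‖) ((dNorm z).comp (e.symm : Y →L[ℝ] X)) (f.G z) ∧
      HasFDerivAt f.Gi (e.symm : Y →L[ℝ] X) (f.G z) ∧
      (∀ a, f.Ld (‖z‖⁻¹ • z) a = e a) ∧
      ∀ a, ‖a‖ ≤ ‖z‖ / 65536 → ‖f.G (z + a) - f.G z - e a‖ ≤
        C0 * (‖z + a‖ - ‖z‖ - dNorm z a + 4 * ‖a‖ ^ 2 / ‖z‖) := by
  set n := ‖z‖ with hn
  have hn0 : 0 < n := h.norm_pos
  set x := n⁻¹ • z with hxdef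
  have hx : ‖x‖ = 1 := norm_smul_inv_norm h.1
  have hxs : Smooth x := h.smul (inv_pos.2 hn0)
  have hzx : z = n • x := by rw [hxdef, smul_inv_smul₀ hn0.ne']
  have hπ : dNorm x = dNorm z := dNorm_smul h (inv_pos.2 hn0)
  obtain ⟨e, he, hex, hd', hest⟩ := f.exists_deriv_equiv hx hxs.hasFDerivAt_norm
  have hGz : f.G z = n • f.G x := by rw [← f.G_smul _ hn0.le, ← hzx]
  have hGd : HasFDerivAt f.G (e : X →L[ℝ] Y) z := by
    have h1 : HasFDerivAt (fun w : X => n • f.G (n⁻¹ • w)) (n • (e : X →L[ℝ] Y).comp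
        (n⁻¹ • ContinuousLinearMap.id ℝ X)) z :=
      (he.comp z ((hasFDerivAt_id z).const_smul n⁻¹)).const_smul n
    simp only [f.G_smul _ (inv_nonneg.2 hn0.le), smul_smul, mul_inv_cancel₀ hn0.ne', one_smul]
      at h1
    refine h1.congr_fderiv ?_
    ext a
    simp [smul_smul, hn0.ne']
  have hLd : ∀ a, f.Ld x a = e a := fun a => by
    refine tendsto_nhds_unique (f.tendsto_Ld hx a) ?_
    have hl : HasDerivAt (fun t : ℝ => f.G (x + t • a)) (e a) 0 := by
      have h0 : HasDerivAt (fun t : ℝ => x + t • a) a 0 := by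
        simpa using ((hasDerivAt_id (0 : ℝ)).smul_const a).const_add x
      exact he.comp_hasDerivAt_of_eq 0 h0 (by simp)
    have ht : Tendsto (fun n : ℕ => ((2 : ℝ) ^ n)⁻¹) atTop (𝓝[≠] 0) :=
      tendsto_nhdsWithin_iff.2 ⟨tendsto_inv_atTop_zero.comp
        (tendsto_pow_atTop_atTop_of_one_lt one_lt_two), Eventually.of_forall fun n => by simp⟩
    refine (hl.tendsto_slope_zero.comp ht).congr fun n => ?_
    simp [PIso.dq]
  have hb3 : ∀ a, ‖e a‖ ≤ 3 * ‖a‖ := fun a => by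
    have := f.norm_Ld_sub_le hx a 0
    rwa [f.Ld_zero hx, sub_zero, sub_zero, hLd] at this
  have hb3' : ∀ b, ‖e.symm b‖ ≤ 3 * ‖b‖ := fun b => by
    have hy : ‖f.G x‖ = 1 := by rw [f.norm_G, hx]
    have h1 := f.symm.norm_Ld_sub_le hy b 0
    rw [f.symm.Ld_zero hy, sub_zero, sub_zero] at h1
    rwa [← e.apply_symm_apply b, ← hLd, f.symm_Ld_Ld hx, hLd, e.apply_symm_apply] at h1
  refine ⟨e, hGd, hGd.fderiv, hb3, hb3', by rw [hzx, map_smul, hex, ← hzx, hGz], ?_, ?_, hLd, ?_⟩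
  · have h1 : HasFDerivAt (fun w : Y => n * ‖n⁻¹ • w‖)
        (n • ((dNorm x).comp (e.symm : Y →L[ℝ] X)).comp
          (n⁻¹ • ContinuousLinearMap.id ℝ Y)) (f.G z) := by
      have h0 : HasFDerivAt (fun w : Y => ‖w‖) ((dNorm x).comp (e.symm : Y →L[ℝ] X))
          (n⁻¹ • f.G z) := by rwa [hGz, inv_smul_smul₀ hn0.ne']
      exact (h0.comp (f.G z) ((hasFDerivAt_id (f.G z)).const_smul n⁻¹)).const_mul n
    refine (h1.congr_fderiv ?_).congr_of_eventuallyEq (Eventually.of_forall fun w => ?_)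
    · ext a
      simp [hπ, hn0.ne']
    · simp [norm_smul, abs_of_pos hn0, hn0.ne']
  · refine HasFDerivAt.of_local_left_inverse f.continuous_Gi.continuousAt ?_
      (Eventually.of_forall f.G_Gi)
    rwa [f.Gi_G]
  · intro a ha
    have hsm : ‖n⁻¹ • a‖ ≤ 1 / 65536 := by
      rw [norm_smul, norm_inv, Real.norm_of_nonneg hn0.le, inv_mul_le_iff₀ hn0]
      linarith
    have h1 := mul_le_mul_of_nonneg_left (hest _ hsm) hn0.le
    rw [← Real.norm_of_nonneg hn0.le, ← norm_smul, Real.norm_of_nonneg hn0.le, smul_sub,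
      smul_sub, ← f.G_smul _ hn0.le, smul_add, ← f.G_smul _ hn0.le, ← map_smul, ← hzx,
      smul_inv_smul₀ hn0.ne'] at h1
    refine h1.trans_eq ?_
    have e1 : n * ‖x + n⁻¹ • a‖ = ‖z + a‖ := by
      rw [← Real.norm_of_nonneg hn0.le, ← norm_smul, Real.norm_of_nonneg hn0.le, smul_add, ← hzx,
        smul_inv_smul₀ hn0.ne']
    simp only [PIso.defect, hx, hπ, map_smul, smul_eq_mul, norm_smul, norm_inv,
      Real.norm_of_nonneg hn0.le]
    rw [← e1]
    field_simp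

lemma hasFDerivAt_G {z : X} (h : Smooth z) : HasFDerivAt f.G (dG f z) z := by
  obtain ⟨e, he, hLe, -⟩ := exists_dG f h
  rwa [hLe]

lemma dG_self {z : X} (h : Smooth z) : dG f z z = f.G z := by
  obtain ⟨e, -, hLe, -, -, hz, -⟩ := exists_dG f h
  rw [hLe]; exact hz

/-- The derivative preserves the derivative of the norm. -/
lemma dNorm_dG {z : X} (h : Smooth z) (a : X) : dNorm (f.G z) (dG f z a) = dNorm z a := by
  obtain ⟨e, -, hLe, -, -, -, hd, -⟩ := exists_dG f h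
  rw [show dNorm (f.G z) = (dNorm z).comp (e.symm : Y →L[ℝ] X) from hd.fderiv, hLe]
  simp

/-- The derivative is isometric on the tangent hyperplane. -/
lemma norm_dG {z : X} (h : Smooth z) {a : X} (ha : dNorm z a = 0) : ‖dG f z a‖ = ‖a‖ := by
  obtain ⟨e, -, hLe, -, -, -, -, -, hLd, -⟩ := exists_dG f h
  have hx : ‖‖z‖⁻¹ • z‖ = 1 := norm_smul_inv_norm h.1
  have hs := h.smul (inv_pos.2 h.norm_pos)
  have h1 := f.norm_Ld_sub hx (h := a) (k := 0) (by
    rw [dirN_zero, hs.dirN_eq, dNorm_smul h (inv_pos.2 h.norm_pos), ha])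
  rw [f.Ld_zero hx, sub_zero, sub_zero, hLd] at h1
  rw [hLe]; exact h1

/-- Uniform first order facts about the extension near a smooth point. -/
lemma dG_uniform {z : X} (h : Smooth z) :
    ∃ r C : ℝ, 0 < r ∧ 0 ≤ C ∧ ∀ w, ‖w - z‖ < r → Smooth w ∧
      (∀ a, ‖a‖ < r → ‖f.G (w + a) - f.G w - dG f w a‖ ≤ C * ‖a‖ ^ 2) ∧
      ∀ w', ‖w' - z‖ < r → ‖dG f w' - dG f w‖ ≤ C * ‖w' - w‖ := by
  obtain ⟨r, C, hr, hC, hu⟩ := h.norm_uniform
  set n := ‖z‖ with hn
  have hn0 : 0 < n := h.norm_pos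
  set ρ := min r (n / 262144) with hρ
  have hρ0 : 0 < ρ := lt_min hr (by positivity)
  set K := C0 * (C + 8 / n) with hK
  have hK0 : 0 ≤ K := mul_nonneg C0_pos.le (by positivity)
  have hest : ∀ w, ‖w - z‖ < ρ → ∀ a, ‖a‖ < ρ →
      ‖f.G (w + a) - f.G w - dG f w a‖ ≤ K * ‖a‖ ^ 2 := fun w hw a ha => by
    obtain ⟨hsw, hq, -⟩ := hu w (hw.trans_le (min_le_left _ _))
    obtain ⟨e, -, hLe, -, -, -, -, -, -, he⟩ := exists_dG f hsw
    have hwn : n / 2 ≤ ‖w‖ := by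
      have := norm_sub_norm_le z w
      rw [norm_sub_rev] at this
      linarith [min_le_right r (n / 262144)]
    have h1 := he a (by linarith [min_le_right r (n / 262144)])
    rw [hLe]
    refine h1.trans ?_
    rw [hK, mul_assoc]
    refine mul_le_mul_of_nonneg_left ?_ C0_pos.le
    rw [add_mul]
    refine add_le_add ((le_abs_self _).trans (hq a (ha.trans_le (min_le_left _ _))).2) ?_
    rw [div_mul_eq_mul_div, div_le_div_iff₀ hsw.norm_pos hn0]
    have := mul_le_mul_of_nonneg_left hwn (sq_nonneg ‖a‖)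
    linarith
  refine ⟨ρ / 4, 6 * K, by linarith, by positivity, fun w hw => ⟨(hu w (by
    linarith [min_le_left r (n / 262144)])).1, fun a ha => ?_, fun w' hw' => ?_⟩⟩
  · have h1 := hest w (by linarith) a (by linarith)
    have : 0 ≤ K * ‖a‖ ^ 2 := by positivity
    linarith
  set d := w' - w with hd
  have hdr : ‖d‖ < ρ / 2 := by
    have := norm_sub_le_norm_sub_add_norm_sub w' z w
    rw [norm_sub_rev z w] at this
    linarith
  have key : ∀ η : X, ‖η‖ = ‖d‖ → ‖dG f w' η - dG f w η‖ ≤ 6 * K * ‖d‖ * ‖η‖ := by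
    intro η hη
    have hs : ‖d + η‖ ≤ 2 * ‖d‖ := (norm_add_le _ _).trans (by linarith)
    have h1 := hest w (by linarith) (d + η) (by linarith)
    have h2 := hest w' (by linarith) η (by linarith)
    have h3 := hest w (by linarith) d (by linarith)
    rw [show w + (d + η) = w' + η by rw [hd]; abel] at h1
    rw [show w + d = w' by rw [hd]; abel] at h3
    rw [show dG f w' η - dG f w η = (f.G (w' + η) - f.G w - dG f w (d + η)) -
      (f.G (w' + η) - f.G w' - dG f w' η) - (f.G w' - f.G w - dG f w d) by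
        rw [map_add]; abel]
    refine (norm_sub_le _ _).trans ((add_le_add (norm_sub_le _ _) le_rfl).trans ?_)
    have h4 : K * ‖d + η‖ ^ 2 ≤ K * (2 * ‖d‖) ^ 2 :=
      mul_le_mul_of_nonneg_left (pow_le_pow_left₀ (norm_nonneg _) hs 2) hK0
    rw [hη] at h2 ⊢
    linarith
  refine ContinuousLinearMap.opNorm_le_bound _ (by positivity) fun η => ?_
  rw [sub_apply]
  rcases eq_or_ne η 0 with rfl | hη
  · simp
  rcases eq_or_ne d 0 with h0 | h0
  · rw [hd, sub_eq_zero] at h0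
    rw [h0, sub_self, norm_zero]
    positivity
  set c := ‖d‖ / ‖η‖ with hc
  have hcp : 0 < c := div_pos (norm_pos_iff.2 h0) (norm_pos_iff.2 hη)
  have hcn : ‖c • η‖ = ‖d‖ := by
    rw [norm_smul, Real.norm_of_nonneg hcp.le, hc, div_mul_cancel₀ _ (norm_ne_zero_iff.2 hη)]
  have k := key (c • η) hcn
  rw [map_smul, map_smul, ← smul_sub, norm_smul, norm_smul, Real.norm_of_nonneg hcp.le] at k
  refine le_of_mul_le_mul_left ?_ hcp
  linarith

/-- Smoothness passes to the target. -/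
theorem smooth_G {z : X} (h : Smooth z) : Smooth (f.G z) := by
  obtain ⟨r, C, hr, hC, hu⟩ := h.norm_uniform
  obtain ⟨r', C', hr', hC', hu'⟩ := dG_uniform f h
  refine ⟨fun e => h.1 (f.G_injective (e.trans f.G_zero.symm)),
    min r r' / 4, 9 * C + 54 * C', by have := lt_min hr hr'; linarith, fun w hw b hb => ?_⟩
  set u := f.Gi w with hu₀
  have huz : ‖u - z‖ ≤ 3 * ‖w - f.G z‖ := by
    have := f.symm.norm_G_sub_le w (f.G z)
    rwa [symm_G, f.Gi_G] at this
  have hm1 := min_le_left r r'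
  have hm2 := min_le_right r r'
  obtain ⟨hus, hq, -⟩ := hu u (by linarith [norm_nonneg (w - f.G z)])
  obtain ⟨-, hest, -⟩ := hu' u (by linarith [norm_nonneg (w - f.G z)])
  obtain ⟨e, -, hLe, -, he3, -⟩ := exists_dG f hus
  have inv : ∀ c : Y, ‖c‖ = ‖b‖ → ‖w + c‖ ≤ ‖u + e.symm c‖ + 27 * C' * ‖b‖ ^ 2 := by
    intro c hc
    set η := f.Gi (w + c) - u with hη
    have hηn : ‖η‖ ≤ 3 * ‖b‖ := by
      have := f.symm.norm_G_sub_le (w + c) w
      rwa [symm_G, add_sub_cancel_left, hc] at this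
    have h1 := hest η (by linarith)
    rw [hη, add_sub_cancel, f.G_Gi, hu₀, f.G_Gi, add_sub_cancel_left, ← hu₀, ← hη, hLe] at h1
    have h2 : ‖η - e.symm c‖ ≤ 3 * (C' * (3 * ‖b‖) ^ 2) := by
      rw [show η - e.symm c = -(e.symm (c - e η)) by rw [map_sub, e.symm_apply_apply, neg_sub],
        norm_neg]
      refine (he3 _).trans (mul_le_mul_of_nonneg_left (h1.trans ?_) (by norm_num))
      exact mul_le_mul_of_nonneg_left (pow_le_pow_left₀ (norm_nonneg _) hηn 2) hC'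
    have h3 := norm_add_le (u + e.symm c) (η - e.symm c)
    rw [show u + e.symm c + (η - e.symm c) = f.Gi (w + c) by rw [hη]; abel, f.norm_Gi] at h3
    linarith
  have h1 := inv b rfl
  have h2 := inv (-b) (norm_neg b)
  rw [map_neg, ← sub_eq_add_neg, ← sub_eq_add_neg] at h2
  have h3 := he3 b
  have h4 := (hq (e.symm b) (by linarith [norm_nonneg b])).1
  have h5 : C * ‖e.symm b‖ ^ 2 ≤ C * (3 * ‖b‖) ^ 2 :=
    mul_le_mul_of_nonneg_left (pow_le_pow_left₀ (norm_nonneg _) h3 2) hC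
  have e0 : ‖w‖ = ‖u‖ := by rw [hu₀, f.norm_Gi]
  simp only [sd] at h4 ⊢
  rw [e0]
  linarith

theorem smooth_G_iff {z : X} : Smooth (f.G z) ↔ Smooth z := by
  refine ⟨fun h => ?_, smooth_G f⟩
  have := smooth_G f.symm h
  rwa [symm_G, f.Gi_G] at this

/-- The derivative of the inverse is the inverse derivative. -/
lemma dG_symm {z : X} (h : Smooth z) :
    (∀ a, dG f.symm (f.G z) (dG f z a) = a) ∧ ∀ b, dG f z (dG f.symm (f.G z) b) = b := by
  obtain ⟨e, -, hLe, -, -, -, -, hGi, -⟩ := exists_dG f h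
  rw [show dG f.symm (f.G z) = (e.symm : Y →L[ℝ] X) from hGi.fderiv, hLe]
  exact ⟨fun a => e.symm_apply_apply a, fun b => e.apply_symm_apply b⟩

/-- The supporting functionals at the images of antipodes are opposite. -/
lemma dNorm_G_neg {z : X} (h : Smooth z) : dNorm (f.G (-z)) = -dNorm (f.G z) := by
  have hn0 := h.norm_pos
  have hx : ‖‖z‖⁻¹ • z‖ = 1 := norm_smul_inv_norm h.1
  set x := ‖z‖⁻¹ • z with hxdef
  have hs : Smooth x := h.smul (inv_pos.2 hn0)
  have hx' : ‖-x‖ = 1 := by rw [norm_neg, hx]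
  have e1 : f.G z = ‖z‖ • f.G x := by rw [← f.G_smul _ hn0.le, hxdef, smul_inv_smul₀ hn0.ne']
  have e2 : f.G (-z) = ‖z‖ • f.G (-x) := by
    rw [← f.G_smul _ hn0.le, hxdef, smul_neg, smul_inv_smul₀ hn0.ne']
  rw [e1, e2, dNorm_smul (smooth_G f hs) hn0, dNorm_smul (smooth_G f hs.neg) hn0]
  obtain ⟨φ, hφ⟩ := exists_supp (f.G x - f.G (-x))
  have h2 : φ (f.G x) - φ (f.G (-x)) = 2 := by
    rw [← map_sub, hφ.2, f.dist_unit hx hx', sub_neg_eq_add, ← two_smul ℝ x, norm_smul, hx]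
    norm_num
  have h3 := hφ.le (f.G x)
  have h4 := hφ.ge (f.G (-x))
  rw [f.norm_G, hx] at h3
  rw [f.norm_G, hx'] at h4
  have a1 : φ = dNorm (f.G x) :=
    supp_eq (smooth_G f hs).hasFDerivAt_norm ⟨hφ.le, by rw [f.norm_G, hx]; linarith⟩
  have a2 : -φ = dNorm (f.G (-x)) :=
    supp_eq (smooth_G f hs.neg).hasFDerivAt_norm ⟨fun v => by
      rw [neg_apply]; linarith [hφ.ge v], by rw [neg_apply, f.norm_G, hx']; linarith⟩
  rw [← a2, ← a1]

/-- The difference of the images of antipodes has full norm. -/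
lemma norm_G_sub_neg {z : X} (h : Smooth z) :
    ‖f.G z - f.G (-z)‖ = 2 * ‖z‖ ∧
      dNorm (f.G z - f.G (-z)) = dNorm (f.G z) := by
  have hy := (smooth_G f h).supp
  have hy' := (smooth_G f h.neg).supp
  have hv : dNorm (f.G z) (f.G z - f.G (-z)) = 2 * ‖z‖ := by
    have := hy'.2
    rw [dNorm_G_neg f h, neg_apply, f.norm_G, norm_neg] at this
    rw [map_sub, hy.2, f.norm_G]
    linarith
  have hn : ‖f.G z - f.G (-z)‖ = 2 * ‖z‖ := by
    refine le_antisymm ((norm_sub_le _ _).trans_eq ?_) (hv.symm.le.trans (hy.le _))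
    rw [f.norm_G, f.norm_G, norm_neg]; ring
  refine ⟨hn, ?_⟩
  refine (supp_eq ?_ (show Supp (f.G z - f.G (-z)) (dNorm (f.G z)) from
    ⟨hy.le, hv.trans hn.symm⟩)).symm
  obtain ⟨φ, hφ⟩ := exists_supp (f.G z - f.G (-z))
  obtain ⟨r, C, hr, -, hu⟩ := (smooth_G f h).norm_uniform
  obtain ⟨r', C', hr', -, hu'⟩ := (smooth_G f h.neg).norm_uniform
  suffices hd : HasFDerivAt (fun w : Y => ‖w‖) φ (f.G z - f.G (-z)) from
    hd.differentiableAt.hasFDerivAt
  refine hasFDerivAt_iff_isLittleO_nhds_zero.2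
    ((Asymptotics.IsBigO.of_bound ((C + C') / 4) ?_).trans_isLittleO
      (Asymptotics.isLittleO_norm_pow_id (E' := Y) one_lt_two))
  filter_upwards [Metric.ball_mem_nhds (0 : Y) (lt_min hr hr')] with a ha
  rw [mem_ball_zero_iff, lt_min_iff] at ha
  set a' := (1 / 2 : ℝ) • a with ha'
  have ha'n : ‖a'‖ = ‖a‖ / 2 := by
    rw [ha', norm_smul, Real.norm_of_nonneg (by norm_num)]; ring
  have h1 := ((hu (f.G z) (by simpa using hr)).2.1 a' (by linarith [norm_nonneg a])).1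
  have h2 := ((hu' (f.G (-z)) (by simpa using hr')).2.1 a' (by linarith [norm_nonneg a])).1
  rw [ha'n] at h1 h2
  have h3 := norm_sub_le (f.G z + a') (f.G (-z) - a')
  have h4 := norm_sub_le (f.G z - a') (f.G (-z) + a')
  rw [show f.G z + a' - (f.G (-z) - a') = f.G z - f.G (-z) + a by rw [ha']; module] at h3
  rw [show f.G z - a' - (f.G (-z) + a') = f.G z - f.G (-z) - a by rw [ha']; module] at h4
  have h5 := hφ.le (f.G z - f.G (-z) + a)
  have h6 := hφ.le (f.G z - f.G (-z) - a)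
  rw [map_add, hφ.2] at h5
  rw [map_sub φ _ a, hφ.2] at h6
  simp only [sd, f.norm_G, norm_neg] at h1 h2
  rw [Real.norm_of_nonneg (by linarith), norm_pow, norm_norm]
  rw [hn] at h6 ⊢
  linarith

/-- The derivative of the norm is continuous at a smooth point, in the strict sense. -/
lemma Smooth.hasStrictFDerivAt_norm {z : X} (h : Smooth z) :
    HasStrictFDerivAt (fun w : X => ‖w‖) (dNorm z) z := by
  obtain ⟨r, C, hr, hC, hu⟩ := h.norm_uniform
  refine hasStrictFDerivAt_of_hasFDerivAt_of_continuousAt (f' := dNorm) ?_ ?_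
  · filter_upwards [Metric.ball_mem_nhds z hr] with w hw
    rw [mem_ball, dist_eq_norm] at hw
    exact (hu w hw).1.hasFDerivAt_norm
  · refine Metric.continuousAt_iff.2 fun ε hε =>
      ⟨min r (ε / (C + 1)), lt_min hr (by positivity), fun w hw => ?_⟩
    rw [dist_eq_norm, lt_min_iff] at hw
    rw [dist_eq_norm]
    refine ((hu z (by simpa using hr)).2.2 w hw.1).trans_lt ?_
    have := (lt_div_iff₀ (by linarith)).1 hw.2
    linarith [norm_nonneg (w - z)]

/-- The derivative of the extension is continuous at a smooth point, in the strict sense. -/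
lemma hasStrictFDerivAt_G {z : X} (h : Smooth z) : HasStrictFDerivAt f.G (dG f z) z := by
  obtain ⟨r, C, hr, hC, hu⟩ := dG_uniform f h
  refine hasStrictFDerivAt_of_hasFDerivAt_of_continuousAt (f' := dG f) ?_ ?_
  · filter_upwards [Metric.ball_mem_nhds z hr] with w hw
    rw [mem_ball, dist_eq_norm] at hw
    exact hasFDerivAt_G f (hu w hw).1
  · refine Metric.continuousAt_iff.2 fun ε hε =>
      ⟨min r (ε / (C + 1)), lt_min hr (by positivity), fun w hw => ?_⟩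
    rw [dist_eq_norm, lt_min_iff] at hw
    rw [dist_eq_norm]
    refine ((hu z (by simpa using hr)).2.2 w hw.1).trans_lt ?_
    have := (lt_div_iff₀ (by linarith)).1 hw.2
    linarith [norm_nonneg (w - z)]

/-- The target norm is uniformly smooth near differences of images of antipodal unit vectors. -/
lemma smooth_G_sub_neg_unit {x : X} (h : Smooth x) (hx : ‖x‖ = 1) :
    Smooth (f.G x - f.G (-x)) := by
  have hx' : ‖-x‖ = 1 := by rw [norm_neg, hx]
  obtain ⟨e, -, hLe, -, -, -, -, -⟩ := exists_dG f h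
  set π := dNorm x with hπdef
  set q := e.symm (f.G (-x)) with hq
  have hπq : π q = -1 := by
    have h1 : π q = dNorm (f.G x) (f.G (-x)) := by
      rw [hπdef, ← dNorm_dG f h q, hLe]; simp [hq]
    have h2 := (smooth_G f h.neg).dNorm_self
    rw [dNorm_G_neg f h, neg_apply, f.norm_G, hx'] at h2
    linarith
  let S : X →L[ℝ] X := ContinuousLinearMap.id ℝ X - π.smulRight q
  let S' : X →L[ℝ] X := ContinuousLinearMap.id ℝ X + ((1 / 2 : ℝ) • π).smulRight q
  let Se : X ≃L[ℝ] X := ContinuousLinearEquiv.equivOfInverse S S'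
    (fun a => by simp [S, S', hπq]; module) (fun a => by simp [S, S', hπq]; module)
  let T : X ≃L[ℝ] Y := Se.trans e
  set Φ : X → Y := fun u => f.G u - ‖u‖ • f.G (-x) with hΦ
  have hT : HasStrictFDerivAt Φ (T : X →L[ℝ] Y) x := by
    have h1 := (hasStrictFDerivAt_G f h).sub ((h.hasStrictFDerivAt_norm).smul_const (f.G (-x)))
    refine h1.congr_fderiv ?_
    ext a
    rw [hLe]
    simp [T, Se, S, π, hq]
  have hψ : ∀ u, ‖Φ u‖ = ‖u + ‖u‖ • x‖ := fun u => by
    rw [hΦ, f.key u (-x) hx', smul_neg, sub_neg_eq_add]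
  have hΦx : Φ x = f.G x - f.G (-x) := by simp [hΦ, hx]
  obtain ⟨M, hM0, hM⟩ : ∃ M : ℝ, 0 < M ∧ ∀ b, ‖T.symm b‖ ≤ M * ‖b‖ :=
    ⟨‖(T.symm : Y →L[ℝ] X)‖ + 1, by linarith [norm_nonneg (T.symm : Y →L[ℝ] X)], fun b =>
      ((T.symm : Y →L[ℝ] X).le_opNorm b).trans (by linarith [norm_nonneg b])⟩
  obtain ⟨r₁, hr₁, hlo'⟩ := Metric.eventually_nhds_iff.1
    ((hasStrictFDerivAt_iff_isLittleO.1 hT).def (show (0 : ℝ) < 1 / (2 * M) by positivity))
  have hlo : ∀ u v, ‖u - x‖ < r₁ → ‖v - x‖ < r₁ → ‖u - v‖ ≤ 2 * M * ‖Φ u - Φ v‖ := by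
    intro u v hu hv
    have h1 := hlo' (y := (u, v)) (by
      rw [Prod.dist_eq, dist_eq_norm, dist_eq_norm, max_lt_iff]; exact ⟨hu, hv⟩)
    dsimp only at h1
    have h2 := hM (T (u - v))
    rw [T.symm_apply_apply] at h2
    have h3 := norm_le_norm_add_norm_sub' (T (u - v)) (Φ u - Φ v)
    rw [norm_sub_rev (T (u - v))] at h3
    have h4 : M * ‖T (u - v)‖ ≤ M * (‖Φ u - Φ v‖ + 1 / (2 * M) * ‖u - v‖) :=
      mul_le_mul_of_nonneg_left (h3.trans (by
        simp only [ContinuousLinearEquiv.coe_coe] at h1; linarith)) hM0.le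
    have e1 : M * (1 / (2 * M) * ‖u - v‖) = ‖u - v‖ / 2 := by field_simp
    linarith
  obtain ⟨r₂, C, hr₂, hC, hu⟩ := h.norm_uniform
  obtain ⟨r₃, C', hr₃, hC', hu'⟩ := dG_uniform f h
  obtain ⟨-, r₄, C₄, hr₄, hb₄⟩ := id (h.smul two_pos)
  set ρ := min (min r₁ r₂) (min r₃ r₄) with hρdef
  have hρ : 0 < ρ := lt_min (lt_min hr₁ hr₂) (lt_min hr₃ hr₄)
  have hρ1 : ρ ≤ r₁ := (min_le_left _ _).trans (min_le_left _ _)
  have hρ2 : ρ ≤ r₂ := (min_le_left _ _).trans (min_le_right _ _)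
  have hρ3 : ρ ≤ r₃ := (min_le_right _ _).trans (min_le_left _ _)
  have hρ4 : ρ ≤ r₄ := (min_le_right _ _).trans (min_le_right _ _)
  set η₀ := ρ / 8 with hη₀
  have himg : Φ '' ball x η₀ ∈ 𝓝 (Φ x) := by
    rw [← hT.map_nhds_eq_of_equiv]
    exact image_mem_map (ball_mem_nhds _ (by linarith))
  obtain ⟨δ, hδ, hδb⟩ := Metric.mem_nhds_iff.1 himg
  set K := 2 * C' + C with hK
  set c := 2 * M with hc
  have hc0 : 0 < c := by positivity
  set C₅ := (max C₄ 0 * 4 + 2 * C + 2 * (c * K)) * c ^ 2 with hC5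
  refine ⟨sub_ne_zero.2 fun e' => ?_, δ / 2, C₅, by linarith, fun y hy a ha => ?_⟩
  · have := f.G_injective e'
    have := congrArg (fun v => ‖v‖) (show (2 : ℝ) • x = 0 by rw [two_smul]; nth_rw 2 [this]; abel)
    simp [norm_smul, hx] at this
  have hmem : ∀ b : Y, ‖b‖ ≤ ‖a‖ → ∃ u, ‖u - x‖ < η₀ ∧ Φ u = y + b := by
    intro b hb
    obtain ⟨u, hu1, hu2⟩ := hδb (show y + b ∈ ball (Φ x) δ by
      rw [mem_ball, dist_eq_norm, hΦx, show y + b - (f.G x - f.G (-x)) =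
        y - (f.G x - f.G (-x)) + b by abel]
      linarith [norm_add_le (y - (f.G x - f.G (-x))) b])
    exact ⟨u, by rwa [mem_ball, dist_eq_norm] at hu1, hu2⟩
  obtain ⟨u, hux, huy⟩ := hmem 0 (by simp)
  obtain ⟨v, hvx, hvy⟩ := hmem a le_rfl
  obtain ⟨v', hv'x, hv'y⟩ := hmem (-a) (norm_neg a).le
  rw [add_zero] at huy
  set η := v - u with hη
  have hηρ : ‖η‖ < ρ / 4 := by
    have := norm_sub_le_norm_sub_add_norm_sub v x u
    rw [norm_sub_rev x u] at this; linarith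
  have hηa : ‖η‖ ≤ c * ‖a‖ := by
    have := hlo v u (by linarith) (by linarith)
    rwa [hvy, huy, add_sub_cancel_left] at this
  set w := u - η with hw
  have hwx : ‖w - x‖ < r₁ := by
    rw [hw, sub_right_comm]; linarith [norm_sub_le (u - x) η]
  obtain ⟨hus, hq1, -⟩ := hu u (by linarith)
  obtain ⟨-, hq2, -⟩ := hu' u (by linarith)
  have a1 := (hq1 η (by linarith)).1
  have a2 := (hq1 η (by linarith)).2
  have a3 := (hq1 (-η) (by rw [norm_neg]; linarith)).2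
  have b2 := hq2 η (by linarith)
  have b3 := hq2 (-η) (by rw [norm_neg]; linarith)
  rw [norm_neg, ← sub_eq_add_neg, map_neg] at a3 b3
  rw [show u + η = v by rw [hη]; abel] at a2 b2
  rw [← hw] at a3 b3
  have hSD : ‖Φ v' - Φ w‖ ≤ K * ‖η‖ ^ 2 := by
    have e1 : Φ v' - Φ w = (‖v‖ + ‖w‖ - 2 * ‖u‖) • f.G (-x) -
        ((f.G v - f.G u - dG f u η) + (f.G w - f.G u - -dG f u η)) := by
      rw [hv'y, show y + -a = Φ u + Φ u - Φ v by rw [huy, hvy]; abel]
      simp only [hΦ]; module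
    rw [e1]
    refine (norm_sub_le _ _).trans ((add_le_add le_rfl (norm_add_le _ _)).trans ?_)
    rw [norm_smul, f.norm_G, hx', mul_one, Real.norm_eq_abs]
    have e2 : |‖v‖ + ‖w‖ - 2 * ‖u‖| ≤ C * ‖η‖ ^ 2 := by
      have hw' : u - η = w := hw.symm
      rw [abs_of_nonneg]
      · simp only [sd, show u + η = v by rw [hη]; abel, hw'] at a1
        exact a1
      · have := sd_nonneg u η
        simp only [sd, show u + η = v by rw [hη]; abel, hw'] at this
        exact this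
    linarith
  have hd : ‖v' - w‖ ≤ c * (K * ‖η‖ ^ 2) :=
    (hlo v' w (by linarith) hwx).trans (mul_le_mul_of_nonneg_left hSD hc0.le)
  have hψ2 : ‖Φ v'‖ ≤ ‖Φ w‖ + 2 * ‖v' - w‖ := by
    rw [hψ, hψ]
    have h1 := norm_le_norm_add_norm_sub' (v' + ‖v'‖ • x) (w + ‖w‖ • x)
    rw [show v' + ‖v'‖ • x - (w + ‖w‖ • x) = (v' - w) + (‖v'‖ - ‖w‖) • x by module] at h1
    have h2 := norm_add_le (v' - w) ((‖v'‖ - ‖w‖) • x)
    rw [norm_smul, hx, mul_one, Real.norm_eq_abs] at h2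
    linarith [abs_norm_sub_norm_le v' w]
  set p := u + ‖u‖ • x with hp
  set t := dNorm u η with ht
  set η' := η + t • x with hη'
  have htη : |t| ≤ ‖η‖ := abs_le.2 ⟨hus.supp.ge η, hus.supp.le η⟩
  have hη'n : ‖η'‖ ≤ 2 * ‖η‖ := by
    refine (norm_add_le _ _).trans ?_
    rw [norm_smul, hx, mul_one, Real.norm_eq_abs]; linarith
  have hpv : ‖Φ v‖ ≤ ‖p + η'‖ + C * ‖η‖ ^ 2 := by
    rw [hψ, show v + ‖v‖ • x = p + η' + (‖v‖ - ‖u‖ - t) • x by
      rw [hp, hη', show v = u + η by rw [hη]; abel]; module]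
    refine (norm_add_le _ _).trans (add_le_add le_rfl ?_)
    rw [norm_smul, hx, mul_one, Real.norm_eq_abs]; exact a2
  have hpw : ‖Φ w‖ ≤ ‖p - η'‖ + C * ‖η‖ ^ 2 := by
    rw [hψ, show w + ‖w‖ • x = p - η' + (‖w‖ - ‖u‖ - -t) • x by rw [hp, hη', hw]; module]
    refine (norm_add_le _ _).trans (add_le_add le_rfl ?_)
    rw [norm_smul, hx, mul_one, Real.norm_eq_abs]; exact a3
  have hp2 : ‖p - (2 : ℝ) • x‖ < r₄ := by
    rw [hp, show u + ‖u‖ • x - (2 : ℝ) • x = (u - x) + (‖u‖ - ‖x‖) • x by rw [hx]; module]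
    refine (norm_add_le _ _).trans_lt ?_
    rw [norm_smul, hx, mul_one, Real.norm_eq_abs, ← hx]
    linarith [abs_norm_sub_norm_le u x]
  have h5 : sd p η' ≤ max C₄ 0 * (2 * ‖η‖) ^ 2 :=
    (hb₄ p hp2 η' (by linarith)).trans
      (mul_le_mul (le_max_left _ _) (pow_le_pow_left₀ (norm_nonneg _) hη'n 2) (sq_nonneg _)
        (le_max_right _ _))
  have h6 : (max C₄ 0 * 4 + 2 * C + 2 * (c * K)) * ‖η‖ ^ 2 ≤
      (max C₄ 0 * 4 + 2 * C + 2 * (c * K)) * (c * ‖a‖) ^ 2 :=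
    mul_le_mul_of_nonneg_left (pow_le_pow_left₀ (norm_nonneg _) hηa 2) (by positivity)
  have hup : ‖Φ u‖ = ‖p‖ := hψ u
  simp only [sd] at h5 ⊢
  rw [sub_eq_add_neg y a, ← hvy, ← hv'y, ← huy]
  rw [hC5]
  linarith

/-- The target norm is uniformly smooth near differences of images of antipodes. -/
theorem smooth_G_sub_neg {z : X} (h : Smooth z) : Smooth (f.G z - f.G (-z)) := by
  have hn := h.norm_pos
  have h1 := (smooth_G_sub_neg_unit f (h.smul (inv_pos.2 hn)) (norm_smul_inv_norm h.1)).smul hn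
  rwa [smul_sub, ← f.G_smul _ hn.le, ← f.G_smul _ hn.le, smul_neg, smul_inv_smul₀ hn.ne'] at h1

end Vale.Agent.P084.Full
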