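import Vale.Agent.P084.Full.T3
import Vale.Agent.P084.Full.Smooth

/-!
P084 (Tingley's problem), library for the general case: the mirror identities apply at every
smooth point.
-/

namespace Vale.Agent.P084.Full

open Filter Topology Orbit

variable {X Y : Type*} [NormedAddCommGroup X] [NormedSpace ℝ X] [NormedAddCommGroup Y]
  [NormedSpace ℝ Y]

lemma Smooth.lipNear_dNorm {z : X} (h : Smooth z) (c : X) :
    LipNear (fun u => dNorm u c) z := by
  obtain ⟨r, C, hr, hC, hu⟩ := h.norm_uniform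
  refine ⟨C * ‖c‖, ?_⟩
  filter_upwards [prod_mem_prod (Metric.ball_mem_nhds z hr) (Metric.ball_mem_nhds z hr)] with p hp
  rw [Set.mem_prod, mem_ball_iff_norm, mem_ball_iff_norm] at hp
  have h1 := (dNorm p.1 - dNorm p.2).le_opNorm c
  rw [sub_apply, Real.norm_eq_abs] at h1
  exact h1.trans ((mul_le_mul_of_nonneg_right ((hu _ hp.2).2.2 _ hp.1) (norm_nonneg c)).trans_eq
    (by ring))

variable (f : PIso X Y) [CompleteSpace X] [CompleteSpace Y]

lemma continuousAt_dG {z : X} (h : Smooth z) : ContinuousAt (dG f) z := by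
  obtain ⟨r, C, hr, hC, hu⟩ := dG_uniform f h
  refine tendsto_iff_norm_sub_tendsto_zero.2
    (squeeze_zero' (g := fun w => C * ‖w - z‖) (Eventually.of_forall fun w => norm_nonneg _) ?_ ?_)
  · filter_upwards [Metric.ball_mem_nhds z hr] with w hw
    exact (hu z (by simpa using hr)).2.2 w (by rwa [mem_ball_iff_norm] at hw)
  · have : Continuous fun w : X => C * ‖w - z‖ := by fun_prop
    simpa using this.tendsto z

theorem mirror_of_smooth {z : X} (h : Smooth z) : Mirror f z where
  ne := h.1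
  normX := h.eventually.mono fun u hu => hu.hasFDerivAt_norm
  derivG := h.eventually.mono fun u hu => hasFDerivAt_G f hu
  derivG' := h.neg.eventually.mono fun u hu => hasFDerivAt_G f hu
  contL c := (ContinuousLinearMap.apply ℝ Y c).continuous.continuousAt.comp' (continuousAt_dG f h)
  lipX c := h.lipNear_dNorm c
  normY := (smooth_G_sub_neg f h).eventually.mono fun u hu => hu.hasFDerivAt_norm
  lipY := by
    obtain ⟨r, C, hr, hC, hu⟩ := (smooth_G_sub_neg f h).norm_uniform
    refine ⟨C, ?_⟩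
    filter_upwards [prod_mem_prod (Metric.ball_mem_nhds _ hr) (Metric.ball_mem_nhds _ hr)]
      with p hp
    rw [Set.mem_prod, mem_ball_iff_norm, mem_ball_iff_norm] at hp
    exact (hu _ hp.2).2.2 _ hp.1
  normYz := (smooth_G f h).hasFDerivAt_norm
  mid := (norm_G_sub_neg f h).2
  anti := by
    have h1 := (smooth_G f h.neg).dNorm_self
    rw [dNorm_G_neg f h, neg_apply, f.norm_G, norm_neg] at h1
    show dNorm (f.G z) (f.G (-z)) = -‖z‖
    linarith
  pull a := dNorm_dG f h a
  pull' a := by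
    have h1 := dNorm_dG f h.neg a
    rw [dNorm_G_neg f h, dNorm_neg h] at h1
    exact neg_inj.1 (by simpa using h1)
  equiv := by
    obtain ⟨A, -, hA, -⟩ := exists_dG f h
    obtain ⟨B, -, hB, -⟩ := exists_dG f h.neg
    exact ⟨A, B, hA.symm, hB.symm⟩
  isom a ha := ⟨norm_dG f h ha, norm_dG f h.neg (by
    rw [dNorm_neg h, neg_apply]; simp [show dNorm z a = 0 from ha])⟩

namespace GatDiff

variable {Q : X →L[ℝ] X →L[ℝ] ℝ} {z : X}

omit [CompleteSpace X] [CompleteSpace Y] in
lemma nonneg (hQ : GatDiff z Q) (h : Smooth z) (a : X) : 0 ≤ Q a a := by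
  have hd : HasDerivAt (fun t : ℝ => dNorm (z + t • a) a) (Q a a) 0 := hQ a a
  have hl : Tendsto (fun t : ℝ => z + t • a) (𝓝 0) (𝓝 z) := by
    have : Continuous fun t : ℝ => z + t • a := by fun_prop
    simpa using this.tendsto 0
  refine ge_of_tendsto ((hasDerivAt_iff_tendsto_slope.1 hd).mono_left
    (nhdsWithin_mono _ (show Set.Ioi (0 : ℝ) ⊆ {0}ᶜ from fun t ht => ne_of_gt ht))) ?_
  filter_upwards [nhdsWithin_le_nhds (hl.eventually h.eventually), self_mem_nhdsWithin]
    with t ht hpos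
  have h1 := hasFDerivAt_norm_sub_nonneg h.1 ht.1 h.hasFDerivAt_norm ht.hasFDerivAt_norm
  rw [add_sub_cancel_left, map_smul, map_smul, smul_eq_mul, smul_eq_mul, ← mul_sub] at h1
  rw [slope_def_field, sub_zero, zero_smul, add_zero]
  exact div_nonneg (nonneg_of_mul_nonneg_right h1 hpos) (le_of_lt hpos)

omit [CompleteSpace X] [CompleteSpace Y] in
lemma apply_self (hQ : GatDiff z Q) (h : Smooth z) (c : X) : Q z c = 0 := by
  refine (hQ z c).unique ((hasDerivAt_const (0 : ℝ) (dNorm z c)).congr_of_eventuallyEq ?_)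
  filter_upwards [eventually_gt_nhds (show (-1 : ℝ) < 0 by norm_num)] with t ht
  show dNorm (z + t • z) c = dNorm z c
  rw [show z + t • z = (1 + t) • z by rw [add_smul, one_smul], dNorm_smul h (by linarith)]

omit [CompleteSpace X] [CompleteSpace Y] in
lemma abs_le (hQ : GatDiff z Q) {r C : ℝ} (hr : 0 < r)
    (hC : ∀ w, ‖w - z‖ < r → ‖dNorm w - dNorm z‖ ≤ C * ‖w - z‖) (a c : X) :
    |Q a c| ≤ C * ‖a‖ * ‖c‖ := by
  refine le_of_tendsto ((hasDerivAt_iff_tendsto_slope.1 (hQ a c)).abs) ?_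
  have hl : Tendsto (fun t : ℝ => ‖t • a‖) (𝓝 0) (𝓝 0) := by
    have : Continuous fun t : ℝ => ‖t • a‖ := by fun_prop
    simpa using this.tendsto 0
  filter_upwards [nhdsWithin_le_nhds (hl.eventually (eventually_lt_nhds hr)),
    self_mem_nhdsWithin] with t ht (ht0 : t ≠ 0)
  have h1 := (dNorm (z + t • a) - dNorm z).le_opNorm c
  rw [sub_apply, Real.norm_eq_abs] at h1
  have h2 := hC (z + t • a) (by rwa [add_sub_cancel_left])
  rw [add_sub_cancel_left, norm_smul, Real.norm_eq_abs] at h2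
  rw [slope_def_field, sub_zero, zero_smul, add_zero, abs_div, div_le_iff₀ (abs_pos.2 ht0)]
  refine h1.trans ((mul_le_mul_of_nonneg_right h2 (norm_nonneg c)).trans_eq (by ring))

end GatDiff

/-- **T3 at smooth points.** -/
theorem t3_smooth {z : X} (h : Smooth z) {Q : X →L[ℝ] X →L[ℝ] ℝ} (hQ : GatDiff z Q)
    (hs : ∀ a b, Q a b = Q b a) (a c : X) :
    HasLineDerivAt ℝ (fun u => dNorm (f.G z) (dG f u c)) 0 z a :=
  (mirror_of_smooth f h).t3 hQ hs (hQ.nonneg h) a c

/-- **T3, moving form.** The pairing `dNorm (G u) (dG u c) = dNorm u c` differentiated. -/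
theorem t3_moving {z : X} (h : Smooth z) {Q : X →L[ℝ] X →L[ℝ] ℝ} (hQ : GatDiff z Q)
    (a c : X) :
    HasLineDerivAt ℝ (fun u => dNorm (f.G u) (dG f u c)) (Q a c) z a := by
  refine (hQ a c).congr_of_eventuallyEq ?_
  exact h.eventually.mono fun u hu => dNorm_dG f hu c

end Vale.Agent.P084.Full
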