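import Vale.Agent.P084.Full.Exit

/-!
P084 (Tingley's problem), library for the general case: on every connected component of the
non-isometric smooth points the derivative of the extension is affine in the derivative of the norm.
-/

namespace Vale.Agent.P084.Full

open Filter Topology Metric Orbit MeasureTheory
open scoped NNReal

variable {X Y : Type*} [NormedAddCommGroup X] [NormedSpace ℝ X] [NormedAddCommGroup Y]
  [NormedSpace ℝ Y]

/-- The face of a smooth point inside a subspace. -/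
def Face (z : X) (S : Submodule ℝ X) : Set X :=
  {u | u ∈ S ∧ ‖u‖ = ‖z‖ ∧ dNorm z u = ‖z‖}

/-- The derivative of a component is affine in the derivative of the norm near the face. -/
def Loc (f : PIso X Y) (φ : Y →L[ℝ] ℝ) (z : X) (S : Submodule ℝ X) (c : ℝ) : Prop :=
  ∃ (W : Set X) (Λ : X → ℝ), IsOpen W ∧ Face z S ⊆ W ∧ ∀ u ∈ W, u ∈ S →
    Smooth u ∧ ∀ h ∈ S, φ (dG f u h) = c * dNorm u h + Λ h

lemma mem_face_self {z : X} (hz : Smooth z) {S : Submodule ℝ X} (h : z ∈ S) : z ∈ Face z S :=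
  ⟨h, rfl, hz.dNorm_self⟩

lemma face_subset_closedBall (z : X) (S : Submodule ℝ X) : Face z S ⊆ closedBall 0 ‖z‖ :=
  fun _ hu => mem_closedBall_zero_iff.2 hu.2.1.le

lemma Loc.mono {f : PIso X Y} {φ : Y →L[ℝ] ℝ} {z : X} {S S' : Submodule ℝ X} {c : ℝ}
    (h : Loc f φ z S' c) (hle : S ≤ S') : Loc f φ z S c := by
  obtain ⟨W, Λ, hW, hF, hl⟩ := h
  exact ⟨W, Λ, hW, fun u hu => hF ⟨hle hu.1, hu.2⟩,
    fun u hu hS => ⟨(hl u hu (hle hS)).1, fun v hv => (hl u hu (hle hS)).2 v (hle hv)⟩⟩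

/-- The derivative of the norm is not constant on a slice near a face. -/
lemma exists_dNorm_ne {z : X} (hz : Smooth z) {S : Submodule ℝ X} (hzS : z ∈ S) {d : X}
    (hd : d ∈ S) (hd0 : d ≠ 0) (hπd : dNorm z d = 0) {W : Set X} (hW : IsOpen W)
    (hF : Face z S ⊆ W) : ∃ u ∈ W, u ∈ S ∧ (Smooth u → ∃ h ∈ S, dNorm u h ≠ dNorm z h) := by
  by_contra hcon
  push Not at hcon
  set T : Set ℝ := {t | 0 ≤ t ∧ ‖z + t • d‖ ≤ ‖z‖} with hT
  have hface : ∀ t ∈ T, z + t • d ∈ Face z S := fun t ht => by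
    have h2 : dNorm z (z + t • d) = ‖z‖ := by
      rw [map_add, map_smul, hπd, smul_zero, add_zero, hz.dNorm_self]
    exact ⟨S.add_mem hzS (S.smul_mem t hd), le_antisymm ht.2 (h2.symm.le.trans (hz.supp.le _)), h2⟩
  have hTb : BddAbove T := by
    refine ⟨2 * ‖z‖ / ‖d‖, fun t ht => ?_⟩
    have h1 : ‖t • d‖ ≤ ‖z + t • d‖ + ‖z‖ := by simpa using norm_sub_le (z + t • d) z
    rw [norm_smul, Real.norm_of_nonneg ht.1] at h1
    rw [le_div_iff₀ (norm_pos_iff.2 hd0)]
    linarith [ht.2]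
  have hTc : IsClosed T :=
    isClosed_Ici.inter (isClosed_le (f := fun t : ℝ => ‖z + t • d‖) (by fun_prop) continuous_const)
  have hmem := hTc.csSup_mem ⟨0, le_rfl, by simp⟩ hTb
  set t₀ := sSup T
  have hev : ∀ᶠ t in 𝓝[>] t₀, z + t • d ∈ W :=
    (((continuous_const.add (continuous_id.smul continuous_const)).tendsto t₀).eventually
      (hW.mem_nhds (hF (hface t₀ hmem)))).filter_mono nhdsWithin_le_nhds
  obtain ⟨t, htW, ht⟩ := (hev.and self_mem_nhdsWithin).exists
  have ht' : t₀ < t := ht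
  have huS : z + t • d ∈ S := S.add_mem hzS (S.smul_mem t hd)
  obtain ⟨hus, hπ⟩ := hcon _ htW huS
  have hn : ‖z + t • d‖ = ‖z‖ := by
    rw [← hus.dNorm_self, hπ _ huS, map_add, map_smul, hπd, smul_zero, add_zero, hz.dNorm_self]
  exact absurd (le_csSup hTb ⟨hmem.1.trans ht'.le, hn.le⟩) (not_le.2 ht')

/-- The coefficient is unique. -/
lemma Loc.unique {f : PIso X Y} {φ : Y →L[ℝ] ℝ} {z : X} {S : Submodule ℝ X} {c c' : ℝ}
    (h : Loc f φ z S c) (h' : Loc f φ z S c') (hz : Smooth z) (hzS : z ∈ S) {d : X} (hd : d ∈ S)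
    (hd0 : d ≠ 0) (hπd : dNorm z d = 0) : c = c' := by
  obtain ⟨W, Λ, hW, hF, hl⟩ := h
  obtain ⟨W', Λ', hW', hF', hl'⟩ := h'
  obtain ⟨u, ⟨hu, hu'⟩, huS, hne⟩ :=
    exists_dNorm_ne hz hzS hd hd0 hπd (hW.inter hW') (Set.subset_inter hF hF')
  obtain ⟨v, hv, hv'⟩ := hne (hl u hu huS).1
  have hzm := mem_face_self hz hzS
  have e1 := (hl u hu huS).2 v hv
  have e2 := (hl' u hu' huS).2 v hv
  have e3 := (hl z (hF hzm) hzS).2 v hv
  have e4 := (hl' z (hF' hzm) hzS).2 v hv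
  have e : (c - c') * (dNorm u v - dNorm z v) = 0 := by
    rw [sub_mul, mul_sub, mul_sub]; linarith
  exact sub_eq_zero.1 ((mul_eq_zero.1 e).resolve_right (sub_ne_zero.2 hv'))

/-- Faces in finite-dimensional subspaces depend upper semicontinuously on the point. -/
lemma eventually_face_subset {z : X} (hz : Smooth z) {S : Submodule ℝ X} [FiniteDimensional ℝ S]
    {W : Set X} (hW : IsOpen W) (hF : Face z S ⊆ W) : ∀ᶠ z' in 𝓝 z, Face z' S ⊆ W := by
  by_contra hcon
  obtain ⟨x, hx, hxF⟩ := exists_seq_forall_of_frequently (not_eventually.1 hcon)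
  simp only [Set.not_subset] at hxF
  choose u hu huW using hxF
  obtain ⟨R, hR⟩ := (isBounded_iff_forall_norm_le).1 (isBounded_range_of_tendsto x hx)
  have hc : IsCompact ((fun v : S => (v : X)) '' closedBall 0 R) :=
    (isCompact_closedBall 0 R).image continuous_subtype_val
  obtain ⟨v, hv, ψ, hψ, hlim⟩ := hc.tendsto_subseq (x := u) fun n =>
    ⟨⟨u n, (hu n).1⟩, by
      rw [mem_closedBall_zero_iff]
      exact (hu n).2.1.le.trans (hR _ ⟨n, rfl⟩), rfl⟩
  obtain ⟨v, -, rfl⟩ := hv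
  have hxψ := hx.comp hψ.tendsto_atTop
  have h1 : ‖(v : X)‖ = ‖z‖ := tendsto_nhds_unique hlim.norm
    (hxψ.norm.congr fun n => (hu (ψ n)).2.1.symm)
  have hπ : Tendsto (fun n => dNorm (x (ψ n)) (u (ψ n))) atTop (𝓝 (dNorm z (v : X))) :=
    ((isBoundedBilinearMap_apply (𝕜 := ℝ) (E := X) (F := ℝ)).continuous.tendsto (dNorm z, (v : X))).comp
      ((((locallyLipschitzOn_dNorm (X := X)).continuousOn.continuousAt
        (isOpen_smooth.mem_nhds hz)).tendsto.comp hxψ).prodMk_nhds hlim)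
  have h2 : dNorm z (v : X) = ‖z‖ :=
    tendsto_nhds_unique hπ (hxψ.norm.congr fun n => (hu (ψ n)).2.2.symm)
  have hvW : (v : X) ∈ W := hF ⟨v.2, h1, h2⟩
  obtain ⟨n, hn⟩ := (hlim.eventually (hW.mem_nhds hvW)).exists
  exact huW (ψ n) hn

variable (f : PIso X Y) [CompleteSpace X] [CompleteSpace Y]

/-- The coefficient of a component functional at a point. -/
def Coef (φ : Y →L[ℝ] ℝ) (z : X) (c : ℝ) : Prop :=
  ∀ S : Submodule ℝ X, FiniteDimensional ℝ S → z ∈ S → Loc f φ z S c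

/-- Existence of coefficients for slices of dimension at least three. -/
def HasLoc : Prop :=
  ∀ (φ : Y →L[ℝ] ℝ) (z : X), NonIso f z → ∀ S : Submodule ℝ X, FiniteDimensional ℝ S → z ∈ S →
    3 ≤ Module.finrank ℝ S → ∃ c, Loc f φ z S c

omit [CompleteSpace X] in
lemma exists_kernel {z : X} {S : Submodule ℝ X} [FiniteDimensional ℝ S]
    (h : 3 ≤ Module.finrank ℝ S) : ∃ d ∈ S, d ≠ 0 ∧ dNorm z d = 0 := by
  set p : S →ₗ[ℝ] ℝ := (dNorm z).toLinearMap.comp S.subtype
  have hk : LinearMap.ker p ≠ ⊥ := LinearMap.ker_ne_bot_of_finrank_lt (f := p) (by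
    rw [Module.finrank_self]; omega)
  obtain ⟨d, hd, hd0⟩ := Submodule.exists_mem_ne_zero_of_ne_bot hk
  exact ⟨d, d.2, by simpa using hd0, hd⟩

omit [CompleteSpace X] in
lemma exists_slice (hdim : ¬FiniteDimensional ℝ X) (z : X) :
    ∃ S : Submodule ℝ X, FiniteDimensional ℝ S ∧ z ∈ S ∧ 3 ≤ Module.finrank ℝ S := by
  have hr : ((3 : ℕ) : Cardinal) ≤ Module.rank ℝ X := by
    by_contra hc
    push Not at hc
    exact hdim (Module.rank_lt_aleph0_iff.1 (hc.trans Cardinal.natCast_lt_aleph0))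
  obtain ⟨v, hv⟩ := exists_linearIndependent_of_le_rank hr
  set S0 := Submodule.span ℝ (Set.range v)
  have : FiniteDimensional ℝ S0 := FiniteDimensional.span_of_finite ℝ (Set.finite_range v)
  refine ⟨S0 ⊔ Submodule.span ℝ {z}, inferInstance,
    Submodule.mem_sup_right (Submodule.mem_span_singleton_self z), ?_⟩
  refine le_trans ?_ (Submodule.finrank_mono (le_sup_left : S0 ≤ _))
  rw [finrank_span_eq_card hv, Fintype.card_fin]

variable {f}

lemma exists_coef (hL : HasLoc f) (hdim : ¬FiniteDimensional ℝ X) (φ : Y →L[ℝ] ℝ) {z : X}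
    (hz : NonIso f z) : ∃ c, Coef f φ z c := by
  obtain ⟨S₀, hS₀, hzS₀, h3⟩ := exists_slice hdim z
  obtain ⟨c, hc⟩ := hL φ z hz S₀ hS₀ hzS₀ h3
  refine ⟨c, fun S hS hzS => ?_⟩
  obtain ⟨c', hc'⟩ := hL φ z hz (S₀ ⊔ S) inferInstance (Submodule.mem_sup_left hzS₀)
    (h3.trans (Submodule.finrank_mono le_sup_left))
  obtain ⟨d, hd, hd0, hπd⟩ := exists_kernel (z := z) h3
  rw [hc.unique (hc'.mono le_sup_left) hz.1 hzS₀ hd hd0 hπd]
  exact hc'.mono le_sup_right

/-- Coefficients and remainders are constant along segments of non-isometric points. -/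
lemma coef_segment (hL : HasLoc f) (hdim : ¬FiniteDimensional ℝ X) (φ : Y →L[ℝ] ℝ) {z z' : X}
    (hseg : ∀ t ∈ Set.Icc (0 : ℝ) 1, NonIso f (z + t • (z' - z))) {c c' : ℝ}
    (hc : Coef f φ z c) (hc' : Coef f φ z' c') (h : X) :
    c' = c ∧ φ (dG f z' h) - c * dNorm z' h = φ (dG f z h) - c * dNorm z h := by
  obtain ⟨S₀, hS₀, hzS₀, h3⟩ := exists_slice hdim z
  set S := S₀ ⊔ Submodule.span ℝ {z', h} with hSdef
  have : FiniteDimensional ℝ (Submodule.span ℝ ({z', h} : Set X)) :=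
    FiniteDimensional.span_of_finite ℝ (Set.toFinite _)
  have hfd : FiniteDimensional ℝ S := inferInstance
  have h3S : 3 ≤ Module.finrank ℝ S := h3.trans (Submodule.finrank_mono le_sup_left)
  have hzS : z ∈ S := Submodule.mem_sup_left hzS₀
  have hz'S : z' ∈ S := Submodule.mem_sup_right (Submodule.subset_span (Set.mem_insert _ _))
  have hhS : h ∈ S :=
    Submodule.mem_sup_right (Submodule.subset_span (Set.mem_insert_of_mem _ rfl))
  set γ : ℝ → X := fun t => z + t • (z' - z) with hγ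
  have hγS : ∀ t, γ t ∈ S := fun t => S.add_mem hzS (S.smul_mem t (S.sub_mem hz'S hzS))
  have huniq : ∀ (t : Set.Icc (0 : ℝ) 1) (a b : ℝ), Loc f φ (γ t) S a → Loc f φ (γ t) S b →
      a = b := fun t a b ha hb => by
    obtain ⟨d, hd, hd0, hπd⟩ := exists_kernel (z := γ t) h3S
    exact ha.unique hb (hseg _ t.2).1 (hγS t) hd hd0 hπd
  choose co hco using fun t : Set.Icc (0 : ℝ) 1 => hL φ (γ t) (hseg _ t.2) S hfd (hγS t) h3S
  set g : Set.Icc (0 : ℝ) 1 → ℝ × ℝ := fun t =>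
    (co t, φ (dG f (γ t) h) - co t * dNorm (γ t) h) with hg
  have hlc : IsLocallyConstant g := by
    refine (IsLocallyConstant.iff_eventually_eq g).2 fun t => ?_
    obtain ⟨W, Λ, hW, hF, hl⟩ := hco t
    have hγt : ContinuousAt (fun s : Set.Icc (0 : ℝ) 1 => γ s) t := by
      simp only [hγ]; fun_prop
    filter_upwards [hγt.eventually (hW.mem_nhds (hF (mem_face_self (hseg _ t.2).1 (hγS t)))),
      hγt.eventually (eventually_face_subset (hseg _ t.2).1 hW hF)] with s hs hsF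
    have e : co s = co t := huniq s _ _ (hco s) ⟨W, Λ, hW, hsF, hl⟩
    have e1 := (hl _ hs (hγS s)).2 h hhS
    have e2 := (hl _ (hF (mem_face_self (hseg _ t.2).1 (hγS t))) (hγS t)).2 h hhS
    simp only [hg, Prod.mk.injEq]
    exact ⟨e, by rw [e]; linarith⟩
  have : PreconnectedSpace (Set.Icc (0 : ℝ) 1) :=
    Subtype.preconnectedSpace isPreconnected_Icc
  have e := hlc.apply_eq_of_preconnectedSpace ⟨1, zero_le_one, le_rfl⟩ ⟨0, le_rfl, zero_le_one⟩
  have hγ0 : γ 0 = z := by simp [hγ]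
  have hγ1 : γ 1 = z' := by simp [hγ]
  have e0 : co ⟨0, le_rfl, zero_le_one⟩ = c :=
    huniq _ _ _ (hco _) (by simp only [hγ0]; exact hc S hfd hzS)
  have e1 : co ⟨1, zero_le_one, le_rfl⟩ = c' :=
    huniq _ _ _ (hco _) (by simp only [hγ1]; exact hc' S hfd hz'S)
  simp only [hg, Prod.mk.injEq, hγ0, hγ1, e0, e1] at e
  exact ⟨e.1, by rw [e.1] at e; exact e.2⟩

/-- **Patching.** On a component of non-isometric points the derivative of the extension is affine
in the derivative of the norm, which is not constant there. -/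
theorem patch_of_hasLoc (hL : HasLoc f) (hS : SliceData f)
    (hbad : ∀ s : X, ‖s‖ = 1 → ¬ Smooth s → ∃ T : X ≃ₗᵢ[ℝ] Y, ∀ a, f.Ld s a = T a)
    (hdim : ¬FiniteDimensional ℝ X) {z : X} (hz : NonIso f z) :
    ∃ (A : X →L[ℝ] Y) (w : Y),
      (∀ u ∈ connectedComponentIn {x | NonIso f x} z, dG f u = A + (dNorm u).smulRight w) ∧
      ∃ u ∈ connectedComponentIn {x | NonIso f x} z, dNorm u ≠ dNorm z := by
  set O : Set X := {x | NonIso f x} with hO
  set O₁ := connectedComponentIn O z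
  have hz₁ : z ∈ O₁ := mem_connectedComponentIn hz
  have hne : ∃ u ∈ O₁, dNorm u ≠ dNorm z := by
    by_contra hcon
    push Not at hcon
    obtain ⟨S₀, hS₀, hzS₀, h3⟩ := exists_slice hdim z
    obtain ⟨d, hd, hd0, hπd⟩ := exists_kernel (z := z) h3
    have hF : Face z S₀ ⊆ O₁ := fun u hu => by
      have hsub : segment ℝ z u ⊆ O := by
        rw [segment_eq_image']
        rintro _ ⟨s, hs, rfl⟩
        obtain ⟨h1, h2⟩ := norm_segment hz.1 hu.2.1 hu.2.2 hs
        exact (nonIso_of_face f hS hbad hz h1 h2).1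
      exact (convex_segment z u).isPreconnected.subset_connectedComponentIn
        (left_mem_segment ℝ z u) hsub (right_mem_segment ℝ z u)
    obtain ⟨u, hu, -, hne⟩ := exists_dNorm_ne hz.1 hzS₀ hd hd0 hπd
      (isOpen_nonIso f).connectedComponentIn hF
    have huO : NonIso f u := connectedComponentIn_subset O z hu
    obtain ⟨h, -, hh⟩ := hne huO.1
    exact hh (by rw [hcon u hu])
  have hconst : ∀ (φ : Y →L[ℝ] ℝ) (h : X) (u : X), u ∈ O₁ → ∀ cz cu, Coef f φ z cz →
      Coef f φ u cu → cu = cz ∧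
        φ (dG f u h) - cz * dNorm u h = φ (dG f z h) - cz * dNorm z h := by
    intro φ h u hu cz cu hcz hcu
    choose co hco using fun x : O₁ =>
      exists_coef hL hdim φ (show NonIso f (x : X) from connectedComponentIn_subset O z x.2)
    set g : O₁ → ℝ × ℝ := fun x => (co x, φ (dG f x h) - co x * dNorm (x : X) h) with hg
    have hlc : IsLocallyConstant g := by
      refine (IsLocallyConstant.iff_eventually_eq g).2 fun x => ?_
      obtain ⟨r, hr, hb⟩ := Metric.isOpen_iff.1 (isOpen_nonIso f) (x : X)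
        (connectedComponentIn_subset O z x.2)
      filter_upwards [continuous_subtype_val.continuousAt.eventually
        (ball_mem_nhds (x : X) hr)] with y hy
      obtain ⟨e1, e2⟩ := coef_segment hL hdim φ (fun t ht => hb
        ((convex_ball (x : X) r).add_smul_sub_mem (mem_ball_self hr) hy ht)) (hco x) (hco y) h
      simp only [hg, Prod.mk.injEq]
      exact ⟨e1, by rw [e1]; exact e2⟩
    have : PreconnectedSpace O₁ := Subtype.preconnectedSpace isPreconnected_connectedComponentIn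
    have e := hlc.apply_eq_of_preconnectedSpace ⟨u, hu⟩ ⟨z, hz₁⟩
    have heq : ∀ (x : X), NonIso f x → ∀ a b, Coef f φ x a → Coef f φ x b → a = b := by
      intro x hx a b ha hb
      obtain ⟨S₀, hS₀, hxS₀, h3⟩ := exists_slice hdim x
      obtain ⟨d, hd, hd0, hπd⟩ := exists_kernel (z := x) h3
      exact (ha S₀ hS₀ hxS₀).unique (hb S₀ hS₀ hxS₀) hx.1 hxS₀ hd hd0 hπd
    have e0 : co ⟨z, hz₁⟩ = cz := heq z hz _ _ (hco ⟨z, hz₁⟩) hcz
    have e1 : co ⟨u, hu⟩ = cu := heq u (connectedComponentIn_subset O z hu) _ _ (hco ⟨u, hu⟩) hcu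
    simp only [hg, Prod.mk.injEq, e0, e1] at e
    exact ⟨e.1, by rw [e.1] at e; exact e.2⟩
  obtain ⟨u₁, hu₁, hne₁⟩ := hne
  obtain ⟨h₁, hh₁⟩ : ∃ h₁, dNorm u₁ h₁ - dNorm z h₁ ≠ 0 := by
    by_contra hcon
    push Not at hcon
    exact hne₁ (ContinuousLinearMap.ext fun a => sub_eq_zero.1 (hcon a))
  set w : Y := (dNorm u₁ h₁ - dNorm z h₁)⁻¹ • (dG f u₁ h₁ - dG f z h₁) with hw
  refine ⟨dG f z - (dNorm z).smulRight w, w, fun u hu => ?_, u₁, hu₁, hne₁⟩
  refine ContinuousLinearMap.ext fun h => (SeparatingDual.eq_iff_forall_dual_eq (R := ℝ)).2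
    fun φ => ?_
  obtain ⟨cz, hcz⟩ := exists_coef hL hdim φ hz
  obtain ⟨cu, hcu⟩ := exists_coef hL hdim φ (connectedComponentIn_subset O z hu)
  obtain ⟨c₁, hc₁⟩ := exists_coef hL hdim φ (connectedComponentIn_subset O z hu₁)
  have e1 := (hconst φ h₁ u₁ hu₁ cz c₁ hcz hc₁).2
  have e2 := (hconst φ h u hu cz cu hcz hcu).2
  have ew : φ w = cz := by
    rw [hw, map_smul, map_sub, smul_eq_mul,
      show φ (dG f u₁ h₁) - φ (dG f z h₁) = cz * (dNorm u₁ h₁ - dNorm z h₁) by linarith,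
      mul_comm cz, inv_mul_cancel_left₀ hh₁]
  simp only [add_apply, sub_apply, ContinuousLinearMap.smulRight_apply, map_add, map_sub,
    map_smul, smul_eq_mul, ew]
  linarith

end Vale.Agent.P084.Full
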