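import Vale.Agent.P084.Full.Ident
import Vale.Agent.P084.Full.AvgProps
import Vale.Agent.P084.Full.AverageAe

/-!
P084 (Tingley's problem), library for the general case: the properties of the averaged second
derivatives of the extension at one scale.
-/

namespace Vale.Agent.P084.Full

open MeasureTheory Filter Topology Metric Set Orbit Average
open scoped NNReal

variable {X Y : Type*} [NormedAddCommGroup X] [NormedSpace ℝ X] [NormedAddCommGroup Y]
  [NormedSpace ℝ Y]

/-- Uniform first order regularity on a ball. -/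
structure LocalReg (f : PIso X Y) (z₀ : X) (R C : ℝ) : Prop where
  nonneg : 0 ≤ C
  smooth : ∀ w ∈ ball z₀ R, Smooth w
  lipN : ∀ w ∈ ball z₀ R, ∀ w' ∈ ball z₀ R, ‖dNorm w' - dNorm w‖ ≤ C * ‖w' - w‖
  lipG : ∀ w ∈ ball z₀ R, ∀ w' ∈ ball z₀ R, ‖dG f w' - dG f w‖ ≤ C * ‖w' - w‖
  lipY : ∀ w ∈ ball z₀ R, ∀ w' ∈ ball z₀ R,
    ‖dNorm (f.G w') - dNorm (f.G w)‖ ≤ C * ‖w' - w‖

theorem exists_localReg [CompleteSpace X] [CompleteSpace Y] (f : PIso X Y) {z₀ : X}
    (h : Smooth z₀) : ∃ R C, 0 < R ∧ LocalReg f z₀ R C := by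
  obtain ⟨r₁, C₁, hr₁, hC₁, h₁⟩ := h.norm_uniform
  obtain ⟨r₂, C₂, hr₂, hC₂, h₂⟩ := dG_uniform f h
  obtain ⟨r₃, C₃, hr₃, hC₃, h₃⟩ := (smooth_G f h).norm_uniform
  refine ⟨min (min r₁ r₂) (r₃ / 4), C₁ + C₂ + 3 * C₃, lt_min (lt_min hr₁ hr₂) (by linarith),
    ⟨by positivity, fun w hw => ?_, fun w hw w' hw' => ?_, fun w hw w' hw' => ?_,
      fun w hw w' hw' => ?_⟩⟩ <;>
    simp only [mem_ball_iff_norm, lt_min_iff] at *
  · exact (h₁ w hw.1.1).1
  · exact ((h₁ w hw.1.1).2.2 w' hw'.1.1).trans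
      (mul_le_mul_of_nonneg_right (by linarith) (norm_nonneg _))
  · exact ((h₂ w hw.1.2).2.2 w' hw'.1.2).trans
      (mul_le_mul_of_nonneg_right (by linarith) (norm_nonneg _))
  · have a := f.norm_G_sub_le w z₀
    have a' := f.norm_G_sub_le w' z₀
    have b := mul_le_mul_of_nonneg_left (f.norm_G_sub_le w' w) hC₃
    have c : 0 ≤ (C₁ + C₂) * ‖w' - w‖ := by positivity
    linarith [(h₃ (f.G w) (by linarith)).2.2 (f.G w') (by linarith)]

/-- The derivative of the norm is Gateaux differentiable at `y`, with a symmetric derivative. -/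
def GoodPt (y : X) : Prop :=
  ∃ Q : X →L[ℝ] X →L[ℝ] ℝ, GatDiff y Q ∧ ∀ a b, Q a b = Q b a

/-- A bounded measurable version of the second derivative of the norm. -/
noncomputable def qm (C : ℝ) (a b : X) (y : X) : ℝ :=
  max (-C) (min C (limsup (fun n : ℕ =>
    ((n : ℝ) + 1) * (dNorm (y + ((n : ℝ) + 1)⁻¹ • a) b - dNorm y b)) atTop))

lemma abs_qm_le {C : ℝ} (hC : 0 ≤ C) (a b y : X) : |qm C a b y| ≤ C :=
  abs_le.2 ⟨le_max_left _ _, max_le (by linarith) (min_le_left _ _)⟩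

lemma measurable_qm [MeasurableSpace X] [BorelSpace X] (C : ℝ) (a b : X) :
    Measurable (qm C a b) := by
  have h : Measurable fun y : X => fderiv ℝ (fun w : X => ‖w‖) y b :=
    measurable_fderiv_apply_const ℝ _ b
  exact measurable_const.max (measurable_const.min (Measurable.limsup fun n =>
    ((h.comp (measurable_id.add_const _)).sub h).const_mul _))

lemma qm_eq {C : ℝ} {a b y : X} {Q : X →L[ℝ] X →L[ℝ] ℝ} (hQ : GatDiff y Q)
    (hb : |Q a b| ≤ C) : qm C a b y = Q a b := by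
  have ht : Tendsto (fun n : ℕ => ((n : ℝ) + 1)⁻¹) atTop (𝓝[≠] 0) := by
    refine tendsto_nhdsWithin_iff.2 ⟨?_, Eventually.of_forall fun n => ?_⟩
    · simpa [one_div] using tendsto_one_div_add_atTop_nhds_zero_nat (𝕜 := ℝ)
    · exact inv_ne_zero (by positivity : (n : ℝ) + 1 ≠ 0)
  have h := (hQ a b).tendsto_slope_zero.comp ht
  have h' : Tendsto (fun n : ℕ =>
      ((n : ℝ) + 1) * (dNorm (y + ((n : ℝ) + 1)⁻¹ • a) b - dNorm y b)) atTop (𝓝 (Q a b)) := by
    refine h.congr fun n => ?_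
    simp [dNorm]
  rw [qm, h'.limsup_eq, min_eq_right (abs_le.1 hb).2, max_eq_right (abs_le.1 hb).1]

namespace LocalReg

variable {f : PIso X Y} {z₀ : X} {R C : ℝ} (L : LocalReg f z₀ R C)
include L

lemma gat_abs_le {y : X} (hy : y ∈ ball z₀ R) {Q : X →L[ℝ] X →L[ℝ] ℝ} (hQ : GatDiff y Q)
    (a b : X) : |Q a b| ≤ C * ‖a‖ * ‖b‖ := by
  refine hQ.abs_le (r := R - ‖y - z₀‖) (by rw [mem_ball_iff_norm] at hy; linarith)
    (fun w hw => L.lipN y hy w ?_) a b
  rw [mem_ball_iff_norm] at *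
  linarith [norm_sub_le_norm_sub_add_norm_sub w y z₀]

lemma lip_dNorm (b : X) :
    LipschitzOnWith (C * ‖b‖).toNNReal (fun y => dNorm y b) (ball z₀ R) := by
  refine LipschitzOnWith.of_dist_le' fun y hy y' hy' => ?_
  rw [Real.dist_eq, dist_eq_norm, ← Real.norm_eq_abs]
  refine ((dNorm y - dNorm y').le_opNorm b).trans ?_
  exact (mul_le_mul_of_nonneg_right (L.lipN y' hy' y hy) (norm_nonneg b)).trans_eq (by ring)

lemma lip_test (φ : Y →L[ℝ] ℝ) (b : X) :
    LipschitzOnWith (C * ‖φ‖ * ‖b‖).toNNReal (fun y => φ (dG f y b)) (ball z₀ R) := by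
  refine LipschitzOnWith.of_dist_le' fun y hy y' hy' => ?_
  rw [Real.dist_eq, dist_eq_norm, ← map_sub, ← Real.norm_eq_abs]
  refine (φ.le_opNorm _).trans ?_
  refine (mul_le_mul_of_nonneg_left (((dG f y - dG f y').le_opNorm b).trans
    (mul_le_mul_of_nonneg_right (L.lipG y' hy' y hy) (norm_nonneg b))) (norm_nonneg φ)).trans_eq ?_
  ring

variable [CompleteSpace X] [CompleteSpace Y] {e : ℕ → X} (he : Summable fun i => ‖e i‖) {d : ℝ}
  (hd : d ≠ 0) {z : X} {r : ℝ} (hr : |d| * rad e < r) (hb : closedBall z r ⊆ ball z₀ R)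
include he hd hr hb

omit L hd in
lemma mem_ball_shift (w : ℕ → ℝ) : z + Sh (step d e) w ∈ ball z₀ R :=
  hb (closedBall_step_subset he hr.le z (mem_closedBall_Sh (summable_step he d) z w))

omit L hd hr hb in
lemma norm_shift (w : ℕ → ℝ) : ‖z + Sh (step d e) w - z‖ ≤ |d| * rad e := by
  rw [add_sub_cancel_left]
  exact (norm_Sh_le (summable_step he d) w).trans (rad_step_le he d)

lemma symm_test (φ : Y →L[ℝ] ℝ) (i j : ℕ) :
    dAv e d i (fun y => φ (dG f y (e j))) z = dAv e d j (fun y => φ (dG f y (e i))) z := by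
  have key : ∀ i j, i ≠ j →
      dAv e d i (fun y => φ (dG f y (e j))) z = ddAv e d i j (fun y => φ (f.G y)) z := by
    intro i j hij
    refine dAv_lineDeriv he hd hij hr (fun y hy => ?_) (K := ‖φ‖ * (3 * ‖e j‖)) (fun y hy => ?_)
      ((φ.continuous.comp f.continuous_G).continuousOn)
      ((L.lip_test φ (e j)).continuousOn.mono hb)
    · exact ((φ.hasFDerivAt).comp y (hasFDerivAt_G f (L.smooth y (hb hy)))).hasLineDerivAt (e j)
    · exact (φ.le_opNorm _).trans (mul_le_mul_of_nonneg_left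
        (norm_dG_le f (L.smooth y (hb hy)) _) (norm_nonneg φ))
  rcases eq_or_ne i j with rfl | hij
  · rfl
  · rw [key i j hij, key j i hij.symm, ddAv_comm]

omit [CompleteSpace Y] in
lemma symm_dNorm (i j : ℕ) :
    dAv e d i (fun y => dNorm y (e j)) z = dAv e d j (fun y => dNorm y (e i)) z := by
  have key : ∀ i j, i ≠ j →
      dAv e d i (fun y => dNorm y (e j)) z = ddAv e d i j (fun y => ‖y‖) z := by
    intro i j hij
    refine dAv_lineDeriv he hd hij hr (fun y hy => ?_) (K := ‖e j‖) (fun y hy => ?_)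
      continuous_norm.continuousOn ((L.lip_dNorm (e j)).continuousOn.mono hb)
    · exact (L.smooth y (hb hy)).hasFDerivAt_norm.hasLineDerivAt (e j)
    · exact abs_le.2 ⟨(L.smooth y (hb hy)).supp.ge _, (L.smooth y (hb hy)).supp.le _⟩
  rcases eq_or_ne i j with rfl | hij
  · rfl
  · rw [key i j hij, key j i hij.symm, ddAv_comm]

omit [CompleteSpace Y] in
lemma combo_bound (φ : Y →L[ℝ] ℝ) (b : X) (c : ℕ → ℝ) (S : Finset ℕ) :
    |∑ i ∈ S, c i * dAv e d i (fun y => φ (dG f y b)) z| ≤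
      C * ‖φ‖ * ‖b‖ * ‖∑ i ∈ S, c i • e i‖ := by
  have h := abs_combo_le he hd ((L.lip_test φ b).mono hb) hr c S
  rwa [Real.coe_toNNReal _ (by have := L.nonneg; positivity)] at h

lemma radial_bound (φ : Y →L[ℝ] ℝ) (i : ℕ) :
    |dAv e d i (fun y => φ (dG f y z)) z| ≤
      (C * ‖φ‖ * ‖e i‖ + 2 * C * ‖φ‖ * rad e / (1 / 2 : ℝ) ^ i) * (|d| * rad e) := by
  have hC := L.nonneg
  have hr0 : 0 ≤ r := le_trans (mul_nonneg (abs_nonneg d) (rad_nonneg e)) hr.le
  have hz : z ∈ ball z₀ R := hb (mem_closedBall_self hr0)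
  have hsub : closedBall z (|d| * rad e) ⊆ ball z₀ R :=
    (closedBall_subset_closedBall hr.le).trans hb
  have hLc : ContinuousOn (fun y => dG f y) (ball z₀ R) := fun y hy =>
    (continuousAt_dG f (L.smooth y hy)).continuousWithinAt
  have e1 : EqOn (fun y => φ (dG f y z))
      (fun y => (φ (f.G y) - φ (dG f z (y - z))) - φ ((dG f y - dG f z) (y - z)))
      (closedBall z (|d| * rad e)) := fun y hy => by
    simp only [← map_sub φ, sub_apply]
    congr 1
    rw [← dG_self f (L.smooth y (hsub hy))]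
    simp only [map_sub]
    abel
  have hG : Continuous fun y => φ (f.G y) := φ.continuous.comp f.continuous_G
  have hA : Continuous fun y => φ (dG f z (y - z)) := by fun_prop
  have hH : ContinuousOn (fun y => φ ((dG f y - dG f z) (y - z)))
      (closedBall z (|d| * rad e)) :=
    φ.continuous.comp_continuousOn
      (((hLc.mono hsub).sub continuousOn_const).clm_apply (by fun_prop))
  rw [dAv_congr he e1, dAv_sub he
    (show ContinuousOn (fun y => φ (f.G y) - φ (dG f z (y - z))) _ from (hG.sub hA).continuousOn) hH,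
    dAv_sub he hG.continuousOn hA.continuousOn]
  have h2 : dAv e d i (fun y => φ (dG f z (y - z))) z = φ (dG f z (e i)) :=
    dAv_affine he hd i hr 0 (φ.comp (dG f z)) fun y _ => by simp
  have h3 := norm_dAv_le he (d := d) (i := i)
    (h := fun y => φ ((dG f y - dG f z) (y - z))) (z := z)
    (M := ‖φ‖ * (C * (|d| * rad e)) * (|d| * rad e))
    (by have := rad_nonneg e; positivity) fun y hy => by
      rw [mul_assoc]
      refine (φ.le_opNorm _).trans (mul_le_mul_of_nonneg_left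
        (((dG f y - dG f z).le_opNorm _).trans ?_) (norm_nonneg φ))
      have hy' : ‖y - z‖ ≤ |d| * rad e := by rwa [mem_closedBall_iff_norm] at hy
      exact mul_le_mul ((L.lipG z hz y (hsub hy)).trans (mul_le_mul_of_nonneg_left hy' hC)) hy'
        (norm_nonneg _) (mul_nonneg hC (mul_nonneg (abs_nonneg d) (rad_nonneg e)))
  have hlipG : LipschitzOnWith (‖φ‖ * 3).toNNReal (fun y => φ (f.G y)) (closedBall z r) :=
    LipschitzOnWith.of_dist_le' fun y _ y' _ => by
      rw [Real.dist_eq, dist_eq_norm, ← map_sub, ← Real.norm_eq_abs, mul_assoc]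
      exact (φ.le_opNorm _).trans
        (mul_le_mul_of_nonneg_left (f.norm_G_sub_le y y') (norm_nonneg φ))
  have hw : ∀ w, z + Sh (step d e) w ∈ ball z₀ R := mem_ball_shift he hr hb
  have hcont : Continuous fun w => φ (dG f (z + Sh (step d e) w) (e i)) := by
    have := continuous_Sh (summable_step he d)
    exact φ.continuous.comp
      ((hLc.comp_continuous (by fun_prop) hw).clm_apply continuous_const)
  have hint : Integrable (fun w => φ (dG f (z + Sh (step d e) w) (e i))) Average.P :=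
    Integrable.of_bound hcont.aestronglyMeasurable (‖φ‖ * (3 * ‖e i‖)) (ae_of_all _ fun w =>
      (φ.le_opNorm _).trans (mul_le_mul_of_nonneg_left (norm_dG_le f (L.smooth _ (hw w)) _)
        (norm_nonneg φ)))
  have h1 : dAv e d i (fun y => φ (f.G y)) z =
      ∫ w, φ (dG f (z + Sh (step d e) w) (e i)) ∂Average.P :=
    dAv_eq_integral he hd hlipG hr i hint (ae_of_all _ fun w =>
      ((φ.hasFDerivAt).comp _ (hasFDerivAt_G f (L.smooth _ (hw w)))).hasLineDerivAt (e i))
  have h4 : |dAv e d i (fun y => φ (f.G y)) z - φ (dG f z (e i))| ≤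
      C * ‖φ‖ * ‖e i‖ * (|d| * rad e) := by
    rw [h1, show φ (dG f z (e i)) = ∫ _w, φ (dG f z (e i)) ∂Average.P by simp,
      ← integral_sub hint (integrable_const _), ← Real.norm_eq_abs]
    refine (norm_integral_le_of_norm_le_const (ae_of_all _ fun w => ?_)).trans_eq
      (by rw [probReal_univ, mul_one])
    have h := (L.lip_test φ (e i)).dist_le_mul _ (hw w) z hz
    rw [dist_eq_norm, dist_eq_norm, Real.coe_toNNReal _ (by positivity)] at h
    exact h.trans (mul_le_mul_of_nonneg_left (norm_shift he (d := d) w) (by positivity))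
  rw [h2]
  refine (abs_sub _ _).trans ?_
  rw [← Real.norm_eq_abs (dAv e d i _ z)]
  refine (add_le_add h4 h3).trans_eq ?_
  have hd' : |d| ≠ 0 := abs_ne_zero.2 hd
  field_simp

lemma t3_bound (hg : ∀ᵐ w ∂Average.P, GoodPt (z + Sh (step d e) w)) (i : ℕ) (b : X) :
    |dAv e d i (fun y => dNorm (f.G z) (dG f y b)) z| ≤
      C ^ 2 * ‖e i‖ * ‖b‖ * (|d| * rad e) := by
  have hC := L.nonneg
  have hr0 : 0 ≤ r := le_trans (mul_nonneg (abs_nonneg d) (rad_nonneg e)) hr.le
  have hz : z ∈ ball z₀ R := hb (mem_closedBall_self hr0)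
  have key : ∀ σ : ℝ, |σ| = 1 → σ * dAv e d i (fun y => dNorm (f.G z) (dG f y b)) z ≤
      C ^ 2 * ‖e i‖ * ‖b‖ * (|d| * rad e) := by
    intro σ hσ
    have h := combo_le he hd ((L.lip_test (dNorm (f.G z)) b).mono hb) hr (fun _ => σ) {i}
      (integrable_const (C ^ 2 * ‖e i‖ * ‖b‖ * (|d| * rad e))) ?_
    · simpa using h
    filter_upwards [hg] with w hw ε hε
    set y := z + Sh (step d e) w with hy
    have hy0 : y ∈ ball z₀ R := mem_ball_shift he hr hb w
    obtain ⟨Q, hQ, hQs⟩ := hw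
    have h3 := ((hasDerivAt_iff_tendsto_slope.1 (t3_smooth f (L.smooth y hy0) hQ hQs
      (σ • e i) b)).mono_left (nhdsWithin_mono _ (show Ioi (0 : ℝ) ⊆ {0}ᶜ from
        fun t ht => ne_of_gt ht))).eventually (eventually_le_nhds hε)
    have hc : Tendsto (fun t : ℝ => y + t • σ • e i) (𝓝 0) (𝓝 y) :=
      Continuous.tendsto' (by fun_prop) 0 y (by simp)
    filter_upwards [h3, self_mem_nhdsWithin, nhdsWithin_le_nhds
      (hc.eventually (isOpen_ball.mem_nhds hy0))] with t ht (ht0 : 0 < t) hin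
    rw [slope_def_field, sub_zero, zero_smul, add_zero, div_le_iff₀ ht0] at ht
    simp only [Finset.sum_singleton]
    rw [← map_sub]
    set Δ := dG f (y + t • σ • e i) b - dG f y b
    have e1 : dNorm (f.G z) Δ = dNorm (f.G y) Δ + (dNorm (f.G z) - dNorm (f.G y)) Δ := by
      rw [sub_apply]; ring
    have h4 := (le_abs_self _).trans ((dNorm (f.G z) - dNorm (f.G y)).le_opNorm Δ)
    have h5 : ‖Δ‖ ≤ C * (t * ‖e i‖) * ‖b‖ := by
      refine ((dG f (y + t • σ • e i) - dG f y).le_opNorm b).trans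
        (mul_le_mul_of_nonneg_right ((L.lipG y hy0 _ hin).trans_eq ?_) (norm_nonneg b))
      rw [add_sub_cancel_left, norm_smul, norm_smul, Real.norm_of_nonneg ht0.le, Real.norm_eq_abs,
        hσ, one_mul]
    have h6 : ‖dNorm (f.G z) - dNorm (f.G y)‖ ≤ C * (|d| * rad e) := by
      refine (L.lipY y hy0 z hz).trans (mul_le_mul_of_nonneg_left ?_ hC)
      rw [norm_sub_rev]
      exact norm_shift he (d := d) w
    have h7 := mul_le_mul h6 h5 (norm_nonneg _)
      (mul_nonneg hC (mul_nonneg (abs_nonneg d) (rad_nonneg e)))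
    have e2 : dNorm (f.G y) Δ = dNorm (f.G y) (dG f (y + t • σ • e i) b) -
        dNorm (f.G y) (dG f y b) := map_sub _ _ _
    rw [e1]
    linarith
  have h1 := key 1 abs_one
  have h2 := key (-1) (by simp)
  rw [abs_le]
  constructor <;> linarith

omit [CompleteSpace Y] in
lemma ident_bound (hg : ∀ᵐ w ∂Average.P, GoodPt (z + Sh (step d e) w)) [MeasurableSpace X]
    [BorelSpace X] {Qz : X →L[ℝ] X →L[ℝ] ℝ} (hQz : GatDiff z Qz) {ξ : X} {β : Y →L[ℝ] ℝ}
    {r' K : ℝ} (hK : 0 ≤ K) (hI : ∀ y, ‖y - z‖ < r' → ∀ Q : X →L[ℝ] X →L[ℝ] ℝ, GatDiff y Q →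
      (∀ a b, Q a b = Q b a) → ∀ (η : X) (ε : ℝ), 0 < ε → ∀ᶠ t in 𝓝[>] (0 : ℝ),
        β (dG f (y + t • η) ξ - dG f y ξ) ≤
          t * (2 * |Q η ξ| + K * Real.sqrt ‖y - z‖ * ‖η‖ + ε))
    (hr' : |d| * rad e < r') (c : ℕ → ℝ) (S : Finset ℕ) (c' : ℕ → ℝ) (S' : Finset ℕ) :
    ∑ i ∈ S, c i * dAv e d i (fun y => β (dG f y ξ)) z ≤
      2 * |Qz (∑ i ∈ S, c i • e i) ξ| +
      2 * ∑ i ∈ S, ∑ j ∈ S', |c i| * |c' j| * Av (step d e)
        (fun y => |qm (C * ‖e i‖ * ‖e j‖) (e i) (e j) y -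
          qm (C * ‖e i‖ * ‖e j‖) (e i) (e j) z|) z +
      4 * C * ‖∑ i ∈ S, c i • e i‖ * ‖ξ - ∑ j ∈ S', c' j • e j‖ +
      K * Real.sqrt (|d| * rad e) * ‖∑ i ∈ S, c i • e i‖ := by
  have hC := L.nonneg
  have hr0 : 0 ≤ r := le_trans (mul_nonneg (abs_nonneg d) (rad_nonneg e)) hr.le
  have hz : z ∈ ball z₀ R := hb (mem_closedBall_self hr0)
  set v := ∑ i ∈ S, c i • e i with hv
  set ξ' := ∑ j ∈ S', c' j • e j with hξ'
  set q : ℕ → ℕ → X → ℝ := fun i j y => |qm (C * ‖e i‖ * ‖e j‖) (e i) (e j) y -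
    qm (C * ‖e i‖ * ‖e j‖) (e i) (e j) z| with hq
  have hqi : ∀ i j, Integrable (fun w => q i j (z + Sh (step d e) w)) Average.P := fun i j => by
    have hS := continuous_Sh (summable_step he d)
    refine Integrable.of_bound (((measurable_qm _ _ _).sub_const _).abs.comp
      (by fun_prop : Continuous fun w => z + Sh (step d e) w).measurable).aestronglyMeasurable
      (2 * (C * ‖e i‖ * ‖e j‖)) (ae_of_all _ fun w => ?_)
    rw [Real.norm_eq_abs, hq, abs_abs]
    refine (abs_sub _ _).trans ?_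
    linarith [abs_qm_le (show 0 ≤ C * ‖e i‖ * ‖e j‖ by positivity) (e i) (e j)
      (z + Sh (step d e) w), abs_qm_le (show 0 ≤ C * ‖e i‖ * ‖e j‖ by positivity) (e i) (e j) z]
  have hsum : Integrable (fun w => ∑ i ∈ S, ∑ j ∈ S', |c i| * |c' j| *
      q i j (z + Sh (step d e) w)) Average.P :=
    integrable_finsetSum _ fun i _ => integrable_finsetSum _ fun j _ => (hqi i j).const_mul _
  set κ := 2 * |Qz v ξ| + 4 * C * ‖v‖ * ‖ξ - ξ'‖ + K * Real.sqrt (|d| * rad e) * ‖v‖ with hκ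
  set s : (ℕ → ℝ) → ℝ := fun w =>
    ∑ i ∈ S, ∑ j ∈ S', |c i| * |c' j| * q i j (z + Sh (step d e) w) with hs
  refine (combo_le he hd ((L.lip_test β ξ).mono hb) hr c S
    (B := fun w => κ + 2 * s w) ((integrable_const κ).add (hsum.const_mul 2)) ?_).trans_eq ?_
  · filter_upwards [hg] with w hw ε hε
    set y := z + Sh (step d e) w with hy
    have hy0 : y ∈ ball z₀ R := mem_ball_shift he hr hb w
    obtain ⟨Q, hQ, hQs⟩ := hw
    have hyz : ‖y - z‖ ≤ |d| * rad e := norm_shift he (d := d) w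
    have h1 := hI y (hyz.trans_lt hr') Q hQ hQs v ε hε
    have e1 : ∀ (Q : X →L[ℝ] X →L[ℝ] ℝ), Q v ξ' =
        ∑ i ∈ S, ∑ j ∈ S', c i * (c' j * Q (e i) (e j)) := fun Q => by
      rw [hv, hξ']
      simp only [map_sum, map_smul, sum_apply, smul_apply, smul_eq_mul, Finset.mul_sum]
      rw [Finset.sum_comm]
      exact Finset.sum_congr rfl fun i _ => Finset.sum_congr rfl fun j _ => by ring
    have hdiff : |Q v ξ' - Qz v ξ'| ≤ s w := by
      rw [hs, e1, e1, ← Finset.sum_sub_distrib]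
      refine (Finset.abs_sum_le_sum_abs _ _).trans (Finset.sum_le_sum fun i _ => ?_)
      rw [← Finset.sum_sub_distrib]
      refine (Finset.abs_sum_le_sum_abs _ _).trans (Finset.sum_le_sum fun j _ => ?_)
      simp only [hq, ← hy]
      rw [qm_eq hQ (L.gat_abs_le hy0 hQ _ _), qm_eq hQz (L.gat_abs_le hz hQz _ _), ← mul_sub,
        ← mul_sub, abs_mul, abs_mul]
      exact le_of_eq (by ring)
    have hQv : |Q v ξ| ≤ |Qz v ξ| + 2 * C * ‖v‖ * ‖ξ - ξ'‖ + s w := by
      have a := L.gat_abs_le hy0 hQ v (ξ - ξ')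
      have b := L.gat_abs_le hz hQz v (ξ - ξ')
      rw [map_sub] at a b
      linarith [abs_sub_abs_le_abs_sub (Q v ξ) (Q v ξ'), abs_sub_abs_le_abs_sub (Qz v ξ') (Qz v ξ),
        abs_sub_abs_le_abs_sub (Q v ξ') (Qz v ξ'), abs_sub_comm (Qz v ξ') (Qz v ξ)]
    have hsq : K * Real.sqrt ‖y - z‖ * ‖v‖ ≤ K * Real.sqrt (|d| * rad e) * ‖v‖ :=
      mul_le_mul_of_nonneg_right (mul_le_mul_of_nonneg_left (Real.sqrt_le_sqrt hyz) hK)
        (norm_nonneg v)
    filter_upwards [h1, self_mem_nhdsWithin] with t ht (ht0 : 0 < t)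
    rw [map_sub] at ht
    refine ht.trans (mul_le_mul_of_nonneg_left ?_ ht0.le)
    linarith
  · rw [integral_add (integrable_const κ) (hsum.const_mul 2), integral_const, probReal_univ,
      one_smul, integral_const_mul, hs,
      integral_finsetSum _ fun i _ => integrable_finsetSum _ fun j _ => (hqi i j).const_mul _]
    have e2 : ∀ i ∈ S, ∫ w, ∑ j ∈ S', |c i| * |c' j| * q i j (z + Sh (step d e) w) ∂Average.P =
        ∑ j ∈ S', |c i| * |c' j| * Av (step d e) (q i j) z := fun i _ => by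
      rw [integral_finsetSum _ fun j _ => (hqi i j).const_mul _]
      exact Finset.sum_congr rfl fun j _ => integral_const_mul _ _
    rw [Finset.sum_congr rfl e2, hκ]
    ring

end LocalReg

end Vale.Agent.P084.Full
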