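import Vale.Agent.P084.Full.GatAe
import Vale.Agent.P084.Full.Approx

/-!
P084 (Tingley's problem), library for the general case: the averaged second derivatives at a point
along selected scales form approximate second derivatives, and their limits are the classical
derivatives.
-/

namespace Vale.Agent.P084.Full

open MeasureTheory Filter Topology Metric Set Orbit Average
open scoped NNReal

variable {X Y : Type*} [NormedAddCommGroup X] [NormedSpace ℝ X] [NormedAddCommGroup Y]
  [NormedSpace ℝ Y]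

/-- A bounded measurable version of a derivative along `a`. -/
noncomputable def sm (g : X → ℝ) (M : ℝ) (a y : X) : ℝ :=
  max (-M) (min M (limsup (fun n : ℕ =>
    ((n : ℝ) + 1) * (g (y + ((n : ℝ) + 1)⁻¹ • a) - g y)) atTop))

lemma abs_sm_le {M : ℝ} (hM : 0 ≤ M) (g : X → ℝ) (a y : X) : |sm g M a y| ≤ M :=
  abs_le.2 ⟨le_max_left _ _, max_le (by linarith) (min_le_left _ _)⟩

lemma measurable_sm [MeasurableSpace X] [BorelSpace X] {g : X → ℝ} (hg : Measurable g) (M : ℝ)
    (a : X) : Measurable (sm g M a) :=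
  measurable_const.max (measurable_const.min (Measurable.limsup fun _ =>
    ((hg.comp (measurable_id.add_const _)).sub hg).const_mul _))

lemma sm_eq {g : X → ℝ} {M v : ℝ} {a y : X} (hg : HasLineDerivAt ℝ g v y a) (hv : |v| ≤ M) :
    sm g M a y = v := by
  have ht : Tendsto (fun n : ℕ => ((n : ℝ) + 1)⁻¹) atTop (𝓝[≠] 0) := by
    refine tendsto_nhdsWithin_iff.2 ⟨?_, Eventually.of_forall fun n => ?_⟩
    · simpa [one_div] using tendsto_one_div_add_atTop_nhds_zero_nat (𝕜 := ℝ)
    · exact inv_ne_zero (by positivity : (n : ℝ) + 1 ≠ 0)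
  have h := hg.tendsto_slope_zero.comp ht
  have h' : Tendsto (fun n : ℕ =>
      ((n : ℝ) + 1) * (g (y + ((n : ℝ) + 1)⁻¹ • a) - g y)) atTop (𝓝 v) := by
    refine h.congr fun n => ?_
    simp
  rw [sm, h'.limsup_eq, min_eq_right (abs_le.1 hv).2, max_eq_right (abs_le.1 hv).1]

variable [CompleteSpace X] [CompleteSpace Y]

/-- The averaged second derivatives of the extension over the selected scales. -/
noncomputable def avgT (f : PIso X Y) (e : ℕ → X) (d : ℕ → ℝ) (s : ℕ → Finset ℕ) (z : X)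
    (n i : ℕ) (b : X) (φ : Y →L[ℝ] ℝ) : ℝ :=
  avg (s n) fun k => dAv e (d k) i (fun y => φ (dG f y b)) z

/-- Eventual properties of the scales hold on the later blocks. -/
lemma eventually_block {s : ℕ → Finset ℕ} (hs : ∀ n, (s n).Nonempty ∧ ∀ k ∈ s n, n ≤ k)
    {p : ℕ → Prop} (hp : ∀ᶠ k in atTop, p k) : ∀ᶠ n in atTop, ∀ k ∈ s n, p k := by
  obtain ⟨N, hN⟩ := eventually_atTop.1 hp
  exact eventually_atTop.2 ⟨N, fun n hn k hk => hN k (hn.trans ((hs n).2 k hk))⟩

/-- Averages of eventually bounded terms are eventually bounded. -/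
lemma eventually_avg_le {s : ℕ → Finset ℕ} (hs : ∀ n, (s n).Nonempty ∧ ∀ k ∈ s n, n ≤ k)
    {u : ℕ → ℝ} {B : ℝ} (hu : ∀ᶠ k in atTop, u k ≤ B) : ∀ᶠ n in atTop, avg (s n) u ≤ B := by
  filter_upwards [eventually_block hs hu] with n hn
  rw [avg, smul_eq_mul, inv_mul_le_iff₀ (by exact_mod_cast (hs n).1.card_pos)]
  exact (Finset.sum_le_card_nsmul _ _ _ hn).trans_eq (nsmul_eq_mul _ _)

namespace LocalReg

variable {f : PIso X Y} {z₀ : X} {R C : ℝ} {e : ℕ → X} {d : ℕ → ℝ} {s : ℕ → Finset ℕ}

/-- **Approximate second derivatives at a selected point.** -/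
theorem exists_approx [MeasurableSpace X] [BorelSpace X] (L : LocalReg f z₀ R C)
    (he : Summable fun i => ‖e i‖) (hd : Dense (Submodule.span ℝ (range e) : Set X))
    (hdpos : ∀ k, 0 < d k) (hd0 : Tendsto d atTop (𝓝 0))
    (hs : ∀ n, (s n).Nonempty ∧ ∀ k ∈ s n, n ≤ k) {z : X} (hzB : z ∈ ball z₀ R)
    {Q : X →L[ℝ] X →L[ℝ] ℝ} (hQ : GatDiff z Q)
    (hker : ∀ k, ∀ᵐ w ∂Average.P, Smooth (z + Sh (step (d k) e) w) →
      GoodPt (z + Sh (step (d k) e) w))
    (hosc : ∀ i j, Tendsto (fun k => Av (step (d k) e)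
      (fun y => |qm (C * ‖e i‖ * ‖e j‖) (e i) (e j) y -
        qm (C * ‖e i‖ * ‖e j‖) (e i) (e j) z|) z) atTop (𝓝 0))
    (htot : ∀ i j (c : X), Tendsto (fun n => avg (s n) fun k =>
      dAv e (d k) j (fun y => formFun f z Q (e i) (dG f y c)) z -
        dAv e (d k) i (fun y => formFun f z Q (e j) (dG f y c)) z) atTop (𝓝 0)) :
    ∃ A : Approx f e z Q, A.T = avgT f e d s z := by
  obtain ⟨r, hr, hb⟩ := Metric.nhds_basis_closedBall.mem_iff.1 (isOpen_ball.mem_nhds hzB)
  have hC := L.nonneg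
  have hrad := rad_nonneg e
  have hdr : Tendsto (fun k => |d k| * rad e) atTop (𝓝 0) := by
    simpa using hd0.abs.mul_const (rad e)
  have hsmall : ∀ᶠ k in atTop, |d k| * rad e < r := hdr.eventually (eventually_lt_nhds hr)
  have hgood : ∀ᶠ k in atTop, ∀ᵐ w ∂Average.P, GoodPt (z + Sh (step (d k) e) w) := by
    filter_upwards [hsmall] with k hk
    filter_upwards [hker k] with w hw
    exact hw (L.smooth _ (mem_ball_shift he hk hb w))
  have hcont : ∀ (φ : Y →L[ℝ] ℝ) (b : X) (k : ℕ), |d k| * rad e < r →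
      ContinuousOn (fun y => φ (dG f y b)) (closedBall z (|d k| * rad e)) := fun φ b k hk =>
    (L.lip_test φ b).continuousOn.mono ((closedBall_subset_closedBall hk.le).trans hb)
  have hzero : ∀ {u : ℕ → ℝ}, (∀ᶠ k in atTop, u k = 0) →
      Tendsto (fun n => avg (s n) u) atTop (𝓝 0) := fun hu =>
    avg_tendsto hs (tendsto_const_nhds.congr' (hu.mono fun k hk => hk.symm))
  have hsq : ∀ {u : ℕ → ℝ} (B : ℝ), (∀ᶠ k in atTop, |u k| ≤ B * (|d k| * rad e)) →
      Tendsto (fun n => avg (s n) u) atTop (𝓝 0) := fun B hu =>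
    avg_tendsto hs (squeeze_zero_norm' hu (by simpa using hdr.const_mul B))
  refine ⟨⟨avgT f e d s z, ?_, ?_, ?_, ?_, ?_, ?_, ?_, ?_⟩, rfl⟩
  · intro i φ a b t
    have h := hzero (u := fun k => dAv e (d k) i (fun y => φ (dG f y (a + t • b))) z -
        dAv e (d k) i (fun y => φ (dG f y a)) z - t * dAv e (d k) i (fun y => φ (dG f y b)) z) ?_
    · refine h.congr fun n => ?_
      simp only [avgT, ← smul_eq_mul, avg_sub, avg_smul]
    filter_upwards [hsmall] with k hk
    simp only [map_add, map_smul]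
    rw [dAv_add he (hcont φ a k hk) (show ContinuousOn (fun y => t • φ (dG f y b)) _ from
      (hcont φ b k hk).const_smul t), dAv_smul, smul_eq_mul]
    ring
  · intro i b φ ψ t
    have h := hzero (u := fun k => dAv e (d k) i (fun y => (φ + t • ψ) (dG f y b)) z -
        dAv e (d k) i (fun y => φ (dG f y b)) z - t * dAv e (d k) i (fun y => ψ (dG f y b)) z) ?_
    · refine h.congr fun n => ?_
      simp only [avgT, ← smul_eq_mul, avg_sub, avg_smul]
    filter_upwards [hsmall] with k hk
    simp only [add_apply, smul_apply]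
    rw [dAv_add he (hcont φ b k hk) (show ContinuousOn (fun y => t • ψ (dG f y b)) _ from
      (hcont ψ b k hk).const_smul t), dAv_smul, smul_eq_mul]
    ring
  · refine ⟨C, fun c b φ ε hε => ?_⟩
    filter_upwards [eventually_block hs hsmall] with n hn
    have e1 : ∑ i ∈ c.support, c i * avgT f e d s z n i b φ = avg (s n) fun k =>
        ∑ i ∈ c.support, c i * dAv e (d k) i (fun y => φ (dG f y b)) z := by
      simp only [avgT, avg, smul_eq_mul, Finset.mul_sum]
      rw [Finset.sum_comm]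
      exact Finset.sum_congr rfl fun i _ => Finset.sum_congr rfl fun j _ => by ring
    rw [e1, ← Real.norm_eq_abs]
    refine (norm_avg_le (hs n).1 fun k hk => ?_).trans (le_add_of_nonneg_right hε.le)
    rw [Real.norm_eq_abs]
    exact (L.combo_bound he (hdpos k).ne' (hn k hk) hb φ b (fun i => c i) c.support).trans_eq
      (by ring)
  · intro i j φ
    have h := hzero (u := fun k => dAv e (d k) i (fun y => φ (dG f y (e j))) z -
        dAv e (d k) j (fun y => φ (dG f y (e i))) z) ?_
    · exact h.congr fun n => avg_sub _ _ _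
    filter_upwards [hsmall] with k hk
    exact sub_eq_zero.2 (L.symm_test he (hdpos k).ne' hk hb φ i j)
  · intro i φ
    refine hsq (C * ‖φ‖ * ‖e i‖ + 2 * C * ‖φ‖ * rad e / (1 / 2 : ℝ) ^ i) ?_
    filter_upwards [hsmall] with k hk
    exact L.radial_bound he (hdpos k).ne' hk hb φ i
  · intro i b
    refine hsq (C ^ 2 * ‖e i‖ * ‖b‖) ?_
    filter_upwards [hsmall, hgood] with k hk hg
    exact L.t3_bound he (hdpos k).ne' hk hb hg i b
  · intro i j c
    exact (htot i j c).congr fun n => avg_sub _ _ _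
  · intro ξ β hξ hβ1 hβ c ε hε
    obtain ⟨r', K, hr', hK, hI⟩ := ident_pointwise f (L.smooth z hzB) hξ hβ1 hβ
    set v := ∑ i ∈ c.support, c i • e i with hv
    obtain ⟨ξ', hξ', hclose⟩ := Metric.mem_closure_iff.1 (hd ξ)
      (ε / 2 / (4 * C * ‖v‖ + 1)) (by positivity)
    obtain ⟨c', rfl⟩ := Finsupp.mem_span_range_iff_exists_finsupp.1 hξ'
    rw [dist_eq_norm, lt_div_iff₀ (by positivity)] at hclose
    have hlim : Tendsto (fun k => 2 * ∑ i ∈ c.support, ∑ j ∈ c'.support, |c i| * |c' j| *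
        Av (step (d k) e) (fun y => |qm (C * ‖e i‖ * ‖e j‖) (e i) (e j) y -
          qm (C * ‖e i‖ * ‖e j‖) (e i) (e j) z|) z +
        K * Real.sqrt (|d k| * rad e) * ‖v‖) atTop (𝓝 0) := by
      simpa using ((tendsto_finsetSum c.support fun i _ => tendsto_finsetSum c'.support fun j _ =>
        (hosc i j).const_mul (|c i| * |c' j|)).const_mul 2).add
          ((hdr.sqrt.const_mul K).mul_const ‖v‖)
    have hev : ∀ᶠ k in atTop, ∑ i ∈ c.support, c i * dAv e (d k) i (fun y => β (dG f y ξ)) z ≤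
        2 * |Q v ξ| + ε := by
      filter_upwards [hsmall, hgood, hdr.eventually (eventually_lt_nhds hr'),
        hlim.eventually (eventually_le_nhds (half_pos hε))] with k hk hg hk' hl
      have h := L.ident_bound he (hdpos k).ne' hk hb hg hQ hK hI hk' (fun i => c i) c.support
        (fun j => c' j) c'.support
      rw [← hv] at h
      have h4 : 4 * C * ‖v‖ * ‖ξ - ∑ j ∈ c'.support, c' j • e j‖ ≤ ε / 2 := by
        have e2 : ∑ j ∈ c'.support, c' j • e j = c'.sum fun i a => a • e i := rfl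
        rw [e2]
        nlinarith [norm_nonneg (ξ - c'.sum fun i a => a • e i)]
      linarith
    filter_upwards [eventually_avg_le hs hev] with n hn
    refine le_trans (le_of_eq ?_) hn
    simp only [avgT, avg, smul_eq_mul, Finset.mul_sum]
    rw [Finset.sum_comm]
    exact Finset.sum_congr rfl fun i _ => Finset.sum_congr rfl fun j _ => by ring

variable [MeasurableSpace X] [BorelSpace X]

omit [CompleteSpace Y] in
/-- The averaged derivative along good scales tends to the classical derivative. -/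
theorem tendsto_avgT (L : LocalReg f z₀ R C) (he : Summable fun i => ‖e i‖)
    (hdpos : ∀ k, 0 < d k) (hd0 : Tendsto d atTop (𝓝 0))
    (hs : ∀ n, (s n).Nonempty ∧ ∀ k ∈ s n, n ≤ k) {z : X} (hzB : z ∈ ball z₀ R)
    (φ : Y →L[ℝ] ℝ) (i : ℕ) (b : X) (hm : Measurable fun y => φ (dG f y b)) {l : ℝ}
    (hl : HasLineDerivAt ℝ (fun y => φ (dG f y b)) l z (e i))
    (hker : ∀ k, ∀ᵐ w ∂Average.P, z + Sh (step (d k) e) w ∈ ball z₀ R →
      LineDifferentiableAt ℝ (fun y => φ (dG f y b)) (z + Sh (step (d k) e) w) (e i))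
    (hosc : Tendsto (fun k => Av (step (d k) e)
      (fun y => |sm (fun y => φ (dG f y b)) (C * ‖φ‖ * ‖b‖ * ‖e i‖) (e i) y -
        sm (fun y => φ (dG f y b)) (C * ‖φ‖ * ‖b‖ * ‖e i‖) (e i) z|) z) atTop (𝓝 0))
    [SecondCountableTopology X] :
    Tendsto (fun n => avgT f e d s z n i b φ) atTop (𝓝 l) := by
  obtain ⟨r, hr, hb⟩ := Metric.nhds_basis_closedBall.mem_iff.1 (isOpen_ball.mem_nhds hzB)
  have hC := L.nonneg
  set g := fun y => φ (dG f y b) with hg
  set M := C * ‖φ‖ * ‖b‖ * ‖e i‖ with hM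
  have hM0 : 0 ≤ M := by positivity
  have hval : ∀ y ∈ ball z₀ R, ∀ v, HasLineDerivAt ℝ g v y (e i) → sm g M (e i) y = v := by
    intro y hy v hv
    refine sm_eq hv ?_
    have h := norm_lineDeriv_le_of_lipschitzOn ℝ (isOpen_ball.mem_nhds hy) (L.lip_test φ b)
      (v := e i)
    rwa [hv.lineDeriv, Real.norm_eq_abs, Real.coe_toNNReal _ (by positivity)] at h
  have h1 := tendsto_Av_of_osc he (measurable_sm hm M (e i)) (abs_sm_le hM0 g (e i)) hosc
  rw [hval z hzB l hl] at h1
  refine avg_tendsto hs (h1.congr' ?_)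
  have hdr : Tendsto (fun k => |d k| * rad e) atTop (𝓝 0) := by
    simpa using hd0.abs.mul_const (rad e)
  filter_upwards [hdr.eventually (eventually_lt_nhds hr)] with k hk
  have hS := continuous_Sh (summable_step he (d k))
  refine (dAv_eq_integral he (hdpos k).ne' ((L.lip_test φ b).mono hb) hk i ?_ ?_).symm
  · refine Integrable.of_bound ((measurable_sm hm M (e i)).comp (by fun_prop : Continuous fun w =>
      z + Sh (step (d k) e) w).measurable).aestronglyMeasurable M (ae_of_all _ fun w => ?_)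
    rw [Real.norm_eq_abs]
    exact abs_sm_le hM0 g _ _
  · filter_upwards [hker k] with w hw
    have hy := mem_ball_shift he hk hb w
    have hv := (hw hy).hasLineDerivAt
    rw [hval _ hy _ hv]
    exact hv

end LocalReg

end Vale.Agent.P084.Full
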