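import Vale.Agent.P084.Full.Defs
import Vale.Agent.P084.Full.Curve
import Vale.Agent.P084.Full.Involution

/-!
P084 (Tingley's problem), library for the general case: at a point where the derivative of the
norm is Gateaux differentiable, the second derivative of the homogeneous extension has no radial
component. The proof compares the extension at the antipodal pair `z`, `-z`.
-/

namespace Vale.Agent.P084.Full

open Filter Topology Orbit Orbit.PIso

variable {X Y : Type*} [NormedAddCommGroup X] [NormedSpace ℝ X] [NormedAddCommGroup Y]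
  [NormedSpace ℝ Y]

/-- The derivative of the norm is Gateaux differentiable at `z`, with derivative `Q`. -/
def GatDiff (z : X) (Q : X →L[ℝ] X →L[ℝ] ℝ) : Prop :=
  ∀ a c, HasLineDerivAt ℝ (fun u => fderiv ℝ (fun v : X => ‖v‖) u c) (Q a c) z a

lemma hasFDerivAt_norm_smul {u : X} {p : X →L[ℝ] ℝ} (hu : HasFDerivAt (fun v : X => ‖v‖) p u)
    {s : ℝ} (hs : 0 < s) : HasFDerivAt (fun v : X => ‖v‖) p (s • u) := by
  have hp : HasFDerivAt (fun v : X => ‖v‖) p (s⁻¹ • s • u) := by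
    rwa [inv_smul_smul₀ hs.ne']
  have h2 := (hp.comp (s • u) ((hasFDerivAt_id (𝕜 := ℝ) (s • u)).const_smul s⁻¹)).const_mul s
  have e : s • p.comp (s⁻¹ • ContinuousLinearMap.id ℝ X) = p := by
    ext v
    simp [hs.ne']
  refine (h2.congr_fderiv e).congr_of_eventuallyEq (Eventually.of_forall fun v => ?_)
  simp [norm_smul, abs_of_pos hs, hs.ne']

lemma fderiv_norm_smul {u : X} (hu : DifferentiableAt ℝ (fun v : X => ‖v‖) u) {s : ℝ}
    (hs : 0 < s) : fderiv ℝ (fun v : X => ‖v‖) (s • u) = fderiv ℝ (fun v : X => ‖v‖) u :=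
  (hasFDerivAt_norm_smul hu.hasFDerivAt hs).fderiv

lemma hasFDerivAt_norm_sub_nonneg {p q : X} {π π' : X →L[ℝ] ℝ} (hp0 : p ≠ 0) (hq0 : q ≠ 0)
    (hp : HasFDerivAt (fun v : X => ‖v‖) π p) (hq : HasFDerivAt (fun v : X => ‖v‖) π' q) :
    0 ≤ π' (q - p) - π (q - p) := by
  have h1 := supp_of_hasFDerivAt hp0 hp
  have h2 := supp_of_hasFDerivAt hq0 hq
  rw [map_sub, map_sub, h1.2, h2.2]
  linarith [h1.le q, h2.le p]

/-- The regularity of a surjective sphere isometry at an antipodal pair used in the mirror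
identities. -/
structure Mirror (f : PIso X Y) (z : X) : Prop where
  ne : z ≠ 0
  normX : ∀ᶠ u in 𝓝 z, HasFDerivAt (fun v : X => ‖v‖) (fderiv ℝ (fun v : X => ‖v‖) u) u
  derivG : ∀ᶠ u in 𝓝 z, HasFDerivAt f.G (fderiv ℝ f.G u) u
  derivG' : ∀ᶠ u in 𝓝 (-z), HasFDerivAt f.G (fderiv ℝ f.G u) u
  contL : ∀ c, ContinuousAt (fun u => fderiv ℝ f.G u c) z
  lipX : ∀ c, LipNear (fun u => fderiv ℝ (fun v : X => ‖v‖) u c) z
  normY : ∀ᶠ w in 𝓝 (f.G z - f.G (-z)),
    HasFDerivAt (fun v : Y => ‖v‖) (fderiv ℝ (fun v : Y => ‖v‖) w) w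
  lipY : ∃ C, ∀ᶠ w in 𝓝 (f.G z - f.G (-z)) ×ˢ 𝓝 (f.G z - f.G (-z)),
    ‖fderiv ℝ (fun v : Y => ‖v‖) w.1 - fderiv ℝ (fun v : Y => ‖v‖) w.2‖ ≤ C * ‖w.1 - w.2‖
  normYz : HasFDerivAt (fun v : Y => ‖v‖) (fderiv ℝ (fun v : Y => ‖v‖) (f.G z)) (f.G z)
  mid : fderiv ℝ (fun v : Y => ‖v‖) (f.G z - f.G (-z)) = fderiv ℝ (fun v : Y => ‖v‖) (f.G z)
  anti : fderiv ℝ (fun v : Y => ‖v‖) (f.G z) (f.G (-z)) = -‖z‖
  pull : ∀ a, fderiv ℝ (fun v : Y => ‖v‖) (f.G z) (fderiv ℝ f.G z a) =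
    fderiv ℝ (fun v : X => ‖v‖) z a
  pull' : ∀ a, fderiv ℝ (fun v : Y => ‖v‖) (f.G z) (fderiv ℝ f.G (-z) a) =
    fderiv ℝ (fun v : X => ‖v‖) z a
  equiv : ∃ A B : X ≃L[ℝ] Y, (A : X →L[ℝ] Y) = fderiv ℝ f.G z ∧
    (B : X →L[ℝ] Y) = fderiv ℝ f.G (-z)
  isom : ∀ a, fderiv ℝ (fun v : X => ‖v‖) z a = 0 →
    ‖fderiv ℝ f.G z a‖ = ‖a‖ ∧ ‖fderiv ℝ f.G (-z) a‖ = ‖a‖

namespace Mirror

variable {f : PIso X Y} {z : X} (hz : Mirror f z)


lemma key2 (f : PIso X Y) {u v : X} (hv : v ≠ 0) (r : ℝ) :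
    ‖(‖v‖ / r) • f.G u - (‖u‖ / r) • f.G v‖ = ‖(‖v‖ / r) • u - (‖u‖ / r) • v‖ := by
  have hvp : 0 < ‖v‖ := norm_pos_iff.2 hv
  set s := ‖v‖⁻¹ • v with hs
  have hv' : v = ‖v‖ • s := by rw [hs, smul_smul, mul_inv_cancel₀ hvp.ne', one_smul]
  have h := f.key u s (norm_smul_inv_norm hv)
  have e1 : (‖v‖ / r) • f.G u - (‖u‖ / r) • f.G v = (‖v‖ / r) • (f.G u - ‖u‖ • f.G s) := by
    have hGv : f.G v = ‖v‖ • f.G s := by rw [← f.G_smul _ hvp.le, ← hv']
    rw [hGv]; module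
  have e2 : (‖v‖ / r) • u - (‖u‖ / r) • v = (‖v‖ / r) • (u - ‖u‖ • s) := by
    nth_rewrite 2 [hv']; module
  rw [e1, e2, norm_smul, norm_smul, h]

omit hz in
lemma fderiv_G_self {u : X} {A : X →L[ℝ] Y} (hA : HasFDerivAt f.G A u) : A u = f.G u := by
  have hl : HasDerivAt (fun s : ℝ => u + s • u) u 0 := by
    simpa using ((hasDerivAt_id (0 : ℝ)).smul_const u).const_add u
  have h1 := hA.comp_hasDerivAt_of_eq 0 hl (by simp)
  have h2 : HasDerivAt (fun s : ℝ => (1 + s) • f.G u) (f.G u) 0 := by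
    simpa using ((hasDerivAt_id (0 : ℝ)).const_add (1 : ℝ)).smul_const (f.G u)
  refine h1.unique (h2.congr_of_eventuallyEq ?_)
  filter_upwards [eventually_gt_nhds (show (-1 : ℝ) < 0 by norm_num)] with s hs
  rw [Function.comp_apply, show u + s • u = (1 + s) • u by rw [add_smul, one_smul],
    f.G_smul _ (by linarith)]

omit hz in
lemma hasFDerivAt_G_smul {u : X} {A : X →L[ℝ] Y} (hA : HasFDerivAt f.G A u) {s : ℝ} (hs : 0 < s) :
    HasFDerivAt f.G A (s • u) := by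
  have hA' : HasFDerivAt f.G A (s⁻¹ • s • u) := by rwa [inv_smul_smul₀ hs.ne']
  have h2 := (hA'.comp (s • u) ((hasFDerivAt_id (𝕜 := ℝ) (s • u)).const_smul s⁻¹)).const_smul s
  have e : s • A.comp (s⁻¹ • ContinuousLinearMap.id ℝ X) = A := by
    ext v
    simp [hs.ne']
  refine (h2.congr_fderiv e).congr_of_eventuallyEq (Eventually.of_forall fun v => ?_)
  simp [← f.G_smul s hs.le, smul_smul, hs.ne']

include hz

lemma lipY_apply (k : Y) :
    LipNear (fun w => (fderiv ℝ (fun v => ‖v‖) w) k) (f.G z - f.G (-z)) := by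
  obtain ⟨C, hC⟩ := hz.lipY
  refine ⟨C * ‖k‖, hC.mono fun w hw => ?_⟩
  have h := ((fderiv ℝ (fun v => ‖v‖) w.1) - (fderiv ℝ (fun v => ‖v‖) w.2)).le_opNorm k
  rw [sub_apply, Real.norm_eq_abs] at h
  refine h.trans ((mul_le_mul_of_nonneg_right hw (norm_nonneg k)).trans_eq (by ring))

lemma normX2 : ∀ᶠ w in 𝓝 ((2 : ℝ) • z),
    HasFDerivAt (fun v : X => ‖v‖) ((fderiv ℝ (fun v => ‖v‖) ((1 / 2 : ℝ) • w))) w := by
  have ht : Tendsto (fun w : X => (1 / 2 : ℝ) • w) (𝓝 ((2 : ℝ) • z)) (𝓝 z) := by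
    have : Continuous fun w : X => (1 / 2 : ℝ) • w := by fun_prop
    simpa [smul_smul] using this.tendsto ((2 : ℝ) • z)
  filter_upwards [ht.eventually hz.normX] with w hw
  simpa [smul_smul] using hasFDerivAt_norm_smul hw two_pos

/-- The partial derivatives of the mirror identity. -/
lemma identities : ∀ᶠ p in 𝓝 z ×ˢ 𝓝 (-z), ∀ c,
    ((fderiv ℝ (fun v => ‖v‖) ((‖p.2‖ / ‖z‖) • f.G p.1 - (‖p.1‖ / ‖z‖) • f.G p.2)))
        ((‖p.2‖ / ‖z‖) • (fderiv ℝ (PIso.G f) p.1) c - ((fderiv ℝ (fun v => ‖v‖) p.1) c / ‖z‖) • f.G p.2) =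
      ((fderiv ℝ (fun v => ‖v‖) ((1 / 2 : ℝ) • ((‖p.2‖ / ‖z‖) • p.1 - (‖p.1‖ / ‖z‖) • p.2))))
        ((‖p.2‖ / ‖z‖) • c - ((fderiv ℝ (fun v => ‖v‖) p.1) c / ‖z‖) • p.2) ∧
    ((fderiv ℝ (fun v => ‖v‖) ((‖p.2‖ / ‖z‖) • f.G p.1 - (‖p.1‖ / ‖z‖) • f.G p.2)))
        (((fderiv ℝ (fun v => ‖v‖) p.2) c / ‖z‖) • f.G p.1 - (‖p.1‖ / ‖z‖) • (fderiv ℝ (PIso.G f) p.2) c) =
      ((fderiv ℝ (fun v => ‖v‖) ((1 / 2 : ℝ) • ((‖p.2‖ / ‖z‖) • p.1 - (‖p.1‖ / ‖z‖) • p.2))))
        (((fderiv ℝ (fun v => ‖v‖) p.2) c / ‖z‖) • p.1 - (‖p.1‖ / ‖z‖) • c) := by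
  have hr : 0 < ‖z‖ := norm_pos_iff.2 hz.ne
  have hneg : ∀ᶠ u in 𝓝 (-z), HasFDerivAt (fun v : X => ‖v‖) ((fderiv ℝ (fun v => ‖v‖) u)) u := by
    have ht : Tendsto (fun u : X => -u) (𝓝 (-z)) (𝓝 z) := by
      simpa using (continuous_neg (G := X)).tendsto (-z)
    filter_upwards [ht.eventually hz.normX] with u hu
    have h := hu.comp u (hasFDerivAt_id u).neg
    have h' : HasFDerivAt (fun v : X => ‖v‖) (((fderiv ℝ (fun v => ‖v‖) (-u))).comp (-ContinuousLinearMap.id ℝ X)) u := by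
      simpa [Function.comp_def] using h
    exact h'.differentiableAt.hasFDerivAt
  have hP : Tendsto (fun p : X × X => (‖p.2‖ / ‖z‖) • p.1 - (‖p.1‖ / ‖z‖) • p.2)
      (𝓝 z ×ˢ 𝓝 (-z)) (𝓝 ((2 : ℝ) • z)) := by
    have : Continuous fun p : X × X => (‖p.2‖ / ‖z‖) • p.1 - (‖p.1‖ / ‖z‖) • p.2 := by fun_prop
    have h := this.tendsto (z, -z)
    rw [nhds_prod_eq] at h
    simpa [hr.ne', two_smul] using h
  have hM : Tendsto (fun p : X × X => (‖p.2‖ / ‖z‖) • f.G p.1 - (‖p.1‖ / ‖z‖) • f.G p.2)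
      (𝓝 z ×ˢ 𝓝 (-z)) (𝓝 (f.G z - f.G (-z))) := by
    have hG := f.continuous_G
    have : Continuous fun p : X × X => (‖p.2‖ / ‖z‖) • f.G p.1 - (‖p.1‖ / ‖z‖) • f.G p.2 := by
      fun_prop
    have h := this.tendsto (z, -z)
    rw [nhds_prod_eq] at h
    simpa [hr.ne'] using h
  filter_upwards [hP.eventually hz.normX2, hM.eventually hz.normY,
    (hz.normX.and hz.derivG).prod_inl _, (hneg.and hz.derivG').prod_inr _,
    (eventually_ne_nhds (neg_ne_zero.2 hz.ne)).prod_inr _]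
    with p hPd hMd h1 h2 hv c
  constructor
  · have hl : HasDerivAt (fun s : ℝ => p.1 + s • c) c 0 := by
      simpa using ((hasDerivAt_id (0 : ℝ)).smul_const c).const_add p.1
    have hn := h1.1.comp_hasDerivAt_of_eq 0 hl (by simp)
    have hg := h1.2.comp_hasDerivAt_of_eq 0 hl (by simp)
    have hL := (hMd.comp_hasDerivAt_of_eq 0 ((hg.const_smul (‖p.2‖ / ‖z‖)).sub
      ((hn.div_const ‖z‖).smul_const (f.G p.2))) (by simp))
    have hR := (hPd.comp_hasDerivAt_of_eq 0 ((hl.const_smul (‖p.2‖ / ‖z‖)).sub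
      ((hn.div_const ‖z‖).smul_const p.2)) (by simp))
    refine hL.unique (hR.congr_of_eventuallyEq (Eventually.of_forall fun s => ?_))
    exact key2 f hv ‖z‖
  · have hl : HasDerivAt (fun s : ℝ => p.2 + s • c) c 0 := by
      simpa using ((hasDerivAt_id (0 : ℝ)).smul_const c).const_add p.2
    have hn := h2.1.comp_hasDerivAt_of_eq 0 hl (by simp)
    have hg := h2.2.comp_hasDerivAt_of_eq 0 hl (by simp)
    have hL := (hMd.comp_hasDerivAt_of_eq 0 (((hn.div_const ‖z‖).smul_const (f.G p.1)).sub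
      (hg.const_smul (‖p.1‖ / ‖z‖))) (by simp))
    have hR := (hPd.comp_hasDerivAt_of_eq 0 (((hn.div_const ‖z‖).smul_const p.1).sub
      (hl.const_smul (‖p.1‖ / ‖z‖))) (by simp))
    refine hL.unique (hR.congr_of_eventuallyEq ?_)
    have hl0 : Tendsto (fun s : ℝ => p.2 + s • c) (𝓝 0) (𝓝 p.2) := by
      simpa using hl.continuousAt.tendsto
    filter_upwards [hl0.eventually (eventually_ne_nhds hv)] with s hs
    exact key2 f hs ‖z‖

lemma apply_neg_self : (fderiv ℝ (fun v => ‖v‖) z) (-z) = -‖z‖ := by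
  rw [map_neg, (supp_of_hasFDerivAt hz.ne hz.normX.self_of_nhds).2]

variable {Q : X →L[ℝ] X →L[ℝ] ℝ} (hQ : GatDiff z Q)
include hQ

lemma hasDerivAt_half {c : ℝ → X} {a : X} (hc : HasDerivAt c a 0) (h0 : c 0 = (2 : ℝ) • z)
    (k : X) : HasDerivAt (fun t => (fderiv ℝ (fun v => ‖v‖) ((1 / 2 : ℝ) • c t)) k) ((1 / 2) * Q a k) 0 := by
  have h := comp_curve (hQ ((1 / 2 : ℝ) • a) k) (hz.lipX k) (hc.const_smul (1 / 2 : ℝ))
    (by simp [h0, smul_smul])
  simpa using h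

/-- The mirror identity in the two mixed orders. -/
lemma mixed {a b : X} (ha : (fderiv ℝ (fun v => ‖v‖) z) a = 0) (hb : (fderiv ℝ (fun v => ‖v‖) z) b = 0) :
    HasLineDerivAt ℝ (fun w => (fderiv ℝ (fun v => ‖v‖) w) ((fderiv ℝ (PIso.G f) z) a)) ((1 / 2) * Q b a) (f.G z - f.G (-z)) ((fderiv ℝ (PIso.G f) (-z)) b) ∧
    HasLineDerivAt ℝ (fun w => (fderiv ℝ (fun v => ‖v‖) w) ((fderiv ℝ (PIso.G f) (-z)) b)) ((1 / 2) * Q a b) (f.G z - f.G (-z))
      ((fderiv ℝ (PIso.G f) z) a) := by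
  have hr : 0 < ‖z‖ := norm_pos_iff.2 hz.ne
  have hnz : HasFDerivAt (fun v : X => ‖v‖) (-(fderiv ℝ (fun v => ‖v‖) z)) (-z) := by
    have hh : HasFDerivAt (fun v : X => ‖v‖) ((fderiv ℝ (fun v => ‖v‖) z)) (- -z) := by
      rw [neg_neg]; exact hz.normX.self_of_nhds
    have h := hh.comp (-z) (hasFDerivAt_id (-z)).neg
    simpa [Function.comp_def] using h
  constructor
  · set c : ℝ → X := fun t => -z - t • b with hc
    have hcd : HasDerivAt c (-b) 0 := by
      simpa [hc] using ((hasDerivAt_id (0 : ℝ)).smul_const b).const_sub (-z)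
    have hn : HasDerivAt (fun t => ‖c t‖) 0 0 := by
      have := hnz.comp_hasDerivAt_of_eq 0 hcd (by simp [hc])
      simpa [hb, Function.comp_def] using this
    have hg := hz.derivG'.self_of_nhds.comp_hasDerivAt_of_eq 0 hcd (by simp [hc])
    have hM : HasDerivAt (fun t => (‖c t‖ / ‖z‖) • f.G z - (‖z‖ / ‖z‖) • f.G (c t))
        ((fderiv ℝ (PIso.G f) (-z)) b) 0 := by
      have := ((hn.div_const ‖z‖).smul_const (f.G z)).sub (hg.const_smul (‖z‖ / ‖z‖))
      refine this.congr_deriv ?_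
      simp [hr.ne']
    have hP : HasDerivAt (fun t => (‖c t‖ / ‖z‖) • z - (‖z‖ / ‖z‖) • c t) b 0 := by
      have := ((hn.div_const ‖z‖).smul_const z).sub (hcd.const_smul (‖z‖ / ‖z‖))
      refine this.congr_deriv ?_
      simp [hr.ne']
    refine hasLineDerivAt_of_comp_curve (hz.lipY_apply _) hM (by simp [hc, hr.ne']) ?_
    refine (hz.hasDerivAt_half hQ hP (by simp [hc, hr.ne', two_smul]) a).congr_of_eventuallyEq ?_
    have hct : Tendsto c (𝓝 0) (𝓝 (-z)) := by simpa [hc] using hcd.continuousAt.tendsto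
    filter_upwards [(tendsto_const_nhds.prodMk hct).eventually hz.identities,
      hct.eventually (eventually_ne_nhds (neg_ne_zero.2 hz.ne))] with t ht h0
    have h := (ht a).1
    simp only [ha, zero_div, zero_smul, sub_zero, map_smul, smul_eq_mul] at h
    exact mul_left_cancel₀ (div_ne_zero (norm_ne_zero_iff.2 h0) hr.ne') h
  · set c : ℝ → X := fun t => z + t • a with hc
    have hcd : HasDerivAt c a 0 := by
      simpa [hc] using ((hasDerivAt_id (0 : ℝ)).smul_const a).const_add z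
    have hn : HasDerivAt (fun t => ‖c t‖) 0 0 := by
      have := hz.normX.self_of_nhds.comp_hasDerivAt_of_eq 0 hcd (by simp [hc])
      simpa [ha, Function.comp_def] using this
    have hg := hz.derivG.self_of_nhds.comp_hasDerivAt_of_eq 0 hcd (by simp [hc])
    have hM : HasDerivAt (fun t => (‖-z‖ / ‖z‖) • f.G (c t) - (‖c t‖ / ‖z‖) • f.G (-z))
        ((fderiv ℝ (PIso.G f) z) a) 0 := by
      have := (hg.const_smul (‖-z‖ / ‖z‖)).sub ((hn.div_const ‖z‖).smul_const (f.G (-z)))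
      refine this.congr_deriv ?_
      simp [hr.ne']
    have hP : HasDerivAt (fun t => (‖-z‖ / ‖z‖) • c t - (‖c t‖ / ‖z‖) • (-z)) a 0 := by
      have := (hcd.const_smul (‖-z‖ / ‖z‖)).sub ((hn.div_const ‖z‖).smul_const (-z))
      refine this.congr_deriv ?_
      simp [hr.ne']
    refine hasLineDerivAt_of_comp_curve (hz.lipY_apply _) hM (by simp [hc, hr.ne']) ?_
    refine (hz.hasDerivAt_half hQ hP (by simp [hc, hr.ne', two_smul]) b).congr_of_eventuallyEq ?_
    have hct : Tendsto c (𝓝 0) (𝓝 z) := by simpa [hc] using hcd.continuousAt.tendsto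
    have hπn : (fderiv ℝ (fun v => ‖v‖) (-z)) b = 0 := by rw [hnz.fderiv]; simp [hb]
    filter_upwards [(hct.prodMk tendsto_const_nhds).eventually hz.identities,
      hct.eventually (eventually_ne_nhds hz.ne)] with t ht h0
    have h := (ht b).2
    simp only [hπn, zero_div, zero_smul, zero_sub, map_neg, map_smul, smul_eq_mul,
      neg_inj] at h
    exact mul_left_cancel₀ (div_ne_zero (norm_ne_zero_iff.2 h0) hr.ne') h

/-- The pure identity: the second derivative of the extension, tested at the radial functional. -/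
lemma pure {a c : X} (ha : (fderiv ℝ (fun v => ‖v‖) z) a = 0) (hc : (fderiv ℝ (fun v => ‖v‖) z) c = 0) {R : ℝ}
    (hR : HasLineDerivAt ℝ (fun w => (fderiv ℝ (fun v => ‖v‖) w) ((fderiv ℝ (PIso.G f) z) c)) R (f.G z - f.G (-z)) ((fderiv ℝ (PIso.G f) z) a)) :
    HasLineDerivAt ℝ (fun u => (fderiv ℝ (fun v => ‖v‖) (f.G z)) ((fderiv ℝ (PIso.G f) u) c)) ((1 / 2) * Q a c - R) z a := by
  have hr : 0 < ‖z‖ := norm_pos_iff.2 hz.ne
  set u : ℝ → X := fun t => z + t • a with hu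
  have hud : HasDerivAt u a 0 := by
    simpa [hu] using ((hasDerivAt_id (0 : ℝ)).smul_const a).const_add z
  have hn : HasDerivAt (fun t => ‖u t‖) 0 0 := by
    have := hz.normX.self_of_nhds.comp_hasDerivAt_of_eq 0 hud (by simp [hu])
    simpa [ha, Function.comp_def] using this
  have hg := hz.derivG.self_of_nhds.comp_hasDerivAt_of_eq 0 hud (by simp [hu])
  set M : ℝ → Y := fun t => f.G (u t) - (‖u t‖ / ‖z‖) • f.G (-z) with hMdef
  set P : ℝ → X := fun t => (1 / 2 : ℝ) • (u t + (‖u t‖ / ‖z‖) • z) with hPdef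
  have hM : HasDerivAt M ((fderiv ℝ (PIso.G f) z) a) 0 := by
    have := hg.sub ((hn.div_const ‖z‖).smul_const (f.G (-z)))
    refine this.congr_deriv ?_
    simp
  have hP0 : HasDerivAt (fun t => u t + (‖u t‖ / ‖z‖) • z) a 0 := by
    have := hud.add ((hn.div_const ‖z‖).smul_const z)
    refine this.congr_deriv ?_
    simp
  have hu0 : u 0 = z := by simp [hu]
  have hM0 : M 0 = f.G z - f.G (-z) := by simp [hMdef, hu0, hr.ne']
  have hP00 : (fun t => u t + (‖u t‖ / ‖z‖) • z) 0 = (2 : ℝ) • z := by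
    simp [hu0, hr.ne', two_smul]
  have hut : Tendsto u (𝓝 0) (𝓝 z) := hu0 ▸ hud.continuousAt.tendsto
  -- the first derivative of the norm along the curve
  have hq : HasDerivAt (fun t => (fderiv ℝ (fun v => ‖v‖) (u t)) c / ‖z‖) (Q a c / ‖z‖) 0 :=
    (comp_curve (hQ a c) (hz.lipX c) hud hu0).div_const _
  have hψ1 := hz.hasDerivAt_half hQ hP0 hP00 c
  have hψ2 := hz.hasDerivAt_half hQ hP0 hP00 z
  have hφ2 : ContinuousAt (fun t => (fderiv ℝ (fun v => ‖v‖) (M t)) (f.G (-z))) 0 :=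
    ((hz.lipY_apply (f.G (-z))).continuousAt).comp_of_eq hM.continuousAt hM0
  have hg0 : (fderiv ℝ (fun v => ‖v‖) (M 0)) (f.G (-z)) + (fderiv ℝ (fun v => ‖v‖) (P 0)) z = 0 := by
    have : (fderiv ℝ (fun v => ‖v‖) (P 0)) = (fderiv ℝ (fun v => ‖v‖) z) := by
      congr 1
      simp only [hPdef, hu0, div_self hr.ne', one_smul]
      module
    rw [hM0, hz.mid, hz.anti, this, (supp_of_hasFDerivAt hz.ne hz.normX.self_of_nhds).2]
    ring
  have hφ1 : HasDerivAt (fun t => (fderiv ℝ (fun v => ‖v‖) (M t)) ((fderiv ℝ (PIso.G f) (u t)) c)) ((1 / 2) * Q a c) 0 := by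
    have hmul := hasDerivAt_mul_zero hq (by simp [hu0, hc]) (hφ2.add hψ2.continuousAt) hg0
    have := hψ1.add hmul
    rw [add_zero] at this
    refine this.congr_of_eventuallyEq ?_
    filter_upwards [(hut.prodMk tendsto_const_nhds).eventually hz.identities] with t ht
    have h := (ht c).1
    simp only [norm_neg, div_self hr.ne', one_smul, smul_neg, sub_neg_eq_add, map_sub, map_add,
      map_smul, smul_eq_mul] at h
    simp only [Pi.add_apply, hMdef]
    linarith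
  -- the error from moving the functional
  have hErr : HasDerivAt (fun t => ((fderiv ℝ (fun v => ‖v‖) (M t)) - (fderiv ℝ (fun v => ‖v‖) (f.G z))) ((fderiv ℝ (PIso.G f) (u t)) c - (fderiv ℝ (PIso.G f) z) c)) 0 0 := by
    obtain ⟨C, hC⟩ := hz.lipY
    have h1 : (fun t => (fderiv ℝ (fun v => ‖v‖) (M t)) - (fderiv ℝ (fun v => ‖v‖) (f.G z))) =O[𝓝 0] fun t : ℝ => t := by
      have hMt : Tendsto M (𝓝 0) (𝓝 (f.G z - f.G (-z))) := hM0 ▸ hM.continuousAt.tendsto
      have hb : (fun t => (fderiv ℝ (fun v => ‖v‖) (M t)) - (fderiv ℝ (fun v => ‖v‖) (f.G z))) =O[𝓝 0] fun t => M t - M 0 := by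
        refine Asymptotics.IsBigO.of_bound C ?_
        filter_upwards [(hMt.prodMk tendsto_const_nhds).eventually hC] with t ht
        rw [hM0]
        rw [hz.mid] at ht
        exact ht
      refine hb.trans ?_
      simpa using hM.isBigO_sub
    have h2 : (fun t => (fderiv ℝ (PIso.G f) (u t)) c - (fderiv ℝ (PIso.G f) z) c) =o[𝓝 0] fun _ => (1 : ℝ) := by
      rw [Asymptotics.isLittleO_one_iff]
      simpa using (((hz.contL c).tendsto.comp hut).sub_const ((fderiv ℝ (PIso.G f) z) c))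
    rw [hasDerivAt_iff_isLittleO_nhds_zero]
    simp only [zero_add, hu0, sub_self, map_zero, sub_zero, smul_zero]
    refine ((Asymptotics.IsBigO.of_bound 1 (Eventually.of_forall fun t => ?_)).trans_isLittleO
      ((h1.norm_left.mul_isLittleO h2.norm_left).trans_isBigO
        (Asymptotics.isBigO_of_le _ fun t => by simp)))
    simpa using ((fderiv ℝ (fun v => ‖v‖) (M t)) - (fderiv ℝ (fun v => ‖v‖) (f.G z))).le_opNorm ((fderiv ℝ (PIso.G f) (u t)) c - (fderiv ℝ (PIso.G f) z) c)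
  have hR' := comp_curve hR (hz.lipY_apply _) hM hM0
  have := ((hφ1.sub hR').sub hErr).add_const ((fderiv ℝ (fun v => ‖v‖) (f.G z)) ((fderiv ℝ (PIso.G f) z) c))
  rw [sub_zero] at this
  refine this.congr_of_eventuallyEq (Eventually.of_forall fun t => ?_)
  simp only [Pi.sub_apply, sub_apply, map_sub, hu]
  ring

omit hQ in
lemma eventually_smul {a : X} : ∀ᶠ t in 𝓝 (0 : ℝ), HasFDerivAt f.G ((fderiv ℝ (PIso.G f) (z + t • a))) (z + t • a) := by
  have : Continuous fun t : ℝ => z + t • a := by fun_prop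
  exact (show Tendsto (fun t : ℝ => z + t • a) (𝓝 0) (𝓝 z) by simpa using this.tendsto 0).eventually
    hz.derivG

/-- **T3.** At a point of Gateaux differentiability of the derivative of the norm, the second
derivative of the extension has no radial component. -/
theorem t3 (hs : ∀ a b, Q a b = Q b a) (hp : ∀ a, 0 ≤ Q a a) (a c : X) :
    HasLineDerivAt ℝ (fun u => (fderiv ℝ (fun v => ‖v‖) (f.G z)) ((fderiv ℝ (PIso.G f) u) c)) 0 z a := by
  obtain ⟨A, B, hA, hB⟩ := hz.equiv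
  have eA : ∀ v, (fderiv ℝ (PIso.G f) z) v = A v := fun v => by rw [← hA]; rfl
  have eB : ∀ v, (fderiv ℝ (PIso.G f) (-z)) v = B v := fun v => by rw [← hB]; rfl
  set V : Submodule ℝ X := LinearMap.ker (((fderiv ℝ (fun v => ‖v‖) z)) : X →ₗ[ℝ] ℝ) with hV
  have memV : ∀ v, v ∈ V ↔ (fderiv ℝ (fun v => ‖v‖) z) v = 0 := fun v => Iff.rfl
  have hto : ∀ v, (fderiv ℝ (fun v => ‖v‖) z) v = 0 → (fderiv ℝ (fun v => ‖v‖) z) (B.symm (A v)) = 0 := fun v hv => by
    rw [← hz.pull', eB, B.apply_symm_apply, ← eA, hz.pull, hv]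
  have hfro : ∀ v, (fderiv ℝ (fun v => ‖v‖) z) v = 0 → (fderiv ℝ (fun v => ‖v‖) z) (A.symm (B v)) = 0 := fun v hv => by
    rw [← hz.pull, eA, A.apply_symm_apply, ← eB, hz.pull', hv]
  let U : V ≃ₗᵢ[ℝ] V :=
    { toFun := fun v => ⟨B.symm (A v), hto v v.2⟩
      invFun := fun v => ⟨A.symm (B v), hfro v v.2⟩
      left_inv := fun v => by ext; simp
      right_inv := fun v => by ext; simp
      map_add' := fun v w => by ext; simp
      map_smul' := fun t v => by ext; simp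
      norm_map' := fun v => by
        show ‖B.symm (A v)‖ = ‖(v : X)‖
        rw [← (hz.isom _ (hto v v.2)).2, eB, B.apply_symm_apply, ← eA]
        exact (hz.isom _ v.2).1 }
  have hBU : ∀ v : V, (fderiv ℝ (PIso.G f) (-z)) (U v : X) = (fderiv ℝ (PIso.G f) z) (v : X) := fun v => by
    rw [eB, eA]; exact B.apply_symm_apply _
  set Q' : V →L[ℝ] V →L[ℝ] ℝ := Q.bilinearComp V.subtypeL V.subtypeL with hQ'
  have eQ : ∀ v w : V, Q' v w = Q v w := fun v w => rfl
  have hR : ∀ v w : V, HasLineDerivAt ℝ (fun q => (fderiv ℝ (fun v => ‖v‖) q) ((fderiv ℝ (PIso.G f) z) (w : X))) ((1 / 2) * Q (U v) w)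
      (f.G z - f.G (-z)) ((fderiv ℝ (PIso.G f) z) (v : X)) := fun v w => by
    have := (hz.mixed hQ (a := (w : X)) (b := (U v : X)) w.2 (U v).2).1
    rwa [hBU] at this
  have hinv : ∀ v w : V, Q (U v) w = Q v w := by
    have := form_involution Q' (fun v w => hs _ _) (fun v => hp _) U (fun v w => ?_) fun v => ?_
    · exact this
    · have h := (hz.mixed hQ (a := (v : X)) (b := (U w : X)) v.2 (U w).2).2
      rw [hBU] at h
      have := (hR v w).unique h
      rw [eQ, eQ]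
      linarith
    · rw [eQ]
      set d := (fderiv ℝ (PIso.G f) z) (v : X)
      set m := f.G z - f.G (-z)
      have hd : HasDerivAt (fun t : ℝ => (fderiv ℝ (fun v => ‖v‖) (m + t • d)) d) ((1 / 2) * Q (U v) v) 0 := hR v v
      have hev : ∀ᶠ t in 𝓝[>] (0 : ℝ), 0 ≤ slope (fun t : ℝ => (fderiv ℝ (fun v => ‖v‖) (m + t • d)) d) 0 t := by
        have hl : Tendsto (fun t : ℝ => m + t • d) (𝓝 0) (𝓝 m) := by
          have : Continuous fun t : ℝ => m + t • d := by fun_prop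
          simpa using this.tendsto 0
        have hm0 : m ≠ 0 := fun h0 => by
          have h := hz.anti
          have h' := congrArg ((fderiv ℝ (fun v => ‖v‖) (f.G z))) (sub_eq_zero.1 h0)
          rw [h, (supp_of_hasFDerivAt (by simpa [← norm_pos_iff, f.norm_G] using hz.ne)
            hz.normYz).2, f.norm_G] at h'
          linarith [norm_pos_iff.2 hz.ne]
        filter_upwards [nhdsWithin_le_nhds (hl.eventually hz.normY),
          nhdsWithin_le_nhds (hl.eventually (eventually_ne_nhds hm0)), self_mem_nhdsWithin]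
          with t ht ht0 hpos
        have h := hasFDerivAt_norm_sub_nonneg hm0 ht0 hz.normY.self_of_nhds ht
        rw [add_sub_cancel_left, map_smul, map_smul, smul_eq_mul, smul_eq_mul, ← mul_sub] at h
        rw [slope_def_field, sub_zero, zero_smul, add_zero]
        exact div_nonneg (nonneg_of_mul_nonneg_right h hpos) (le_of_lt hpos)
      have := ge_of_tendsto ((hasDerivAt_iff_tendsto_slope.1 hd).mono_left
        (nhdsWithin_mono _ (show Set.Ioi (0 : ℝ) ⊆ {0}ᶜ from fun t ht => ne_of_gt ht))) hev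
      linarith
  -- tangential arguments
  have tang : ∀ v w, (fderiv ℝ (fun v => ‖v‖) z) v = 0 → (fderiv ℝ (fun v => ‖v‖) z) w = 0 →
      HasLineDerivAt ℝ (fun u => (fderiv ℝ (fun v => ‖v‖) (f.G z)) ((fderiv ℝ (PIso.G f) u) w)) 0 z v := fun v w hv hw => by
    have h := hz.pure hQ hv hw (hR ⟨v, hv⟩ ⟨w, hw⟩)
    rw [hinv ⟨v, hv⟩ ⟨w, hw⟩, sub_self] at h
    exact h
  have hπz : (fderiv ℝ (fun v => ‖v‖) z) z = ‖z‖ := (supp_of_hasFDerivAt hz.ne hz.normX.self_of_nhds).2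
  have hr : ‖z‖ ≠ 0 := norm_ne_zero_iff.2 hz.ne
  -- the radial argument in the second slot
  have rad : ∀ v, (fderiv ℝ (fun v => ‖v‖) z) v = 0 → HasLineDerivAt ℝ (fun u => (fderiv ℝ (fun v => ‖v‖) (f.G z)) ((fderiv ℝ (PIso.G f) u) z)) 0 z v := by
    intro v hv
    have hl : HasDerivAt (fun t : ℝ => z + t • v) v 0 := by
      simpa using ((hasDerivAt_id (0 : ℝ)).smul_const v).const_add z
    have h1 : HasDerivAt (fun t : ℝ => (fderiv ℝ (fun v => ‖v‖) (f.G z)) (f.G (z + t • v))) ((fderiv ℝ (fun v => ‖v‖) z) v) 0 := by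
      rw [← hz.pull]
      simpa [Function.comp_def] using ((fderiv ℝ (fun v => ‖v‖) (f.G z))).hasFDerivAt.comp_hasDerivAt 0
        (hz.derivG.self_of_nhds.comp_hasDerivAt_of_eq 0 hl (by simp))
    have h2 : HasDerivAt (fun t : ℝ => t * (fderiv ℝ (fun v => ‖v‖) (f.G z)) ((fderiv ℝ (PIso.G f) (z + t • v)) v)) 0 0 := by
      have hc : ContinuousAt (fun t : ℝ => (fderiv ℝ (fun v => ‖v‖) (f.G z)) ((fderiv ℝ (PIso.G f) (z + t • v)) v) - (fderiv ℝ (fun v => ‖v‖) z) v) 0 := by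
        refine (((fderiv ℝ (fun v => ‖v‖) (f.G z))).continuous.continuousAt.comp' ?_).sub continuousAt_const
        exact (hz.contL v).comp_of_eq hl.continuousAt (by simp)
      have := (hasDerivAt_mul_zero (hasDerivAt_id (0 : ℝ)) rfl hc
        (by simp [hz.pull])).add ((hasDerivAt_id (0 : ℝ)).mul_const ((fderiv ℝ (fun v => ‖v‖) z) v))
      rw [hv, mul_zero, add_zero] at this
      refine this.congr_of_eventuallyEq (Eventually.of_forall fun t => ?_)
      simp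
    have h3 := h1.sub h2
    rw [hv, sub_zero] at h3
    refine h3.congr_of_eventuallyEq ?_
    filter_upwards [hz.eventually_smul (a := v)] with t ht
    have := fderiv_G_self ht
    rw [map_add, map_smul] at this
    simp only [Pi.sub_apply]
    rw [← this, map_add, map_smul, smul_eq_mul]
    ring
  -- general arguments
  set β := (fderiv ℝ (fun v => ‖v‖) z) a / ‖z‖ with hβ
  set γ := (fderiv ℝ (fun v => ‖v‖) z) c / ‖z‖ with hγ
  set a' := a - β • z with ha'
  set c' := c - γ • z with hc'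
  have hva : (fderiv ℝ (fun v => ‖v‖) z) a' = 0 := by
    rw [ha', map_sub, map_smul, hπz, smul_eq_mul, hβ, div_mul_cancel₀ _ hr, sub_self]
  have hvc : (fderiv ℝ (fun v => ‖v‖) z) c' = 0 := by
    rw [hc', map_sub, map_smul, hπz, smul_eq_mul, hγ, div_mul_cancel₀ _ hr, sub_self]
  have h' : HasDerivAt (fun t : ℝ => (fderiv ℝ (fun v => ‖v‖) (f.G z)) ((fderiv ℝ (PIso.G f) (z + t • a')) c)) 0 0 := by
    have := (tang a' c' hva hvc).add ((rad a' hva).const_mul γ)
    rw [mul_zero, add_zero] at this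
    refine this.congr_of_eventuallyEq (Eventually.of_forall fun t => ?_)
    simp only [Pi.add_apply, hc', map_sub, map_smul, smul_eq_mul]
    ring
  have hs1 : HasDerivAt (fun t : ℝ => t / (1 + β * t)) 1 0 := by
    have := (hasDerivAt_id (0 : ℝ)).div (((hasDerivAt_id (0 : ℝ)).const_mul β).const_add 1)
      (by simp)
    simpa [Pi.div_def] using this
  have hcomp := h'.comp_of_eq 0 hs1 (by simp)
  rw [zero_mul] at hcomp
  refine hcomp.congr_of_eventuallyEq ?_
  have hpos : ∀ᶠ t in 𝓝 (0 : ℝ), 0 < 1 + β * t := by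
    have : Continuous fun t : ℝ => 1 + β * t := by fun_prop
    exact this.continuousAt.eventually (eventually_gt_nhds (by simp))
  have hs0 : Tendsto (fun t : ℝ => t / (1 + β * t)) (𝓝 0) (𝓝 0) := by
    simpa using hs1.continuousAt.tendsto
  filter_upwards [hpos, hs0.eventually (hz.eventually_smul (a := a'))] with t ht hA'
  have e : z + t • a = (1 + β * t) • (z + (t / (1 + β * t)) • a') := by
    rw [smul_add, smul_smul, mul_div_cancel₀ _ ht.ne', ha']
    module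
  show (fderiv ℝ (fun v => ‖v‖) (f.G z)) ((fderiv ℝ (PIso.G f) (z + t • a)) c) = (fderiv ℝ (fun v => ‖v‖) (f.G z)) ((fderiv ℝ (PIso.G f) (z + (t / (1 + β * t)) • a')) c)
  rw [e, (hasFDerivAt_G_smul hA' ht).fderiv]

end Mirror

end Vale.Agent.P084.Full
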