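import Vale.Agent.P084.Full.Approx
import Vale.Agent.P084.Full.Ident
import Vale.Agent.P084.Full.AverageDeriv

/-!
P084 (Tingley's problem), library for the general case: the averaged derivative of the norm paired
with the inverse derivative of the extension, the pointwise part of total symmetry.
-/

namespace Vale.Agent.P084.Full.Total

open MeasureTheory Filter Topology Set Metric Orbit

variable {X Y : Type*} [NormedAddCommGroup X] [NormedSpace ℝ X] [NormedAddCommGroup Y]
  [NormedSpace ℝ Y]

/-- Uniform constants on a ball around a smooth point. -/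
structure Near (f : PIso X Y) (z0 : X) (R C : ℝ) : Prop where
  pos : 0 < R
  nonneg : 0 ≤ C
  smooth : ∀ w, ‖w - z0‖ < R → Smooth w
  lipN : ∀ w w', ‖w - z0‖ < R → ‖w' - z0‖ < R → ‖dNorm w' - dNorm w‖ ≤ C * ‖w' - w‖
  lipG : ∀ w w', ‖w - z0‖ < R → ‖w' - z0‖ < R → ‖dG f w' - dG f w‖ ≤ C * ‖w' - w‖

variable [CompleteSpace X] [CompleteSpace Y] {f : PIso X Y} {z0 : X} {R C : ℝ}

lemma exists_near (f : PIso X Y) {z0 : X} (h : Smooth z0) : ∃ R C, Near f z0 R C := by
  obtain ⟨r₁, C₁, hr₁, hC₁, h₁⟩ := h.norm_uniform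
  obtain ⟨r₂, C₂, hr₂, hC₂, h₂⟩ := dG_uniform f h
  refine ⟨min r₁ r₂, max C₁ C₂, lt_min hr₁ hr₂, le_max_of_le_left hC₁, fun w hw => ?_,
    fun w w' hw hw' => ?_, fun w w' hw hw' => ?_⟩
  · exact (h₁ w (hw.trans_le (min_le_left _ _))).1
  · exact ((h₁ w (hw.trans_le (min_le_left _ _))).2.2 w' (hw'.trans_le (min_le_left _ _))).trans
      (mul_le_mul_of_nonneg_right (le_max_left _ _) (norm_nonneg _))
  · exact ((h₂ w (hw.trans_le (min_le_right _ _))).2.2 w' (hw'.trans_le (min_le_right _ _))).trans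
      (mul_le_mul_of_nonneg_right (le_max_right _ _) (norm_nonneg _))

/-- The inverse of the derivative of the extension. -/
noncomputable abbrev inv (f : PIso X Y) (y : X) : Y →L[ℝ] X := dG f.symm (f.G y)

/-- The derivative of the norm at `z` paired with the inverse derivative at `y`. -/
noncomputable def proj (f : PIso X Y) (w : Y) (z y : X) : ℝ := dNorm z (inv f y w)

/-- The averaged derivative of `proj` along `e b`. -/
noncomputable def Fb (f : PIso X Y) (e : ℕ → X) (d : ℝ) (b : ℕ) (w : Y) (z : X) : ℝ :=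
  Average.dAv e d b (proj f w z) z

lemma Near.abs_dNorm_le (hN : Near f z0 R C) {y : X} (hy : ‖y - z0‖ < R) (v : X) :
    |dNorm y v| ≤ ‖v‖ :=
  abs_le.2 ⟨(hN.smooth y hy).supp.ge v, (hN.smooth y hy).supp.le v⟩

lemma Near.inv_sub (hN : Near f z0 R C) {y y' : X} (hy : ‖y - z0‖ < R) (hy' : ‖y' - z0‖ < R)
    (w : Y) : inv f y' w - inv f y w =
      -inv f y' (dG f y' (inv f y w) - dG f y (inv f y w)) := by
  rw [map_sub, (dG_symm f (hN.smooth y' hy')).1, (dG_symm f (hN.smooth y hy)).2, neg_sub]

lemma Near.inv_lip (hN : Near f z0 R C) {y y' : X} (hy : ‖y - z0‖ < R) (hy' : ‖y' - z0‖ < R)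
    (w : Y) : ‖inv f y' w - inv f y w‖ ≤ 9 * C * ‖y' - y‖ * ‖w‖ := by
  rw [hN.inv_sub hy hy', norm_neg]
  refine (norm_dG_symm_le f (hN.smooth y' hy') _).trans ?_
  have h1 := (dG f y' - dG f y).le_opNorm (inv f y w)
  rw [sub_apply] at h1
  have h2 := norm_dG_symm_le f (hN.smooth y hy) w
  have h3 := hN.lipG y y' hy hy'
  have := hN.nonneg
  calc 3 * ‖dG f y' (inv f y w) - dG f y (inv f y w)‖
      ≤ 3 * ((C * ‖y' - y‖) * (3 * ‖w‖)) := by
        refine mul_le_mul_of_nonneg_left (h1.trans (mul_le_mul h3 h2 (norm_nonneg _) ?_)) (by norm_num)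
        positivity
    _ = _ := by ring

lemma Near.dNorm_inv (hN : Near f z0 R C) {y : X} (hy : ‖y - z0‖ < R) (b : Y) :
    dNorm y (inv f y b) = dNorm (f.G y) b := by
  conv_rhs => rw [← (dG_symm f (hN.smooth y hy)).2 b]
  rw [dNorm_dG f (hN.smooth y hy)]

lemma Near.proj_lip (hN : Near f z0 R C) {z y y' : X} (hz : ‖z - z0‖ < R) (hy : ‖y - z0‖ < R)
    (hy' : ‖y' - z0‖ < R) (w : Y) :
    |proj f w z y' - proj f w z y| ≤ 9 * C * ‖y' - y‖ * ‖w‖ := by
  rw [proj, proj, ← map_sub]
  exact (hN.abs_dNorm_le hz _).trans (hN.inv_lip hy hy' w)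

lemma Near.proj_lip₂ (hN : Near f z0 R C) {z z' y : X} (hz : ‖z - z0‖ < R) (hz' : ‖z' - z0‖ < R)
    (hy : ‖y - z0‖ < R) (w : Y) :
    |proj f w z' y - proj f w z y| ≤ 3 * C * ‖z' - z‖ * ‖w‖ := by
  have h1 := (dNorm z' - dNorm z).le_opNorm (inv f y w)
  rw [sub_apply, Real.norm_eq_abs] at h1
  refine h1.trans ((mul_le_mul (hN.lipN z z' hz hz') (norm_dG_symm_le f (hN.smooth y hy) w)
    (norm_nonneg _) (mul_nonneg hN.nonneg (norm_nonneg _))).trans_eq ?_)
  ring

lemma Near.continuousOn_inv (hN : Near f z0 R C) (w : Y) :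
    ContinuousOn (fun y => inv f y w) (ball z0 R) := by
  refine (LipschitzOnWith.of_dist_le' (K := 9 * C * ‖w‖) fun y hy y' hy' => ?_).continuousOn
  rw [mem_ball, dist_eq_norm] at hy hy'
  rw [dist_eq_norm, dist_eq_norm]
  exact (hN.inv_lip hy' hy w).trans_eq (by ring)

lemma Near.continuousOn_proj (hN : Near f z0 R C) (w : Y) (z : X) {T : Set X} (hT : T ⊆ ball z0 R) :
    ContinuousOn (proj f w z) T :=
  (dNorm z).continuous.comp_continuousOn ((hN.continuousOn_inv w).mono hT)

omit [CompleteSpace X] in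
lemma closedBall_room {z : X} {ρ : ℝ} (h : ‖z - z0‖ + ρ < R) : closedBall z ρ ⊆ ball z0 R :=
  fun y hy => by
    rw [mem_closedBall, dist_eq_norm] at hy
    rw [mem_ball, dist_eq_norm]
    linarith [norm_sub_le_norm_sub_add_norm_sub y z z0]

variable {e : ℕ → X} (he : Summable fun i => ‖e i‖)
include he

lemma Near.norm_Sh_room (hN : Near f z0 R C) {z : X} {d : ℝ}
    (hz : ‖z - z0‖ + |d| * Average.rad e < R) (c : ℕ → ℝ) :
    ‖z + Average.Sh (Average.step d e) c - z0‖ < R := by
  have h1 : ‖Average.Sh (Average.step d e) c‖ ≤ |d| * Average.rad e :=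
    (Average.norm_Sh_le (Average.summable_step he d) c).trans (Average.rad_step_le he d)
  have h2 := norm_add_le (z - z0) (Average.Sh (Average.step d e) c)
  rw [show z - z0 + Average.Sh (Average.step d e) c = z + Average.Sh (Average.step d e) c - z0 by
    abel] at h2
  linarith [hN.pos]

/-- `Fb` is Lipschitz on a smaller ball. -/
lemma Near.Fb_lip (hN : Near f z0 R C) {d : ℝ} (hd : d ≠ 0) (b : ℕ) (w : Y) {z z' : X}
    (hz : ‖z - z0‖ + |d| * Average.rad e < R) (hz' : ‖z' - z0‖ + |d| * Average.rad e < R) :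
    |Fb f e d b w z' - Fb f e d b w z| ≤
      2 / (|d| * (1 / 2 : ℝ) ^ b) * (12 * C * ‖w‖) * ‖z' - z‖ := by
  have hC := hN.nonneg
  have hr := mul_nonneg (abs_nonneg d) (Average.rad_nonneg e)
  have hzR : ‖z - z0‖ < R := by linarith
  have hzR' : ‖z' - z0‖ < R := by linarith
  have h1 : ContinuousOn (proj f w z') (closedBall z' (|d| * Average.rad e)) :=
    hN.continuousOn_proj w z' (closedBall_room hz')
  have e1 : Average.dAv e d b (proj f w z') z' =
      Average.dAv e d b (fun y => proj f w z' (y + (z' - z))) z := by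
    conv_lhs => rw [show z' = z + (z' - z) by abel]
    simp only [Average.dAv]
    congr 1
    rw [← Average.WAv_shift, show z + (z' - z) = z' by abel]
  have hsh : ContinuousOn (fun y => proj f w z' (y + (z' - z)))
      (closedBall z (|d| * Average.rad e)) :=
    h1.comp (continuous_add_const _).continuousOn fun y hy => by
      rw [mem_closedBall, dist_eq_norm] at hy ⊢
      rwa [show y + (z' - z) - z' = y - z by abel]
  rw [Fb, Fb, e1, ← Average.dAv_sub he hsh (hN.continuousOn_proj w z (closedBall_room hz)),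
    ← Real.norm_eq_abs]
  refine (Average.norm_dAv_le he (M := 12 * C * ‖w‖ * ‖z' - z‖) (by positivity) fun y hy => ?_).trans_eq
    (by ring)
  have hyR : ‖y - z0‖ < R := by simpa [dist_eq_norm] using closedBall_room hz hy
  have hyR' : ‖y + (z' - z) - z0‖ < R := by
    have h : y + (z' - z) ∈ closedBall z' (|d| * Average.rad e) := by
      rw [mem_closedBall, dist_eq_norm] at hy ⊢
      rwa [show y + (z' - z) - z' = y - z by abel]
    simpa [dist_eq_norm] using closedBall_room hz' h
  have h2 := hN.proj_lip hzR hyR hyR' w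
  have h3 := hN.proj_lip₂ hzR hzR' hyR' w
  rw [show y + (z' - z) - y = z' - z by abel] at h2
  rw [Real.norm_eq_abs]
  linarith [abs_sub_le (proj f w z' (y + (z' - z))) (proj f w z (y + (z' - z))) (proj f w z y)]

omit he in
/-- At a point with a symmetric Gateaux form the quotient of `proj` is small near `z`. -/
lemma Near.quotient_small (hN : Near f z0 R C) {z y : X} (hz : ‖z - z0‖ < R) (hy : ‖y - z0‖ < R)
    {Q : X →L[ℝ] X →L[ℝ] ℝ} (hQ : GatDiff y Q) (hQs : ∀ a b, Q a b = Q b a) (w : Y) (a : X)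
    {ε : ℝ} (hε : 0 < ε) : ∀ᶠ t in 𝓝[≠] (0 : ℝ),
      |t⁻¹ • (proj f w z (y + t • a) - proj f w z y)| ≤
        9 * C ^ 2 * ‖y - z‖ * ‖a‖ * ‖w‖ + ε := by
  set c := inv f y w
  have hl : Tendsto (fun t : ℝ => y + t • a) (𝓝 0) (𝓝 y) := by
    have : Continuous fun t : ℝ => y + t • a := by fun_prop
    simpa using this.tendsto 0
  have hin : ∀ᶠ t in 𝓝[≠] (0 : ℝ), ‖y + t • a - z0‖ < R := nhdsWithin_le_nhds
    ((((show Continuous fun u : X => ‖u - z0‖ by fun_prop).tendsto y).comp hl).eventually
      (eventually_lt_nhds hy))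
  have hκ : ∀ᶠ t in 𝓝[≠] (0 : ℝ),
      |t⁻¹ * (dNorm (f.G y) (dG f (y + t • a) c) - dNorm (f.G y) (dG f y c))| ≤ ε / 2 := by
    have h1 := (hasDerivAt_iff_tendsto_slope.1 (t3_smooth f (hN.smooth y hy) hQ hQs a c)).abs
    rw [abs_zero] at h1
    filter_upwards [h1.eventually (eventually_le_nhds (by linarith : (0:ℝ) < ε / 2))] with t ht
    rw [slope_def_field, sub_zero, zero_smul, add_zero] at ht
    rwa [inv_mul_eq_div]
  have hsm : ∀ᶠ t in 𝓝[≠] (0 : ℝ), 9 * C ^ 2 * ‖a‖ ^ 2 * ‖w‖ * |t| * 3 ≤ ε / 2 :=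
    nhdsWithin_le_nhds ((Continuous.tendsto' (by fun_prop) 0 0 (by simp)).eventually
      (eventually_le_nhds (by linarith)))
  filter_upwards [hin, hκ, hsm, self_mem_nhdsWithin] with t htR htκ hts (ht0 : t ≠ 0)
  set y' := y + t • a
  set Δ := inv f y' w - inv f y w
  have hΔn : ‖Δ‖ ≤ 9 * C * (|t| * ‖a‖) * ‖w‖ := by
    have := hN.inv_lip hy htR w
    rwa [add_sub_cancel_left, norm_smul, Real.norm_eq_abs] at this
  set v := dG f y' c - dG f y c
  have hv : ‖v‖ ≤ C * (|t| * ‖a‖) * (3 * ‖w‖) := by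
    have h1 := (dG f y' - dG f y).le_opNorm c
    rw [sub_apply] at h1
    refine h1.trans (mul_le_mul ?_ (norm_dG_symm_le f (hN.smooth y hy) w) (norm_nonneg _)
      (mul_nonneg hN.nonneg (by positivity)))
    have := hN.lipG y y' hy htR
    rwa [add_sub_cancel_left, norm_smul, Real.norm_eq_abs] at this
  have e1 : Δ = -inv f y v - (inv f y' v - inv f y v) := by
    rw [show Δ = -inv f y' v from hN.inv_sub hy htR w]
    abel
  have e2 : |dNorm y Δ| ≤ |dNorm (f.G y) v| + 9 * C * (|t| * ‖a‖) * (C * (|t| * ‖a‖) * (3 * ‖w‖)) := by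
    rw [e1, map_sub, map_neg, hN.dNorm_inv hy]
    refine (abs_sub _ _).trans ?_
    rw [abs_neg]
    refine add_le_add le_rfl ((hN.abs_dNorm_le hy _).trans ((hN.inv_lip hy htR v).trans ?_))
    rw [add_sub_cancel_left, norm_smul, Real.norm_eq_abs]
    exact mul_le_mul_of_nonneg_left hv (by have := hN.nonneg; positivity)
  have e3 : |dNorm z Δ - dNorm y Δ| ≤ C * ‖y - z‖ * (9 * C * (|t| * ‖a‖) * ‖w‖) := by
    have h1 := (dNorm y - dNorm z).le_opNorm Δ
    rw [sub_apply, Real.norm_eq_abs, abs_sub_comm] at h1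
    exact h1.trans (mul_le_mul (hN.lipN z y hz hy) hΔn (norm_nonneg _)
      (mul_nonneg hN.nonneg (norm_nonneg _)))
  rw [smul_eq_mul, abs_mul, abs_inv, proj, proj, ← map_sub]
  have htp : 0 < |t| := abs_pos.2 ht0
  rw [abs_mul, abs_inv, ← map_sub, inv_mul_le_iff₀ htp] at htκ
  rw [inv_mul_le_iff₀ htp]
  have hts' := mul_le_mul_of_nonneg_left hts htp.le
  linarith [abs_sub_abs_le_abs_sub (dNorm z Δ) (dNorm y Δ)]

/-- `Fb` is small: at most a multiple of the scale. -/
lemma Near.Fb_small (hN : Near f z0 R C) {d : ℝ} (hd : d ≠ 0) (b : ℕ) (w : Y) {z : X}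
    (hz : ‖z - z0‖ + |d| * Average.rad e < R)
    (hgat : ∀ᵐ c ∂Average.P, ∃ Q, GatDiff (z + Average.Sh (Average.step d e) c) Q ∧
      ∀ a b, Q a b = Q b a) :
    |Fb f e d b w z| ≤ 9 * C ^ 2 * (|d| * Average.rad e) * ‖e b‖ * ‖w‖ := by
  have hC := hN.nonneg
  have hr := mul_nonneg (abs_nonneg d) (Average.rad_nonneg e)
  have hzR : ‖z - z0‖ < R := by linarith
  obtain ⟨ρ, hρ, hρR⟩ : ∃ ρ, |d| * Average.rad e < ρ ∧ ‖z - z0‖ + ρ < R :=
    ⟨(|d| * Average.rad e + (R - ‖z - z0‖)) / 2, by linarith, by linarith⟩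
  have hh := hN.continuousOn_proj w z (closedBall_room hρR)
  have hst := Average.summable_step he d
  have hShc := Average.continuous_Sh hst
  set B := 9 * C ^ 2 * (|d| * Average.rad e) * ‖e b‖ * ‖w‖
  set q : ℝ → (ℕ → ℝ) → ℝ := fun t c => t⁻¹ • (proj f w z (z + Average.Sh (Average.step d e) c + t • e b)
    - proj f w z (z + Average.Sh (Average.step d e) c))
  set G : ℝ → (ℕ → ℝ) → ℝ := fun t c => max (|q t c| - B) 0
  set K := 9 * C * ‖e b‖ * ‖w‖
  have hroom := Average.eventually_shift_room (e := e) (d := d) b hρ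
  have hmem : ∀ t : ℝ, |d| * Average.rad e + ‖t • e b‖ ≤ ρ → ∀ c,
      z + Average.Sh (Average.step d e) c + t • e b ∈ closedBall z ρ := fun t ht c => by
    rw [mem_closedBall, dist_eq_norm,
      show z + Average.Sh (Average.step d e) c + t • e b - z =
        Average.Sh (Average.step d e) c + t • e b by abel]
    refine (norm_add_le _ _).trans ?_
    linarith [(Average.norm_Sh_le hst c).trans (Average.rad_step_le he d)]
  have hmem0 : ∀ c, z + Average.Sh (Average.step d e) c ∈ closedBall z ρ := fun c => by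
    simpa using hmem 0 (by simpa using hρ.le) c
  have hqK : ∀ t : ℝ, |d| * Average.rad e + ‖t • e b‖ ≤ ρ → ∀ c, |q t c| ≤ K := fun t ht c => by
    have h1 := hN.proj_lip hzR (by simpa [dist_eq_norm] using closedBall_room hρR (hmem0 c))
      (by simpa [dist_eq_norm] using closedBall_room hρR (hmem t ht c)) w
    rw [add_sub_cancel_left, norm_smul, Real.norm_eq_abs] at h1
    simp only [q, smul_eq_mul, abs_mul, abs_inv]
    rcases eq_or_ne t 0 with rfl | ht0
    · simp only [abs_zero, inv_zero, zero_mul]; positivity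
    · rw [inv_mul_le_iff₀ (abs_pos.2 ht0)]
      exact h1.trans_eq (by simp only [K]; ring)
  have hqc : ∀ t : ℝ, |d| * Average.rad e + ‖t • e b‖ ≤ ρ → Continuous (q t) := fun t ht => by
    exact ((hh.comp_continuous (f := fun c => z + Average.Sh (Average.step d e) c + t • e b)
      (by fun_prop) (hmem t ht)).sub (hh.comp_continuous
      (f := fun c => z + Average.Sh (Average.step d e) c) (by fun_prop) hmem0)).const_smul t⁻¹
  have hG : Tendsto (fun t => ∫ c, G t c ∂Average.P) (𝓝[≠] 0) (𝓝 0) := by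
    suffices h : Tendsto (fun t => ∫ c, G t c ∂Average.P) (𝓝[≠] 0)
        (𝓝 (∫ c, (fun _ => (0 : ℝ)) c ∂Average.P)) by simpa using h
    refine tendsto_integral_filter_of_dominated_convergence (fun _ => K + |B|) ?_ ?_
      (integrable_const _) ?_
    · filter_upwards [hroom] with t ht
      have := hqc t ht
      exact (by fun_prop : Continuous (G t)).aestronglyMeasurable
    · filter_upwards [hroom] with t ht
      refine ae_of_all _ fun c => ?_
      rw [Real.norm_eq_abs, abs_of_nonneg (le_max_right _ _)]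
      exact max_le (by linarith [hqK t ht c, neg_abs_le B]) (by
        linarith [abs_nonneg B, (abs_nonneg _).trans (hqK t ht c)])
    · filter_upwards [hgat] with c hc
      obtain ⟨Q, hQ, hQs⟩ := hc
      refine Metric.tendsto_nhds.2 fun ε hε => ?_
      have hy := hN.norm_Sh_room he hz c
      filter_upwards [hN.quotient_small hzR hy hQ hQs w (e b) (half_pos hε)] with t ht
      rw [Real.dist_eq, sub_zero, abs_of_nonneg (le_max_right _ _)]
      refine max_lt ?_ hε
      have h1 : ‖z + Average.Sh (Average.step d e) c - z‖ ≤ |d| * Average.rad e := by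
        rw [add_sub_cancel_left]
        exact (Average.norm_Sh_le hst c).trans (Average.rad_step_le he d)
      have h2 : 9 * C ^ 2 * ‖z + Average.Sh (Average.step d e) c - z‖ * ‖e b‖ * ‖w‖ ≤ B := by
        simp only [B]; gcongr
      linarith
  have hl := (Average.tendsto_dAv he hd b hρ hh).abs
  rw [← add_zero B]
  refine le_of_tendsto_of_tendsto hl (hG.const_add B) ?_
  filter_upwards [hroom] with t ht
  have hqi : Integrable (q t) Average.P :=
    Integrable.of_bound (hqc t ht).aestronglyMeasurable K (ae_of_all _ fun c => by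
      rw [Real.norm_eq_abs]; exact hqK t ht c)
  have hGi : Integrable (G t) Average.P := (hqi.abs.sub (integrable_const B)).pos_part
  show |∫ c, q t c ∂Average.P| ≤ _
  refine (abs_integral_le_integral_abs).trans ?_
  have : ∫ c, |q t c| ∂Average.P ≤ ∫ c, (B + G t c) ∂Average.P :=
    integral_mono hqi.abs ((integrable_const B).add hGi) fun c => by
      show |q t c| ≤ B + max (|q t c| - B) 0
      linarith [le_max_left (|q t c| - B) 0]
  rwa [integral_add (integrable_const B) hGi, integral_const, probReal_univ, one_smul] at this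

/-- The line derivative of `Fb` at a point with a Gateaux form. -/
lemma Near.hasLineDerivAt_Fb (hN : Near f z0 R C) {d : ℝ} (hd : d ≠ 0) {i b : ℕ} (hib : i ≠ b)
    (w : Y) {z : X} (hz : ‖z - z0‖ + |d| * Average.rad e < R) {Q : X →L[ℝ] X →L[ℝ] ℝ}
    (hQ : GatDiff z Q) :
    HasLineDerivAt ℝ (Fb f e d b w)
      (Average.dAv e d b (fun y => Q (e i) (inv f y w)) z +
        Average.ddAv e d i b (proj f w z) z) z (e i) := by
  have hC := hN.nonneg
  have hr := mul_nonneg (abs_nonneg d) (Average.rad_nonneg e)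
  have hzR : ‖z - z0‖ < R := by linarith
  obtain ⟨ρ, hρ, hρR⟩ : ∃ ρ, |d| * Average.rad e < ρ ∧ ‖z - z0‖ + ρ < R :=
    ⟨(|d| * Average.rad e + (R - ‖z - z0‖)) / 2, by linarith, by linarith⟩
  have hball := closedBall_room hρR
  have hh := hN.continuousOn_proj w z hball
  have h2 := (Average.hasDerivAt_dAv he hd hib hρ hh).tendsto_slope_zero
  have hst := Average.summable_step he d
  have hShc := Average.continuous_Sh hst
  set a := e i
  have hroom := Average.eventually_shift_room (e := e) (d := d) i hρ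
  set g : ℝ → X → ℝ := fun t y =>
    t⁻¹ • (proj f w (z + t • a) (y + t • a) - proj f w z (y + t • a))
  have hmem : ∀ t : ℝ, |d| * Average.rad e + ‖t • a‖ ≤ ρ → ∀ y ∈ closedBall z (|d| * Average.rad e),
      y + t • a ∈ closedBall z ρ := fun t ht y hy => by
    rw [mem_closedBall, dist_eq_norm] at hy ⊢
    rw [show y + t • a - z = y - z + t • a by abel]
    exact (norm_add_le _ _).trans (by linarith)
  have hgc : ∀ t : ℝ, |d| * Average.rad e + ‖t • a‖ ≤ ρ →
      ContinuousOn (g t) (closedBall z (|d| * Average.rad e)) := fun t ht => by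
    exact (((hN.continuousOn_proj w (z + t • a) hball).comp (continuous_add_const _).continuousOn
      (hmem t ht)).sub (hh.comp (continuous_add_const _).continuousOn (hmem t ht))).const_smul t⁻¹
  have hA : Tendsto (fun t => Average.dAv e d b (g t) z) (𝓝[≠] 0)
      (𝓝 (Average.dAv e d b (fun y => Q a (inv f y w)) z)) := by
    simp only [Average.dAv]
    refine Tendsto.const_smul ?_ _
    refine tendsto_integral_filter_of_dominated_convergence
      (fun c => |Average.wt (c b)| * (C * ‖a‖ * (3 * ‖w‖))) ?_ ?_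
      ((Average.integrable_wt_apply b).abs.mul_const _) ?_
    · filter_upwards [hroom] with t ht
      refine ((Average.measurable_wt.comp (measurable_pi_apply b)).aestronglyMeasurable).smul ?_
      exact ((hgc t ht).comp_continuous (by fun_prop) fun c =>
        closedBall_subset_closedBall (Average.rad_step_le he d)
          (Average.mem_closedBall_Sh hst z c)).aestronglyMeasurable
    · filter_upwards [hroom] with t ht
      refine ae_of_all _ fun c => ?_
      rw [norm_smul, Real.norm_eq_abs]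
      refine mul_le_mul_of_nonneg_left ?_ (abs_nonneg _)
      have hy := hball (hmem t ht _ (closedBall_subset_closedBall (Average.rad_step_le he d)
        (Average.mem_closedBall_Sh hst z c)))
      have hz' : ‖z + t • a - z0‖ < R := by
        simpa [dist_eq_norm] using hball (hmem t ht z (mem_closedBall_self hr))
      rw [mem_ball, dist_eq_norm] at hy
      simp only [g, smul_eq_mul, Real.norm_eq_abs, abs_mul, abs_inv]
      rcases eq_or_ne t 0 with rfl | ht0
      · simp only [abs_zero, inv_zero, zero_mul]; positivity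
      · rw [inv_mul_le_iff₀ (abs_pos.2 ht0)]
        refine (hN.proj_lip₂ hzR hz' hy w).trans_eq ?_
        rw [add_sub_cancel_left, norm_smul, Real.norm_eq_abs]; ring
    · refine ae_of_all _ fun c => Tendsto.const_smul ?_ _
      set y := z + Average.Sh (Average.step d e) c
      have hy := hN.norm_Sh_room he hz c
      have h1 : Tendsto (fun t : ℝ => t⁻¹ • (dNorm (z + t • a) (inv f y w) - dNorm z (inv f y w)))
          (𝓝[≠] 0) (𝓝 (Q a (inv f y w))) := by
        have := (show HasDerivAt (fun t : ℝ => dNorm (z + t • a) (inv f y w)) (Q a (inv f y w)) 0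
          from hQ a (inv f y w)).tendsto_slope_zero
        simpa using this
      have h2 : Tendsto (fun t : ℝ =>
          g t y - t⁻¹ • (dNorm (z + t • a) (inv f y w) - dNorm z (inv f y w))) (𝓝[≠] 0) (𝓝 0) := by
        refine squeeze_zero_norm' (a := fun t => C * ‖a‖ * (9 * C * (|t| * ‖a‖) * ‖w‖)) ?_
          (tendsto_nhdsWithin_of_tendsto_nhds (Continuous.tendsto' (by fun_prop) 0 0 (by simp)))
        filter_upwards [hroom, self_mem_nhdsWithin] with t ht (ht0 : t ≠ 0)
        have hy' : ‖y + t • a - z0‖ < R := by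
          simpa [dist_eq_norm] using hball (hmem t ht _ (closedBall_subset_closedBall
            (Average.rad_step_le he d) (Average.mem_closedBall_Sh hst z c)))
        have hz' : ‖z + t • a - z0‖ < R := by
          simpa [dist_eq_norm] using hball (hmem t ht z (mem_closedBall_self hr))
        have e1 : g t y - t⁻¹ • (dNorm (z + t • a) (inv f y w) - dNorm z (inv f y w)) =
            t⁻¹ * (dNorm (z + t • a) - dNorm z) (inv f (y + t • a) w - inv f y w) := by
          simp only [g, proj, smul_eq_mul, sub_apply, map_sub]; ring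
        rw [e1, Real.norm_eq_abs, abs_mul, abs_inv, inv_mul_le_iff₀ (abs_pos.2 ht0)]
        have h3 := (dNorm (z + t • a) - dNorm z).le_opNorm (inv f (y + t • a) w - inv f y w)
        rw [Real.norm_eq_abs] at h3
        refine h3.trans ((mul_le_mul (hN.lipN z _ hzR hz') (hN.inv_lip hy hy' w) (norm_nonneg _)
          (mul_nonneg hC (norm_nonneg _))).trans_eq ?_)
        rw [add_sub_cancel_left, add_sub_cancel_left, norm_smul, Real.norm_eq_abs]; ring
      simpa using h2.add h1
  refine hasDerivAt_iff_tendsto_slope_zero.2 ((hA.add h2).congr' ?_)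
  filter_upwards [hroom] with t ht
  have hz'c : ContinuousOn (fun y => proj f w (z + t • a) (y + t • a))
      (closedBall z (|d| * Average.rad e)) :=
    (hN.continuousOn_proj w _ hball).comp (continuous_add_const _).continuousOn (hmem t ht)
  have hzc : ContinuousOn (fun y => proj f w z (y + t • a)) (closedBall z (|d| * Average.rad e)) :=
    hh.comp (continuous_add_const _).continuousOn (hmem t ht)
  simp only [g]
  rw [Average.dAv_smul, Average.dAv_sub he hz'c hzc]
  simp only [zero_add, zero_smul, add_zero, Fb]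
  simp only [Average.dAv, Average.WAv_shift, smul_eq_mul]
  ring

/-- The averaged form paired with the inverse derivative is bounded. -/
lemma Near.abs_dAv_form_le (hN : Near f z0 R C) {d : ℝ} (hd : d ≠ 0) (b : ℕ) (w : Y) {z : X}
    (hz : ‖z - z0‖ + |d| * Average.rad e < R) {Q : X →L[ℝ] X →L[ℝ] ℝ} (hQ : GatDiff z Q) (a : X) :
    |Average.dAv e d b (fun y => Q a (inv f y w)) z| ≤
      18 * C ^ 2 * (2 : ℝ) ^ b * Average.rad e * ‖a‖ * ‖w‖ := by
  have hC := hN.nonneg
  have hr := mul_nonneg (abs_nonneg d) (Average.rad_nonneg e)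
  have hzR : ‖z - z0‖ < R := by linarith
  obtain ⟨ρ, hρ, hρR⟩ : ∃ ρ, |d| * Average.rad e < ρ ∧ ‖z - z0‖ + ρ < R :=
    ⟨(|d| * Average.rad e + (R - ‖z - z0‖)) / 2, by linarith, by linarith⟩
  have hQa : ∀ v, |Q a v| ≤ C * ‖a‖ * ‖v‖ := fun v =>
    hQ.abs_le (r := R - ‖z - z0‖) (by linarith) (fun u hu => hN.lipN z u hzR
      (by linarith [norm_sub_le_norm_sub_add_norm_sub u z z0])) a v
  have hc : ContinuousOn (fun y => Q a (inv f y w)) (closedBall z (|d| * Average.rad e)) :=
    (Q a).continuous.comp_continuousOn ((hN.continuousOn_inv w).mono (closedBall_room hz))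
  have h0 : Average.dAv e d b (fun _ => Q a (inv f z w)) z = 0 := by
    rw [Average.dAv_affine he hd b hρ (Q a (inv f z w)) 0 (by simp)]
    simp
  rw [← sub_zero (Average.dAv e d b _ z), ← h0,
    ← Average.dAv_sub he hc continuousOn_const, ← Real.norm_eq_abs]
  refine (Average.norm_dAv_le he (M := C * ‖a‖ * (9 * C * (|d| * Average.rad e) * ‖w‖))
    (by positivity) fun y hy => ?_).trans_eq ?_
  · rw [Real.norm_eq_abs, ← map_sub]
    refine (hQa _).trans (mul_le_mul_of_nonneg_left ?_ (by positivity))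
    have hy' : ‖y - z0‖ < R := by simpa [dist_eq_norm] using closedBall_room hz hy
    rw [mem_closedBall, dist_eq_norm] at hy
    exact (hN.inv_lip hzR hy' w).trans (by gcongr)
  · have : |d| ≠ 0 := abs_ne_zero.2 hd
    rw [div_pow, one_pow]
    field_simp
    ring

/-- Replacing the moving inverse by the frozen one costs a multiple of the scale. -/
lemma Near.abs_dAv_form_add_le (hN : Near f z0 R C) {d : ℝ} (hd : d ≠ 0) (b : ℕ) (w : Y) {z : X}
    (hz : ‖z - z0‖ + |d| * Average.rad e < R) {Q : X →L[ℝ] X →L[ℝ] ℝ} (hQ : GatDiff z Q) (a : X) :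
    |Average.dAv e d b (fun y => formFun f z Q a (dG f y (inv f z w))) z +
      Average.dAv e d b (fun y => Q a (inv f y w)) z| ≤
      54 * C ^ 3 * (2 : ℝ) ^ b * Average.rad e ^ 2 * ‖a‖ * ‖w‖ * |d| := by
  have hC := hN.nonneg
  have hr := mul_nonneg (abs_nonneg d) (Average.rad_nonneg e)
  have hzR : ‖z - z0‖ < R := by linarith
  obtain ⟨ρ, hρ, hρR⟩ : ∃ ρ, |d| * Average.rad e < ρ ∧ ‖z - z0‖ + ρ < R :=
    ⟨(|d| * Average.rad e + (R - ‖z - z0‖)) / 2, by linarith, by linarith⟩
  set c := inv f z w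
  have hQa : ∀ v, |Q a v| ≤ C * ‖a‖ * ‖v‖ := fun v =>
    hQ.abs_le (r := R - ‖z - z0‖) (by linarith) (fun u hu => hN.lipN z u hzR
      (by linarith [norm_sub_le_norm_sub_add_norm_sub u z z0])) a v
  have hform : ∀ v : Y, formFun f z Q a v = Q a (inv f z v) := fun v => rfl
  have hcG : ContinuousOn (fun y => dG f y c) (ball z0 R) := by
    refine (LipschitzOnWith.of_dist_le' (K := C * ‖c‖) fun y hy y' hy' => ?_).continuousOn
    rw [mem_ball, dist_eq_norm] at hy hy'
    rw [dist_eq_norm, dist_eq_norm]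
    have h1 := (dG f y - dG f y').le_opNorm c
    rw [sub_apply] at h1
    exact h1.trans ((mul_le_mul_of_nonneg_right (hN.lipG y' y hy' hy) (norm_nonneg _)).trans_eq
      (by ring))
  have hc1 : ContinuousOn (fun y => formFun f z Q a (dG f y c)) (closedBall z (|d| * Average.rad e)) :=
    (formFun f z Q a).continuous.comp_continuousOn (hcG.mono (closedBall_room hz))
  have hc2 : ContinuousOn (fun y => Q a (inv f y w)) (closedBall z (|d| * Average.rad e)) :=
    (Q a).continuous.comp_continuousOn ((hN.continuousOn_inv w).mono (closedBall_room hz))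
  set k := formFun f z Q a w + Q a (inv f z w)
  have h0 : Average.dAv e d b (fun _ => k) z = 0 := by
    rw [Average.dAv_affine he hd b hρ k 0 (by simp)]
    simp
  have hc12 : ContinuousOn (fun y => formFun f z Q a (dG f y c) + Q a (inv f y w))
      (closedBall z (|d| * Average.rad e)) := hc1.add hc2
  rw [← Average.dAv_add he hc1 hc2, ← sub_zero (Average.dAv e d b _ z), ← h0,
    ← Average.dAv_sub he hc12 continuousOn_const, ← Real.norm_eq_abs]
  refine (Average.norm_dAv_le he
    (M := C * ‖a‖ * (9 * C * (|d| * Average.rad e) * (C * (|d| * Average.rad e) * (3 * ‖w‖))))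
    (by positivity) fun y hy => ?_).trans_eq ?_
  · have hy' : ‖y - z0‖ < R := by simpa [dist_eq_norm] using closedBall_room hz hy
    rw [mem_closedBall, dist_eq_norm] at hy
    set v := dG f y c - dG f z c
    have hv : ‖v‖ ≤ C * (|d| * Average.rad e) * (3 * ‖w‖) := by
      have h1 := (dG f y - dG f z).le_opNorm c
      rw [sub_apply] at h1
      refine h1.trans (mul_le_mul ((hN.lipG z y hzR hy').trans (by gcongr))
        (norm_dG_symm_le f (hN.smooth z hzR) w) (norm_nonneg _) (by positivity))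
    have hw : dG f z c = w := (dG_symm f (hN.smooth z hzR)).2 w
    have e1 : formFun f z Q a (dG f y c) + Q a (inv f y w) - k =
        -Q a (inv f y v - inv f z v) := by
      have e2 : inv f y w - inv f z w = -inv f y v := hN.inv_sub hzR hy' w
      have e3 : dG f y c = v + w := by simp only [v, hw]; abel
      simp only [k, hform, e3, map_add, map_sub]
      have := congrArg (Q a) e2
      rw [map_sub, map_neg] at this
      linarith
    rw [Real.norm_eq_abs, e1, abs_neg]
    refine (hQa _).trans (mul_le_mul_of_nonneg_left ((hN.inv_lip hzR hy' v).trans ?_) (by positivity))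
    gcongr
  · have : |d| ≠ 0 := abs_ne_zero.2 hd
    rw [div_pow, one_pow]
    field_simp
    ring

end Vale.Agent.P084.Full.Total
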